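-- KEEP
import Claimed.Agent.R255.Ent.Basic

/-!
# Row 255 (BR paper), Sec. 11 (packet repayment), file 1: the finite probability kit      (architect helper128)

PAPER-FREE.  Stated on `R255/Base/Law.lean` + `R255/Ent/Basic.lean` (every statement of `Ent/Basic` may be quoted, also the sorried ones).
All entropies are in NATURAL units.  "a.e." = on the points with `P.p ω ≠ 0`.

* `rep_entC_le_ev_log`   list bound with a variable list size : `H(X|Y) ≤ E log c`
* `rep_logsum`           conditional log-sum inequality (BR (2.4), used fibrewise)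
* `rep_two P F`          the TWO-COPY law on `Ω × Ω` : second copy resampled from `P( · | F)`.  One definition serves for
                         (i) the two copies of L11.2, (ii) the resampled rectangle `U` of L11.3, (iii) the faithful aperture `G` of Sec. 11.6.
* `rep_unif P C`         adjoin an atom, uniform on the finite candidate set `C ω` (BR (11.candidate-law), `ϱ^P` of L11.3)
* `rep_resample_list`    `H(M|Y) + H(T|M) ≤ E log c` : the list bound for the resampled label without constructing it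
RULE: provers edit only bodies; statements are frozen (ask helper128).
-/

set_option autoImplicit false

namespace Claimed.Agent.R255

open scoped BigOperators
open Classical
open FLaw

variable {Ω : Type} [Fintype Ω] {α β γ δ τ : Type}

/-! ## A. list bounds and log-sum -/

/-- entropy only depends on the partition (everywhere form; used to permute tuples) -/
theorem rep_ent_perm (P : FLaw Ω) (X : Ω → α) (Y : Ω → β)
    (h : ∀ ω ω', X ω = X ω' ↔ Y ω = Y ω') : P.ent X = P.ent Y :=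
  ent_congr_ker P X Y (fun ω ω' _ _ => h ω ω')

/-- list bound with variable list size -/
theorem rep_entC_le_ev_log (P : FLaw Ω) (X : Ω → α) (Y : Ω → β) (c : Ω → ℝ)
    (h : ∀ ω₀, P.p ω₀ ≠ 0 → ∃ S : Finset α, (S.card : ℝ) ≤ c ω₀ ∧
      ∀ ω, P.p ω ≠ 0 → Y ω = Y ω₀ → X ω ∈ S) :
    P.entC X Y ≤ P.ev (fun ω => Real.log (c ω)) := by
  rw [ent_entC_eq_avg]
  refine ent_ev_mono P fun ω₀ hω₀ => ?_
  obtain ⟨S, hS, hmem⟩ := h ω₀ hω₀
  have hpos := ent_fib_pos P Y hω₀
  have h1 : (P.cfib Y ω₀).ent X ≤ Real.log S.card := by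
    refine ent_le_log_card _ X S fun ω hω => ?_
    have h2 : Y ω = Y ω₀ ∧ P.p ω ≠ 0 := (ent_cnd_supp P _ hpos).1 hω
    exact hmem ω h2.2 h2.1
  refine h1.trans (Real.log_le_log ?_ hS)
  have : 0 < S.card := Finset.card_pos.2 ⟨X ω₀, hmem ω₀ hω₀ rfl⟩
  exact_mod_cast this

/-- the log-sum inequality on one cell -/
theorem rep_logsum_cell (P : FLaw Ω) (X : Ω → α) (Y : Ω → β) (a A : Ω → ℝ)
    (ha : ∀ ω, P.p ω ≠ 0 → 0 < a ω)
    (hfun : ∀ ω ω', P.p ω ≠ 0 → P.p ω' ≠ 0 → X ω = X ω' → Y ω = Y ω' → a ω = a ω')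
    (hsum : ∀ ω₀, P.p ω₀ ≠ 0 → ∀ S : Finset Ω, (∀ ω ∈ S, P.p ω ≠ 0 ∧ Y ω = Y ω₀) →
      (∀ ω ∈ S, ∀ ω' ∈ S, X ω = X ω' → ω = ω') → ∑ ω ∈ S, a ω ≤ A ω₀) (ω₀ : Ω) (hω₀ : P.p ω₀ ≠ 0) :
    (P.cfib Y ω₀).ent X + (P.cfib Y ω₀).ev (fun ω => Real.log (a ω)) ≤ Real.log (A ω₀) := by
  have hpos := ent_fib_pos P Y hω₀
  have hsupp : ∀ ω, (P.cfib Y ω₀).p ω ≠ 0 → P.p ω ≠ 0 ∧ Y ω = Y ω₀ := fun ω hω =>
    ((ent_cnd_supp P _ hpos).1 hω).symm
  have hA : 0 < A ω₀ := by
    have h1 := hsum ω₀ hω₀ {ω₀} (by simp [hω₀]) (by simp)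
    rw [Finset.sum_singleton] at h1
    exact (ha ω₀ hω₀).trans_le h1
  obtain ⟨ex, hex⟩ : ∃ ex : α → Prop, ∀ x, ex x ↔ ∃ ω, (P.p ω ≠ 0 ∧ Y ω = Y ω₀) ∧ X ω = x :=
    ⟨_, fun _ => Iff.rfl⟩
  have hsel : ∀ x, ∃ ω, ex x → (P.p ω ≠ 0 ∧ Y ω = Y ω₀) ∧ X ω = x := by
    intro x
    by_cases hx : ex x
    · obtain ⟨ω, hω⟩ := (hex x).1 hx
      exact ⟨ω, fun _ => hω⟩
    · exact ⟨ω₀, fun h => (hx h).elim⟩
  choose sel hsel using hsel
  have hq0 : ∀ x, 0 ≤ (if ex x then a (sel x) / A ω₀ else 0) := by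
    intro x
    by_cases hx : ex x
    · rw [if_pos hx]
      exact (div_pos (ha _ (hsel x hx).1.1) hA).le
    · rw [if_neg hx]
  have hq1 : ∀ S : Finset α, ∑ x ∈ S, (if ex x then a (sel x) / A ω₀ else 0) ≤ 1 := by
    intro S
    rw [← Finset.sum_filter, ← Finset.sum_div, div_le_one hA]
    have hinj : ∀ x ∈ S.filter ex, ∀ x' ∈ S.filter ex, sel x = sel x' → x = x' := by
      intro x hx x' hx' he
      rw [← (hsel x (Finset.mem_filter.1 hx).2).2, ← (hsel x' (Finset.mem_filter.1 hx').2).2, he]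
    rw [← Finset.sum_image (f := a) hinj]
    refine hsum ω₀ hω₀ _ ?_ ?_
    · intro ω hω
      obtain ⟨x, hx, rfl⟩ := Finset.mem_image.1 hω
      exact (hsel x (Finset.mem_filter.1 hx).2).1
    · intro ω hω ω' hω' he
      obtain ⟨x, hx, rfl⟩ := Finset.mem_image.1 hω
      obtain ⟨x', hx', rfl⟩ := Finset.mem_image.1 hω'
      rw [(hsel x (Finset.mem_filter.1 hx).2).2, (hsel x' (Finset.mem_filter.1 hx').2).2] at he
      rw [he]
  have hval : ∀ ω, (P.cfib Y ω₀).p ω ≠ 0 → (if ex (X ω) then a (sel (X ω)) / A ω₀ else 0) = a ω / A ω₀ := by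
    intro ω hω
    have h1 := hsupp ω hω
    have hx : ex (X ω) := (hex _).2 ⟨ω, h1, rfl⟩
    have h2 := hsel _ hx
    rw [if_pos hx, hfun _ ω h2.1.1 h1.1 h2.2 (h2.1.2.trans h1.2.symm)]
  have hg := ent_gibbs (P.cfib Y ω₀) X (fun x => if ex x then a (sel x) / A ω₀ else 0) hq0 hq1 (by
    intro ω hω
    rw [hval ω hω]
    exact div_pos (ha ω (hsupp ω hω).1) hA)
  have he : (P.cfib Y ω₀).ev (fun ω => - Real.log (if ex (X ω) then a (sel (X ω)) / A ω₀ else 0))
      = Real.log (A ω₀) - (P.cfib Y ω₀).ev (fun ω => Real.log (a ω)) := by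
    rw [← ent_ev_const (P.cfib Y ω₀) (Real.log (A ω₀)), ← ent_ev_sub]
    refine ent_ev_congr _ fun ω hω => ?_
    rw [hval ω hω, Real.log_div (ha ω (hsupp ω hω).1).ne' hA.ne']
    ring
  rw [he] at hg
  linarith

/-- conditional log-sum: `a` = positive weight of the value of `X` (given `Y`), `A` = any bound of the sum of the weights of the
distinct values of `X` over the cell of `Y` -/
theorem rep_logsum (P : FLaw Ω) (X : Ω → α) (Y : Ω → β) (a A : Ω → ℝ)
    (ha : ∀ ω, P.p ω ≠ 0 → 0 < a ω)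
    (hfun : ∀ ω ω', P.p ω ≠ 0 → P.p ω' ≠ 0 → X ω = X ω' → Y ω = Y ω' → a ω = a ω')
    (hsum : ∀ ω₀, P.p ω₀ ≠ 0 → ∀ S : Finset Ω, (∀ ω ∈ S, P.p ω ≠ 0 ∧ Y ω = Y ω₀) →
      (∀ ω ∈ S, ∀ ω' ∈ S, X ω = X ω' → ω = ω') → ∑ ω ∈ S, a ω ≤ A ω₀) :
    P.entC X Y + P.ev (fun ω => Real.log (a ω)) ≤ P.ev (fun ω => Real.log (A ω)) := by
  rw [ent_entC_eq_avg, ent_ev_tower P Y (fun ω => Real.log (a ω)), ← ent_ev_add]
  exact ent_ev_mono P fun ω₀ hω₀ => rep_logsum_cell P X Y a A ha hfun hsum ω₀ hω₀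

/-- `I(T;B|Z) ≤ I(T;A|Z) + H(B|A,Z)`   (BR (2.1), conditional form) -/
theorem rep_miC_determination (P : FLaw Ω) (T : Ω → τ) (A : Ω → α) (B : Ω → β) (Z : Ω → γ) :
    P.miC T B Z ≤ P.miC T A Z + P.entC B (pair A Z) := by
  unfold FLaw.miC FLaw.entC
  -- H(T,Z)+H(B,Z)-H(T,B,Z)-H(Z) ≤ H(T,Z)+H(A,Z)-H(T,A,Z)-H(Z) + H(B,A,Z) - H(A,Z)
  -- i.e. H(B,Z) + H(T,A,Z) ≤ H(T,B,Z) + H(B,A,Z):  submod X = T? : H(T,A,B,Z) + H(B,Z) ≤ H(T,B,Z) + H(A,B,Z)
  have sm := ent_submod P T A (pair B Z)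
  have m1 : P.ent (pair (pair T A) Z) ≤ P.ent (pair (pair T A) (pair B Z)) := by
    apply ent_mono_ker
    intro ω ω' _ _ h
    simp only [pair, Prod.mk.injEq] at h ⊢
    tauto
  have k1 : P.ent (pair T (pair B Z)) = P.ent (pair (pair T B) Z) :=
    rep_ent_perm P _ _ (by intro ω ω'; simp only [pair, Prod.mk.injEq]; tauto)
  have k2 : P.ent (pair A (pair B Z)) = P.ent (pair B (pair A Z)) :=
    rep_ent_perm P _ _ (by intro ω ω'; simp only [pair, Prod.mk.injEq]; tauto)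
  linarith

/-- the elementary information inequality of Sec. 11.6: `H(W|F) ≤ I(T;D|F) + H(W|D,F) + H(W|T,F)` -/
theorem rep_info_of_common (P : FLaw Ω) (W : Ω → α) (T : Ω → τ) (D : Ω → δ) (F : Ω → γ) :
    P.entC W F ≤ P.miC T D F + P.entC W (pair D F) + P.entC W (pair T F) := by
  unfold FLaw.miC FLaw.entC
  -- H(W,F) - H(F) ≤ H(T,F)+H(D,F)-H(T,D,F)-H(F) + H(W,D,F)-H(D,F) + H(W,T,F)-H(T,F)
  -- i.e. H(W,F) + H(T,D,F) ≤ H(W,D,F) + H(W,T,F):  submod over (W,F): H(T,D,W,F)+H(W,F) ≤ H(T,W,F)+H(D,W,F)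
  have sm := ent_submod P T D (pair W F)
  have m1 : P.ent (pair (pair T D) F) ≤ P.ent (pair (pair T D) (pair W F)) := by
    apply ent_mono_ker
    intro ω ω' _ _ h
    simp only [pair, Prod.mk.injEq] at h ⊢
    tauto
  have k1 : P.ent (pair T (pair W F)) = P.ent (pair W (pair T F)) :=
    rep_ent_perm P _ _ (by intro ω ω'; simp only [pair, Prod.mk.injEq]; tauto)
  have k2 : P.ent (pair D (pair W F)) = P.ent (pair W (pair D F)) :=
    rep_ent_perm P _ _ (by intro ω ω'; simp only [pair, Prod.mk.injEq]; tauto)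
  linarith

/-- `H(W|F) ≥ H(W|G) - H(F|G)` -/
theorem rep_entC_change (P : FLaw Ω) (W : Ω → α) (F : Ω → γ) (G : Ω → δ) :
    P.entC W G - P.entC F G ≤ P.entC W F := by
  unfold FLaw.entC
  -- H(W,G) - H(F,G) ≤ H(W,F) - H(F):  H(W,G) ≤ H(W,F,G) ; H(W,G,F) + H(F) ≤ H(W,F) + H(G,F)
  have sm := ent_submod P W G F
  have m1 : P.ent (pair W G) ≤ P.ent (pair (pair W G) F) := ent_le_pair_left P _ _
  have k1 : P.ent (pair G F) = P.ent (pair F G) := ent_pair_comm P _ _
  linarith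

/-- if `E` is a.e. a function of `(T, Z)` then `H(T|E,Z) = H(T|Z) - H(E|Z)` -/
theorem rep_entC_sub_of_ker (P : FLaw Ω) (T : Ω → τ) (E : Ω → α) (Z : Ω → γ)
    (h : ∀ ω ω', P.p ω ≠ 0 → P.p ω' ≠ 0 → T ω = T ω' → Z ω = Z ω' → E ω = E ω') :
    P.entC T (pair E Z) = P.entC T Z - P.entC E Z := by
  unfold FLaw.entC
  have k1 : P.ent (pair T (pair E Z)) = P.ent (pair T Z) := by
    apply ent_congr_ker
    intro ω ω' hω hω'
    constructor
    · intro h'
      simp only [pair, Prod.mk.injEq] at h' ⊢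
      tauto
    · intro h'
      simp only [pair, Prod.mk.injEq] at h' ⊢
      have := h ω ω' hω hω' h'.1 h'.2
      tauto
  linarith

/-- if `E` is a.e. a function of `(T, Z)` then `I(T;D|E,Z) = I(T;D|Z) - I(E;D|Z)` -/
theorem rep_miC_sub_of_ker (P : FLaw Ω) (T : Ω → τ) (E : Ω → α) (D : Ω → δ) (Z : Ω → γ)
    (h : ∀ ω ω', P.p ω ≠ 0 → P.p ω' ≠ 0 → T ω = T ω' → Z ω = Z ω' → E ω = E ω') :
    P.miC T D (pair E Z) = P.miC T D Z - P.miC E D Z := by
  unfold FLaw.miC
  have k1 : P.ent (pair T (pair E Z)) = P.ent (pair T Z) := by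
    apply ent_congr_ker
    intro ω ω' hω hω'
    constructor
    · intro h'
      simp only [pair, Prod.mk.injEq] at h' ⊢
      tauto
    · intro h'
      simp only [pair, Prod.mk.injEq] at h' ⊢
      have := h ω ω' hω hω' h'.1 h'.2
      tauto
  have k2 : P.ent (pair (pair T D) (pair E Z)) = P.ent (pair (pair T D) Z) := by
    apply ent_congr_ker
    intro ω ω' hω hω'
    constructor
    · intro h'
      simp only [pair, Prod.mk.injEq] at h' ⊢
      tauto
    · intro h'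
      simp only [pair, Prod.mk.injEq] at h' ⊢
      have := h ω ω' hω hω' h'.1.1 h'.2
      tauto
  have k3 : P.ent (pair D (pair E Z)) = P.ent (pair (pair E D) Z) :=
    rep_ent_perm P _ _ (by intro ω ω'; simp only [pair, Prod.mk.injEq]; tauto)
  linarith

/-! ## B. the two-copy law -/

/-- the kernel `ω ↦ P( · | F = F ω)` -/
noncomputable def rep_twoKer (P : FLaw Ω) (F : Ω → γ) : FLaw.Ker Ω Ω where
  k := fun ω ω' => (P.cfib F ω).p ω'
  nonneg := fun ω ω' => (P.cfib F ω).nonneg ω'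
  sum_one := fun ω => (P.cfib F ω).sum_one

/-- two copies of `P`, conditionally independent given `F` -/
noncomputable def rep_two (P : FLaw Ω) (F : Ω → γ) : FLaw (Ω × Ω) := P.ext (rep_twoKer P F)

theorem rep_two_p (P : FLaw Ω) (F : Ω → γ) (x : Ω × Ω) :
    (rep_two P F).p x = if F x.1 = F x.2 then P.p x.1 * P.p x.2 / P.fib F x.1 else 0 := by
  show P.p x.1 * (P.cfib F x.1).p x.2 = _
  by_cases hp : P.p x.1 = 0
  · simp [hp]
  · rw [ent_cfib_p P F (ent_fib_pos P F hp)]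
    by_cases hF : F x.1 = F x.2
    · rw [if_pos hF, if_pos hF.symm]
      ring
    · rw [if_neg hF, if_neg (fun h => hF h.symm)]
      ring

theorem rep_two_supp (P : FLaw Ω) (F : Ω → γ) (x : Ω × Ω) :
    (rep_two P F).p x ≠ 0 ↔ P.p x.1 ≠ 0 ∧ P.p x.2 ≠ 0 ∧ F x.1 = F x.2 := by
  rw [rep_two_p]
  by_cases hF : F x.1 = F x.2
  · rw [if_pos hF]
    constructor
    · intro h
      refine ⟨fun h0 => h (by rw [h0]; ring), fun h0 => h (by rw [h0]; ring), hF⟩
    · rintro ⟨h1, h2, -⟩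
      exact div_ne_zero (mul_ne_zero h1 h2) (ent_fib_pos P F h1).ne'
  · rw [if_neg hF]
    simp [hF]

theorem rep_two_map_fst (P : FLaw Ω) (F : Ω → γ) : (rep_two P F).map Prod.fst = P := by
  exact ent_ext_map_fst P _

/-- the mass of a point -/
theorem rep_pr_point (P : FLaw Ω) (a : Ω) : P.pr (fun ω => ω = a) = P.p a :=
  ent_fib_id P a

/-- images of images -/
theorem rep_map_map {Ω' Ω'' : Type} [Fintype Ω'] [Fintype Ω''] (P : FLaw Ω) (φ : Ω → Ω') (ψ : Ω' → Ω'') :
    (P.map φ).map ψ = P.map (fun ω => ψ (φ ω)) :=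
  ent_law_ext _ _ fun z => ent_map_pr P φ (fun y => ψ y = z)

theorem rep_two_map_swap (P : FLaw Ω) (F : Ω → γ) : (rep_two P F).map Prod.swap = rep_two P F := by
  refine ent_law_ext _ _ fun x => ?_
  have h1 : ((rep_two P F).map Prod.swap).p x = (rep_two P F).p x.swap := by
    rw [← rep_pr_point (rep_two P F) x.swap]
    refine ent_pr_congr _ fun y _ => ?_
    constructor
    · rintro rfl
      rfl
    · rintro rfl
      rfl
  rw [h1, rep_two_p, rep_two_p]
  by_cases hF : F x.1 = F x.2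
  · rw [if_pos hF, if_pos (show F x.swap.1 = F x.swap.2 from hF.symm)]
    show P.p x.2 * P.p x.1 / P.fib F x.2 = _
    rw [ent_fib_congr P F hF]
    ring
  · rw [if_neg hF, if_neg (show ¬ F x.swap.1 = F x.swap.2 from fun h => hF h.symm)]

theorem rep_two_map_snd (P : FLaw Ω) (F : Ω → γ) : (rep_two P F).map Prod.snd = P := by
  have h : ((rep_two P F).map Prod.swap).map Prod.fst = (rep_two P F).map Prod.snd := rep_map_map _ _ _
  rw [← h, rep_two_map_swap, rep_two_map_fst]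

/-- events of the first / second copy -/
theorem rep_two_pr_fst (P : FLaw Ω) (F : Ω → γ) (E : Ω → Prop) :
    (rep_two P F).pr (fun x => E x.1) = P.pr E := by
  rw [← ent_map_pr (rep_two P F) Prod.fst E, rep_two_map_fst]

theorem rep_two_pr_snd (P : FLaw Ω) (F : Ω → γ) (E : Ω → Prop) :
    (rep_two P F).pr (fun x => E x.2) = P.pr E := by
  rw [← ent_map_pr (rep_two P F) Prod.snd E, rep_two_map_snd]

/-- the product formula on one cell of `F` -/
theorem rep_two_pr_prod (P : FLaw Ω) (F : Ω → γ) (A B : Ω → Prop) (z : γ) :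
    (rep_two P F).pr (fun x => A x.1 ∧ B x.2 ∧ F x.1 = z) * P.pr (fun ω => F ω = z)
      = P.pr (fun ω => A ω ∧ F ω = z) * P.pr (fun ω => B ω ∧ F ω = z) := by
  by_cases hm : P.pr (fun ω => F ω = z) = 0
  · have h1 : P.pr (fun ω => A ω ∧ F ω = z) = 0 :=
      le_antisymm (hm ▸ ent_pr_mono P fun ω _ h => h.2) (ent_pr_nonneg P _)
    rw [hm, h1]
    ring
  · have h1 : (rep_two P F).pr (fun x => A x.1 ∧ B x.2 ∧ F x.1 = z)
        = ∑ ω, ∑ ω', (if A ω ∧ F ω = z then P.p ω else 0) * (if B ω' ∧ F ω' = z then P.p ω' else 0)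
          / P.pr (fun ω => F ω = z) := by
      unfold FLaw.pr
      rw [Fintype.sum_prod_type]
      refine Finset.sum_congr rfl fun ω _ => Finset.sum_congr rfl fun ω' _ => ?_
      rw [rep_two_p]
      by_cases hz : F ω = z
      · have hf : P.fib F ω = ∑ ω, if F ω = z then P.p ω else 0 := by
          rw [← hz]
          rfl
        by_cases hz' : F ω' = z
        · by_cases hA : A ω <;> by_cases hB : B ω' <;> simp [hA, hB, hz, hz', hf]
        · have hne : ¬ z = F ω' := fun h => hz' h.symm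
          simp [hz, hz', hne]
      · simp [hz]
    rw [h1]
    simp only [← Finset.sum_div]
    rw [div_mul_cancel₀ _ hm, ← Finset.sum_mul_sum]
    exact congrArg₂ (· * ·) (Finset.sum_congr rfl fun ω _ => by congr)
      (Finset.sum_congr rfl fun ω _ => by congr)

/-- the two copies are conditionally independent given `F` -/
theorem rep_two_ci (P : FLaw Ω) (F : Ω → γ) (X : Ω → α) (Y : Ω → β) :
    (rep_two P F).miC (fun x => X x.1) (fun x => Y x.2) (fun x => F x.1) = 0 := by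
  rw [← ent_ci_iff]
  intro u v z
  have h1 := rep_two_pr_prod P F (fun ω => X ω = u) (fun ω => Y ω = v) z
  have h2 : (rep_two P F).pr (fun x => F x.1 = z) = P.pr (fun ω => F ω = z) :=
    rep_two_pr_fst P F (fun ω => F ω = z)
  have h3 : (rep_two P F).pr (fun x => X x.1 = u ∧ F x.1 = z) = P.pr (fun ω => X ω = u ∧ F ω = z) :=
    rep_two_pr_fst P F (fun ω => X ω = u ∧ F ω = z)
  have h4 : (rep_two P F).pr (fun x => Y x.2 = v ∧ F x.1 = z) = P.pr (fun ω => Y ω = v ∧ F ω = z) := by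
    rw [← rep_two_pr_snd P F (fun ω => Y ω = v ∧ F ω = z)]
    refine ent_pr_congr _ fun x hx => ?_
    rw [((rep_two_supp P F x).1 hx).2.2]
  rw [h2, h3, h4]
  exact h1

/-- a law dominated by a conditionally independent law has small conditional dependence -/
theorem rep_ci_dom {Ω₂ : Type} [Fintype Ω₂] (R T : FLaw Ω₂) {K : ℝ} (h : R.Dom K T) (U : Ω₂ → α) (V : Ω₂ → β)
    (Z : Ω₂ → γ) (hci : T.miC U V Z = 0) : R.miC U V Z ≤ Real.log K := by
  have hfib := ent_ci_fib T U V Z ((ent_ci_iff T U V Z).2 hci)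
  have d1 := (ent_kl_obs R T h (pair (pair U V) Z)).2
  have d2 := (ent_kl_obs R T h (pair U Z)).1
  have d3 := ent_kl_obs_mono R T h V Z
  have e : R.miC U V Z = R.ev (fun ω => Real.log (R.fib (pair (pair U V) Z) ω / T.fib (pair (pair U V) Z) ω))
      - R.ev (fun ω => Real.log (R.fib (pair U Z) ω / T.fib (pair U Z) ω))
      - R.ev (fun ω => Real.log (R.fib (pair V Z) ω / T.fib (pair V Z) ω))
      + R.ev (fun ω => Real.log (R.fib Z ω / T.fib Z ω)) := by
    rw [ent_miC_eq_ev, ← ent_ev_sub, ← ent_ev_sub, ← ent_ev_add]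
    refine ent_ev_congr R fun ω hω => ?_
    have hT := ent_dom_supp h hω
    have r1 := (ent_fib_pos R (pair (pair U V) Z) hω).ne'
    have r2 := (ent_fib_pos R (pair U Z) hω).ne'
    have r3 := (ent_fib_pos R (pair V Z) hω).ne'
    have r4 := (ent_fib_pos R Z hω).ne'
    have t1 := (ent_fib_pos T (pair (pair U V) Z) hT).ne'
    have t2 := (ent_fib_pos T (pair U Z) hT).ne'
    have t3 := (ent_fib_pos T (pair V Z) hT).ne'
    have t4 := (ent_fib_pos T Z hT).ne'
    have hl := congrArg Real.log (hfib ω)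
    rw [Real.log_mul t1 t4, Real.log_mul t2 t3] at hl
    rw [Real.log_div (mul_ne_zero r1 r4) (mul_ne_zero r2 r3), Real.log_mul r1 r4, Real.log_mul r2 r3,
      Real.log_div r1 t1, Real.log_div r2 t2, Real.log_div r3 t3, Real.log_div r4 t4]
    linarith
  rw [e]
  linarith

/-- a law dominated by the two-copy law has small conditional dependence (BR L2.3) -/
theorem rep_two_dom (P : FLaw Ω) (F : Ω → γ) (R : FLaw (Ω × Ω)) {K : ℝ} (h : R.Dom K (rep_two P F))
    (X : Ω → α) (Y : Ω → β) :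
    R.miC (fun x => X x.1) (fun x => Y x.2) (fun x => F x.1) ≤ Real.log K := by
  exact rep_ci_dom R (rep_two P F) h _ _ _ (rep_two_ci P F X Y)

/-- an event of the extended law as an average over the base -/
theorem rep_ext_pr {Γ : Type} [Fintype Γ] (P : FLaw Ω) (κ : FLaw.Ker Ω Γ) (G : Ω × Γ → Prop) :
    (P.ext κ).pr G = P.ev (fun ω => ∑ g, if G (ω, g) then κ.k ω g else 0) := by
  unfold FLaw.pr FLaw.ev
  rw [Fintype.sum_prod_type]
  refine Finset.sum_congr rfl fun ω _ => ?_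
  rw [Finset.mul_sum]
  refine Finset.sum_congr rfl fun g _ => ?_
  by_cases hG : G (ω, g)
  · rw [if_pos hG, if_pos hG]
    rfl
  · rw [if_neg hG, if_neg hG, mul_zero]

/-- an event of the two-copy law, the SECOND copy as the base -/
theorem rep_two_pr_base (P : FLaw Ω) (F : Ω → γ) (G : Ω × Ω → Prop) :
    (rep_two P F).pr G = P.ev (fun ω' => (P.cfib F ω').pr (fun ω => G (ω, ω'))) := by
  have h1 : (rep_two P F).pr G = (rep_two P F).pr (fun x => G x.swap) := by
    rw [← ent_map_pr (rep_two P F) Prod.swap G, rep_two_map_swap]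
  rw [h1]
  exact rep_ext_pr P (rep_twoKer P F) (fun x => G x.swap)

/-- averaging over the second copy: a table indexed by the values of `F` does at least as well (end of the proof of L11.2) -/
theorem rep_two_table (P : FLaw Ω) (F : Ω → γ) (N : Ω → α) (rel : α → α → Prop) (c : ℝ)
    (h : c ≤ (rep_two P F).pr (fun x => rel (N x.1) (N x.2))) :
    ∃ tab : γ → α, c ≤ P.pr (fun ω => rel (N ω) (tab (F ω))) := by
  obtain ⟨ωs, -⟩ := ent_exists_supp P
  have hch : ∀ z : γ, ∃ a : α, ∀ ω₀, F ω₀ = z →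
      (P.cfib F ω₀).pr (fun ω => rel (N ω) (N ω₀)) ≤ (P.cfib F ω₀).pr (fun ω => rel (N ω) a) := by
    intro z
    by_cases hz : (Finset.univ.filter fun ω => F ω = z).Nonempty
    · obtain ⟨ω₁, h1, hmax⟩ := Finset.exists_max_image (Finset.univ.filter fun ω => F ω = z)
        (fun ω₀ => (P.cfib F ω₀).pr (fun ω => rel (N ω) (N ω₀))) hz
      refine ⟨N ω₁, fun ω₀ h0 => ?_⟩
      have h2 := hmax ω₀ (Finset.mem_filter.2 ⟨Finset.mem_univ _, h0⟩)
      have h3 : F ω₁ = F ω₀ := ((Finset.mem_filter.1 h1).2).trans h0.symm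
      rw [ent_cfib_congr P F h3] at h2
      exact h2
    · refine ⟨N ωs, fun ω₀ h0 => ?_⟩
      exact (hz ⟨ω₀, Finset.mem_filter.2 ⟨Finset.mem_univ _, h0⟩⟩).elim
  choose tab htab using hch
  refine ⟨tab, h.trans ?_⟩
  rw [rep_two_pr_base, ent_pr_tower P F]
  refine ent_ev_mono P fun ω₀ hω₀ => ?_
  refine (htab (F ω₀) ω₀ rfl).trans (le_of_eq ?_)
  refine ent_pr_congr _ fun ω hω => ?_
  have h2 : F ω = F ω₀ ∧ P.p ω ≠ 0 := (ent_cnd_supp P _ (ent_fib_pos P F hω₀)).1 hω
  rw [h2.1]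

/-- the list bound for a resampled label: if `M` is a.e. a function of `T`, and all `T`-values over the `M`-cells met by the cell
`Y = Y ω₀` lie in a list of size `c ω₀`, then `H(M|Y) + H(T|M) ≤ E log c` -/
theorem rep_resample_list (P : FLaw Ω) (T : Ω → τ) (M : Ω → α) (Y : Ω → β) (c : Ω → ℝ)
    (hM : ∀ ω ω', P.p ω ≠ 0 → P.p ω' ≠ 0 → T ω = T ω' → M ω = M ω')
    (h : ∀ ω₀, P.p ω₀ ≠ 0 → ∃ S : Finset τ, (S.card : ℝ) ≤ c ω₀ ∧
      ∀ ω ω', P.p ω ≠ 0 → P.p ω' ≠ 0 → Y ω = Y ω₀ → M ω' = M ω → T ω' ∈ S) :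
    P.entC M Y + P.entC T M ≤ P.ev (fun ω => Real.log (c ω)) := by
  have hfst : ∀ {ξ : Type} (W : Ω → ξ), (rep_two P M).ent (fun x => W x.1) = P.ent W := by
    intro ξ W
    rw [← ent_map_ent (rep_two P M) Prod.fst W, rep_two_map_fst]
  have hsnd : ∀ {ξ : Type} (W : Ω → ξ), (rep_two P M).ent (fun x => W x.2) = P.ent W := by
    intro ξ W
    rw [← ent_map_ent (rep_two P M) Prod.snd W, rep_two_map_snd]
  have hci := rep_two_ci P M T Y
  unfold FLaw.miC at hci
  have e1 : (rep_two P M).ent (pair (pair (fun x : Ω × Ω => T x.1) (fun x => Y x.2)) (fun x => M x.1))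
      = (rep_two P M).ent (pair (fun x : Ω × Ω => T x.1) (fun x => Y x.2)) := by
    refine ent_pair_of_ker _ _ _ fun x x' hx hx' he => ?_
    exact hM _ _ ((rep_two_supp P M x).1 hx).1 ((rep_two_supp P M x').1 hx').1 (congrArg Prod.fst he)
  have e2 : (rep_two P M).ent (pair (fun x : Ω × Ω => T x.1) (fun x => M x.1)) = P.ent (pair T M) :=
    hfst (pair T M)
  have e3 : (rep_two P M).ent (pair (fun x : Ω × Ω => Y x.2) (fun x => M x.1)) = P.ent (pair Y M) := by
    rw [← hsnd (pair Y M)]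
    refine ent_congr_ker _ _ _ fun x x' hx hx' => ?_
    have h1 := ((rep_two_supp P M x).1 hx).2.2
    have h2 := ((rep_two_supp P M x').1 hx').2.2
    simp only [pair, Prod.mk.injEq, h1, h2]
  have e4 : (rep_two P M).ent (fun x : Ω × Ω => M x.1) = P.ent M := hfst M
  have e5 : (rep_two P M).ent (fun x : Ω × Ω => Y x.2) = P.ent Y := hsnd Y
  have hlist := rep_entC_le_ev_log (rep_two P M) (fun x => T x.1) (fun x => Y x.2) (fun x => c x.2) (by
    intro x₀ hx₀
    obtain ⟨S, hS, hmem⟩ := h x₀.2 ((rep_two_supp P M x₀).1 hx₀).2.1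
    refine ⟨S, hS, fun x hx hY => ?_⟩
    obtain ⟨h1, h2, h3⟩ := (rep_two_supp P M x).1 hx
    exact hmem x.2 x.1 h2 h1 hY h3)
  have e6 : (rep_two P M).ev (fun x => Real.log (c x.2)) = P.ev (fun ω => Real.log (c ω)) := by
    rw [← ent_map_ev (rep_two P M) Prod.snd (fun ω => Real.log (c ω)), rep_two_map_snd]
  rw [e6] at hlist
  unfold FLaw.entC at hlist ⊢
  rw [e1, e2, e3, e4] at hci
  rw [e5] at hlist
  have e7 := ent_pair_comm P M Y
  linarith

/-! ## C. adjoining a uniform atom -/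

/-- the kernel: uniform on `C ω` (uniform on the whole type if `C ω` is empty) -/
noncomputable def rep_unifKer [Fintype τ] [Nonempty τ] (C : Ω → Finset τ) : FLaw.Ker Ω τ where
  k := fun ω t => if (C ω).Nonempty then (if t ∈ C ω then 1 / ((C ω).card : ℝ) else 0)
    else 1 / (Fintype.card τ : ℝ)
  nonneg := fun ω t => by
    split_ifs <;> positivity
  sum_one := fun ω => by
    by_cases h : (C ω).Nonempty
    · simp only [h, if_true]
      rw [Finset.sum_ite_mem, Finset.univ_inter, Finset.sum_const, nsmul_eq_mul]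
      have : ((C ω).card : ℝ) ≠ 0 := by
        exact_mod_cast (Finset.card_pos.mpr h).ne'
      field_simp
    · simp only [h, if_false]
      rw [Finset.sum_const, nsmul_eq_mul, Finset.card_univ]
      have : (Fintype.card τ : ℝ) ≠ 0 := by
        exact_mod_cast Fintype.card_ne_zero
      field_simp

/-- adjoin an atom, uniform on `C ω` -/
noncomputable def rep_unif [Fintype τ] [Nonempty τ] (P : FLaw Ω) (C : Ω → Finset τ) : FLaw (Ω × τ) :=
  P.ext (rep_unifKer C)

theorem rep_unif_supp [Fintype τ] [Nonempty τ] (P : FLaw Ω) (C : Ω → Finset τ)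
    (hC : ∀ ω, P.p ω ≠ 0 → (C ω).Nonempty) (x : Ω × τ) :
    (rep_unif P C).p x ≠ 0 ↔ P.p x.1 ≠ 0 ∧ x.2 ∈ C x.1 := by
  show P.p x.1 * (rep_unifKer C).k x.1 x.2 ≠ 0 ↔ _
  by_cases hp : P.p x.1 = 0
  · simp [hp]
  · have hne := hC x.1 hp
    have hcard : ((C x.1).card : ℝ) ≠ 0 := by exact_mod_cast (Finset.card_pos.mpr hne).ne'
    have hk : (rep_unifKer C).k x.1 x.2 = if x.2 ∈ C x.1 then 1 / ((C x.1).card : ℝ) else 0 := by
      show (if (C x.1).Nonempty then _ else _) = _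
      rw [if_pos hne]
    rw [hk]
    by_cases hx : x.2 ∈ C x.1
    · simp [hp, hx, hcard]
    · simp [hx]

theorem rep_unif_map_fst [Fintype τ] [Nonempty τ] (P : FLaw Ω) (C : Ω → Finset τ) :
    (rep_unif P C).map Prod.fst = P := by
  exact ent_ext_map_fst P _

/-- if the candidate set is a.e. a function of `Y`, then `H(T | Y) = E log #C` -/
theorem rep_unif_entC [Fintype τ] [Nonempty τ] (P : FLaw Ω) (C : Ω → Finset τ)
    (hC : ∀ ω, P.p ω ≠ 0 → (C ω).Nonempty) (Y : Ω → β)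
    (hY : ∀ ω ω', P.p ω ≠ 0 → P.p ω' ≠ 0 → Y ω = Y ω' → C ω = C ω') :
    (rep_unif P C).entC (fun x => x.2) (fun x => Y x.1) = P.ev (fun ω => Real.log ((C ω).card : ℝ)) := by
  rw [ent_entC_eq_ev, ← rep_unif_map_fst P C, ent_map_ev, rep_unif_map_fst P C]
  refine ent_ev_congr _ fun x hx => ?_
  obtain ⟨hp, hx2⟩ := (rep_unif_supp P C hC x).1 hx
  have hcard : ((C x.1).card : ℝ) ≠ 0 := by exact_mod_cast (Finset.card_pos.mpr (hC x.1 hp)).ne'
  have hfY : (rep_unif P C).fib (fun x => Y x.1) x = P.fib Y x.1 := by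
    have := ent_map_fib (rep_unif P C) Prod.fst Y x
    rw [rep_unif_map_fst] at this
    exact this.symm
  have hfp : (rep_unif P C).fib (pair (fun x : Ω × τ => x.2) (fun x => Y x.1)) x
      = P.fib Y x.1 / ((C x.1).card : ℝ) := by
    rw [ent_fib_pair]
    refine (rep_ext_pr P (rep_unifKer C) _).trans ?_
    have h1 : P.fib Y x.1 / ((C x.1).card : ℝ)
        = P.ev (fun ω => if Y ω = Y x.1 then 1 / ((C x.1).card : ℝ) else 0) := by
      unfold FLaw.fib FLaw.pr FLaw.ev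
      rw [Finset.sum_div]
      refine Finset.sum_congr rfl fun ω _ => ?_
      beta_reduce
      by_cases h : Y ω = Y x.1
      · rw [if_pos h, if_pos h]
        ring
      · rw [if_neg h, if_neg h]
        ring
    rw [h1]
    refine ent_ev_congr P fun ω hω => ?_
    by_cases h : Y ω = Y x.1
    · rw [if_pos h]
      have hCeq : C ω = C x.1 := hY ω x.1 hω hp h
      rw [Finset.sum_eq_single x.2]
      · rw [if_pos ⟨rfl, h⟩]
        show (if (C ω).Nonempty then _ else _) = _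
        rw [if_pos (hC ω hω), hCeq, if_pos hx2]
      · intro g _ hg
        rw [if_neg (fun hh => hg hh.1)]
      · intro hh
        exact (hh (Finset.mem_univ _)).elim
    · rw [if_neg h]
      refine Finset.sum_eq_zero fun g _ => ?_
      rw [if_neg (fun hh => h hh.2)]
  unfold FLaw.surC
  rw [hfY, hfp, div_div_cancel_left' (ent_fib_pos P Y hp).ne', Real.log_inv, neg_neg]

theorem rep_kit_eqns_cite : True := by
  have := @rep_twoKer.eq_1
  have := @rep_two.eq_1
  have := @rep_unifKer.eq_1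
  have := @rep_unif.eq_1
  trivial

end Claimed.Agent.R255
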