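-- KEEP
import Claimed.Agent.R255.Rep.Kit

/-!
# Row 255 (BR paper), Sec. 11, file 2: the fine-velocity credit and its retention (BR (11.1), Lemma 11.1, (11.outgoing))      (architect helper128)

PAPER-FREE finite probability.
* `Credit P Pf Wf κ`  :  `P(Wf = w | Pf = p) ≤ κ` for all values  (BR (11.1) with `κ = ε^(k_f - α_f)`)
* `rep_exc P A Pf z`  :  the exceptional fibres `P(A | Pf) < P(A) z`
* `rep_retention`     :  Lemma 11.1
* `rep_credit_mix`    :  averaging over a further label (BR (11.outgoing-credit))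
* `rep_credit_unif`   :  the credit of the uniform law on a regular class (BR (11.prepared-velocity-probability))
-/

set_option autoImplicit false

namespace Claimed.Agent.R255

open scoped BigOperators
open Classical
open FLaw

variable {Ω : Type} [Fintype Ω] {α β γ δ τ : Type}

/-- the conditional probability bound (11.1) -/
def Credit (P : FLaw Ω) (Pf : Ω → α) (Wf : Ω → β) (κ : ℝ) : Prop :=
  ∀ ω, P.fib (pair Wf Pf) ω ≤ κ * P.fib Pf ω

theorem rep_credit_mono {P : FLaw Ω} {Pf : Ω → α} {Wf : Ω → β} {κ κ' : ℝ} (h : Credit P Pf Wf κ)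
    (hκ : κ ≤ κ') : Credit P Pf Wf κ' := by
  intro ω
  exact (h ω).trans (mul_le_mul_of_nonneg_right hκ (ent_fib_nonneg P Pf ω))

/-- the trivial credit -/
theorem rep_credit_one (P : FLaw Ω) (Pf : Ω → α) (Wf : Ω → β) : Credit P Pf Wf 1 := by
  intro ω
  rw [one_mul]
  exact ent_fib_pair_le_right P Wf Pf ω

/-- a credit is positive -/
theorem rep_credit_pos {P : FLaw Ω} {Pf : Ω → α} {Wf : Ω → β} {κ : ℝ} (h : Credit P Pf Wf κ) : 0 < κ := by
  obtain ⟨ω, hω⟩ := ent_exists_supp P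
  have h1 := ent_fib_pos P (pair Wf Pf) hω
  have h2 := ent_fib_pos P Pf hω
  exact (pos_iff_pos_of_mul_pos (h1.trans_le (h ω))).2 h2

/-- `H(Wf | Pf) ≥ log (1/κ)` -/
theorem rep_credit_entC {P : FLaw Ω} {Pf : Ω → α} {Wf : Ω → β} {κ : ℝ} (hκ : 0 < κ)
    (h : Credit P Pf Wf κ) : Real.log (1 / κ) ≤ P.entC Wf Pf := by
  rw [ent_entC_eq_ev, ← ent_ev_const P (Real.log (1 / κ))]
  refine ent_ev_mono P fun ω hω => ?_
  have h1 := ent_fib_pos P (pair Wf Pf) hω
  have h2 := ent_fib_pos P Pf hω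
  unfold FLaw.surC
  rw [one_div, Real.log_inv]
  refine neg_le_neg (Real.log_le_log (div_pos h1 h2) ?_)
  rw [div_le_iff₀ h2]
  exact h ω

/-- the exceptional fibres of Lemma 11.1 -/
def rep_exc (P : FLaw Ω) (A : Ω → Prop) (Pf : Ω → α) (z : ℝ) (ω : Ω) : Prop :=
  P.pr (fun ω' => A ω' ∧ Pf ω' = Pf ω) < P.pr A * z * P.fib Pf ω

/-- the exceptional event is a function of `Pf` -/
theorem rep_exc_congr (P : FLaw Ω) (A : Ω → Prop) (Pf : Ω → α) (z : ℝ) {ω ω' : Ω} (h : Pf ω' = Pf ω) :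
    rep_exc P A Pf z ω' ↔ rep_exc P A Pf z ω := by
  unfold rep_exc
  rw [h, ent_fib_congr P Pf h]

/-- the mass of the exceptional part of `A` -/
theorem rep_exc_mass (P : FLaw Ω) (A : Ω → Prop) (Pf : Ω → α) {z : ℝ} (hz : 0 ≤ z) :
    P.pr (fun ω => A ω ∧ rep_exc P A Pf z ω) ≤ P.pr A * z := by
  rw [ent_pr_tower P Pf, ← ent_ev_const P (P.pr A * z)]
  refine ent_ev_mono P fun ω hω => ?_
  have hpos := ent_fib_pos P Pf hω
  rw [ent_cfib_pr P Pf hpos, div_le_iff₀ hpos]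
  by_cases he : rep_exc P A Pf z ω
  · refine le_trans (ent_pr_mono P fun ω' _ h' => ?_) (le_of_lt he)
    exact ⟨h'.1.1, h'.2⟩
  · rw [ent_pr_eq_zero P fun ω' _ h' => he ((rep_exc_congr P A Pf z h'.2).1 h'.1.2)]
    exact mul_nonneg (mul_nonneg (ent_pr_nonneg P A) hz) hpos.le

/-- Lemma 11.1, first assertion -/
theorem rep_exc_pr (P : FLaw Ω) (A : Ω → Prop) (Pf : Ω → α) {z : ℝ} (hA : 0 < P.pr A) (hz : 0 ≤ z) :
    (P.cnd A).pr (rep_exc P A Pf z) ≤ z := by
  rw [ent_cnd_pr P A hA, div_le_iff₀ hA, mul_comm]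
  exact rep_exc_mass P A Pf hz

/-- the retained event has positive mass -/
theorem rep_exc_compl_pr (P : FLaw Ω) (A : Ω → Prop) (Pf : Ω → α) {z : ℝ} (hA : 0 < P.pr A)
    (hz : 0 ≤ z) :
    (1 - z) * P.pr A ≤ P.pr (fun ω => A ω ∧ ¬ rep_exc P A Pf z ω) := by
  have h1 := ent_pr_split P A (rep_exc P A Pf z)
  have h2 := rep_exc_mass P A Pf hz
  linarith

/-- Lemma 11.1, second assertion (the exceptional fibres are removed) -/
theorem rep_retention {P : FLaw Ω} {Pf : Ω → α} {Wf : Ω → β} {κ : ℝ} (h : Credit P Pf Wf κ)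
    (A : Ω → Prop) {z : ℝ} (hA : 0 < P.pr A) (hz : 0 < z) (hz1 : z < 1) :
    Credit (P.cnd (fun ω => A ω ∧ ¬ rep_exc P A Pf z ω)) Pf Wf (κ / (P.pr A * z)) := by
  have hκ := rep_credit_pos h
  have hB : 0 < P.pr (fun ω => A ω ∧ ¬ rep_exc P A Pf z ω) :=
    (mul_pos (sub_pos.2 hz1) hA).trans_le (rep_exc_compl_pr P A Pf hA hz.le)
  have hAz : 0 < P.pr A * z := mul_pos hA hz
  intro ω
  unfold FLaw.fib
  rw [ent_cnd_pr P _ hB, ent_cnd_pr P _ hB, ← mul_div_assoc]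
  refine div_le_div_of_nonneg_right ?_ hB.le
  by_cases he : rep_exc P A Pf z ω
  · rw [ent_pr_eq_zero P fun ω' _ h' => h'.1.2 ((rep_exc_congr P A Pf z (congrArg Prod.snd h'.2)).2 he)]
    exact mul_nonneg (div_pos hκ hAz).le (ent_pr_nonneg P _)
  · have h1 : P.pr (fun ω' => (A ω' ∧ ¬ rep_exc P A Pf z ω') ∧ Pf ω' = Pf ω)
        = P.pr (fun ω' => A ω' ∧ Pf ω' = Pf ω) := by
      refine ent_pr_congr P fun ω' _ => ⟨fun h' => ⟨h'.1.1, h'.2⟩, fun h' => ⟨⟨h'.1, fun hh => ?_⟩, h'.2⟩⟩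
      exact he ((rep_exc_congr P A Pf z h'.2).1 hh)
    rw [h1]
    have h2 : P.pr A * z * P.fib Pf ω ≤ P.pr (fun ω' => A ω' ∧ Pf ω' = Pf ω) := not_lt.1 he
    have h3 : P.pr (fun ω' => (A ω' ∧ ¬ rep_exc P A Pf z ω') ∧ pair Wf Pf ω' = pair Wf Pf ω)
        ≤ P.fib (pair Wf Pf) ω := ent_pr_mono P fun ω' _ h' => h'.2
    refine h3.trans ((h ω).trans ?_)
    rw [div_mul_eq_mul_div, le_div_iff₀ hAz]
    calc κ * P.fib Pf ω * (P.pr A * z) = κ * (P.pr A * z * P.fib Pf ω) := by ring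
      _ ≤ κ * P.pr (fun ω' => A ω' ∧ Pf ω' = Pf ω) := mul_le_mul_of_nonneg_left h2 hκ.le

/-- conditioning on a set of `Pf`-values does not change the credit -/
theorem rep_credit_cnd_of_ker {P : FLaw Ω} {Pf : Ω → α} {Wf : Ω → β} {κ : ℝ} (h : Credit P Pf Wf κ)
    (A : Ω → Prop) (hA : ∀ ω ω', Pf ω = Pf ω' → (A ω ↔ A ω')) : Credit (P.cnd A) Pf Wf κ := by
  by_cases hpos : 0 < P.pr A
  · intro ω
    unfold FLaw.fib
    rw [ent_cnd_pr P _ hpos, ent_cnd_pr P _ hpos, ← mul_div_assoc]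
    refine div_le_div_of_nonneg_right ?_ hpos.le
    by_cases hω : A ω
    · have h1 : P.pr (fun ω' => A ω' ∧ pair Wf Pf ω' = pair Wf Pf ω) = P.fib (pair Wf Pf) ω :=
        ent_pr_congr P fun ω' _ => ⟨fun h' => h'.2, fun h' => ⟨(hA ω' ω (congrArg Prod.snd h')).2 hω, h'⟩⟩
      have h2 : P.pr (fun ω' => A ω' ∧ Pf ω' = Pf ω) = P.fib Pf ω :=
        ent_pr_congr P fun ω' _ => ⟨fun h' => h'.2, fun h' => ⟨(hA ω' ω h').2 hω, h'⟩⟩
      rw [h1, h2]
      exact h ω
    · rw [ent_pr_eq_zero P fun ω' _ h' => hω ((hA ω' ω (congrArg Prod.snd h'.2)).1 h'.1)]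
      exact mul_nonneg (rep_credit_pos h).le (ent_pr_nonneg P _)
  · have : P.cnd A = P := by
      unfold FLaw.cnd
      rw [dif_neg hpos]
    rw [this]
    exact h

/-- averaging over a further label `J` -/
theorem rep_credit_mix {P : FLaw Ω} {Pf : Ω → α} {Wf : Ω → β} {J : Ω → γ} {κ : ℝ}
    (h : Credit P (pair Pf J) Wf κ) : Credit P Pf Wf κ := by
  have hκ := rep_credit_pos h
  intro ω
  unfold FLaw.fib
  rw [ent_pr_sum_values P _ J (Finset.univ.image J) (fun ω' _ _ => Finset.mem_image_of_mem J (Finset.mem_univ ω')),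
    ent_pr_sum_values P (fun ω' => Pf ω' = Pf ω) J (Finset.univ.image J)
      (fun ω' _ _ => Finset.mem_image_of_mem J (Finset.mem_univ ω')), Finset.mul_sum]
  refine Finset.sum_le_sum fun j _ => ?_
  by_cases hex : ∃ ω', pair Wf Pf ω' = pair Wf Pf ω ∧ J ω' = j
  · obtain ⟨ω₁, h1, h2⟩ := hex
    have hW : Wf ω₁ = Wf ω := congrArg Prod.fst h1
    have hP : Pf ω₁ = Pf ω := congrArg Prod.snd h1
    have e1 : P.pr (fun ω' => pair Wf Pf ω' = pair Wf Pf ω ∧ J ω' = j) = P.fib (pair Wf (pair Pf J)) ω₁ := by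
      refine ent_pr_congr P fun ω' _ => ?_
      simp only [pair, Prod.mk.injEq, hW, hP, h2]
      tauto
    have e2 : P.pr (fun ω' => Pf ω' = Pf ω ∧ J ω' = j) = P.fib (pair Pf J) ω₁ := by
      refine ent_pr_congr P fun ω' _ => ?_
      simp only [pair, Prod.mk.injEq, hP, h2]
    rw [e1, e2]
    exact h ω₁
  · rw [ent_pr_eq_zero P fun ω' _ h' => hex ⟨ω', h'⟩]
    exact mul_nonneg hκ.le (ent_pr_nonneg P _)

/-- the credit only depends on the joint law of the two labels -/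
theorem rep_credit_map {Ω' : Type} [Fintype Ω'] (P : FLaw Ω) (φ : Ω → Ω') (Pf : Ω' → α) (Wf : Ω' → β)
    (κ : ℝ) (h : Credit (P.map φ) Pf Wf κ) : Credit P (fun ω => Pf (φ ω)) (fun ω => Wf (φ ω)) κ := by
  intro ω
  have h1 := h (φ ω)
  rw [ent_map_fib, ent_map_fib] at h1
  exact h1

/-- an event of the atom under the uniform extension -/
theorem rep_unif_pr_snd [Fintype τ] [Nonempty τ] (P : FLaw Ω) (C : Ω → Finset τ)
    (hC : ∀ ω, P.p ω ≠ 0 → (C ω).Nonempty) (G : τ → Prop) :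
    (rep_unif P C).pr (fun x => G x.2)
      = P.ev (fun ω => (((C ω).filter G).card : ℝ) / ((C ω).card : ℝ)) := by
  refine (rep_ext_pr P (rep_unifKer C) _).trans ?_
  refine ent_ev_congr P fun ω hω => ?_
  have hk : ∀ g, (rep_unifKer C).k ω g = if g ∈ C ω then 1 / ((C ω).card : ℝ) else 0 := by
    intro g
    show (if (C ω).Nonempty then _ else _) = _
    rw [if_pos (hC ω hω)]
  simp only [hk]
  rw [Finset.card_filter, Nat.cast_sum, Finset.sum_div, ← Finset.sum_filter_add_sum_filter_not Finset.univ (· ∈ C ω)]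
  have h0 : ∑ g ∈ Finset.univ.filter (fun g => ¬ g ∈ C ω),
      (if G g then (if g ∈ C ω then 1 / ((C ω).card : ℝ) else 0) else 0) = 0 := by
    refine Finset.sum_eq_zero fun g hg => ?_
    rw [if_neg (Finset.mem_filter.1 hg).2, ite_self]
  rw [h0, add_zero, Finset.filter_mem_eq_inter, Finset.univ_inter]
  refine Finset.sum_congr rfl fun g hg => ?_
  rw [if_pos hg]
  by_cases hG : G g
  · simp [hG]
  · simp [hG]

/-- the earlier law `μ(J,T) = π_J(J) 1_{T ∈ 𝒯_J} / #𝒯_J` has the credit of its classes: if in each class the number of atoms with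
given `(p, w)` is at most `κ` times the number of atoms with given `p` -/
theorem rep_credit_unif [Fintype τ] [Nonempty τ] (P : FLaw Ω) (C : Ω → Finset τ)
    (hC : ∀ ω, P.p ω ≠ 0 → (C ω).Nonempty) (Pc : τ → α) (W : τ → β) {κ : ℝ}
    (h : ∀ ω, P.p ω ≠ 0 → ∀ t ∈ C ω,
      (((C ω).filter (fun t' => Pc t' = Pc t ∧ W t' = W t)).card : ℝ)
        ≤ κ * (((C ω).filter (fun t' => Pc t' = Pc t)).card : ℝ)) (hκ : 0 ≤ κ) :
    Credit (rep_unif P C) (fun x => Pc x.2) (fun x => W x.2) κ := by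
  intro x
  have e1 : (rep_unif P C).fib (pair (fun x : Ω × τ => W x.2) (fun x => Pc x.2)) x
      = (rep_unif P C).pr (fun y => Pc y.2 = Pc x.2 ∧ W y.2 = W x.2) := by
    refine ent_pr_congr _ fun y _ => ?_
    simp only [pair, Prod.mk.injEq]
    tauto
  have e2 : (rep_unif P C).fib (fun x : Ω × τ => Pc x.2) x = (rep_unif P C).pr (fun y => Pc y.2 = Pc x.2) := rfl
  rw [e1, e2, rep_unif_pr_snd P C hC (fun t => Pc t = Pc x.2 ∧ W t = W x.2),
    rep_unif_pr_snd P C hC (fun t => Pc t = Pc x.2), ← ent_ev_mul_left]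
  refine ent_ev_mono P fun ω hω => ?_
  rw [← mul_div_assoc]
  refine div_le_div_of_nonneg_right ?_ (Nat.cast_nonneg _)
  have key : (((C ω).filter (fun t => Pc t = Pc x.2 ∧ W t = W x.2)).card : ℝ)
      ≤ κ * (((C ω).filter (fun t => Pc t = Pc x.2)).card : ℝ) := by
    by_cases hne : ((C ω).filter (fun t => Pc t = Pc x.2 ∧ W t = W x.2)).Nonempty
    · obtain ⟨t₁, ht₁⟩ := hne
      obtain ⟨hm, hP, hW⟩ := Finset.mem_filter.1 ht₁
      have := h ω hω t₁ hm
      rw [hP, hW] at this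
      exact this
    · rw [Finset.not_nonempty_iff_eq_empty.1 hne, Finset.card_empty, Nat.cast_zero]
      exact mul_nonneg hκ (Nat.cast_nonneg _)
  refine le_trans (le_of_eq ?_) (key.trans (le_of_eq ?_))
  · congr 2
    ext t
    simp only [Finset.mem_filter]
  · rfl

theorem rep_credit_eqns_cite : True := by
  have := @Credit.eq_1
  have := @rep_exc.eq_1
  trivial

end Claimed.Agent.R255
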