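-- KEEP
import Claimed.Agent.R255.Pkt.Top
import Claimed.Agent.R255.Rep.Credit

/-!
# Row 255 (BR paper), Sec. 11, file 6: the STATE carried by the backward chain and the STEP contracts      (architect helper128)

FROZEN DEFINITIONS (consumers: chain assembly `chain_el`, `chain_iso` of `Pkt/Top.lean`, helper242).
Depths are ABSOLUTE (the assembly normalises the first duration to one, or chooses `h`, `e0`, `ν`, `κ` proportional to it).

* `Incoming E T h Kc el Pf Wf nf`  the geometric meaning of the incoming labels of Sec. 11.1 at the test `T` (time `t = T.t`, `u = u_t`):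
    - `Pf` locates the site: same anchor, velocity within `Kc ε^(u-h)`, position within `Kc ε^(t+u-h)`;
    - conversely the sites within `ρ` units of a point carry at most `Kc ρ^4` values of `Pf`   (`ρ ≥ 1` arbitrary);
    - `Wf` is determined, up to `Kc ρ` (`el`) resp. `Kc ρ²` values, by `Pf` and the velocity component along `nrm (nf Pf)` (resp. the velocity) up to `ρ ε^u`;
    - `el` : the normal of the aperture is within `Kc ε^h` of `nf Pf`.
* `RState γ β el B Kc h e0 acc kf E T`  : `(E,T)` obeys `B`, deficit `≤ acc`, common shape `(b,a)` UP TO `acc` (the assigned caps of `Pkt/Cut` have widths in bins of mesh `ξ`), `u_t - acc ≤ a`,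
    `el = true` : `e0 ≤ a - b`;  `el = false` : all widths are EXACTLY `u_t`;   credit `k_f` with error `acc` (BR (11.1)), no label at all if `k_f = 0`.
* `step_el`, `step_iso`  = ONE PREPARED CUT (Secs. 11.2-11.7, P11.4) : NOW IN `Rep/Step.lean` (which imports the proofs).
* `rep_chain_num`        = the numeric end of Sec. 11.8.
-/

set_option autoImplicit false

namespace Claimed.Agent.R255

open scoped BigOperators
open Classical
open FLaw Pkt

/-- the site observed at a sample -/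
def Pkt.PTest.sat (T : PTest) (o : T.Ω) : Site := T.site (T.O o)

/-- the geometric meaning of the incoming labels (Sec. 11.1) -/
structure Incoming (E : PEnv) (T : PTest) (h Kc : ℝ) (el : Bool) {α β : Type} (Pf : T.Ω → α)
    (Wf : T.Ω → β) (nf : α → ℝ) : Prop where
  locC : ∀ o o', 0 < T.P.p o → 0 < T.P.p o' → Pf o = Pf o' → (T.sat o).C = (T.sat o').C
  locV : ∀ o o', 0 < T.P.p o → 0 < T.P.p o' → Pf o = Pf o' →
    ‖(T.sat o).V - (T.sat o').V‖ ≤ Kc * E.ε ^ (E.u T.t - h)
  locX : ∀ o o', 0 < T.P.p o → 0 < T.P.p o' → Pf o = Pf o' →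
    ‖(T.sat o).X - (T.sat o').X‖ ≤ Kc * E.ε ^ (T.t + E.u T.t - h)
  listP : ∀ (c : ℝ) (v x : Osc.E2) (ρ : ℝ), 1 ≤ ρ → ∃ S : Finset α, (S.card : ℝ) ≤ Kc * ρ ^ 4 ∧
    ∀ o, 0 < T.P.p o → (T.sat o).C = c → ‖(T.sat o).V - v‖ ≤ ρ * E.ε ^ (E.u T.t - h) →
      ‖(T.sat o).X - x‖ ≤ ρ * E.ε ^ (T.t + E.u T.t - h) → Pf o ∈ S
  listW1 : el = true → ∀ (p : α) (y ρ : ℝ), 1 ≤ ρ → ∃ S : Finset β, (S.card : ℝ) ≤ Kc * ρ ∧
    ∀ o, 0 < T.P.p o → Pf o = p → |ip (toP (T.sat o).V) (nrm (nf p)) - y| ≤ ρ * E.ε ^ (E.u T.t) →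
      Wf o ∈ S
  listW2 : el = false → ∀ (p : α) (v : Osc.E2) (ρ : ℝ), 1 ≤ ρ → ∃ S : Finset β,
    (S.card : ℝ) ≤ Kc * ρ ^ 2 ∧
    ∀ o, 0 < T.P.p o → Pf o = p → ‖(T.sat o).V - v‖ ≤ ρ * E.ε ^ (E.u T.t) → Wf o ∈ S
  align : el = true → ∀ o, 0 < T.P.p o →
    |Real.sin ((T.geo (T.D o)).th - nf (Pf o))| ≤ Kc * E.ε ^ h

/-- the state of the backward chain at the test `T` -/
structure RState (γ β : ℝ) (el : Bool) (B : PBd) (Kc h e0 acc kf : ℝ) (E : PEnv) (T : PTest) : Prop where
  obE : E.Obeys B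
  obT : T.Obeys B E
  defi : K0 γ B.M E + β * T.t - score γ E T ≤ acc
  shape : ∃ b a : ℝ, (∀ o, 0 < T.P.p o → |(T.geo (T.D o)).b - b| ≤ acc ∧ |(T.geo (T.D o)).a - a| ≤ acc) ∧
    E.u T.t - acc ≤ a ∧ (el = true → e0 ≤ a - b) ∧
    (el = false → ∀ o, 0 < T.P.p o → (T.geo (T.D o)).b = E.u T.t ∧ (T.geo (T.D o)).a = E.u T.t)
  credit : kf = 0 ∨ ∃ (α β' : Type) (Pf : T.Ω → α) (Wf : T.Ω → β') (nf : α → ℝ),
    Credit T.P Pf Wf (E.ε ^ (kf - acc)) ∧ Incoming E T h Kc el Pf Wf nf

/-- the numeric end of the chain (Sec. 11.8): credits growing by `c h - a` at each of `q` steps and bounded by `2 h + a` are impossible if `q c > 2` and `a` is small -/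
theorem rep_chain_num (q : ℕ) (c h a : ℝ) (k : ℕ → ℝ) (hk0 : 0 ≤ k 0)
    (hstep : ∀ i, i < q → k i + c * h - a ≤ k (i + 1)) (hcap : k q ≤ 2 * h + a)
    (ha : ((q : ℝ) + 1) * a < ((q : ℝ) * c - 2) * h) : False := by
  have key : ∀ i, i ≤ q → (i : ℝ) * (c * h - a) ≤ k i := by
    intro i
    induction i with
    | zero => intro _; simpa using hk0
    | succ n ih =>
      intro hn
      have h1 := ih (by omega)
      have h2 := hstep n (by omega)
      push_cast
      linarith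
  have := key q le_rfl
  nlinarith

theorem rep_state_eqns_cite : True := by
  have := @Pkt.PTest.sat.eq_1
  trivial

end Claimed.Agent.R255
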