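-- KEEP
import Claimed.Agent.R255.Pk.An
import Claimed.Agent.R255.Coh.Main

/-!
# Row 255 (BR paper), Sec. 11, stage S3 MASS: winner, candidate truncation, aggregate and coherent mass bounds ON CUT DATA      (architects helper171 + helper18; prefix `rm_`)

LABEL-AGNOSTIC: everything is stated for arbitrary subsets `S`, `Cand : At.𝔸 → Prop` of the atoms of one localizer and arbitrary bins.  `a_s(g) = pairing λ ρ_t Φ g s`.
* (M1) `rm_winner`      (9.packet-winner-mass), (11.repayment-winner-floor), (11.repayment-original-winning)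
* (M2) `rm_cand`, `rm_cand_mass`   (11.repayment-winning-candidate-tail), (11.repayment-winning-candidate)
* (M3) `rm_agg`         first inequality of (11.finite-coherence); the collapse of L11.3
* (M4) `rm_coh1`, `rm_coh2`   second inequality of (11.finite-coherence), `d = 1, 2`   (no factor `ε^{-2θ}`)
Sources: `Pk/An.lean` (`an_transport`, `an_coef_bessel`), `Pk/Loc.lean` (`pk_sup_memLp`, `pk_sup_nrm2`), `Pk/Bridge.lean` (`pk_site_bessel`), `Coh/Main.lean` (`coh_site_one`, `coh_site_two`).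
-/

set_option autoImplicit false

namespace Claimed.Agent.R255

open MeasureTheory Metric Set Osc Pkt
open scoped BigOperators InnerProductSpace
open Classical

/-- an endpoint site admissible for the package `B` -/
structure SiteOK (B : PBd) (s : Site) : Prop where
  amp : AmpC B.Ra B.K.Bb s.ψ
  c0 : 0 ≤ s.C
  c1 : s.C < 1
  vel : ‖s.V‖ ≤ B.K.Rv
  pos : ‖s.X‖ ≤ B.K.Rx

theorem rm_siteOK {B : PBd} {E : PEnv} {T : PTest} (hT : T.Obeys B E) (i : T.ι) (hi : T.act i) :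
    SiteOK B (T.site i) :=
  ⟨hT.amp i hi, (hT.time i hi).1, (hT.time i hi).2, hT.vel i hi, hT.pos i hi⟩

theorem rm_nrm2_nonneg (E : PEnv) : 0 ≤ E.nrm2 := integral_nonneg fun _ => by positivity

/-- square root of a mass floor -/
theorem rm_floor_sqrt {ε A0 N x : ℝ} (hε : 0 < ε) (hN : 0 ≤ N) (hx : 0 ≤ x) (h : ε ^ A0 * N ≤ x ^ 2) :
    ε ^ (A0 / 2) * Real.sqrt N ≤ x := by
  have h1 : (ε ^ (A0 / 2) * Real.sqrt N) ^ 2 = ε ^ A0 * N := by
    rw [mul_pow, Real.sq_sqrt hN, ← Real.rpow_natCast, ← Real.rpow_mul hε.le]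
    congr 2
    push_cast
    ring
  have h0 : 0 ≤ ε ^ (A0 / 2) * Real.sqrt N := by positivity
  exact (pow_le_pow_iff_left₀ h0 hx two_ne_zero).1 (h1 ▸ h)

/-- a tail `ε^A √N` against a floor -/
theorem rm_tail_le {ε A A0 N x q : ℝ} (hε : 0 < ε) (hN : 0 ≤ N) (hx : 0 ≤ x) (h : ε ^ A0 * N ≤ x ^ 2)
    (hq : ε ^ (A - A0 / 2) ≤ q) : ε ^ A * Real.sqrt N ≤ q * x := by
  have h1 := rm_floor_sqrt hε hN hx h
  have e : ε ^ A = ε ^ (A - A0 / 2) * ε ^ (A0 / 2) := by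
    rw [← Real.rpow_add hε]
    congr 1
    ring
  have hq0 : 0 ≤ q := le_trans (by positivity) hq
  calc ε ^ A * Real.sqrt N = ε ^ (A - A0 / 2) * (ε ^ (A0 / 2) * Real.sqrt N) := by rw [e]; ring
    _ ≤ q * x := mul_le_mul hq h1 (by positivity) hq0

variable {E : PEnv} {B : PBd} {t r bs : ℝ} {p : Atoms.Par} {At : Atoms}

/-- the time anchor of the localizer of an admissible site -/
theorem rm_loc0_Cr (hε : 0 < E.ε) (s : Site) (h0 : 0 ≤ s.C) (h1 : s.C < 1) :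
    0 ≤ (loc0 E.ε r bs s).Cr E.ε r ∧ (loc0 E.ε r bs s).Cr E.ε r ≤ 1 := by
  have hr : 0 < E.ε ^ r := Real.rpow_pos_of_pos hε r
  have e : (loc0 E.ε r bs s).Cr E.ε r = E.ε ^ r * (⌊s.C / E.ε ^ r⌋ : ℝ) := rfl
  rw [e]
  constructor
  · have : (0 : ℤ) ≤ ⌊s.C / E.ε ^ r⌋ := Int.floor_nonneg.2 (div_nonneg h0 hr.le)
    have h2 : (0 : ℝ) ≤ (⌊s.C / E.ε ^ r⌋ : ℝ) := by exact_mod_cast this
    positivity
  · have h2 : (⌊s.C / E.ε ^ r⌋ : ℝ) ≤ s.C / E.ε ^ r := Int.floor_le _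
    calc E.ε ^ r * (⌊s.C / E.ε ^ r⌋ : ℝ) ≤ E.ε ^ r * (s.C / E.ε ^ r) := mul_le_mul_of_nonneg_left h2 hr.le
      _ = s.C := by field_simp
      _ ≤ 1 := h1.le

/-- the pairing of a superposition of atoms -/
theorem rm_pair_sup (hE : E.Obeys B) (hG : At.Good E B t r bs p) (S : At.𝔸 → Prop)
    (hC : ∀ T, S T → 0 ≤ (At.asite T).C) (s : Site) (hs0 : 0 ≤ s.C) (hs : AmpC B.Ra B.K.Bb s.ψ) (t' : ℝ) :
    pairing E.lam (E.rho t') E.Φ (At.sup E r S) s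
      = ∑ T ∈ Finset.univ.filter S,
          At.coef E r T * pairing E.lam (E.rho t') E.Φ (atom E.lam (E.rho r) E.Φ (At.asite T)) s := by
  rw [an_sup_eq]
  exact pk_pairing_sum hE.phase E.lam (E.rho r) (Real.rpow_pos_of_pos hE.ε0 _) _ At.asite
    (fun T hT => hC T (Finset.mem_filter.1 hT).2) (fun T _ => (pk_ampC_iff _ _ _).1 (hG.amp T) 0) s hs0
    ((pk_ampC_iff _ _ _).1 hs 0) (At.coef E r)

/-- **(M1) WINNER, amplitude form.**  `S = S0 · #τ` subclasses at a localizer. -/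
theorem rm_winner_amp (γ ξ : ℝ) (S0 : ℕ) (Cl : Classes At) {τ : Type} [Fintype τ] (tag : At.𝔸 → τ) {ι : Type}
    (site : ι → Site) (win : ι → ℕ × τ) (hE : E.Obeys B) (hG : At.Good E B t r bs p)
    (hCl : Cl.Good γ E r bs ξ S0) (hw : Cl.IsWin E t r bs tag site win) (A0 : ℝ)
    (hq : E.ε ^ (p.A - A0 / 2) ≤ 1 / 2) (i : ι) (hs : SiteOK B (site i))
    (hfl : E.ε ^ A0 * E.nrm2 ≤ E.m t (site i)) :
    ‖pairing E.lam (E.rho t) E.Φ E.f (site i)‖ ≤ 2 * ((S0 : ℝ) * Fintype.card τ) *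
      ‖pairing E.lam (E.rho t) E.Φ (Cl.hJ E r tag (Classes.Jof E r bs site win i)) (site i)‖ := by
  set s := site i with hsdef
  set j0 := loc0 E.ε r bs s with hj0
  set W := ‖pairing E.lam (E.rho t) E.Φ (Cl.hJ E r tag (Classes.Jof E r bs site win i)) s‖ with hW
  have hCr := rm_loc0_Cr (r := r) (bs := bs) hE.ε0 s hs.c0 hs.c1
  have hC0 : ∀ T, At.loc T = j0 → 0 ≤ (At.asite T).C := fun T hT => by
    rw [hG.time T, hT]
    exact hCr.1
  have h1 := hG.trunc s hs.amp hs.c0 hs.c1 hs.vel hs.pos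
  -- the localized superposition splits into subclasses
  have h2 : pairing E.lam (E.rho t) E.Φ (At.sup E r (fun T => At.loc T = j0)) s
      = ∑ x ∈ Finset.range S0 ×ˢ (Finset.univ : Finset τ),
          pairing E.lam (E.rho t) E.Φ (Cl.hJ E r tag (j0, x.1, x.2)) s := by
    rw [rm_pair_sup hE hG _ hC0 s hs.c0 hs.amp t,
      ← Finset.sum_fiberwise_of_maps_to (t := Finset.range S0 ×ˢ (Finset.univ : Finset τ))
        (g := fun T => (Cl.cls T, tag T))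
        (fun T _ => Finset.mem_product.2 ⟨Finset.mem_range.2 (hCl.ncls T), Finset.mem_univ _⟩)]
    refine Finset.sum_congr rfl fun x _ => ?_
    unfold Classes.hJ
    rw [rm_pair_sup hE hG _ (fun T hT => hC0 T (congrArg Prod.fst hT)) s hs.c0 hs.amp t, Finset.filter_filter]
    refine Finset.sum_congr ?_ fun _ _ => rfl
    ext T
    simp only [Finset.mem_filter, Finset.mem_univ, true_and]
    unfold Classes.lab
    constructor
    · rintro ⟨a, b⟩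
      rw [a, b]
    · intro a
      exact ⟨congrArg Prod.fst a, congrArg Prod.snd a⟩
  have h3 : ‖pairing E.lam (E.rho t) E.Φ (At.sup E r (fun T => At.loc T = j0)) s‖
      ≤ ((S0 : ℝ) * Fintype.card τ) * W := by
    rw [h2]
    refine (norm_sum_le _ _).trans ?_
    refine (Finset.sum_le_card_nsmul _ _ W fun x _ => hw i x.1 x.2).trans (le_of_eq ?_)
    rw [nsmul_eq_mul, Finset.card_product, Finset.card_range, Finset.card_univ]
    push_cast
    ring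
  have h4 : E.ε ^ p.A * Real.sqrt E.nrm2 ≤ 1 / 2 * ‖pairing E.lam (E.rho t) E.Φ E.f s‖ :=
    rm_tail_le hE.ε0 (rm_nrm2_nonneg E) (norm_nonneg _) hfl hq
  have h5 : ‖pairing E.lam (E.rho t) E.Φ E.f s‖
      ≤ ‖pairing E.lam (E.rho t) E.Φ (At.sup E r (fun T => At.loc T = j0)) s‖
        + ‖pairing E.lam (E.rho t) E.Φ E.f s - pairing E.lam (E.rho t) E.Φ (At.sup E r (fun T => At.loc T = j0)) s‖ := by
    calc ‖pairing E.lam (E.rho t) E.Φ E.f s‖
        = ‖pairing E.lam (E.rho t) E.Φ (At.sup E r (fun T => At.loc T = j0)) s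
          + (pairing E.lam (E.rho t) E.Φ E.f s - pairing E.lam (E.rho t) E.Φ (At.sup E r (fun T => At.loc T = j0)) s)‖ := by
          rw [add_sub_cancel]
      _ ≤ _ := norm_add_le _ _
  linarith

/-- **(M1) WINNER, mass form** -/
theorem rm_winner (γ ξ : ℝ) (S0 : ℕ) (Cl : Classes At) {τ : Type} [Fintype τ] (tag : At.𝔸 → τ) {ι : Type}
    (site : ι → Site) (win : ι → ℕ × τ) (hE : E.Obeys B) (hG : At.Good E B t r bs p)
    (hCl : Cl.Good γ E r bs ξ S0) (hw : Cl.IsWin E t r bs tag site win) (A0 : ℝ)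
    (hq : E.ε ^ (p.A - A0 / 2) ≤ 1 / 2) (i : ι) (hs : SiteOK B (site i))
    (hfl : E.ε ^ A0 * E.nrm2 ≤ E.m t (site i)) :
    E.m t (site i) ≤ 4 * ((S0 : ℝ) * Fintype.card τ) ^ 2 *
      mass E.lam (E.rho t) E.Φ (Cl.hJ E r tag (Classes.Jof E r bs site win i)) (site i) := by
  have h := rm_winner_amp γ ξ S0 Cl tag site win hE hG hCl hw A0 hq i hs hfl
  have h2 := pow_le_pow_left₀ (norm_nonneg _) h 2
  unfold PEnv.m mass
  calc _ ≤ _ := h2
    _ = _ := by ring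

/-- **(M2) CANDIDATE TRUNCATION.**  `S` = any set of atoms of the localizer of `s` (e.g. the winning subclass), `Cand ⊆ S` contains all the atoms of `S` near the back-transported site. -/
theorem rm_cand (B : PBd) (hB : B.Good) (Ra : ℝ) (Bb : ℕ → ℝ) (Mu : ℕ) (Ca η Atr : ℝ) (hη : 0 < η) (hA : 0 < Atr) :
    ∃ ε₀ : ℝ, 0 < ε₀ ∧ ∀ (E : PEnv) (t r bs : ℝ) (p : Atoms.Par) (At : Atoms), p.Ra = Ra → p.Bb = Bb → p.Mu = Mu →
      p.Ca = Ca → E.Obeys B → E.ε < ε₀ → 0 ≤ r → r ≤ t → 0 ≤ bs → bs ≤ E.u t → At.Good E B t r bs p →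
      ∀ s : Site, AmpC B.Ra B.K.Bb s.ψ → 0 ≤ s.C → s.C < 1 → ∀ S Cand : At.𝔸 → Prop,
      (∀ T, S T → At.loc T = loc0 E.ε r bs s) → (∀ T, Cand T → S T) →
      (∀ T, S T → AnNear E t r η (B.Ra + Ra) s (At.asite T) → Cand T) →
      ‖pairing E.lam (E.rho t) E.Φ (At.sup E r S) s - pairing E.lam (E.rho t) E.Φ (At.sup E r Cand) s‖
        ≤ 2 * (E.ε ^ Atr * Real.sqrt E.nrm2) := by
  obtain ⟨ε₀, h0, h⟩ := an_transport B hB Ra Bb Mu Ca η Atr hη hA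
  refine ⟨ε₀, h0, ?_⟩
  intro E t r bs p At hRa hBb hMu hCa hE hε hr hrt hbs hbt hG s hs hs0 hs1 S Cand hS hCS hN
  have a1 := h E t r bs p At hRa hBb hMu hCa hE hε hr hrt hbs hbt hG s hs hs0 hs1 S
  have a2 := h E t r bs p At hRa hBb hMu hCa hE hε hr hrt hbs hbt hG s hs hs0 hs1 Cand
  have eS : (fun T => S T ∧ At.loc T = loc0 E.ε r bs s) = S :=
    funext fun T => propext ⟨And.left, fun h => ⟨h, hS T h⟩⟩
  have eC : (fun T => Cand T ∧ At.loc T = loc0 E.ε r bs s) = Cand :=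
    funext fun T => propext ⟨And.left, fun h => ⟨h, hS T (hCS T h)⟩⟩
  have eN : (fun T => S T ∧ At.loc T = loc0 E.ε r bs s ∧ AnNear E t r η (B.Ra + Ra) s (At.asite T))
      = (fun T => Cand T ∧ At.loc T = loc0 E.ε r bs s ∧ AnNear E t r η (B.Ra + Ra) s (At.asite T)) :=
    funext fun T => propext ⟨fun h => ⟨hN T h.1 h.2.2, h.2⟩, fun h => ⟨hCS T h.1, h.2⟩⟩
  rw [eS, eN] at a1
  rw [eC] at a2
  have a3 := norm_sub_le_norm_sub_add_norm_sub (pairing E.lam (E.rho t) E.Φ (At.sup E r S) s)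
    (pairing E.lam (E.rho t) E.Φ (At.sup E r
      (fun T => Cand T ∧ At.loc T = loc0 E.ε r bs s ∧ AnNear E t r η (B.Ra + Ra) s (At.asite T))) s)
    (pairing E.lam (E.rho t) E.Φ (At.sup E r Cand) s)
  rw [norm_sub_rev] at a2
  linarith

/-- comparison of two masses from a floor on the first amplitude -/
theorem rm_mass_of_close {a b : ℂ} {δ : ℝ} (h : ‖a - b‖ ≤ δ) (hfl : 2 * δ ≤ ‖a‖) : ‖a‖ ^ 2 ≤ 4 * ‖b‖ ^ 2 := by
  have h1 : ‖a‖ ≤ ‖b‖ + ‖a - b‖ := by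
    calc ‖a‖ = ‖b + (a - b)‖ := by rw [add_sub_cancel]
      _ ≤ _ := norm_add_le _ _
  have h2 : ‖a‖ ≤ 2 * ‖b‖ := by linarith
  calc ‖a‖ ^ 2 ≤ (2 * ‖b‖) ^ 2 := pow_le_pow_left₀ (norm_nonneg _) h2 2
    _ = 4 * ‖b‖ ^ 2 := by ring

/-- a test with an active site has `t ≤ H` -/
theorem rm_test_H {T : PTest} (hT : T.Obeys B E) (i : T.ι) (hi : T.act i) : T.t ≤ E.H := by
  obtain ⟨o, ho, -⟩ := hi
  have hg := hT.geo o ho
  have hu : 0 ≤ E.u T.t := hg.1.trans (hg.2.1.trans hg.2.2.2.1)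
  have : 0 ≤ (E.H - T.t) / 2 := hu
  linarith

/-- multiplicity of a set of active sites at one anchor -/
theorem rm_test_mult {T : PTest} (hE : E.Obeys B) (hT : T.Obeys B E) (c : ℝ) (sO : Finset T.ι)
    (h : ∀ i ∈ sO, T.act i ∧ (T.site i).C = c) :
    CohMult sO T.site (E.rho T.t) (E.lam * E.rho T.t)⁻¹ B.Mu := by
  obtain ⟨-, -, s3, -⟩ := an_scales E hE.ε0 hE.ε1 T.t
  intro i hi t' ht' hnear
  refine le_trans (Finset.card_le_card fun j hj => ?_) (hT.multS i (h i hi).1)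
  have hj' := h j (ht' hj)
  have hn' := hnear j hj
  rw [s3] at hn'
  exact Finset.mem_filter.2 ⟨Finset.mem_univ _, hj'.1, hj'.2.trans (h i hi).2.symm, hn'.1, hn'.2⟩

/-- multiplicity of a set of atoms of one localizer -/
theorem rm_atom_mult (hE : E.Obeys B) (hG : At.Good E B t r bs p) (j : Loc0) (Cand : At.𝔸 → Prop)
    (hC : ∀ A, Cand A → At.loc A = j) :
    CohMult (Finset.univ.filter Cand) At.asite (E.rho r) (E.lam * E.rho r)⁻¹ p.Mu := by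
  obtain ⟨-, -, s3, -⟩ := an_scales E hE.ε0 hE.ε1 r
  intro T hT t' ht' hnear
  refine le_trans (Finset.card_le_card fun T' hT' => ?_) (hG.mult T)
  have h1 := hC T' (Finset.mem_filter.1 (ht' hT')).2
  have hn' := hnear T' hT'
  rw [s3] at hn'
  exact Finset.mem_filter.2 ⟨Finset.mem_univ _, h1.trans (hC T (Finset.mem_filter.1 hT).2).symm, hn'.1, hn'.2⟩

/-- `ρ_r / ρ_t = ε^((t - r)/2)` and `ρ_r ≤ ρ_t` for `r ≤ t` -/
theorem rm_rho_ratio (hε : 0 < E.ε) (hε1 : E.ε < 1) (t r : ℝ) :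
    E.rho r / E.rho t = E.ε ^ ((t - r) / 2) ∧ (r ≤ t → E.rho r ≤ E.rho t) := by
  constructor
  · unfold PEnv.rho PEnv.u
    rw [← Real.rpow_sub hε]
    congr 1
    ring
  · intro h
    unfold PEnv.rho PEnv.u
    exact Real.rpow_le_rpow_of_exponent_ge hε hε1.le (by linarith)

/-- **(M3) AGGREGATE BOUND**: active sites of a test at ONE time anchor, input = any superposition of atoms of one localizer. -/
theorem rm_agg (B : PBd) (hB : B.Good) (Ra : ℝ) (Bb : ℕ → ℝ) : ∃ C : ℝ, 0 ≤ C ∧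
    ∀ (E : PEnv) (T : PTest) (r bs : ℝ) (p : Atoms.Par) (At : Atoms), p.Ra = Ra → p.Bb = Bb → E.Obeys B → T.Obeys B E →
      At.Good E B T.t r bs p → r ≤ E.H → ∀ j : Loc0, 0 ≤ j.Cr E.ε r → j.Cr E.ε r ≤ 1 →
      ∀ Cand : At.𝔸 → Prop, (∀ A, Cand A → At.loc A = j) → ∀ (c : ℝ) (sO : Finset T.ι),
      (∀ i ∈ sO, T.act i ∧ (T.site i).C = c) →
      ∑ i ∈ sO, mass E.lam (E.rho T.t) E.Φ (At.sup E r Cand) (T.site i)
        ≤ C * B.Mu * p.Mu * ∑ A, if Cand A then ‖At.coef E r A‖ ^ 2 else 0 := by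
  obtain ⟨C1, hC1, h1⟩ := pk_site_bessel B.K hB.a0 B.Ra B.K.Bb
  obtain ⟨C2, hC2, h2⟩ := pk_sup_nrm2 B.K hB.a0 Ra Bb
  refine ⟨C1 * C2, by positivity, ?_⟩
  intro E T r bs p At hRa hBb hE hT hG hr j hj0 hj1 Cand hCand c sO hsO
  have hS0 : 0 ≤ ∑ A, if Cand A then ‖At.coef E r A‖ ^ 2 else 0 :=
    Finset.sum_nonneg fun A _ => by split_ifs <;> positivity
  rcases sO.eq_empty_or_nonempty with he | ⟨i₀, hi₀⟩
  · rw [he, Finset.sum_empty]
    positivity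
  obtain ⟨s1, s2, s3, s4⟩ := an_scales E hE.ε0 hE.ε1 T.t
  have hc := hT.time i₀ (hsO i₀ hi₀).1
  rw [(hsO i₀ hi₀).2] at hc
  have hC0 : ∀ A, Cand A → 0 ≤ (At.asite A).C := fun A hA => by
    rw [hG.time A, hCand A hA]
    exact hj0
  have a1 := h1 E.Φ E.ζ hE.phase E.lam (E.rho T.t) c s1 s2 (s4 (rm_test_H hT i₀ (hsO i₀ hi₀).1)) hc.1 hc.2.le T.ι sO
    T.site B.Mu (fun i hi => (hsO i hi).2) (fun i hi => (pk_ampC_iff _ _ _).1 (hT.amp i (hsO i hi).1) 3)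
    (rm_test_mult hE hT c sO hsO) (At.sup E r Cand) (pk_sup_memLp hE hG Cand hC0)
  have a2 := h2 E B T.t r bs p At rfl hRa hBb hE hG hr j hj0 hj1 Cand hCand
  calc _ ≤ C1 * B.Mu * ∫ v, ‖At.sup E r Cand v‖ ^ 2 := a1
    _ ≤ C1 * B.Mu * (C2 * p.Mu * ∑ A, if Cand A then ‖At.coef E r A‖ ^ 2 else 0) :=
        mul_le_mul_of_nonneg_left a2 (by positivity)
    _ = _ := by ring

/-- the coefficient square sum of a subset of one class -/
theorem rm_coef_sum (γ ξ : ℝ) (S0 : ℕ) (Cl : Classes At) (hCl : Cl.Good γ E r bs ξ S0) (j : Loc0) (k : ℕ)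
    (Cand : At.𝔸 → Prop) (hC : ∀ A, Cand A → At.loc A = j ∧ Cl.cls A = k) :
    (∑ A, if Cand A then ‖At.coef E r A‖ ^ 2 else 0)
      ≤ ((Finset.univ.filter Cand).card : ℝ) * (Cl.mB j k * E.ε ^ (-ξ)) := by
  rw [← Finset.sum_filter]
  refine (Finset.sum_le_card_nsmul _ _ (Cl.mB j k * E.ε ^ (-ξ)) fun A hA => ?_).trans (le_of_eq ?_)
  · obtain ⟨h1, h2⟩ := hC A (Finset.mem_filter.1 hA).2
    have := hCl.massHi A
    rwa [h1, h2] at this
  · rw [nsmul_eq_mul]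

/-- **(M4) COHERENCE, `d = 2`**: ONE admissible site, velocity bins = balls of radius `ρ_r`. -/
theorem rm_coh2 (B : PBd) (hB : B.Good) (Ra : ℝ) (Bb : ℕ → ℝ) : ∃ C : ℝ, 0 ≤ C ∧
    ∀ (E : PEnv) (t r bs : ℝ) (p : Atoms.Par) (At : Atoms), p.Ra = Ra → p.Bb = Bb → E.Obeys B → At.Good E B t r bs p →
      r ≤ t → t ≤ E.H → ∀ j : Loc0, 0 ≤ j.Cr E.ε r → j.Cr E.ε r ≤ 1 →
      ∀ Cand : At.𝔸 → Prop, (∀ A, Cand A → At.loc A = j) → ∀ s : Site, SiteOK B s →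
      ∀ (Bn : Type) (β : At.𝔸 → Bn) (Vb : Bn → E2), (∀ A, Cand A → ‖(At.asite A).V - Vb (β A)‖ ≤ E.rho r) →
      mass E.lam (E.rho t) E.Φ (At.sup E r Cand) s
        ≤ C * p.Mu * ((Finset.univ.filter Cand).image β).card * E.ε ^ (t - r)
          * ∑ A, if Cand A then ‖At.coef E r A‖ ^ 2 else 0 := by
  obtain ⟨C, hC, h⟩ := coh_site_two B.K hB.a0 B.Ra Ra B.K.Bb Bb
  refine ⟨C, hC, ?_⟩
  intro E t r bs p At hRa hBb hE hG hrt htH j hj0 hj1 Cand hCand s hs Bn β Vb hVb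
  obtain ⟨s1, -, -, s4⟩ := an_scales E hE.ε0 hE.ε1 t
  obtain ⟨-, s2', -, -⟩ := an_scales E hE.ε0 hE.ε1 r
  obtain ⟨e1, e2⟩ := rm_rho_ratio (E := E) hE.ε0 hE.ε1 t r
  have a1 := h E.Φ E.ζ hE.phase E.lam (E.rho t) (E.rho r) (j.Cr E.ε r) s1 s2' (e2 hrt) (s4 htH) hj0 hj1 s hs.c0 hs.c1.le
    ((pk_ampC_iff _ _ _).1 hs.amp 0) At.𝔸 (Finset.univ.filter Cand) At.asite p.Mu
    (fun A hA => by rw [hG.time A, hCand A (Finset.mem_filter.1 hA).2])
    (fun A _ => by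
      have := (pk_ampC_iff _ _ _).1 (hG.amp A) 3
      rwa [hRa, hBb] at this)
    (rm_atom_mult hE hG j Cand hCand) Bn β Vb (fun A hA => hVb A (Finset.mem_filter.1 hA).2) (At.coef E r)
  rw [← an_sup_eq, e1, Finset.sum_filter] at a1
  have e3 : (E.ε ^ ((t - r) / 2)) ^ 2 = E.ε ^ (t - r) := by
    rw [← Real.rpow_natCast, ← Real.rpow_mul hE.ε0.le]
    congr 1
    push_cast
    ring
  rw [e3] at a1
  exact a1

/-- the frame of angle `th` in `E2` -/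
noncomputable def rmTan (th : ℝ) : E2 := !₂[Real.cos th, Real.sin th]
/-- the normal of the frame of angle `th` in `E2` -/
noncomputable def rmNrm (th : ℝ) : E2 := !₂[-Real.sin th, Real.cos th]

theorem rm_inner_nrm (x : E2) (th : ℝ) : ⟪x, rmNrm th⟫_ℝ = ip (toP x) (nrm th) := by
  unfold rmNrm ip toP nrm
  simp [PiLp.inner_apply, Fin.sum_univ_two]
  ring

theorem rm_frame (th : ℝ) : CohFrame (rmTan th) (rmNrm th) := by
  refine ⟨?_, ?_, ?_⟩
  · unfold rmTan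
    rw [EuclideanSpace.norm_eq, Fin.sum_univ_two]
    simp
  · unfold rmNrm
    rw [EuclideanSpace.norm_eq, Fin.sum_univ_two]
    simp [add_comm]
  · unfold rmTan rmNrm
    simp [PiLp.inner_apply, Fin.sum_univ_two]
    ring

/-- **(M4) COHERENCE, `d = 1`**: active sites of a test at one anchor with positions in a strip of normal width `C₁ σ_t`; velocity bins = intervals of half length `ρ_r` along the normal `nrm th`. -/
theorem rm_coh1 (B : PBd) (hB : B.Good) (Ra C₁ : ℝ) (Bb : ℕ → ℝ) : ∃ C : ℝ, 0 ≤ C ∧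
    ∀ (E : PEnv) (T : PTest) (r bs : ℝ) (p : Atoms.Par) (At : Atoms), p.Ra = Ra → p.Bb = Bb → E.Obeys B → T.Obeys B E →
      At.Good E B T.t r bs p → r ≤ T.t → ∀ j : Loc0, 0 ≤ j.Cr E.ε r → j.Cr E.ε r ≤ 1 →
      ∀ Cand : At.𝔸 → Prop, (∀ A, Cand A → At.loc A = j) → ∀ (c : ℝ) (sO : Finset T.ι),
      (∀ i ∈ sO, T.act i ∧ (T.site i).C = c) → ∀ (th y₀ : ℝ),
      (∀ i ∈ sO, |ip (toP (T.site i).X) (nrm th) - y₀| ≤ C₁ * E.sig T.t) →
      ∀ (Bn : Type) (β : At.𝔸 → Bn) (yb : Bn → ℝ),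
      (∀ A, Cand A → |ip (toP (At.asite A).V) (nrm th) - yb (β A)| ≤ E.rho r) →
      ∑ i ∈ sO, mass E.lam (E.rho T.t) E.Φ (At.sup E r Cand) (T.site i)
        ≤ C * B.Mu * p.Mu * ((Finset.univ.filter Cand).image β).card * E.ε ^ ((T.t - r) / 2)
          * ∑ A, if Cand A then ‖At.coef E r A‖ ^ 2 else 0 := by
  obtain ⟨C, hC, h⟩ := coh_site_one B.K hB.a0 B.Ra Ra C₁ B.K.Bb Bb
  refine ⟨C, hC, ?_⟩
  intro E T r bs p At hRa hBb hE hT hG hrt j hj0 hj1 Cand hCand c sO hsO th y₀ hX Bn β yb hyb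
  have hS0 : 0 ≤ ∑ A, if Cand A then ‖At.coef E r A‖ ^ 2 else 0 :=
    Finset.sum_nonneg fun A _ => by split_ifs <;> positivity
  have hε := hE.ε0
  rcases sO.eq_empty_or_nonempty with he | ⟨i₀, hi₀⟩
  · rw [he, Finset.sum_empty]
    positivity
  obtain ⟨s1, s2, -, s4⟩ := an_scales E hE.ε0 hE.ε1 T.t
  obtain ⟨-, s2', -, -⟩ := an_scales E hE.ε0 hE.ε1 r
  obtain ⟨e1, e2⟩ := rm_rho_ratio (E := E) hE.ε0 hE.ε1 T.t r
  have hc := hT.time i₀ (hsO i₀ hi₀).1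
  rw [(hsO i₀ hi₀).2] at hc
  have hsc := (pk_env_scales E hE.ε0 T.t).1
  have a1 := h E.Φ E.ζ hE.phase E.lam (E.rho T.t) (E.rho r) c (j.Cr E.ε r) s1 s2' (e2 hrt)
    (s4 (rm_test_H hT i₀ (hsO i₀ hi₀).1)) hc.1 hc.2.le hj0 hj1 T.ι sO T.site B.Mu (fun i hi => (hsO i hi).2)
    (fun i hi => (pk_ampC_iff _ _ _).1 (hT.amp i (hsO i hi).1) 3) (rm_test_mult hE hT c sO hsO)
    At.𝔸 (Finset.univ.filter Cand) At.asite p.Mu
    (fun A hA => by rw [hG.time A, hCand A (Finset.mem_filter.1 hA).2])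
    (fun A _ => by
      have := (pk_ampC_iff _ _ _).1 (hG.amp A) 3
      rwa [hRa, hBb] at this)
    (rm_atom_mult hE hG j Cand hCand) (rmTan th) (rmNrm th) (y₀ • rmNrm th) (rm_frame th)
    (fun i hi => by
      have e : ⟪(T.site i).X - y₀ • rmNrm th, rmNrm th⟫_ℝ = ip (toP (T.site i).X) (nrm th) - y₀ := by
        rw [inner_sub_left, inner_smul_left, real_inner_self_eq_norm_sq, (rm_frame th).n1, rm_inner_nrm]
        simp
      rw [e]
      calc E.lam * E.rho T.t * |ip (toP (T.site i).X) (nrm th) - y₀|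
          ≤ E.lam * E.rho T.t * (C₁ * E.sig T.t) := mul_le_mul_of_nonneg_left (hX i hi) (by positivity)
        _ = C₁ * (E.lam * E.rho T.t * E.sig T.t) := by ring
        _ = C₁ := by rw [hsc, mul_one])
    Bn β yb (fun A hA => by
      rw [rm_inner_nrm]
      exact hyb A (Finset.mem_filter.1 hA).2) (At.coef E r)
  rw [← an_sup_eq, e1, Finset.sum_filter] at a1
  exact a1

/-- **(M5) WINNER → CANDIDATE, pointwise**   (11.repayment-winning-candidate): at a floor site the winning mass and the original mass are controlled by the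
candidate-truncated mass, which is positive; the candidate set is not empty. -/
theorem rm_win_cand (B : PBd) (hB : B.Good) (Ra : ℝ) (Bb : ℕ → ℝ) (Mu : ℕ) (Ca η Atr : ℝ) (hη : 0 < η) (hA : 0 < Atr) :
    ∃ ε₀ : ℝ, 0 < ε₀ ∧ ∀ (E : PEnv) (t r bs : ℝ) (p : Atoms.Par) (At : Atoms), p.Ra = Ra → p.Bb = Bb → p.Mu = Mu →
      p.Ca = Ca → E.Obeys B → E.ε < ε₀ → 0 ≤ r → r ≤ t → 0 ≤ bs → bs ≤ E.u t → At.Good E B t r bs p →
      ∀ (γ ξ : ℝ) (S0 : ℕ) (Cl : Classes At) (τ : Type) [Fintype τ] (tag : At.𝔸 → τ) (ι : Type) (site : ι → Site)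
        (win : ι → ℕ × τ), Cl.Good γ E r bs ξ S0 → Cl.IsWin E t r bs tag site win →
      ∀ A0 : ℝ, E.ε ^ (p.A - A0 / 2) ≤ 1 / 2 → 8 * ((S0 : ℝ) * Fintype.card τ) * E.ε ^ (Atr - A0 / 2) ≤ 1 →
      ∀ i, SiteOK B (site i) → E.ε ^ A0 * E.nrm2 ≤ E.m t (site i) → 0 < E.m t (site i) →
      ∀ Cand : At.𝔸 → Prop, (∀ A, Cand A → Cl.lab tag A = Classes.Jof E r bs site win i) →
      (∀ A, Cl.lab tag A = Classes.Jof E r bs site win i → AnNear E t r η (B.Ra + Ra) (site i) (At.asite A) → Cand A) →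
      mass E.lam (E.rho t) E.Φ (Cl.hJ E r tag (Classes.Jof E r bs site win i)) (site i)
          ≤ 4 * mass E.lam (E.rho t) E.Φ (At.sup E r Cand) (site i) ∧
        E.m t (site i) ≤ 16 * ((S0 : ℝ) * Fintype.card τ) ^ 2 * mass E.lam (E.rho t) E.Φ (At.sup E r Cand) (site i) ∧
        0 < mass E.lam (E.rho t) E.Φ (At.sup E r Cand) (site i) ∧ ∃ A, Cand A := by
  obtain ⟨ε₀, h0, h⟩ := rm_cand B hB Ra Bb Mu Ca η Atr hη hA
  refine ⟨ε₀, h0, ?_⟩
  intro E t r bs p At hRa hBb hMu hCa hE hε hr hrt hbs hbt hG γ ξ S0 Cl τ _ tag ι site win hCl hw A0 hq hq2 i hs hfl hpos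
    Cand hCJ hN
  have a1 := rm_winner_amp γ ξ S0 Cl tag site win hE hG hCl hw A0 hq i hs hfl
  have a2 := h E t r bs p At hRa hBb hMu hCa hE hε hr hrt hbs hbt hG (site i) hs.amp hs.c0 hs.c1
    (fun A => Cl.lab tag A = Classes.Jof E r bs site win i) Cand (fun A hA => congrArg Prod.fst hA) hCJ hN
  have a3 : E.ε ^ Atr * Real.sqrt E.nrm2 ≤ E.ε ^ (Atr - A0 / 2) * ‖pairing E.lam (E.rho t) E.Φ E.f (site i)‖ :=
    rm_tail_le hE.ε0 (rm_nrm2_nonneg E) (norm_nonneg _) hfl le_rfl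
  change ‖pairing E.lam (E.rho t) E.Φ (Cl.hJ E r tag (Classes.Jof E r bs site win i)) (site i)
    - pairing E.lam (E.rho t) E.Φ (At.sup E r Cand) (site i)‖ ≤ _ at a2
  set W := pairing E.lam (E.rho t) E.Φ (Cl.hJ E r tag (Classes.Jof E r bs site win i)) (site i) with hW
  set F := pairing E.lam (E.rho t) E.Φ E.f (site i) with hF
  set b := pairing E.lam (E.rho t) E.Φ (At.sup E r Cand) (site i) with hb
  set S : ℝ := (S0 : ℝ) * Fintype.card τ with hS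
  set q := E.ε ^ (Atr - A0 / 2) with hqdef
  have hq0 : 0 ≤ q := (Real.rpow_pos_of_pos hE.ε0 _).le
  have hS0 : 0 ≤ S := by positivity
  have a4 : 2 * (2 * (E.ε ^ Atr * Real.sqrt E.nrm2)) ≤ ‖W‖ := by
    calc 2 * (2 * (E.ε ^ Atr * Real.sqrt E.nrm2)) ≤ 4 * (q * ‖F‖) := by linarith
      _ ≤ 4 * (q * (2 * S * ‖W‖)) := by gcongr
      _ = (8 * S * q) * ‖W‖ := by ring
      _ ≤ 1 * ‖W‖ := mul_le_mul_of_nonneg_right hq2 (norm_nonneg _)
      _ = ‖W‖ := one_mul _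
  have a5 : ‖W‖ ^ 2 ≤ 4 * ‖b‖ ^ 2 := rm_mass_of_close a2 a4
  have a6 : ‖F‖ ^ 2 ≤ 16 * S ^ 2 * ‖b‖ ^ 2 := by
    calc ‖F‖ ^ 2 ≤ (2 * S * ‖W‖) ^ 2 := pow_le_pow_left₀ (norm_nonneg _) a1 2
      _ = 4 * S ^ 2 * ‖W‖ ^ 2 := by ring
      _ ≤ 4 * S ^ 2 * (4 * ‖b‖ ^ 2) := mul_le_mul_of_nonneg_left a5 (by positivity)
      _ = _ := by ring
  have hposF : 0 < ‖F‖ ^ 2 := hpos
  have a7 : 0 < ‖b‖ ^ 2 := by
    rcases (sq_nonneg ‖b‖).lt_or_eq with h1 | h1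
    · exact h1
    · rw [← h1] at a6
      linarith
  refine ⟨a5, a6, a7, ?_⟩
  by_contra hne
  push Not at hne
  have hCr := rm_loc0_Cr (r := r) (bs := bs) hE.ε0 (site i) hs.c0 hs.c1
  have e : b = 0 := by
    rw [hb, rm_pair_sup hE hG Cand (fun A hA => absurd hA (hne A)) (site i) hs.c0 hs.amp t,
      Finset.filter_false_of_mem (fun A _ => hne A), Finset.sum_empty]
  rw [e] at a7
  simp at a7

/-- **(M5) COLLAPSE** (the S3 item of L11.3, "the same with `(P, C_t)`"): the floor sites of a test with ONE winning label `J`, one time anchor and one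
candidate set `Cand ⊆ 𝒯_J` containing every atom of `J` near each of them.  Both the winning masses and the original masses. -/
theorem rm_collapse (B : PBd) (hB : B.Good) (Ra : ℝ) (Bb : ℕ → ℝ) : ∃ C : ℝ, 0 ≤ C ∧
    ∀ (Mu : ℕ) (Ca η Atr : ℝ), 0 < η → 0 < Atr → ∃ ε₀ : ℝ, 0 < ε₀ ∧
    ∀ (E : PEnv) (T : PTest) (r bs : ℝ) (p : Atoms.Par) (At : Atoms), p.Ra = Ra → p.Bb = Bb → p.Mu = Mu →
      p.Ca = Ca → E.Obeys B → T.Obeys B E → E.ε < ε₀ → 0 ≤ r → r ≤ T.t → 0 ≤ bs → bs ≤ E.u T.t → At.Good E B T.t r bs p →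
      ∀ (γ ξ : ℝ) (S0 : ℕ) (Cl : Classes At) (τ : Type) [Fintype τ] (tag : At.𝔸 → τ) (win : T.ι → ℕ × τ),
      Cl.Good γ E r bs ξ S0 → Cl.IsWin E T.t r bs tag T.site win →
      ∀ A0 : ℝ, E.ε ^ (p.A - A0 / 2) ≤ 1 / 2 → 8 * ((S0 : ℝ) * Fintype.card τ) * E.ε ^ (Atr - A0 / 2) ≤ 1 →
      ∀ (J : Classes.Lab τ) (Cand : At.𝔸 → Prop), (∀ A, Cand A → Cl.lab tag A = J) → ∀ (c : ℝ) (sO : Finset T.ι),
      (∀ i ∈ sO, T.act i ∧ (T.site i).C = c ∧ Classes.Jof E r bs T.site win i = J ∧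
        E.ε ^ A0 * E.nrm2 ≤ E.m T.t (T.site i) ∧
        ∀ A, Cl.lab tag A = J → AnNear E T.t r η (B.Ra + Ra) (T.site i) (At.asite A) → Cand A) →
      ∑ i ∈ sO, mass E.lam (E.rho T.t) E.Φ (Cl.hJ E r tag J) (T.site i)
          ≤ C * B.Mu * Mu * (Finset.univ.filter Cand).card * (Cl.mB J.1 J.2.1 * E.ε ^ (-ξ)) ∧
        ∑ i ∈ sO, E.m T.t (T.site i)
          ≤ 4 * ((S0 : ℝ) * Fintype.card τ) ^ 2 *
            (C * B.Mu * Mu * (Finset.univ.filter Cand).card * (Cl.mB J.1 J.2.1 * E.ε ^ (-ξ))) ∧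
        (sO.Nonempty → ∃ A, Cand A) := by
  obtain ⟨C, hC, hag⟩ := rm_agg B hB Ra Bb
  refine ⟨4 * C, by positivity, fun Mu Ca η Atr hη hA => ?_⟩
  obtain ⟨ε₀, h0, h⟩ := rm_win_cand B hB Ra Bb Mu Ca η Atr hη hA
  refine ⟨ε₀, h0, ?_⟩
  intro E T r bs p At hRa hBb hMu hCa hE hT hε hr hrt hbs hbt hG γ ξ S0 Cl τ _ tag win hCl hw A0 hq hq2 J Cand hCJ c sO hsO
  have key : ∀ i ∈ sO, mass E.lam (E.rho T.t) E.Φ (Cl.hJ E r tag J) (T.site i)
          ≤ 4 * mass E.lam (E.rho T.t) E.Φ (At.sup E r Cand) (T.site i) ∧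
        E.m T.t (T.site i) ≤ 16 * ((S0 : ℝ) * Fintype.card τ) ^ 2 * mass E.lam (E.rho T.t) E.Φ (At.sup E r Cand) (T.site i) ∧
        0 < mass E.lam (E.rho T.t) E.Φ (At.sup E r Cand) (T.site i) ∧ ∃ A, Cand A := by
    intro i hi
    obtain ⟨hact, -, hJ, hfl, hN⟩ := hsO i hi
    obtain ⟨o, ho, hO⟩ := hact
    have hpos : 0 < E.m T.t (T.site i) := hO ▸ hT.mpos o ho
    have := h E T.t r bs p At hRa hBb hMu hCa hE hε hr hrt hbs hbt hG γ ξ S0 Cl τ tag T.ι T.site win hCl hw A0 hq hq2 i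
      (rm_siteOK hT i ⟨o, ho, hO⟩) hfl hpos Cand (by rw [hJ]; exact hCJ) (by rw [hJ]; exact hN)
    rwa [hJ] at this
  have hR0 : 0 ≤ C * B.Mu * Mu * ((Finset.univ.filter Cand).card : ℝ) * (Cl.mB J.1 J.2.1 * E.ε ^ (-ξ)) ∨ sO.Nonempty := by
    rcases sO.eq_empty_or_nonempty with he | hne
    · left
      by_cases hc : ∃ A, Cand A
      · obtain ⟨A, hA⟩ := hc
        have h1 := hCl.massHi A
        have h2 := hCJ A hA
        have e1 : At.loc A = J.1 := congrArg Prod.fst h2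
        have e2 : Cl.cls A = J.2.1 := congrArg (fun x => x.2.1) h2
        rw [e1, e2] at h1
        have h3 : 0 ≤ Cl.mB J.1 J.2.1 * E.ε ^ (-ξ) := le_trans (by positivity) h1
        positivity
      · push Not at hc
        rw [Finset.filter_false_of_mem (fun A _ => hc A)]
        simp
    · exact Or.inr hne
  have main : sO.Nonempty → ∑ i ∈ sO, mass E.lam (E.rho T.t) E.Φ (At.sup E r Cand) (T.site i)
      ≤ C * B.Mu * Mu * ((Finset.univ.filter Cand).card : ℝ) * (Cl.mB J.1 J.2.1 * E.ε ^ (-ξ)) := by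
    rintro ⟨i₀, hi₀⟩
    obtain ⟨hact, -, hJ, -, -⟩ := hsO i₀ hi₀
    have hs := rm_siteOK hT i₀ hact
    have hCr := rm_loc0_Cr (r := r) (bs := bs) hE.ε0 (T.site i₀) hs.c0 hs.c1
    have eJ : J.1 = loc0 E.ε r bs (T.site i₀) := by rw [← hJ]; rfl
    have a1 := hag E T r bs p At hRa hBb hE hT hG (hrt.trans (rm_test_H hT i₀ hact)) J.1 (by rw [eJ]; exact hCr.1)
      (by rw [eJ]; exact hCr.2) Cand (fun A hA => congrArg Prod.fst (hCJ A hA)) c sO
      (fun i hi => ⟨(hsO i hi).1, (hsO i hi).2.1⟩)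
    have a2 := rm_coef_sum γ ξ S0 Cl hCl J.1 J.2.1 Cand
      (fun A hA => ⟨congrArg Prod.fst (hCJ A hA), congrArg (fun x => x.2.1) (hCJ A hA)⟩)
    rw [hMu] at a1
    calc _ ≤ _ := a1
      _ ≤ C * B.Mu * Mu * (((Finset.univ.filter Cand).card : ℝ) * (Cl.mB J.1 J.2.1 * E.ε ^ (-ξ))) :=
          mul_le_mul_of_nonneg_left a2 (by positivity)
      _ = _ := by ring
  refine ⟨?_, ?_, fun ⟨i, hi⟩ => (key i hi).2.2.2⟩
  · rcases sO.eq_empty_or_nonempty with he | hne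
    · rcases hR0 with h1 | h1
      · rw [he, Finset.sum_empty]
        linarith
      · rw [he] at h1
        exact absurd h1 Finset.not_nonempty_empty
    · calc _ ≤ ∑ i ∈ sO, 4 * mass E.lam (E.rho T.t) E.Φ (At.sup E r Cand) (T.site i) :=
            Finset.sum_le_sum fun i hi => (key i hi).1
        _ = 4 * ∑ i ∈ sO, mass E.lam (E.rho T.t) E.Φ (At.sup E r Cand) (T.site i) := by rw [Finset.mul_sum]
        _ ≤ 4 * (C * B.Mu * Mu * ((Finset.univ.filter Cand).card : ℝ) * (Cl.mB J.1 J.2.1 * E.ε ^ (-ξ))) :=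
            mul_le_mul_of_nonneg_left (main hne) (by norm_num)
        _ = _ := by ring
  · rcases sO.eq_empty_or_nonempty with he | hne
    · rcases hR0 with h1 | h1
      · rw [he, Finset.sum_empty]
        have : 0 ≤ 4 * ((S0 : ℝ) * Fintype.card τ) ^ 2 := by positivity
        have h2 : 0 ≤ 4 * C * B.Mu * Mu * ((Finset.univ.filter Cand).card : ℝ) * (Cl.mB J.1 J.2.1 * E.ε ^ (-ξ)) := by linarith
        exact mul_nonneg this h2
      · rw [he] at h1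
        exact absurd h1 Finset.not_nonempty_empty
    · calc _ ≤ ∑ i ∈ sO, 16 * ((S0 : ℝ) * Fintype.card τ) ^ 2 * mass E.lam (E.rho T.t) E.Φ (At.sup E r Cand) (T.site i) :=
            Finset.sum_le_sum fun i hi => (key i hi).2.1
        _ = 16 * ((S0 : ℝ) * Fintype.card τ) ^ 2 * ∑ i ∈ sO, mass E.lam (E.rho T.t) E.Φ (At.sup E r Cand) (T.site i) := by
            rw [Finset.mul_sum]
        _ ≤ 16 * ((S0 : ℝ) * Fintype.card τ) ^ 2 *
              (C * B.Mu * Mu * ((Finset.univ.filter Cand).card : ℝ) * (Cl.mB J.1 J.2.1 * E.ε ^ (-ξ))) :=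
            mul_le_mul_of_nonneg_left (main hne) (by positivity)
        _ = _ := by ring

end Claimed.Agent.R255
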