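-- KEEP
import Mathlib

/-!
# Row 255 (BR paper), Sec. 11, file 3: the two velocity binnings (BR (11.velocity-fiber-regularity), (11.prepared-velocity-probability))      (architect helper128)

PAPER-FREE finite combinatorics, Mathlib only.
`𝒯` finite set of atoms, `Pc t` coarse label, `W t` fine velocity label, `b > 1` the bin ratio (`b = ε^(-ξ)`).
* `rep_fs`  size of the `(Pc, W)`-fibre through `t`;      `rep_sz`  its bin  `⌊log_b⌋`
* `rep_nw`  number of `W`-values at `Pc t` whose fibre lies in the same size bin;      `rep_kt`  its bin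
* `rep_sub` the subclass with tags `(i, k)`.
The subclasses consist of whole `(Pc, W)`-fibres; in one subclass all fibres have size in `[b^i, b^(i+1))` and every represented `Pc`
carries between `b^k` and `b^(k+1)` values of `W`; hence the uniform law has `P(W = w | Pc) ≤ b^(1-k)`.
-/

set_option autoImplicit false

namespace Claimed.Agent.R255

open scoped BigOperators
open Classical

variable {τ α β : Type}

/-- size of the `(Pc, W)`-fibre through `t` -/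
noncomputable def rep_fs (𝒯 : Finset τ) (Pc : τ → α) (W : τ → β) (t : τ) : ℕ :=
  (𝒯.filter (fun t' => Pc t' = Pc t ∧ W t' = W t)).card

/-- size bin -/
noncomputable def rep_sz (b : ℝ) (𝒯 : Finset τ) (Pc : τ → α) (W : τ → β) (t : τ) : ℕ :=
  ⌊Real.logb b (rep_fs 𝒯 Pc W t)⌋₊

/-- number of `W`-values at `Pc t` in the size bin of `t` -/
noncomputable def rep_nw (b : ℝ) (𝒯 : Finset τ) (Pc : τ → α) (W : τ → β) (t : τ) : ℕ :=
  ((𝒯.filter (fun t' => Pc t' = Pc t ∧ rep_sz b 𝒯 Pc W t' = rep_sz b 𝒯 Pc W t)).image W).card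

/-- the second bin -/
noncomputable def rep_kt (b : ℝ) (𝒯 : Finset τ) (Pc : τ → α) (W : τ → β) (t : τ) : ℕ :=
  ⌊Real.logb b (rep_nw b 𝒯 Pc W t)⌋₊

/-- the subclass with tags `(i, k)` -/
noncomputable def rep_sub (b : ℝ) (𝒯 : Finset τ) (Pc : τ → α) (W : τ → β) (i k : ℕ) : Finset τ :=
  𝒯.filter (fun t => rep_sz b 𝒯 Pc W t = i ∧ rep_kt b 𝒯 Pc W t = k)

theorem rep_sub_subset (b : ℝ) (𝒯 : Finset τ) (Pc : τ → α) (W : τ → β) (i k : ℕ) :
    rep_sub b 𝒯 Pc W i k ⊆ 𝒯 :=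
  Finset.filter_subset _ _

theorem rep_mem_sub (b : ℝ) (𝒯 : Finset τ) (Pc : τ → α) (W : τ → β) {t : τ} (ht : t ∈ 𝒯) :
    t ∈ rep_sub b 𝒯 Pc W (rep_sz b 𝒯 Pc W t) (rep_kt b 𝒯 Pc W t) :=
  Finset.mem_filter.2 ⟨ht, rfl, rfl⟩

/-- `b^⌊log_b n⌋ ≤ n < b^(⌊log_b n⌋+1)` -/
theorem rep_floor_logb {b : ℝ} (hb : 1 < b) {n : ℕ} (hn : 0 < n) :
    b ^ ⌊Real.logb b n⌋₊ ≤ (n : ℝ) ∧ (n : ℝ) < b ^ (⌊Real.logb b n⌋₊ + 1) := by
  have hb0 : 0 < b := by linarith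
  have hn' : (0 : ℝ) < n := Nat.cast_pos.2 hn
  have hn1 : (1 : ℝ) ≤ n := by exact_mod_cast hn
  have hlog : 0 ≤ Real.logb b n := Real.logb_nonneg hb hn1
  have e : b ^ Real.logb b n = (n : ℝ) := Real.rpow_logb hb0 hb.ne' hn'
  constructor
  · rw [← Real.rpow_natCast]
    calc b ^ ((⌊Real.logb b n⌋₊ : ℕ) : ℝ) ≤ b ^ Real.logb b n :=
          Real.rpow_le_rpow_of_exponent_le hb.le (Nat.floor_le hlog)
      _ = n := e
  · rw [← Real.rpow_natCast]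
    calc (n : ℝ) = b ^ Real.logb b n := e.symm
      _ < b ^ ((⌊Real.logb b n⌋₊ + 1 : ℕ) : ℝ) := by
          refine Real.rpow_lt_rpow_of_exponent_lt hb ?_
          push_cast
          exact Nat.lt_floor_add_one _

theorem rep_fs_pos (𝒯 : Finset τ) (Pc : τ → α) (W : τ → β) {t : τ} (ht : t ∈ 𝒯) :
    0 < rep_fs 𝒯 Pc W t :=
  Finset.card_pos.2 ⟨t, Finset.mem_filter.2 ⟨ht, rfl, rfl⟩⟩

theorem rep_nw_pos (b : ℝ) (𝒯 : Finset τ) (Pc : τ → α) (W : τ → β) {t : τ} (ht : t ∈ 𝒯) :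
    0 < rep_nw b 𝒯 Pc W t :=
  Finset.card_pos.2 ⟨W t, Finset.mem_image_of_mem W (Finset.mem_filter.2 ⟨ht, rfl, rfl⟩)⟩

/-- the second tag is constant on the part of a `Pc`-fibre in one size bin -/
theorem rep_kt_congr (b : ℝ) (𝒯 : Finset τ) (Pc : τ → α) (W : τ → β) {t t' : τ}
    (h1 : Pc t' = Pc t) (h2 : rep_sz b 𝒯 Pc W t' = rep_sz b 𝒯 Pc W t) :
    rep_kt b 𝒯 Pc W t' = rep_kt b 𝒯 Pc W t := by
  unfold rep_kt rep_nw
  rw [h1, h2]

/-- the tags are constant on `(Pc, W)`-fibres -/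
theorem rep_tags_congr (b : ℝ) (𝒯 : Finset τ) (Pc : τ → α) (W : τ → β) {t t' : τ}
    (h1 : Pc t' = Pc t) (h2 : W t' = W t) :
    rep_sz b 𝒯 Pc W t' = rep_sz b 𝒯 Pc W t ∧ rep_kt b 𝒯 Pc W t' = rep_kt b 𝒯 Pc W t := by
  have h3 : rep_sz b 𝒯 Pc W t' = rep_sz b 𝒯 Pc W t := by
    unfold rep_sz rep_fs
    rw [h1, h2]
  exact ⟨h3, rep_kt_congr b 𝒯 Pc W h1 h3⟩

/-- the subclasses consist of whole fibres -/
theorem rep_sub_fibre (b : ℝ) (𝒯 : Finset τ) (Pc : τ → α) (W : τ → β) {i k : ℕ} {t : τ}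
    (ht : t ∈ rep_sub b 𝒯 Pc W i k) :
    (rep_sub b 𝒯 Pc W i k).filter (fun t' => Pc t' = Pc t ∧ W t' = W t)
      = 𝒯.filter (fun t' => Pc t' = Pc t ∧ W t' = W t) := by
  obtain ⟨-, hi, hk⟩ := Finset.mem_filter.1 ht
  ext t'
  simp only [Finset.mem_filter]
  constructor
  · rintro ⟨h1, h2⟩
    exact ⟨rep_sub_subset b 𝒯 Pc W i k h1, h2⟩
  · rintro ⟨h1, h2⟩
    obtain ⟨a1, a2⟩ := rep_tags_congr b 𝒯 Pc W h2.1 h2.2
    exact ⟨Finset.mem_filter.2 ⟨h1, a1.trans hi, a2.trans hk⟩, h2⟩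

/-- fibre sizes in a subclass -/
theorem rep_sub_fs {b : ℝ} (hb : 1 < b) (𝒯 : Finset τ) (Pc : τ → α) (W : τ → β) {i k : ℕ} {t : τ}
    (ht : t ∈ rep_sub b 𝒯 Pc W i k) :
    b ^ i ≤ (((rep_sub b 𝒯 Pc W i k).filter (fun t' => Pc t' = Pc t ∧ W t' = W t)).card : ℝ) ∧
    (((rep_sub b 𝒯 Pc W i k).filter (fun t' => Pc t' = Pc t ∧ W t' = W t)).card : ℝ) < b ^ (i + 1) := by
  obtain ⟨h𝒯, hi, -⟩ := Finset.mem_filter.1 ht
  rw [rep_sub_fibre b 𝒯 Pc W ht]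
  have h := rep_floor_logb hb (rep_fs_pos 𝒯 Pc W h𝒯)
  have hi' : ⌊Real.logb b (rep_fs 𝒯 Pc W t)⌋₊ = i := hi
  rw [hi'] at h
  exact h

theorem rep_sub_filter_eq (b : ℝ) (𝒯 : Finset τ) (Pc : τ → α) (W : τ → β) {i k : ℕ} {t : τ}
    (ht : t ∈ rep_sub b 𝒯 Pc W i k) :
    (rep_sub b 𝒯 Pc W i k).filter (fun t' => Pc t' = Pc t)
      = 𝒯.filter (fun t' => Pc t' = Pc t ∧ rep_sz b 𝒯 Pc W t' = rep_sz b 𝒯 Pc W t) := by
  obtain ⟨-, hi, hk⟩ := Finset.mem_filter.1 ht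
  ext t'
  simp only [Finset.mem_filter]
  constructor
  · rintro ⟨h1, h2⟩
    obtain ⟨a0, a1, -⟩ := Finset.mem_filter.1 h1
    exact ⟨a0, h2, a1.trans hi.symm⟩
  · rintro ⟨h1, h2, h3⟩
    exact ⟨Finset.mem_filter.2 ⟨h1, h3.trans hi, (rep_kt_congr b 𝒯 Pc W h2 h3).trans hk⟩, h2⟩

/-- (11.velocity-fiber-regularity): the number of `W`-values over a represented `Pc` -/
theorem rep_sub_nw {b : ℝ} (hb : 1 < b) (𝒯 : Finset τ) (Pc : τ → α) (W : τ → β) {i k : ℕ} {t : τ}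
    (ht : t ∈ rep_sub b 𝒯 Pc W i k) :
    b ^ k ≤ ((((rep_sub b 𝒯 Pc W i k).filter (fun t' => Pc t' = Pc t)).image W).card : ℝ) ∧
    ((((rep_sub b 𝒯 Pc W i k).filter (fun t' => Pc t' = Pc t)).image W).card : ℝ) < b ^ (k + 1) := by
  obtain ⟨h𝒯, -, hk⟩ := Finset.mem_filter.1 ht
  rw [rep_sub_filter_eq b 𝒯 Pc W ht]
  have h := rep_floor_logb hb (rep_nw_pos b 𝒯 Pc W h𝒯)
  have hk' : ⌊Real.logb b (rep_nw b 𝒯 Pc W t)⌋₊ = k := hk
  rw [hk'] at h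
  exact h

/-- (11.prepared-velocity-probability) -/
theorem rep_sub_credit {b : ℝ} (hb : 1 < b) (𝒯 : Finset τ) (Pc : τ → α) (W : τ → β) {i k : ℕ} {t : τ}
    (ht : t ∈ rep_sub b 𝒯 Pc W i k) :
    (((rep_sub b 𝒯 Pc W i k).filter (fun t' => Pc t' = Pc t ∧ W t' = W t)).card : ℝ)
      ≤ b / b ^ k * (((rep_sub b 𝒯 Pc W i k).filter (fun t' => Pc t' = Pc t)).card : ℝ) := by
  have hb0 : 0 < b := by linarith
  obtain ⟨S, hS⟩ : ∃ S : Finset τ, S = (rep_sub b 𝒯 Pc W i k).filter (fun t' => Pc t' = Pc t) :=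
    ⟨_, rfl⟩
  have h1 := (rep_sub_fs hb 𝒯 Pc W ht).2
  have h2 := (rep_sub_nw hb 𝒯 Pc W ht).1
  rw [← hS] at h2 ⊢
  have h3 : ((S.image W).card : ℝ) * b ^ i ≤ (S.card : ℝ) := by
    rw [Finset.card_eq_sum_card_image W S]
    push_cast
    rw [← nsmul_eq_mul]
    refine Finset.card_nsmul_le_sum _ _ _ fun w hw => ?_
    obtain ⟨t'', ht'', rfl⟩ := Finset.mem_image.1 hw
    rw [hS] at ht''
    obtain ⟨a1, a2⟩ := Finset.mem_filter.1 ht''
    have h4 := (rep_sub_fs hb 𝒯 Pc W a1).1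
    have e : S.filter (fun x => W x = W t'') =
        (rep_sub b 𝒯 Pc W i k).filter (fun t' => Pc t' = Pc t'' ∧ W t' = W t'') := by
      rw [hS, Finset.filter_filter, a2]
    rw [e]
    exact h4
  have hk0 : 0 < b ^ k := pow_pos hb0 k
  have hi0 : 0 < b ^ i := pow_pos hb0 i
  have h5 : b ^ k * b ^ i ≤ (S.card : ℝ) := (mul_le_mul_of_nonneg_right h2 hi0.le).trans h3
  calc (((rep_sub b 𝒯 Pc W i k).filter (fun t' => Pc t' = Pc t ∧ W t' = W t)).card : ℝ)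
      ≤ b ^ (i + 1) := h1.le
    _ = b / b ^ k * (b ^ k * b ^ i) := by
        field_simp
        ring
    _ ≤ b / b ^ k * (S.card : ℝ) := mul_le_mul_of_nonneg_left h5 (by positivity)

/-- the tags of a nonempty subclass are bounded -/
theorem rep_sub_tags_le {b : ℝ} (hb : 1 < b) (𝒯 : Finset τ) (Pc : τ → α) (W : τ → β) {i k : ℕ}
    (h : (rep_sub b 𝒯 Pc W i k).Nonempty) : b ^ i ≤ (𝒯.card : ℝ) ∧ b ^ k ≤ (𝒯.card : ℝ) := by
  obtain ⟨t, ht⟩ := h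
  constructor
  · refine (rep_sub_fs hb 𝒯 Pc W ht).1.trans ?_
    exact_mod_cast Finset.card_le_card
      ((Finset.filter_subset _ _).trans (rep_sub_subset b 𝒯 Pc W i k))
  · refine (rep_sub_nw hb 𝒯 Pc W ht).1.trans ?_
    exact_mod_cast Finset.card_image_le.trans (Finset.card_le_card
      ((Finset.filter_subset _ _).trans (rep_sub_subset b 𝒯 Pc W i k)))

/-- capacity: if every `Pc` carries at most `M` values of `W` then `b^k ≤ M` -/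
theorem rep_sub_capacity {b : ℝ} (hb : 1 < b) (𝒯 : Finset τ) (Pc : τ → α) (W : τ → β) {i k : ℕ}
    (h : (rep_sub b 𝒯 Pc W i k).Nonempty) {M : ℝ}
    (hM : ∀ t ∈ 𝒯, (((𝒯.filter (fun t' => Pc t' = Pc t)).image W).card : ℝ) ≤ M) : b ^ k ≤ M := by
  obtain ⟨t, ht⟩ := h
  refine (rep_sub_nw hb 𝒯 Pc W ht).1.trans (le_trans ?_ (hM t (rep_sub_subset b 𝒯 Pc W i k ht)))
  exact_mod_cast Finset.card_le_card (Finset.image_subset_image
    (Finset.filter_subset_filter _ (rep_sub_subset b 𝒯 Pc W i k)))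

theorem rep_bins_eqns_cite : True := by
  have := @rep_fs.eq_1
  have := @rep_sz.eq_1
  have := @rep_nw.eq_1
  have := @rep_kt.eq_1
  have := @rep_sub.eq_1
  trivial

end Claimed.Agent.R255
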