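-- KEEP
import Claimed.Agent.R255.Pkt.Cut
import Claimed.Agent.R255.Ent.Basic

/-!
# Row 255 (BR paper), Sec. 11.2, stage S1 BUFFER      (architect helper264)

The buffered coarse label `P = (C_r, V_{u_t}, (X + (C_r - C_t) V)_{r + u_t})` on a TRANSLATED grid of side `Lg ε^u` (velocity), `Lg ε^(r+u)` (root-referred position).
* `Site.back s ε r`      : the position of the site referred to the time anchor `C_r` of its time cell of depth `r`.
* `bufP ε r u Lg τV τX s` : the label (same type as a geometric localizer).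
* `Buffered ε r u Lg Kd τV τX s` : EVERY site `s'` in the same time cell of depth `r` within `Kd ε^u` in velocity and `Kd ε^(r+u)` in root-referred position has the label of `s`.
* `rpb_shift`   (paper-free)  : a translation which is good with probability `≥ 3/4`, for finitely many real coordinates.
* `rpb_buffer`  = S1 : `∀ law, ∃ τV τX, P(Buffered) ≥ 3/4`   (`Lg = 64 (Kd + 1)`).
* `rpb_close`   : equal labels ⟹ close.
* `rpb_list`    : the labels of the sites of a ball of radius `ρ` units: at most `(2 ρ + 2)^4`.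
* `rpb_near`    : a possible contributor (transport condition (9.16)) is within `2 C₀` units of the output.
-/

set_option autoImplicit false

namespace Claimed.Agent.R255

open scoped BigOperators
open Classical
open FLaw Pkt Osc

/-- the position of the site referred to the anchor `C_r` of its time cell -/
noncomputable def Pkt.Site.back (s : Site) (ε r : ℝ) : E2 := s.X - (s.C - tanchor ε r s.C) • s.V

/-- the buffered coarse label -/
noncomputable def bufP (ε r u Lg : ℝ) (τV τX : E2) (s : Site) : Loc0 :=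
  (⌊s.C / ε ^ r⌋, cell (Lg * ε ^ u) (s.V - τV), cell (Lg * (ε ^ r * ε ^ u)) (s.back ε r - τX))

/-- all the sites near `s` have the label of `s` -/
def Buffered (ε r u Lg Kd : ℝ) (τV τX : E2) (s : Site) : Prop :=
  ∀ s' : Site, ⌊s'.C / ε ^ r⌋ = ⌊s.C / ε ^ r⌋ → ‖s'.V - s.V‖ ≤ Kd * ε ^ u →
    ‖s'.back ε r - s.back ε r‖ ≤ Kd * (ε ^ r * ε ^ u) → bufP ε r u Lg τV τX s' = bufP ε r u Lg τV τX s

/-- a change of cell forces a wall between the two points -/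
theorem rpb_wall {x y S : ℝ} (hS : 0 < S) (h : ⌊y / S⌋ ≠ ⌊x / S⌋) : ∃ p : ℤ, |x - (p : ℝ) * S| ≤ |y - x| := by
  have hx1 : (⌊x / S⌋ : ℝ) ≤ x / S := Int.floor_le _
  have hx2 : x / S < (⌊x / S⌋ : ℝ) + 1 := Int.lt_floor_add_one _
  have hy1 : (⌊y / S⌋ : ℝ) ≤ y / S := Int.floor_le _
  have hy2 : y / S < (⌊y / S⌋ : ℝ) + 1 := Int.lt_floor_add_one _
  rw [le_div_iff₀ hS] at hx1 hy1
  rw [div_lt_iff₀ hS] at hx2 hy2
  rcases lt_or_gt_of_ne h with hlt | hgt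
  · -- y-cell below the x-cell
    refine ⟨⌊x / S⌋, ?_⟩
    have h1 : (⌊y / S⌋ : ℝ) + 1 ≤ (⌊x / S⌋ : ℝ) := by exact_mod_cast hlt
    have h2 : y < (⌊x / S⌋ : ℝ) * S := lt_of_lt_of_le hy2 (mul_le_mul_of_nonneg_right h1 hS.le)
    rw [abs_of_nonneg (by linarith), abs_of_nonpos (by linarith)]
    linarith
  · refine ⟨⌊y / S⌋, ?_⟩
    have h1 : (⌊x / S⌋ : ℝ) + 1 ≤ (⌊y / S⌋ : ℝ) := by exact_mod_cast hgt
    have h2 : x < (⌊y / S⌋ : ℝ) * S := lt_of_lt_of_le hx2 (mul_le_mul_of_nonneg_right h1 hS.le)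
    rw [abs_of_nonpos (by linarith), abs_of_nonneg (by linarith)]
    linarith

/-- the bad zones of the shifts `k (2 Kd + 1) w`, `k < m`, are pairwise disjoint -/
theorem rpb_zone_disj {x w Kd L : ℝ} (hw : 0 < w) (hKd : 0 ≤ Kd) {m : ℕ} (hL : (m : ℝ) * (2 * Kd + 1) ≤ L)
    {j k : ℕ} (hk : k < m) (hjk : j < k) {p q : ℤ}
    (h1 : |x - (j : ℝ) * ((2 * Kd + 1) * w) - (p : ℝ) * (L * w)| ≤ Kd * w)
    (h2 : |x - (k : ℝ) * ((2 * Kd + 1) * w) - (q : ℝ) * (L * w)| ≤ Kd * w) : False := by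
  obtain ⟨a1, a2⟩ := abs_le.1 h1
  obtain ⟨b1, b2⟩ := abs_le.1 h2
  have hjk' : (j : ℝ) + 1 ≤ (k : ℝ) := by exact_mod_cast hjk
  have hkm : (k : ℝ) + 1 ≤ (m : ℝ) := by exact_mod_cast hk
  have hj0 : (0 : ℝ) ≤ (j : ℝ) := Nat.cast_nonneg j
  have hs : 0 < (2 * Kd + 1) * w := by positivity
  -- (k - j) s + (q - p) L w ∈ [-2 Kd w, 2 Kd w]
  rcases le_or_gt p q with hpq | hpq
  · have h3 : (p : ℝ) ≤ (q : ℝ) := by exact_mod_cast hpq
    have hLw : 0 ≤ L * w := by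
      have : 0 ≤ L := le_trans (by positivity) hL
      positivity
    have h4 : (p : ℝ) * (L * w) ≤ (q : ℝ) * (L * w) := mul_le_mul_of_nonneg_right h3 hLw
    have h5 : ((j : ℝ) + 1) * ((2 * Kd + 1) * w) ≤ (k : ℝ) * ((2 * Kd + 1) * w) := mul_le_mul_of_nonneg_right hjk' hs.le
    nlinarith
  · have h3 : (q : ℝ) + 1 ≤ (p : ℝ) := by exact_mod_cast hpq
    have hLw : 0 ≤ L * w := by
      have : 0 ≤ L := le_trans (by positivity) hL
      positivity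
    have h4 : ((q : ℝ) + 1) * (L * w) ≤ (p : ℝ) * (L * w) := mul_le_mul_of_nonneg_right h3 hLw
    have h5 : ((k : ℝ) + 1) * ((2 * Kd + 1) * w) ≤ (m : ℝ) * ((2 * Kd + 1) * w) := mul_le_mul_of_nonneg_right hkm hs.le
    have h6 : (m : ℝ) * ((2 * Kd + 1) * w) ≤ L * w := by
      have := mul_le_mul_of_nonneg_right hL hw.le
      linarith
    have h7 : 0 ≤ (j : ℝ) * ((2 * Kd + 1) * w) := by positivity
    nlinarith

/-- one real coordinate: a shift whose bad zone has probability `≤ 1/m` -/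
theorem rpb_shift_one {Ω : Type} [Fintype Ω] (P : FLaw Ω) (x : Ω → ℝ) {w Kd L : ℝ} (hw : 0 < w) (hKd : 0 ≤ Kd)
    {m : ℕ} (hm : 0 < m) (hL : (m : ℝ) * (2 * Kd + 1) ≤ L) :
    ∃ τ : ℝ, P.pr (fun ω => ∃ y : ℝ, |y - x ω| ≤ Kd * w ∧ ⌊(y - τ) / (L * w)⌋ ≠ ⌊(x ω - τ) / (L * w)⌋) ≤ 1 / (m : ℝ) := by
  have hm' : (0 : ℝ) < (m : ℝ) := by exact_mod_cast hm
  have hL0 : 0 < L := lt_of_lt_of_le (by positivity) hL
  have hLw : 0 < L * w := by positivity
  set Z : ℕ → Ω → Prop := fun k ω => ∃ p : ℤ, |x ω - (k : ℝ) * ((2 * Kd + 1) * w) - (p : ℝ) * (L * w)| ≤ Kd * w with hZ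
  have hsum : ∑ k ∈ Finset.range m, P.pr (Z k) ≤ ∑ k ∈ Finset.range m, (1 / (m : ℝ)) := by
    have e : ∑ k ∈ Finset.range m, (1 / (m : ℝ)) = 1 := by
      rw [Finset.sum_const, Finset.card_range, nsmul_eq_mul]
      field_simp
    rw [e]
    unfold FLaw.pr
    rw [Finset.sum_comm, ← P.sum_one]
    refine Finset.sum_le_sum fun ω _ => ?_
    rw [← Finset.sum_filter, Finset.sum_const, nsmul_eq_mul]
    have hc : ((Finset.range m).filter (fun k => Z k ω)).card ≤ 1 := by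
      rw [Finset.card_le_one]
      intro j hj k hk
      obtain ⟨hj1, p, hp⟩ := Finset.mem_filter.1 hj
      obtain ⟨hk1, q, hq⟩ := Finset.mem_filter.1 hk
      by_contra hne
      rcases lt_or_gt_of_ne hne with h | h
      · exact rpb_zone_disj hw hKd hL (Finset.mem_range.1 hk1) h hp hq
      · exact rpb_zone_disj hw hKd hL (Finset.mem_range.1 hj1) h hq hp
    have hc' : (((Finset.range m).filter (fun k => Z k ω)).card : ℝ) ≤ 1 := by exact_mod_cast hc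
    calc _ ≤ 1 * P.p ω := mul_le_mul_of_nonneg_right hc' (P.nonneg ω)
      _ = P.p ω := one_mul _
  obtain ⟨k, _, hk⟩ := Finset.exists_le_of_sum_le (Finset.nonempty_range_iff.2 hm.ne') hsum
  refine ⟨(k : ℝ) * ((2 * Kd + 1) * w), le_trans (ent_pr_mono P fun ω _ h => ?_) hk⟩
  obtain ⟨y, hy, hne⟩ := h
  obtain ⟨p, hp⟩ := rpb_wall hLw hne
  refine ⟨p, hp.trans ?_⟩
  have e : y - (k : ℝ) * ((2 * Kd + 1) * w) - (x ω - (k : ℝ) * ((2 * Kd + 1) * w)) = y - x ω := by ring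
  rw [e]
  exact hy

/-- **the translation lemma** (paper-free): finitely many coordinates -/
theorem rpb_shift {Ω : Type} [Fintype Ω] (P : FLaw Ω) {n : ℕ} (x : Ω → Fin n → ℝ) (w : Fin n → ℝ)
    (hw : ∀ i, 0 < w i) (Kd L : ℝ) (hKd : 0 ≤ Kd) (hL : 16 * n * (Kd + 1) ≤ L) :
    ∃ τ : Fin n → ℝ, 3 / 4 ≤ P.pr (fun ω => ∀ i, ∀ y : ℝ, |y - x ω i| ≤ Kd * w i →
      ⌊(y - τ i) / (L * w i)⌋ = ⌊(x ω i - τ i) / (L * w i)⌋) := by
  rcases Nat.eq_zero_or_pos n with rfl | hn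
  · refine ⟨fun _ => 0, ?_⟩
    rw [ent_pr_eq_one P fun ω _ i => i.elim0]
    norm_num
  have hn' : (0 : ℝ) < (n : ℝ) := by exact_mod_cast hn
  have hL' : ((4 * n : ℕ) : ℝ) * (2 * Kd + 1) ≤ L := by
    refine le_trans ?_ hL
    push_cast
    nlinarith
  choose τ hτ using fun i : Fin n => rpb_shift_one P (fun ω => x ω i) (hw i) hKd (by omega : 0 < 4 * n) hL'
  refine ⟨τ, ?_⟩
  have h1 := ent_pr_forall_ge P Finset.univ (fun (i : Fin n) ω => ∀ y : ℝ, |y - x ω i| ≤ Kd * w i →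
      ⌊(y - τ i) / (L * w i)⌋ = ⌊(x ω i - τ i) / (L * w i)⌋)
  have h2 : ∑ i : Fin n, (1 - P.pr (fun ω => ∀ y : ℝ, |y - x ω i| ≤ Kd * w i →
      ⌊(y - τ i) / (L * w i)⌋ = ⌊(x ω i - τ i) / (L * w i)⌋)) ≤ ∑ _i : Fin n, (1 / ((4 * n : ℕ) : ℝ)) := by
    refine Finset.sum_le_sum fun i _ => ?_
    rw [← ent_pr_not]
    refine le_trans (ent_pr_mono P fun ω _ h => ?_) (hτ i)
    push Not at h
    exact h
  have h3 : ∑ _i : Fin n, (1 / ((4 * n : ℕ) : ℝ)) = 1 / 4 := by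
    rw [Finset.sum_const, Finset.card_univ, Fintype.card_fin, nsmul_eq_mul]
    push_cast
    field_simp
  have h4 : P.pr (fun ω => ∀ i ∈ (Finset.univ : Finset (Fin n)), ∀ y : ℝ, |y - x ω i| ≤ Kd * w i →
      ⌊(y - τ i) / (L * w i)⌋ = ⌊(x ω i - τ i) / (L * w i)⌋) = P.pr (fun ω => ∀ i, ∀ y : ℝ, |y - x ω i| ≤ Kd * w i →
      ⌊(y - τ i) / (L * w i)⌋ = ⌊(x ω i - τ i) / (L * w i)⌋) := by
    refine ent_pr_congr P fun ω _ => ?_
    simp
  rw [← h4]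
  linarith

theorem rpb_coord_le (z : E2) (k : Fin 2) : |z k| ≤ ‖z‖ := by
  have := PiLp.norm_apply_le z k
  rwa [Real.norm_eq_abs] at this

theorem rpb_norm_le (z : E2) : ‖z‖ ≤ |z 0| + |z 1| := by
  have h := EuclideanSpace.norm_sq_eq z
  rw [Fin.sum_univ_two, Real.norm_eq_abs, Real.norm_eq_abs] at h
  have h0 := abs_nonneg (z 0)
  have h1 := abs_nonneg (z 1)
  have h2 : ‖z‖ ^ 2 ≤ (|z 0| + |z 1|) ^ 2 := by nlinarith
  exact (pow_le_pow_iff_left₀ (norm_nonneg _) (by positivity) (by norm_num)).1 h2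

/-- **S1 BUFFER** -/
theorem rpb_buffer (Kd : ℝ) (hKd : 0 ≤ Kd) {ε r u : ℝ} (hε : 0 < ε) {Ω : Type} [Fintype Ω] (P : FLaw Ω)
    (s : Ω → Site) :
    ∃ τV τX : E2, 3 / 4 ≤ P.pr (fun o => Buffered ε r u (64 * (Kd + 1)) Kd τV τX (s o)) := by
  have hu : 0 < ε ^ u := Real.rpow_pos_of_pos hε u
  have hr : 0 < ε ^ r := Real.rpow_pos_of_pos hε r
  obtain ⟨τ, hτ⟩ := rpb_shift P (n := 4)
    (fun o => ![(s o).V 0, (s o).V 1, ((s o).back ε r) 0, ((s o).back ε r) 1])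
    ![ε ^ u, ε ^ u, ε ^ r * ε ^ u, ε ^ r * ε ^ u]
    (by
      intro i
      fin_cases i
      · exact hu
      · exact hu
      · exact mul_pos hr hu
      · exact mul_pos hr hu)
    Kd (64 * (Kd + 1)) hKd (by push_cast; linarith)
  refine ⟨!₂[τ 0, τ 1], !₂[τ 2, τ 3], hτ.trans (ent_pr_mono P fun o _ h => ?_)⟩
  intro s' hC hV hX
  have a0 := h 0 (s'.V 0) (by
    have := (rpb_coord_le (s'.V - (s o).V) 0).trans hV
    simpa using this)
  have a1 := h 1 (s'.V 1) (by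
    have := (rpb_coord_le (s'.V - (s o).V) 1).trans hV
    simpa using this)
  have a2 := h 2 ((s'.back ε r) 0) (by
    have := (rpb_coord_le (s'.back ε r - (s o).back ε r) 0).trans hX
    simpa using this)
  have a3 := h 3 ((s'.back ε r) 1) (by
    have := (rpb_coord_le (s'.back ε r - (s o).back ε r) 1).trans hX
    simpa using this)
  simp only [Matrix.cons_val_zero, Matrix.cons_val_one, Matrix.cons_val] at a0 a1 a2 a3
  unfold bufP cell
  simp only [PiLp.sub_apply, PiLp.toLp_apply, Matrix.cons_val_zero, Matrix.cons_val_one, Matrix.cons_val]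
  rw [hC, a0, a1, a2, a3]

theorem rpb_floor_close {x y S : ℝ} (hS : 0 < S) (h : ⌊y / S⌋ = ⌊x / S⌋) : |y - x| ≤ S := by
  have h1 := Int.abs_sub_lt_one_of_floor_eq_floor h
  have e : y / S - x / S = (y - x) / S := by ring
  rw [e, abs_div, abs_of_pos hS, div_lt_one hS] at h1
  exact h1.le

/-- equal labels: same time cell, close velocities, close root-referred positions -/
theorem rpb_close {ε r u Lg : ℝ} (hε : 0 < ε) (hLg : 0 < Lg) {τV τX : E2} {s s' : Site}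
    (h : bufP ε r u Lg τV τX s' = bufP ε r u Lg τV τX s) :
    ⌊s'.C / ε ^ r⌋ = ⌊s.C / ε ^ r⌋ ∧ ‖s'.V - s.V‖ ≤ 2 * Lg * ε ^ u ∧
      ‖s'.back ε r - s.back ε r‖ ≤ 2 * Lg * (ε ^ r * ε ^ u) := by
  have hu : 0 < ε ^ u := Real.rpow_pos_of_pos hε u
  have hr : 0 < ε ^ r := Real.rpow_pos_of_pos hε r
  unfold bufP cell at h
  simp only [Prod.mk.injEq, PiLp.sub_apply] at h
  obtain ⟨hC, ⟨v0, v1⟩, x0, x1⟩ := h
  refine ⟨hC, ?_, ?_⟩
  · refine (rpb_norm_le _).trans ?_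
    have b0 := rpb_floor_close (by positivity) v0
    have b1 := rpb_floor_close (by positivity) v1
    have e0 : (s'.V - s.V) 0 = s'.V 0 - τV 0 - (s.V 0 - τV 0) := by simp
    have e1 : (s'.V - s.V) 1 = s'.V 1 - τV 1 - (s.V 1 - τV 1) := by simp
    rw [e0, e1]
    linarith
  · refine (rpb_norm_le _).trans ?_
    have b0 := rpb_floor_close (by positivity) x0
    have b1 := rpb_floor_close (by positivity) x1
    have e0 : (s'.back ε r - s.back ε r) 0 = s'.back ε r 0 - τX 0 - (s.back ε r 0 - τX 0) := by simp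
    have e1 : (s'.back ε r - s.back ε r) 1 = s'.back ε r 1 - τX 1 - (s.back ε r 1 - τX 1) := by simp
    rw [e0, e1]
    linarith

/-- a site whose time is an anchor of depth `r` is its own root reference -/
theorem rpb_back_anchor {ε r : ℝ} (hε : 0 < ε) (s : Site) (k : ℤ) (h : s.C = ε ^ r * (k : ℝ)) :
    s.back ε r = s.X ∧ ⌊s.C / ε ^ r⌋ = k := by
  have hr : 0 < ε ^ r := Real.rpow_pos_of_pos hε r
  have e : s.C / ε ^ r = (k : ℝ) := by rw [h]; field_simp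
  have e2 : ⌊s.C / ε ^ r⌋ = k := by rw [e]; exact Int.floor_intCast k
  refine ⟨?_, e2⟩
  unfold Pkt.Site.back tanchor
  rw [e2, ← h]
  simp

theorem rpb_floor_tanchor {ε r : ℝ} (hε : 0 < ε) (c : ℝ) : ⌊tanchor ε r c / ε ^ r⌋ = ⌊c / ε ^ r⌋ := by
  have hr : 0 < ε ^ r := Real.rpow_pos_of_pos hε r
  have e : tanchor ε r c / ε ^ r = ((⌊c / ε ^ r⌋ : ℤ) : ℝ) := by unfold tanchor; field_simp
  rw [e]
  exact Int.floor_intCast _

theorem rpb_tanchor_le {ε r : ℝ} (hε : 0 < ε) (c : ℝ) : tanchor ε r c ≤ c ∧ c < tanchor ε r c + ε ^ r := by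
  have hr : 0 < ε ^ r := Real.rpow_pos_of_pos hε r
  have h1 : (⌊c / ε ^ r⌋ : ℝ) ≤ c / ε ^ r := Int.floor_le _
  have h2 : c / ε ^ r < (⌊c / ε ^ r⌋ : ℝ) + 1 := Int.lt_floor_add_one _
  rw [le_div_iff₀ hr] at h1
  rw [div_lt_iff₀ hr] at h2
  unfold tanchor
  constructor <;> nlinarith

/-- **a possible contributor is near the output** : `s` endpoint site, `a` earlier atom site at the anchor of the time cell of `s`, transport condition (9.16) with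
tolerance `ε^(-θ) σ_r`, `σ_r = ε^(r + u + h)`, `θ ≤ h`. -/
theorem rpb_near {ε r u h θ C₀ : ℝ} (hε : 0 < ε) (hε1 : ε < 1) (hθ : θ ≤ h) (hC₀ : 0 ≤ C₀) {s a : Site}
    (hC : a.C = tanchor ε r s.C) (hV : ‖s.V - a.V‖ ≤ C₀ * ε ^ u)
    (hX : ‖s.X - a.X - (s.C - a.C) • a.V‖ ≤ C₀ * (ε ^ (-θ) * ε ^ (r + u + h))) :
    ⌊a.C / ε ^ r⌋ = ⌊s.C / ε ^ r⌋ ∧ ‖a.V - s.V‖ ≤ 2 * C₀ * ε ^ u ∧
      ‖a.back ε r - s.back ε r‖ ≤ 2 * C₀ * (ε ^ r * ε ^ u) := by
  have hu : 0 < ε ^ u := Real.rpow_pos_of_pos hε u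
  have hr : 0 < ε ^ r := Real.rpow_pos_of_pos hε r
  have hfl : ⌊a.C / ε ^ r⌋ = ⌊s.C / ε ^ r⌋ := by rw [hC]; exact rpb_floor_tanchor hε _
  refine ⟨hfl, ?_, ?_⟩
  · rw [norm_sub_rev]
    refine hV.trans ?_
    nlinarith [mul_nonneg hC₀ hu.le]
  · have eb : a.back ε r = a.X := (rpb_back_anchor hε a ⌊s.C / ε ^ r⌋ (by rw [hC]; rfl)).1
    have e : a.back ε r - s.back ε r = -(s.X - a.X - (s.C - a.C) • a.V) + (s.C - a.C) • (s.V - a.V) := by
      rw [eb]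
      unfold Pkt.Site.back
      rw [← hC, smul_sub]
      abel
    rw [e]
    refine (norm_add_le _ _).trans ?_
    rw [norm_neg, norm_smul]
    obtain ⟨t1, t2⟩ := rpb_tanchor_le (r := r) hε s.C
    have h1 : ‖s.C - a.C‖ ≤ ε ^ r := by
      rw [hC, Real.norm_eq_abs, abs_of_nonneg (by linarith)]
      linarith
    have h2 : ε ^ (-θ) * ε ^ (r + u + h) ≤ ε ^ r * ε ^ u := by
      rw [← Real.rpow_add hε, ← Real.rpow_add hε]
      exact Real.rpow_le_rpow_of_exponent_ge hε hε1.le (by linarith)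
    have h3 : ‖s.C - a.C‖ * ‖s.V - a.V‖ ≤ ε ^ r * (C₀ * ε ^ u) :=
      mul_le_mul h1 hV (norm_nonneg _) hr.le
    have h4 : C₀ * (ε ^ (-θ) * ε ^ (r + u + h)) ≤ C₀ * (ε ^ r * ε ^ u) := mul_le_mul_of_nonneg_left h2 hC₀
    nlinarith

theorem rpb_floor_mem {x x₀ ρ w S : ℝ} (hS : 0 < S) (h : |x - x₀| ≤ ρ * w) :
    ⌊x / S⌋ ∈ Finset.Icc ⌊(x₀ - ρ * w) / S⌋ ⌊(x₀ + ρ * w) / S⌋ := by
  obtain ⟨h1, h2⟩ := abs_le.1 h
  rw [Finset.mem_Icc]
  exact ⟨Int.floor_mono (div_le_div_of_nonneg_right (by linarith) hS.le),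
    Int.floor_mono (div_le_div_of_nonneg_right (by linarith) hS.le)⟩

theorem rpb_Icc_card {x₀ ρ w Lg : ℝ} (hw : 0 < w) (hρ : 0 ≤ ρ) (hLg : 1 ≤ Lg) :
    ((Finset.Icc ⌊(x₀ - ρ * w) / (Lg * w)⌋ ⌊(x₀ + ρ * w) / (Lg * w)⌋).card : ℝ) ≤ 2 * ρ + 2 := by
  have hS : 0 < Lg * w := by positivity
  rw [Int.card_Icc]
  have hle : ⌊(x₀ - ρ * w) / (Lg * w)⌋ ≤ ⌊(x₀ + ρ * w) / (Lg * w)⌋ :=
    Int.floor_mono (div_le_div_of_nonneg_right (by nlinarith) hS.le)
  have h0 : 0 ≤ ⌊(x₀ + ρ * w) / (Lg * w)⌋ + 1 - ⌊(x₀ - ρ * w) / (Lg * w)⌋ := by omega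
  have e : (((⌊(x₀ + ρ * w) / (Lg * w)⌋ + 1 - ⌊(x₀ - ρ * w) / (Lg * w)⌋).toNat : ℕ) : ℝ)
      = ((⌊(x₀ + ρ * w) / (Lg * w)⌋ + 1 - ⌊(x₀ - ρ * w) / (Lg * w)⌋ : ℤ) : ℝ) := by
    conv_rhs => rw [← Int.toNat_of_nonneg h0]
    rw [Int.cast_natCast]
  rw [e]
  push_cast
  have h1 := Int.floor_le ((x₀ + ρ * w) / (Lg * w))
  have h2 := Int.lt_floor_add_one ((x₀ - ρ * w) / (Lg * w))
  have h3 : (x₀ + ρ * w) / (Lg * w) - (x₀ - ρ * w) / (Lg * w) = 2 * ρ / Lg := by field_simp; ring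
  have h4 : 2 * ρ / Lg ≤ 2 * ρ := div_le_self (by positivity) hLg
  linarith

/-- **the list of the labels of a ball** of radius `ρ` units -/
theorem rpb_list {ε r u Lg : ℝ} (hε : 0 < ε) (hLg : 1 ≤ Lg) (τV τX : E2) (k : ℤ) (v y : E2) {ρ : ℝ} (hρ : 0 ≤ ρ) :
    ∃ S : Finset Loc0, (S.card : ℝ) ≤ (2 * ρ + 2) ^ 4 ∧ ∀ s : Site, ⌊s.C / ε ^ r⌋ = k → ‖s.V - v‖ ≤ ρ * ε ^ u →
      ‖s.back ε r - y‖ ≤ ρ * (ε ^ r * ε ^ u) → bufP ε r u Lg τV τX s ∈ S := by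
  have hu : 0 < ε ^ u := Real.rpow_pos_of_pos hε u
  have hr : 0 < ε ^ r := Real.rpow_pos_of_pos hε r
  have hru : 0 < ε ^ r * ε ^ u := mul_pos hr hu
  have hLg0 : 0 < Lg := by linarith
  set I : ℝ → ℝ → Finset ℤ := fun x₀ w => Finset.Icc ⌊(x₀ - ρ * w) / (Lg * w)⌋ ⌊(x₀ + ρ * w) / (Lg * w)⌋ with hI
  refine ⟨({k} : Finset ℤ) ×ˢ ((I (v 0 - τV 0) (ε ^ u) ×ˢ I (v 1 - τV 1) (ε ^ u)) ×ˢ
    (I (y 0 - τX 0) (ε ^ r * ε ^ u) ×ˢ I (y 1 - τX 1) (ε ^ r * ε ^ u))), ?_, ?_⟩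
  · rw [Finset.card_product, Finset.card_product, Finset.card_product, Finset.card_product, Finset.card_singleton]
    push_cast
    have c0 := rpb_Icc_card (x₀ := v 0 - τV 0) hu hρ hLg
    have c1 := rpb_Icc_card (x₀ := v 1 - τV 1) hu hρ hLg
    have c2 := rpb_Icc_card (x₀ := y 0 - τX 0) hru hρ hLg
    have c3 := rpb_Icc_card (x₀ := y 1 - τX 1) hru hρ hLg
    have hb : (0 : ℝ) ≤ 2 * ρ + 2 := by positivity
    calc _ ≤ 1 * (((2 * ρ + 2) * (2 * ρ + 2)) * ((2 * ρ + 2) * (2 * ρ + 2))) := by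
          refine mul_le_mul_of_nonneg_left ?_ (by norm_num)
          refine mul_le_mul (mul_le_mul c0 c1 (Nat.cast_nonneg _) hb) (mul_le_mul c2 c3 (Nat.cast_nonneg _) hb)
            (by positivity) (by positivity)
      _ = (2 * ρ + 2) ^ 4 := by ring
  · intro s hC hV hX
    unfold bufP cell
    simp only [Finset.mem_product, Finset.mem_singleton, PiLp.sub_apply]
    refine ⟨hC, ⟨?_, ?_⟩, ?_, ?_⟩
    · refine rpb_floor_mem (by positivity) ?_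
      have := (rpb_coord_le (s.V - v) 0).trans hV
      have e : s.V 0 - τV 0 - (v 0 - τV 0) = (s.V - v) 0 := by simp
      rw [e]; exact this
    · refine rpb_floor_mem (by positivity) ?_
      have := (rpb_coord_le (s.V - v) 1).trans hV
      have e : s.V 1 - τV 1 - (v 1 - τV 1) = (s.V - v) 1 := by simp
      rw [e]; exact this
    · refine rpb_floor_mem (by positivity) ?_
      have := (rpb_coord_le (s.back ε r - y) 0).trans hX
      have e : s.back ε r 0 - τX 0 - (y 0 - τX 0) = (s.back ε r - y) 0 := by simp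
      rw [e]; exact this
    · refine rpb_floor_mem (by positivity) ?_
      have := (rpb_coord_le (s.back ε r - y) 1).trans hX
      have e : s.back ε r 1 - τX 1 - (y 1 - τX 1) = (s.back ε r - y) 1 := by simp
      rw [e]; exact this

theorem rep_buffer_eqns_cite : True := by
  have := @Pkt.Site.back.eq_1
  have := @bufP.eq_1
  have := @Buffered.eq_1
  trivial

end Claimed.Agent.R255
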