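-- KEEP
import Claimed.Agent.R255.Comp.CutMain
import Claimed.Agent.R255.Comp.Floor
import Claimed.Agent.R255.Rep.State
import Claimed.Agent.R255.Rep.Buffer
import Claimed.Agent.R255.Rep.Bins

/-!
# Row 255 (BR paper), Sec. 11, stage S7 OUT: the returned earlier test carries the next state      (architect helper50; prefix `rpo_`)

LABEL-AGNOSTIC, on the frozen data of a cut (`Pkt/Cut`, `Comp/Cut*`) and the buffered label `bufP` of `Rep/Buffer`.
Returned test: `At.earlierX r T (ctJ E r bs T win) (Cl.clsOf tag) ap`, `ap = Cl.acap` (elongated) or `At.isoAp E r` (isotropic); `T.P` = the FINAL current endpoint law `π`.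
* `rpoW el w θ s`     the fine velocity label of a site at precision `w` : component along `nrm θ` (`el`), both components (`¬ el`).
* `rpo_incoming`      `Incoming` for ANY test whose anchors lie on the grid `ε^t ℤ`, labels `Pf = bufP ε t u Lg τV τX`, `u = u_t - h`, `Wf = rpoW el ε^(u_t) (ntab Pf)`.
* `rpo_credit`        (11.outgoing-credit) from the regularity of the retained classes.
* `rpo_defi_el`, `rpo_defi_iso`   the deficits of the returned tests ((11.earlier-scores), (11.isotropic-score) + P10.1).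
* `rpo_shape_el`      common shape of the assigned caps from common bins `(jB, lB)`.
* `rpo_out_el`, `rpo_out_iso`     EXIT: `RState` of the returned test.
* `rpo_W_count`, `rpo_capacity`   (11.velocity-fiber-regularity), last bound: `k ≤ d h + err`.
-/

set_option autoImplicit false

namespace Claimed.Agent.R255

open scoped BigOperators
open Classical
open FLaw Pkt Osc

/-- the fine velocity label of a site at precision `w` -/
noncomputable def rpoW (el : Bool) (w θ : ℝ) (s : Site) : ℤ × ℤ :=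
  if el = true then (⌊ip (toP s.V) (nrm θ) / w⌋, 0) else cell w s.V

/-- regularity of a finite class of atoms: the number of atoms with given `(p, w)` is at most `κ` times the number of atoms with given `p` -/
def rpoReg {τ α β : Type} (C : Finset τ) (Pa : τ → α) (Wa : τ → β) (κ : ℝ) : Prop :=
  ∀ A ∈ C, ((C.filter (fun A' => Pa A' = Pa A ∧ Wa A' = Wa A)).card : ℝ)
    ≤ κ * ((C.filter (fun A' => Pa A' = Pa A)).card : ℝ)

theorem rpo_out_eqns_cite : True := by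
  have := @rpoW.eq_1
  have := @rpoReg.eq_1
  trivial

/-! ## 1. the incoming labels of a test with anchors on the grid -/

theorem rpo_Icc_card (x₀ ρ w : ℝ) (hw : 0 < w) (hρ : 0 ≤ ρ) :
    ((Finset.Icc ⌊(x₀ - ρ * w) / w⌋ ⌊(x₀ + ρ * w) / w⌋).card : ℝ) ≤ 2 * ρ + 2 := by
  have h := rpb_Icc_card (x₀ := x₀) (ρ := ρ) (w := w) (Lg := 1) hw hρ le_rfl
  rwa [one_mul] at h

theorem rpo_incoming (E : PEnv) (hε0 : 0 < E.ε) (T' : PTest) (el : Bool) (h u Lg Ka : ℝ) (hLg : 1 ≤ Lg)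
    (hu : u = E.u T'.t - h) (τV τX : E2) (ntab : Loc0 → ℝ)
    (hanch : ∀ o, 0 < T'.P.p o → ∃ k : ℤ, (T'.sat o).C = E.ε ^ T'.t * (k : ℝ))
    (hal : el = true → ∀ o, 0 < T'.P.p o →
      |Real.sin ((T'.geo (T'.D o)).th - ntab (bufP E.ε T'.t u Lg τV τX (T'.sat o)))| ≤ Ka * E.ε ^ h) :
    Incoming E T' h (max (max (2 * Lg) 256) Ka) el (fun o => bufP E.ε T'.t u Lg τV τX (T'.sat o))
      (fun o => rpoW el (E.ε ^ E.u T'.t) (ntab (bufP E.ε T'.t u Lg τV τX (T'.sat o))) (T'.sat o)) ntab := by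
  have hLg0 : 0 < Lg := by linarith
  have hK1 : 2 * Lg ≤ max (max (2 * Lg) 256) Ka := (le_max_left _ _).trans (le_max_left _ _)
  have hK2 : (256 : ℝ) ≤ max (max (2 * Lg) 256) Ka := (le_max_right _ _).trans (le_max_left _ _)
  have hK3 : Ka ≤ max (max (2 * Lg) 256) Ka := le_max_right _ _
  have hw : 0 < E.ε ^ E.u T'.t := Real.rpow_pos_of_pos hε0 _
  have hpu : 0 < E.ε ^ u := Real.rpow_pos_of_pos hε0 _
  have hpr : 0 < E.ε ^ T'.t := Real.rpow_pos_of_pos hε0 _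
  have eru : E.ε ^ T'.t * E.ε ^ u = E.ε ^ (T'.t + E.u T'.t - h) := by
    rw [← Real.rpow_add hε0, hu]
    congr 1
    ring
  refine ⟨?_, ?_, ?_, ?_, ?_, ?_, ?_⟩
  · intro o o' ho ho' hP
    obtain ⟨k, hk⟩ := hanch o ho
    obtain ⟨k', hk'⟩ := hanch o' ho'
    have h1 := (rpb_close hε0 hLg0 hP).1
    rw [(rpb_back_anchor hε0 _ k hk).2, (rpb_back_anchor hε0 _ k' hk').2] at h1
    rw [hk, hk', h1]
  · intro o o' ho ho' hP
    have h1 := (rpb_close hε0 hLg0 hP).2.1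
    rw [← hu]
    exact h1.trans (mul_le_mul_of_nonneg_right hK1 hpu.le)
  · intro o o' ho ho' hP
    obtain ⟨k, hk⟩ := hanch o ho
    obtain ⟨k', hk'⟩ := hanch o' ho'
    have h1 := (rpb_close hε0 hLg0 hP).2.2
    rw [(rpb_back_anchor hε0 _ k hk).1, (rpb_back_anchor hε0 _ k' hk').1, eru] at h1
    exact h1.trans (mul_le_mul_of_nonneg_right hK1 (Real.rpow_pos_of_pos hε0 _).le)
  · intro c v x ρ hρ
    obtain ⟨S, hS, hmem⟩ := rpb_list (r := T'.t) (u := u) hε0 hLg τV τX ⌊c / E.ε ^ T'.t⌋ v x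
      (ρ := ρ) (by linarith)
    refine ⟨S, hS.trans ?_, ?_⟩
    · have h1 : (2 * ρ + 2) ^ 4 ≤ (4 * ρ) ^ 4 := pow_le_pow_left₀ (by linarith) (by linarith) 4
      have h2 : (4 * ρ) ^ 4 = 256 * ρ ^ 4 := by ring
      rw [h2] at h1
      exact h1.trans (mul_le_mul_of_nonneg_right hK2 (by positivity))
    · intro o ho hc hV hX
      obtain ⟨k, hk⟩ := hanch o ho
      refine hmem _ (by rw [hc]) (by rw [hu]; exact hV) ?_
      rw [(rpb_back_anchor hε0 _ k hk).1, eru]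
      exact hX
  · intro hel p y ρ hρ
    refine ⟨Finset.Icc ⌊(y - ρ * E.ε ^ E.u T'.t) / E.ε ^ E.u T'.t⌋ ⌊(y + ρ * E.ε ^ E.u T'.t) / E.ε ^ E.u T'.t⌋
      ×ˢ {0}, ?_, ?_⟩
    · rw [Finset.card_product, Finset.card_singleton, mul_one]
      refine (rpo_Icc_card y ρ _ hw (by linarith)).trans ?_
      have : (256 : ℝ) * ρ ≤ max (max (2 * Lg) 256) Ka * ρ := mul_le_mul_of_nonneg_right hK2 (by linarith)
      linarith
    · intro o ho hP hy
      show rpoW el _ _ _ ∈ _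
      unfold rpoW
      rw [if_pos hel, hP]
      exact Finset.mem_product.2 ⟨rpb_floor_mem hw hy, Finset.mem_singleton.2 rfl⟩
  · intro hel p v ρ hρ
    refine ⟨Finset.Icc ⌊(v 0 - ρ * E.ε ^ E.u T'.t) / E.ε ^ E.u T'.t⌋ ⌊(v 0 + ρ * E.ε ^ E.u T'.t) / E.ε ^ E.u T'.t⌋
      ×ˢ Finset.Icc ⌊(v 1 - ρ * E.ε ^ E.u T'.t) / E.ε ^ E.u T'.t⌋ ⌊(v 1 + ρ * E.ε ^ E.u T'.t) / E.ε ^ E.u T'.t⌋,
      ?_, ?_⟩
    · rw [Finset.card_product]
      push_cast
      have c0 := rpo_Icc_card (v 0) ρ _ hw (by linarith)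
      have c1 := rpo_Icc_card (v 1) ρ _ hw (by linarith)
      have h1 := mul_le_mul c0 c1 (by positivity) (by linarith)
      refine h1.trans ?_
      have h2 : (2 * ρ + 2) * (2 * ρ + 2) ≤ 256 * ρ ^ 2 := by nlinarith
      exact h2.trans (mul_le_mul_of_nonneg_right hK2 (by positivity))
    · intro o ho hP hV
      show rpoW el _ _ _ ∈ _
      unfold rpoW
      rw [if_neg (by rw [hel]; simp)]
      unfold cell
      refine Finset.mem_product.2 ⟨rpb_floor_mem hw ?_, rpb_floor_mem hw ?_⟩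
      · exact (rpb_coord_le ((T'.sat o).V - v) 0).trans hV
      · exact (rpb_coord_le ((T'.sat o).V - v) 1).trans hV
  · intro hel o ho
    exact (hal hel o ho).trans (mul_le_mul_of_nonneg_right hK3 (Real.rpow_pos_of_pos hε0 _).le)

/-! ## 2. the outgoing credit -/

theorem rpo_mu_eq {Ω 𝒥 τ : Type} [Fintype Ω] [Fintype τ] [Nonempty τ] (P : FLaw Ω) (J : Ω → 𝒥)
    (cls : 𝒥 → Finset τ) : pcMu P J cls = rep_unif P (fun o => cls (J o)) := rfl

/-- **(11.outgoing-credit)** : if in each retained class the number of atoms with given `(p, w)` is at most `κ` times the number of atoms with given `p` -/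
theorem rpo_credit {Ω 𝒥 τ α β : Type} [Fintype Ω] [Fintype τ] [Nonempty τ] (P : FLaw Ω) (J : Ω → 𝒥)
    (cls : 𝒥 → Finset τ) (hne : ∀ o, P.p o ≠ 0 → (cls (J o)).Nonempty) (Pa : τ → α) (Wa : τ → β) {κ : ℝ}
    (hκ : 0 ≤ κ)
    (hreg : ∀ o, P.p o ≠ 0 → rpoReg (cls (J o)) Pa Wa κ) :
    Credit (pcMu P J cls) (fun x => Pa x.2) (fun x => Wa x.2) κ := by
  rw [rpo_mu_eq]
  exact rep_credit_unif P (fun o => cls (J o)) hne Pa Wa hreg hκ

/-! ## 3. the deficits of the returned tests -/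

section
variable {γ β : ℝ} {E : PEnv} {B : PBd} {T : PTest} {r bs : ℝ} {p : Atoms.Par} {ξ : ℝ} {S0 : ℕ} {A0 : ℝ}
  {At : Atoms} {Cl : Classes At} {τ : Type} {tag : At.𝔸 → τ} {win : T.ι → ℕ × τ} {S R : ℝ}
  {K : Classes.Lab τ → ℝ}

/-- elongated: (11.earlier-scores) + (10.8) -/
theorem rpo_defi_el [Nonempty At.𝔸] (H : CutOK γ E B T r bs p ξ S0 A0 At Cl tag win)
    (hW : WinOK E r bs T Cl tag win S)
    (hC : CompHyp (lg E.ε) T.P T.O T.D (ctJ E r bs T win) (ctLm E T) (Cl.LmW E r bs tag T win) (ctW γ T) bs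
      (Cl.LA E) (Cl.LN E tag) (Cl.Lm E) Cl.gJ K (K0 γ B.M E) β r T.t R) :
    K0 γ B.M E + β * r - score γ E (At.earlierX r T (ctJ E r bs T win) (Cl.clsOf tag) Cl.acap)
      ≤ 3 / 2 * pcxDef γ β B.M E T + 11 / 2 * R + ξ := by
  have h1 := ct_ret_score H hW
  have h2 := pc_comp_d1 hC
  have h3 := hC.d0_nonneg
  have h4 : 0 ≤ T.P.ev (fun o => pcd1 (Cl.LA E) (Cl.LN E tag) (ctJ E r bs T win o)) :=
    ent_ev_nonneg T.P fun o ho => hC.d1_nonneg o ho
  rw [← ct_score_eq] at h2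
  unfold pcd0 at h2 h3
  unfold pcxDef
  linarith

/-- isotropic: (11.isotropic-score) + (11.20) -/
theorem rpo_defi_iso [Nonempty At.𝔸] (H : CutOK γ E B T r bs p ξ S0 A0 At Cl tag win)
    (hW : WinOK E r bs T Cl tag win S)
    (hC : CompHyp (lg E.ε) T.P T.O T.D (ctJ E r bs T win) (ctLm E T) (Cl.LmW E r bs tag T win) (ctW γ T) bs
      (Cl.LA E) (Cl.LN E tag) (Cl.Lm E) Cl.gJ K (K0 γ B.M E) β r T.t R) (ζ : ℝ)
    (hg : ∀ o, 0 < T.P.p o → Cl.gJ (ctJ E r bs T win o) ≤ 2 * E.u r + ζ) :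
    K0 γ B.M E + β * r - score γ E (At.earlierX r T (ctJ E r bs T win) (Cl.clsOf tag) (At.isoAp E r))
      ≤ pcxDef γ β B.M E T + 3 * R + bs + ζ / 2 := by
  have h1 := ct_iso_score H hW
  have h2 := pc_bench_ge hC
  rw [← ct_score_eq] at h2
  have h3 : T.P.ev (fun o => pcA (Cl.LN E tag) (Cl.Lm E) Cl.gJ (ctJ E r bs T win o))
      ≤ T.P.ev (fun o => (Cl.LN E tag (ctJ E r bs T win o) + 3 / 2 * Cl.Lm E (ctJ E r bs T win o))
          + (E.u r + ζ / 2)) := by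
    refine ent_ev_mono T.P fun o ho => ?_
    have := hg o (ct_pos_of_ne _ ho)
    unfold pcA
    linarith
  rw [ent_ev_add, ent_ev_const] at h3
  unfold pcKstar at h2
  unfold pcxDef
  linarith

/-! ## 4. the shape of the returned test -/

theorem rpo_supp [Nonempty At.𝔸] (J : T.Ω → Classes.Lab τ) (cl : Classes.Lab τ → Finset At.𝔸) (ap : At.𝔸 → Geo)
    (hne : ∀ o, 0 < T.P.p o → (cl (J o)).Nonempty) (x : T.Ω × At.𝔸)
    (hx : 0 < (At.earlierX r T J cl ap).P.p x) : 0 < T.P.p x.1 ∧ x.2 ∈ cl (J x.1) := by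
  have h := pc_mu_supp T.P J cl (fun o ho => hne o (ct_pos_of_ne _ ho)) x (ne_of_gt hx)
  exact ⟨ct_pos_of_ne _ h.1, h.2⟩

/-- the assigned caps of the atoms of classes with common bins have a common shape -/
theorem rpo_shape_el [Nonempty At.𝔸] (hG : Cl.Good γ E r bs ξ S0) (J : T.Ω → Classes.Lab τ)
    (hne : ∀ o, 0 < T.P.p o → (Cl.clsOf tag (J o)).Nonempty) (b' a' η : ℝ)
    (hsh : ∀ o, 0 < T.P.p o → |Cl.jB (J o).1 (J o).2.1 + bs - b'| ≤ η ∧ |Cl.lB (J o).1 (J o).2.1 + bs - a'| ≤ η)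
    (x : T.Ω × At.𝔸) (hx : 0 < (At.earlierX r T J (Cl.clsOf tag) Cl.acap).P.p x) :
    |((At.earlierX r T J (Cl.clsOf tag) Cl.acap).geo ((At.earlierX r T J (Cl.clsOf tag) Cl.acap).D x)).b - b'| ≤ η + ξ ∧
    |((At.earlierX r T J (Cl.clsOf tag) Cl.acap).geo ((At.earlierX r T J (Cl.clsOf tag) Cl.acap).D x)).a - a'| ≤ η + ξ := by
  obtain ⟨h1, h2⟩ := rpo_supp J (Cl.clsOf tag) Cl.acap hne x hx
  have h3 : Cl.lab tag x.2 = J x.1 := (Finset.mem_filter.1 h2).2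
  have e1 : At.loc x.2 = (J x.1).1 := by rw [← h3]; rfl
  have e2 : Cl.cls x.2 = (J x.1).2.1 := by rw [← h3]; rfl
  have w1 := hG.widthj x.2
  have w2 := hG.widthl x.2
  rw [e1, e2] at w1 w2
  obtain ⟨s1, s2⟩ := hsh x.1 h1
  show |(Cl.acap x.2).b - b'| ≤ η + ξ ∧ |(Cl.acap x.2).a - a'| ≤ η + ξ
  constructor
  · have e : (Cl.acap x.2).b - b' = ((Cl.acap x.2).b - bs - Cl.jB (J x.1).1 (J x.1).2.1)
        + (Cl.jB (J x.1).1 (J x.1).2.1 + bs - b') := by ring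
    rw [e]
    exact (abs_add_le _ _).trans (by linarith)
  · have e : (Cl.acap x.2).a - a' = ((Cl.acap x.2).a - bs - Cl.lB (J x.1).1 (J x.1).2.1)
        + (Cl.lB (J x.1).1 (J x.1).2.1 + bs - a') := by ring
    rw [e]
    exact (abs_add_le _ _).trans (by linarith)

/-- the anchors of the returned test lie on the grid -/
theorem rpo_anchor [Nonempty At.𝔸] {t : ℝ} (hA : At.Good E B t r bs p) (J : T.Ω → Classes.Lab τ)
    (cl : Classes.Lab τ → Finset At.𝔸) (ap : At.𝔸 → Geo) (x : T.Ω × At.𝔸) :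
    ∃ k : ℤ, ((At.earlierX r T J cl ap).sat x).C = E.ε ^ (At.earlierX r T J cl ap).t * (k : ℝ) :=
  ⟨(At.loc x.2).1, hA.time x.2⟩

/-! ## 5. EXIT -/

/-- **S7 OUT, elongated case.**  `T.P` = the final current law `π`; `b', a'` = common bins of the ABSOLUTE widths of the assigned caps; `hreg` = regularity of the retained classes
(`rep_sub_credit`); `hal` = all the atoms of the winning classes are aligned. -/
theorem rpo_out_el [Nonempty At.𝔸] {Bat : PBd} (H : CutOK γ E B T r bs p ξ S0 A0 At Cl tag win)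
    (hW : WinOK E r bs T Cl tag win S)
    (hC : CompHyp (lg E.ε) T.P T.O T.D (ctJ E r bs T win) (ctLm E T) (Cl.LmW E r bs tag T win) (ctW γ T) bs
      (Cl.LA E) (Cl.LN E tag) (Cl.Lm E) Cl.gJ K (K0 γ B.M E) β r T.t R)
    (hM : Bat.M = B.M)
    (hOb : E.Obeys Bat ∧ (At.earlierX r T (ctJ E r bs T win) (Cl.clsOf tag) Cl.acap).Obeys Bat E)
    (h e0 acc' k Lg Ka u : ℝ) (hLg : 1 ≤ Lg) (hu : u = E.u r - h) (τV τX : E2) (ntab : Loc0 → ℝ)
    (hdef : 3 / 2 * pcxDef γ β B.M E T + 11 / 2 * R + ξ ≤ acc')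
    (b' a' η : ℝ) (hη : η + ξ ≤ acc')
    (hsh : ∀ o, 0 < T.P.p o → |Cl.jB (ctJ E r bs T win o).1 (ctJ E r bs T win o).2.1 + bs - b'| ≤ η ∧
      |Cl.lB (ctJ E r bs T win o).1 (ctJ E r bs T win o).2.1 + bs - a'| ≤ η)
    (ha : E.u r - acc' ≤ a') (he : e0 ≤ a' - b')
    (hreg : ∀ o, 0 < T.P.p o → rpoReg (Cl.clsOf tag (ctJ E r bs T win o))
      (fun A => bufP E.ε r u Lg τV τX (At.asite A))
      (fun A => rpoW true (E.ε ^ E.u r) (ntab (bufP E.ε r u Lg τV τX (At.asite A))) (At.asite A))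
      (E.ε ^ (k - acc')))
    (hal : ∀ o, 0 < T.P.p o → ∀ A ∈ Cl.clsOf tag (ctJ E r bs T win o),
      |Real.sin ((Cl.acap A).th - ntab (bufP E.ε r u Lg τV τX (At.asite A)))| ≤ Ka * E.ε ^ h) :
    RState γ β true Bat (max (max (2 * Lg) 256) Ka) h e0 acc' k E
      (At.earlierX r T (ctJ E r bs T win) (Cl.clsOf tag) Cl.acap) := by
  have hne : ∀ o, 0 < T.P.p o → (Cl.clsOf tag (ctJ E r bs T win o)).Nonempty :=
    fun o ho => ct_cls_nonempty H hW o ho.ne'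
  refine ⟨hOb.1, hOb.2, ?_, ⟨b', a', ?_, ha, fun _ => he, fun hh => absurd hh (by simp)⟩, Or.inr ?_⟩
  · rw [hM]
    exact (rpo_defi_el H hW hC).trans hdef
  · intro x hx
    obtain ⟨s1, s2⟩ := rpo_shape_el H.goodC (ctJ E r bs T win) hne b' a' η hsh x hx
    exact ⟨s1.trans hη, s2.trans hη⟩
  · refine ⟨Loc0, ℤ × ℤ, fun x => bufP E.ε r u Lg τV τX (At.asite x.2),
      fun x => rpoW true (E.ε ^ E.u r) (ntab (bufP E.ε r u Lg τV τX (At.asite x.2))) (At.asite x.2), ntab, ?_, ?_⟩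
    · exact rpo_credit T.P (ctJ E r bs T win) (Cl.clsOf tag) (fun o ho => hne o (ct_pos_of_ne _ ho))
        (fun A => bufP E.ε r u Lg τV τX (At.asite A))
        (fun A => rpoW true (E.ε ^ E.u r) (ntab (bufP E.ε r u Lg τV τX (At.asite A))) (At.asite A))
        (Real.rpow_pos_of_pos H.obE.ε0 _).le (fun o ho => hreg o (ct_pos_of_ne _ ho))
    · exact rpo_incoming E H.obE.ε0 (At.earlierX r T (ctJ E r bs T win) (Cl.clsOf tag) Cl.acap) true h u Lg Ka hLg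
        hu τV τX ntab (fun x _ => rpo_anchor H.goodA _ _ _ x) (fun _ x hx => by
          obtain ⟨h1, h2⟩ := rpo_supp (ctJ E r bs T win) (Cl.clsOf tag) Cl.acap hne x hx
          exact hal x.1 h1 x.2 h2)

/-- **S7 OUT, isotropic case.**  `hg` = common `g` bin (from "not Forced", (X3)). -/
theorem rpo_out_iso [Nonempty At.𝔸] {Bat : PBd} (H : CutOK γ E B T r bs p ξ S0 A0 At Cl tag win)
    (hW : WinOK E r bs T Cl tag win S)
    (hC : CompHyp (lg E.ε) T.P T.O T.D (ctJ E r bs T win) (ctLm E T) (Cl.LmW E r bs tag T win) (ctW γ T) bs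
      (Cl.LA E) (Cl.LN E tag) (Cl.Lm E) Cl.gJ K (K0 γ B.M E) β r T.t R)
    (hM : Bat.M = B.M)
    (hOb : E.Obeys Bat ∧ (At.earlierX r T (ctJ E r bs T win) (Cl.clsOf tag) (At.isoAp E r)).Obeys Bat E)
    (h acc' k Lg u ζ : ℝ) (hLg : 1 ≤ Lg) (hu : u = E.u r - h) (τV τX : E2) (hacc : 0 ≤ acc')
    (hg : ∀ o, 0 < T.P.p o → Cl.gJ (ctJ E r bs T win o) ≤ 2 * E.u r + ζ)
    (hdef : pcxDef γ β B.M E T + 3 * R + bs + ζ / 2 ≤ acc')
    (hreg : ∀ o, 0 < T.P.p o → rpoReg (Cl.clsOf tag (ctJ E r bs T win o))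
      (fun A => bufP E.ε r u Lg τV τX (At.asite A)) (fun A => rpoW false (E.ε ^ E.u r) 0 (At.asite A))
      (E.ε ^ (k - acc'))) :
    RState γ β false Bat (max (max (2 * Lg) 256) 0) h 0 acc' k E
      (At.earlierX r T (ctJ E r bs T win) (Cl.clsOf tag) (At.isoAp E r)) := by
  have hne : ∀ o, 0 < T.P.p o → (Cl.clsOf tag (ctJ E r bs T win o)).Nonempty :=
    fun o ho => ct_cls_nonempty H hW o ho.ne'
  refine ⟨hOb.1, hOb.2, ?_, ⟨E.u r, E.u r, ?_, ?_, fun hh => absurd hh (by simp), fun _ _ _ => ⟨rfl, rfl⟩⟩,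
    Or.inr ?_⟩
  · rw [hM]
    exact (rpo_defi_iso H hW hC ζ hg).trans hdef
  · intro x _
    show |E.u r - E.u r| ≤ acc' ∧ |E.u r - E.u r| ≤ acc'
    rw [sub_self, abs_zero]
    exact ⟨hacc, hacc⟩
  · show E.u r - acc' ≤ E.u r
    linarith
  · refine ⟨Loc0, ℤ × ℤ, fun x => bufP E.ε r u Lg τV τX (At.asite x.2),
      fun x => rpoW false (E.ε ^ E.u r) 0 (At.asite x.2), fun _ => 0, ?_, ?_⟩
    · exact rpo_credit T.P (ctJ E r bs T win) (Cl.clsOf tag) (fun o ho => hne o (ct_pos_of_ne _ ho))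
        (fun A => bufP E.ε r u Lg τV τX (At.asite A)) (fun A => rpoW false (E.ε ^ E.u r) 0 (At.asite A))
        (Real.rpow_pos_of_pos H.obE.ε0 _).le (fun o ho => hreg o (ct_pos_of_ne _ ho))
    · exact rpo_incoming E H.obE.ε0 (At.earlierX r T (ctJ E r bs T win) (Cl.clsOf tag) (At.isoAp E r)) false h u Lg 0
        hLg hu τV τX (fun _ => 0) (fun x _ => rpo_anchor H.goodA _ _ _ x) (fun hh => absurd hh (by simp))

end

/-! ## 6. complements: admissibility of the isotropic apertures, regular subclasses, capacity -/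

/-- the exact isotropic boundary apertures are admissible (`u_r ≤ L - r` : the horizon contains them) -/
theorem rpo_early_iso {γ : ℝ} {E : PEnv} {B : PBd} {T : PTest} {r bs : ℝ} {p : Atoms.Par} {ξ : ℝ} {S0 : ℕ} {A0 : ℝ}
    {At : Atoms} {Cl : Classes At} {τ : Type} {tag : At.𝔸 → τ} {win : T.ι → ℕ × τ} {S : ℝ}
    (H : CutOK γ E B T r bs p ξ S0 A0 At Cl tag win) (hW : WinOK E r bs T Cl tag win S) (hu0 : 0 ≤ E.u r)
    (huL : E.u r ≤ E.L - r) :
    EarlyOK E r T At Cl (ctJ E r bs T win) (Cl.clsOf tag) (At.isoAp E r) := by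
  refine ⟨fun o ho => ct_cls_nonempty H hW o ho.ne', fun _ _ => ct_cls_sub Cl tag _, fun _ _ A _ => ?_⟩
  have hz : ∀ b a : ℝ, InRect 1 E.ε b a 0 (0 : ℝ × ℝ) := by
    intro b a
    unfold InRect ip
    simp only [Prod.fst_zero, Prod.snd_zero, zero_mul, add_zero, abs_zero, one_mul]
    exact ⟨(Real.rpow_pos_of_pos H.obE.ε0 _).le, (Real.rpow_pos_of_pos H.obE.ε0 _).le⟩
  refine ⟨hu0, le_rfl, huL, le_rfl, rfl, ?_, ?_⟩
  · show InRect 1 E.ε (E.u r) (E.u r) 0 (toP (At.asite A).V - toP (At.asite A).V)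
    rw [sub_self]
    exact hz _ _
  · show InRect 1 E.ε (E.u r + r) (E.u r + r) 0 (toP (At.asite A).X - toP (At.asite A).X)
    rw [sub_self]
    exact hz _ _

/-- the subclasses of `Rep/Bins` are regular -/
theorem rpo_reg_sub {τ α β : Type} {b : ℝ} (hb : 1 < b) (𝒯 : Finset τ) (Pa : τ → α) (Wa : τ → β) (i k : ℕ) :
    rpoReg (rep_sub b 𝒯 Pa Wa i k) Pa Wa (b / b ^ k) :=
  fun _ hA => rep_sub_credit hb 𝒯 Pa Wa hA

theorem rpo_reg_mono {τ α β : Type} {C : Finset τ} {Pa : τ → α} {Wa : τ → β} {κ κ' : ℝ} (h : rpoReg C Pa Wa κ)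
    (hκ : κ ≤ κ') : rpoReg C Pa Wa κ' :=
  fun A hA => (h A hA).trans (mul_le_mul_of_nonneg_right hκ (Nat.cast_nonneg _))

/-- `b = ε^(-ξ)` : `b / b^k = ε^(ξ k - ξ)` -/
theorem rpo_bin_pow {ε ξ : ℝ} (hε : 0 < ε) (k : ℕ) : ε ^ (-ξ) / (ε ^ (-ξ)) ^ k = ε ^ (ξ * k - ξ) := by
  rw [← Real.rpow_natCast, ← Real.rpow_mul hε.le, ← Real.rpow_sub hε]
  congr 1
  ring

theorem rpo_ip_nrm_le (w : E2) (th : ℝ) : |ip (toP w) (nrm th)| ≤ ‖w‖ := by
  refine abs_le_of_sq_le_sq ?_ (norm_nonneg w)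
  rw [EuclideanSpace.norm_sq_eq, Fin.sum_univ_two]
  simp only [ip, toP, nrm, Real.norm_eq_abs, sq_abs]
  have h := Real.sin_sq_add_cos_sq th
  nlinarith [sq_nonneg (w 0 * Real.cos th + w 1 * Real.sin th)]

/-- the fine velocity labels over one coarse label: a list of size `≤ (6 Lg)^2 ε^(-d h)` -/
theorem rpo_W_list {ε r u h Lg : ℝ} (hε : 0 < ε) (hε1 : ε < 1) (hh : 0 ≤ h) (hLg : 1 ≤ Lg) (τV τX : E2) (el : Bool)
    (θ : ℝ) (s0 : Site) :
    ∃ S : Finset (ℤ × ℤ), (S.card : ℝ) ≤ (6 * Lg) ^ 2 * ε ^ (-((if el = true then 1 else 2) * h)) ∧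
      ∀ s : Site, bufP ε r u Lg τV τX s = bufP ε r u Lg τV τX s0 → rpoW el (ε ^ (u + h)) θ s ∈ S := by
  have hw : 0 < ε ^ (u + h) := Real.rpow_pos_of_pos hε _
  have hLg0 : 0 < Lg := by linarith
  have hpos : 0 < ε ^ (-h) := Real.rpow_pos_of_pos hε _
  have h1le : 1 ≤ ε ^ (-h) := Real.one_le_rpow_of_pos_of_le_one_of_nonpos hε hε1.le (by linarith)
  obtain ⟨ρ, hρ⟩ : ∃ ρ, ρ = 2 * Lg * ε ^ (-h) := ⟨_, rfl⟩
  have hρw : ρ * ε ^ (u + h) = 2 * Lg * ε ^ u := by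
    rw [hρ, mul_assoc, ← Real.rpow_add hε]
    congr 2
    ring
  have hV : ∀ s : Site, bufP ε r u Lg τV τX s = bufP ε r u Lg τV τX s0 → ‖s.V - s0.V‖ ≤ ρ * ε ^ (u + h) :=
    fun s hs => by
      rw [hρw]
      exact (rpb_close hε hLg0 hs).2.1
  have hρ0 : 0 ≤ ρ := by rw [hρ]; positivity
  have hL1 : 1 ≤ Lg * ε ^ (-h) := one_le_mul_of_one_le_of_one_le hLg h1le
  have hcnt : 2 * ρ + 2 ≤ 6 * Lg * ε ^ (-h) := by
    rw [hρ]
    linarith
  by_cases hel : el = true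
  · refine ⟨Finset.Icc ⌊(ip (toP s0.V) (nrm θ) - ρ * ε ^ (u + h)) / ε ^ (u + h)⌋
          ⌊(ip (toP s0.V) (nrm θ) + ρ * ε ^ (u + h)) / ε ^ (u + h)⌋ ×ˢ {0}, ?_, ?_⟩
    · rw [Finset.card_product, Finset.card_singleton, mul_one, if_pos hel, one_mul]
      refine (rpo_Icc_card (ip (toP s0.V) (nrm θ)) ρ _ hw hρ0).trans (hcnt.trans ?_)
      have : 6 * Lg ≤ (6 * Lg) ^ 2 := by nlinarith
      exact mul_le_mul_of_nonneg_right this hpos.le
    · intro s hs
      unfold rpoW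
      rw [if_pos hel]
      refine Finset.mem_product.2 ⟨rpb_floor_mem hw ?_, Finset.mem_singleton.2 rfl⟩
      have e : ip (toP s.V) (nrm θ) - ip (toP s0.V) (nrm θ) = ip (toP (s.V - s0.V)) (nrm θ) := by
        simp only [ip, toP, PiLp.sub_apply]
        ring
      rw [e]
      exact (rpo_ip_nrm_le _ _).trans (hV s hs)
  · refine ⟨Finset.Icc ⌊(s0.V 0 - ρ * ε ^ (u + h)) / ε ^ (u + h)⌋ ⌊(s0.V 0 + ρ * ε ^ (u + h)) / ε ^ (u + h)⌋ ×ˢ
        Finset.Icc ⌊(s0.V 1 - ρ * ε ^ (u + h)) / ε ^ (u + h)⌋ ⌊(s0.V 1 + ρ * ε ^ (u + h)) / ε ^ (u + h)⌋, ?_, ?_⟩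
    · rw [Finset.card_product, if_neg hel]
      push_cast
      have c0 := rpo_Icc_card (s0.V 0) ρ _ hw hρ0
      have c1 := rpo_Icc_card (s0.V 1) ρ _ hw hρ0
      refine (mul_le_mul c0 c1 (by positivity) (by linarith)).trans
        ((mul_le_mul hcnt hcnt (by linarith) (by positivity)).trans (le_of_eq ?_))
      have e : ε ^ (-(2 * h)) = ε ^ (-h) * ε ^ (-h) := by
        rw [← Real.rpow_add hε]
        congr 1
        ring
      rw [e]
      ring
    · intro s hs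
      unfold rpoW
      rw [if_neg hel]
      unfold cell
      refine Finset.mem_product.2 ⟨rpb_floor_mem hw ?_, rpb_floor_mem hw ?_⟩
      · exact (rpb_coord_le (s.V - s0.V) 0).trans (hV s hs)
      · exact (rpb_coord_le (s.V - s0.V) 1).trans (hV s hs)

theorem rpo_card_image_le {ι β : Type} (C : Finset ι) (W : ι → β) (S : Finset β) (h : ∀ i ∈ C, W i ∈ S) :
    (C.image W).card ≤ S.card :=
  Finset.card_le_card fun x hx => by
    obtain ⟨i, hi, rfl⟩ := Finset.mem_image.1 hx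
    exact h i hi

theorem rpo_mem_filter_eq {ι α : Type} {C : Finset ι} {P : ι → α} {t a : ι}
    (h : a ∈ C.filter (fun t' => P t' = P t)) : P a = P t := (Finset.mem_filter.1 h).2

/-- **capacity** ((11.velocity-fiber-regularity), last bound): a nonempty subclass with second tag `k`, mesh `ξ` : `ξ k ≤ d h + 2 log (6 Lg) / ℓ` -/
theorem rpo_capacity {ε r u h Lg ξ : ℝ} (hε : 0 < ε) (hε1 : ε < 1) (hh : 0 ≤ h) (hLg : 1 ≤ Lg) (hξ : 0 < ξ)
    (τV τX : E2) (el : Bool) (ntab : Loc0 → ℝ) {ι : Type} (𝒯 : Finset ι) (s : ι → Site) (i k : ℕ)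
    (hne : (rep_sub (ε ^ (-ξ)) 𝒯 (fun a => bufP ε r u Lg τV τX (s a))
      (fun a => rpoW el (ε ^ (u + h)) (ntab (bufP ε r u Lg τV τX (s a))) (s a)) i k).Nonempty) :
    ξ * k ≤ (if el = true then 1 else 2) * h + 2 * Real.log (6 * Lg) / lg ε := by
  have hb : 1 < ε ^ (-ξ) := Real.one_lt_rpow_of_pos_of_lt_one_of_neg hε hε1 (by linarith)
  have hl := p9_lg_pos hε hε1
  have el2 : lg ε = - Real.log ε := by
    unfold lg
    rw [one_div, Real.log_inv]
  have hcap := rep_sub_capacity hb 𝒯 (fun a => bufP ε r u Lg τV τX (s a))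
    (fun a => rpoW el (ε ^ (u + h)) (ntab (bufP ε r u Lg τV τX (s a))) (s a)) hne
    (M := (6 * Lg) ^ 2 * ε ^ (-((if el = true then 1 else 2) * h))) (by
      intro t _
      obtain ⟨S, hS, hmem⟩ := rpo_W_list (r := r) (u := u) hε hε1 hh hLg τV τX el
        (ntab (bufP ε r u Lg τV τX (s t))) (s t)
      refine le_trans (Nat.cast_le.2 (rpo_card_image_le _ _ S fun a ha => ?_)) hS
      have h2 : bufP ε r u Lg τV τX (s a) = bufP ε r u Lg τV τX (s t) :=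
        rpo_mem_filter_eq (P := fun a => bufP ε r u Lg τV τX (s a)) ha
      show rpoW el _ (ntab (bufP ε r u Lg τV τX (s a))) (s a) ∈ S
      rw [h2]
      exact hmem (s a) h2)
  have h6 : 0 < 6 * Lg := by linarith
  have hlog := Real.log_le_log (by positivity) hcap
  rw [Real.log_pow, Real.log_rpow hε, Real.log_mul (by positivity) (Real.rpow_pos_of_pos hε _).ne', Real.log_pow,
    Real.log_rpow hε] at hlog
  rw [← sub_le_iff_le_add', le_div_iff₀ hl, el2]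
  push_cast at hlog
  nlinarith

end Claimed.Agent.R255
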