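-- KEEP
import Claimed.Agent.R255.Rep.State
import Claimed.Agent.R255.Rep.Buffer
import Claimed.Agent.R255.Comp.CutThm

/-!
# Row 255 (BR paper), Sec. 11, stage S7 OUT, part (5): the INCOMING structure of the returned test      (helper51; prefix `rpoi_`)

The labels returned by a prepared cut (BR Sec. 11.1 read at the earlier time `r`, `u_r = u + h`):
* coarse label  `P = bufP ε r u Lg τV τX site`   (`u = u_r - h = u_t`, S1 BUFFER of helper264);
* fine label    `rpoiW1 ε u_r (nP P) V` = cell of length `ε^(u_r)` of the velocity component along `nrm (nP P)`   (elongated),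
                `rpoiW2 ε u_r V`        = cell of side `ε^(u_r)` of the velocity                                    (isotropic).
`rpoi_incoming_el`, `rpoi_incoming_iso` : `Incoming` for ANY test whose active sites have their anchors on the grid `ε^t ℤ`.
`rpoi_earlier_el`, `rpoi_earlier_iso`   : the same for the earlier test `At.earlierX r T J cl ap` (labels = functions of the atom).
`rpoi_cap1`, `rpoi_cap2`                : capacity: one `P` cell carries at most `4 Lg ε^(-h) + 2` resp. its square values of the fine label.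
-/

set_option autoImplicit false

namespace Claimed.Agent.R255

open scoped BigOperators
open Classical
open FLaw Pkt Osc

/-- fine velocity label, elongated case: the component along `nrm th` in intervals of length `ε^u` -/
noncomputable def rpoiW1 (ε u th : ℝ) (V : E2) : ℤ := ⌊ip (toP V) (nrm th) / ε ^ u⌋

/-- fine velocity label, isotropic case: both components in intervals of length `ε^u` -/
noncomputable def rpoiW2 (ε u : ℝ) (V : E2) : ℤ × ℤ := cell (ε ^ u) V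

theorem rpoi_eqns_cite : True := by
  have := @rpoiW1.eq_1
  have := @rpoiW2.eq_1
  trivial

/-- `|⟨z, nrm th⟩| ≤ ‖z‖` -/
theorem rpoi_ip_nrm_le (z : E2) (th : ℝ) : |ip (toP z) (nrm th)| ≤ ‖z‖ := by
  have h1 : ‖z‖ ^ 2 = z 0 ^ 2 + z 1 ^ 2 := by
    rw [EuclideanSpace.norm_eq, Real.sq_sqrt (Finset.sum_nonneg fun _ _ => sq_nonneg _)]
    simp [Fin.sum_univ_two]
  have h2 : (ip (toP z) (nrm th)) ^ 2 ≤ ‖z‖ ^ 2 := by
    rw [h1]
    unfold ip toP nrm
    simp only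
    nlinarith [Real.sin_sq_add_cos_sq th, sq_nonneg (z 0 * Real.cos th + z 1 * Real.sin th)]
  exact abs_le_of_sq_le_sq h2 (norm_nonneg _)

theorem rpoi_ip_sub (x y : E2) (th : ℝ) :
    ip (toP x) (nrm th) - ip (toP y) (nrm th) = ip (toP (x - y)) (nrm th) := by
  unfold ip toP
  simp only [PiLp.sub_apply]
  ring

/-- the four geometric fields of `Incoming` which concern the coarse label -/
theorem rpoi_coarse (E : PEnv) (T : PTest) (hε : 0 < E.ε) {h u Lg Kc : ℝ} (hu : u = E.u T.t - h) (hLg : 1 ≤ Lg)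
    (hK1 : 2 * Lg ≤ Kc) (hK2 : 256 ≤ Kc) (τV τX : E2)
    (hgrid : ∀ o, 0 < T.P.p o → ∃ k : ℤ, (T.sat o).C = E.ε ^ T.t * (k : ℝ)) :
    (∀ o o', 0 < T.P.p o → 0 < T.P.p o' →
      bufP E.ε T.t u Lg τV τX (T.sat o) = bufP E.ε T.t u Lg τV τX (T.sat o') → (T.sat o).C = (T.sat o').C) ∧
    (∀ o o', 0 < T.P.p o → 0 < T.P.p o' →
      bufP E.ε T.t u Lg τV τX (T.sat o) = bufP E.ε T.t u Lg τV τX (T.sat o') →
      ‖(T.sat o).V - (T.sat o').V‖ ≤ Kc * E.ε ^ (E.u T.t - h)) ∧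
    (∀ o o', 0 < T.P.p o → 0 < T.P.p o' →
      bufP E.ε T.t u Lg τV τX (T.sat o) = bufP E.ε T.t u Lg τV τX (T.sat o') →
      ‖(T.sat o).X - (T.sat o').X‖ ≤ Kc * E.ε ^ (T.t + E.u T.t - h)) ∧
    (∀ (c : ℝ) (v x : Osc.E2) (ρ : ℝ), 1 ≤ ρ → ∃ S : Finset Loc0, (S.card : ℝ) ≤ Kc * ρ ^ 4 ∧
      ∀ o, 0 < T.P.p o → (T.sat o).C = c → ‖(T.sat o).V - v‖ ≤ ρ * E.ε ^ (E.u T.t - h) →
        ‖(T.sat o).X - x‖ ≤ ρ * E.ε ^ (T.t + E.u T.t - h) → bufP E.ε T.t u Lg τV τX (T.sat o) ∈ S) := by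
  subst hu
  have hLg0 : 0 < Lg := by linarith
  have hpu : 0 < E.ε ^ (E.u T.t - h) := Real.rpow_pos_of_pos hε _
  have hpt : 0 < E.ε ^ T.t := Real.rpow_pos_of_pos hε _
  have eadd : E.ε ^ (T.t + E.u T.t - h) = E.ε ^ T.t * E.ε ^ (E.u T.t - h) := by
    rw [← Real.rpow_add hε]
    congr 1
    ring
  refine ⟨?_, ?_, ?_, ?_⟩
  · intro o o' ho ho' hP
    obtain ⟨k, hk⟩ := hgrid o ho
    obtain ⟨k', hk'⟩ := hgrid o' ho'
    have h1 := (rpb_close hε hLg0 hP).1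
    rw [(rpb_back_anchor hε _ k hk).2, (rpb_back_anchor hε _ k' hk').2] at h1
    rw [hk, hk', h1]
  · intro o o' ho ho' hP
    exact (rpb_close hε hLg0 hP).2.1.trans (mul_le_mul_of_nonneg_right hK1 hpu.le)
  · intro o o' ho ho' hP
    obtain ⟨k, hk⟩ := hgrid o ho
    obtain ⟨k', hk'⟩ := hgrid o' ho'
    have h1 := (rpb_close hε hLg0 hP).2.2
    rw [(rpb_back_anchor hε _ k hk).1, (rpb_back_anchor hε _ k' hk').1] at h1
    rw [eadd]
    exact h1.trans (mul_le_mul_of_nonneg_right hK1 (mul_pos hpt hpu).le)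
  · intro c v x ρ hρ
    obtain ⟨S, hS, hmem⟩ := rpb_list (r := T.t) (u := E.u T.t - h) hε hLg τV τX ⌊c / E.ε ^ T.t⌋ v x
      (ρ := ρ) (by linarith)
    refine ⟨S, hS.trans ?_, ?_⟩
    · have h1 : (2 * ρ + 2) ^ 4 ≤ (4 * ρ) ^ 4 := by
        apply pow_le_pow_left₀ (by linarith)
        linarith
      have h2 : (4 * ρ) ^ 4 = 256 * ρ ^ 4 := by ring
      rw [h2] at h1
      exact h1.trans (mul_le_mul_of_nonneg_right hK2 (by positivity))
    · intro o ho hC hV hX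
      obtain ⟨k, hk⟩ := hgrid o ho
      refine hmem _ (by rw [hC]) hV ?_
      rw [(rpb_back_anchor hε _ k hk).1, ← eadd]
      exact hX

/-- the list of the fine labels, elongated case -/
theorem rpoi_list1 {ε u : ℝ} (hε : 0 < ε) (th y ρ : ℝ) (hρ : 1 ≤ ρ) :
    ∃ S : Finset ℤ, (S.card : ℝ) ≤ 4 * ρ ∧
      ∀ V : E2, |ip (toP V) (nrm th) - y| ≤ ρ * ε ^ u → rpoiW1 ε u th V ∈ S := by
  refine ⟨ctI (y / ε ^ u) ρ, (ct_I_card _ _ (by linarith)).trans (by linarith), fun V hV => ?_⟩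
  exact ct_I_mem (Real.rpow_pos_of_pos hε u) hV

/-- the list of the fine labels, isotropic case -/
theorem rpoi_list2 {ε u : ℝ} (hε : 0 < ε) (v : E2) (ρ : ℝ) (hρ : 1 ≤ ρ) :
    ∃ S : Finset (ℤ × ℤ), (S.card : ℝ) ≤ 16 * ρ ^ 2 ∧
      ∀ V : E2, ‖V - v‖ ≤ ρ * ε ^ u → rpoiW2 ε u V ∈ S := by
  refine ⟨ctI (v 0 / ε ^ u) ρ ×ˢ ctI (v 1 / ε ^ u) ρ, ?_, fun V hV => ?_⟩
  · rw [Finset.card_product, Nat.cast_mul]
    have h0 := ct_I_card (v 0 / ε ^ u) ρ (by linarith)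
    have h1 := ct_I_card (v 1 / ε ^ u) ρ (by linarith)
    have h2 : ((ctI (v 0 / ε ^ u) ρ).card : ℝ) * ((ctI (v 1 / ε ^ u) ρ).card : ℝ) ≤ (4 * ρ) * (4 * ρ) :=
      mul_le_mul (by linarith) (by linarith) (Nat.cast_nonneg _) (by linarith)
    nlinarith
  · have hw := Real.rpow_pos_of_pos hε u
    have c0 : |V 0 - v 0| ≤ ρ * ε ^ u := (rpb_coord_le (V - v) 0).trans hV
    have c1 : |V 1 - v 1| ≤ ρ * ε ^ u := (rpb_coord_le (V - v) 1).trans hV
    exact Finset.mem_product.2 ⟨ct_I_mem hw c0, ct_I_mem hw c1⟩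

/-- **`Incoming`, elongated case**, for any test with anchors on the grid `ε^t ℤ` -/
theorem rpoi_incoming_el (E : PEnv) (T : PTest) (hε : 0 < E.ε) {h u Lg Kc : ℝ} (hu : u = E.u T.t - h) (hLg : 1 ≤ Lg)
    (hK1 : 2 * Lg ≤ Kc) (hK2 : 256 ≤ Kc) (τV τX : E2) (nP : Loc0 → ℝ)
    (hgrid : ∀ o, 0 < T.P.p o → ∃ k : ℤ, (T.sat o).C = E.ε ^ T.t * (k : ℝ))
    (hal : ∀ o, 0 < T.P.p o →
      |Real.sin ((T.geo (T.D o)).th - nP (bufP E.ε T.t u Lg τV τX (T.sat o)))| ≤ Kc * E.ε ^ h) :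
    Incoming E T h Kc true (fun o => bufP E.ε T.t u Lg τV τX (T.sat o))
      (fun o => rpoiW1 E.ε (E.u T.t) (nP (bufP E.ε T.t u Lg τV τX (T.sat o))) (T.sat o).V) nP := by
  obtain ⟨a1, a2, a3, a4⟩ := rpoi_coarse E T hε hu hLg hK1 hK2 τV τX hgrid
  refine ⟨a1, a2, a3, a4, ?_, fun hh => absurd hh (by simp), fun _ => hal⟩
  intro _ p y ρ hρ
  obtain ⟨S, hS, hmem⟩ := rpoi_list1 (u := E.u T.t) hε (nP p) y ρ hρ
  refine ⟨S, hS.trans (mul_le_mul_of_nonneg_right (by linarith) (by linarith)), fun o _ hp hy => ?_⟩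
  simp only [hp]
  exact hmem _ hy

/-- **`Incoming`, isotropic case**, for any test with anchors on the grid `ε^t ℤ` -/
theorem rpoi_incoming_iso (E : PEnv) (T : PTest) (hε : 0 < E.ε) {h u Lg Kc : ℝ} (hu : u = E.u T.t - h) (hLg : 1 ≤ Lg)
    (hK1 : 2 * Lg ≤ Kc) (hK2 : 256 ≤ Kc) (τV τX : E2) (nP : Loc0 → ℝ)
    (hgrid : ∀ o, 0 < T.P.p o → ∃ k : ℤ, (T.sat o).C = E.ε ^ T.t * (k : ℝ)) :
    Incoming E T h Kc false (fun o => bufP E.ε T.t u Lg τV τX (T.sat o))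
      (fun o => rpoiW2 E.ε (E.u T.t) (T.sat o).V) nP := by
  obtain ⟨a1, a2, a3, a4⟩ := rpoi_coarse E T hε hu hLg hK1 hK2 τV τX hgrid
  refine ⟨a1, a2, a3, a4, fun hh => absurd hh (by simp), ?_, fun hh => absurd hh (by simp)⟩
  intro _ p v ρ hρ
  obtain ⟨S, hS, hmem⟩ := rpoi_list2 (u := E.u T.t) hε v ρ hρ
  exact ⟨S, hS.trans (mul_le_mul_of_nonneg_right (by linarith) (by positivity)), fun o _ _ hy => hmem _ hy⟩

/-! ## the earlier test -/

section Earlier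

variable {τ : Type} {E : PEnv} {B : PBd} {t r bs : ℝ} {p : Atoms.Par} {At : Atoms} [Nonempty At.𝔸]

/-- the support of the earlier test -/
theorem rpoi_supp (r : ℝ) (T : PTest) (J : T.Ω → Classes.Lab τ) (cl : Classes.Lab τ → Finset At.𝔸) (ap : At.𝔸 → Geo)
    (hne : ∀ o, 0 < T.P.p o → (cl (J o)).Nonempty) (x : (At.earlierX r T J cl ap).Ω)
    (hx : 0 < (At.earlierX r T J cl ap).P.p x) : 0 < T.P.p x.1 ∧ x.2 ∈ cl (J x.1) := by
  have h := pc_mu_supp T.P J cl (fun o ho => hne o (ct_pos_of_ne _ ho)) x (ne_of_gt hx)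
  exact ⟨ct_pos_of_ne _ h.1, h.2⟩

theorem rpoi_grid (hA : At.Good E B t r bs p) (T : PTest) (J : T.Ω → Classes.Lab τ)
    (cl : Classes.Lab τ → Finset At.𝔸) (ap : At.𝔸 → Geo) (x : (At.earlierX r T J cl ap).Ω) :
    ∃ k : ℤ, ((At.earlierX r T J cl ap).sat x).C = E.ε ^ (At.earlierX r T J cl ap).t * (k : ℝ) :=
  ⟨(At.loc x.2).1, hA.time x.2⟩

/-- **`Incoming` of the returned test, elongated case**.  `u = u_t` (endpoint), `u_r = u + h`. -/
theorem rpoi_earlier_el (hε : 0 < E.ε) (hA : At.Good E B t r bs p) (T : PTest) (J : T.Ω → Classes.Lab τ)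
    (cl : Classes.Lab τ → Finset At.𝔸) (ap : At.𝔸 → Geo) (hne : ∀ o, 0 < T.P.p o → (cl (J o)).Nonempty)
    {h u Lg Kc : ℝ} (hu : u = E.u r - h) (hLg : 1 ≤ Lg) (hK1 : 2 * Lg ≤ Kc) (hK2 : 256 ≤ Kc) (τV τX : E2)
    (nP : Loc0 → ℝ)
    (hal : ∀ o, 0 < T.P.p o → ∀ A ∈ cl (J o),
      |Real.sin ((ap A).th - nP (bufP E.ε r u Lg τV τX (At.asite A)))| ≤ Kc * E.ε ^ h) :
    Incoming E (At.earlierX r T J cl ap) h Kc true
      (fun x => bufP E.ε r u Lg τV τX (At.asite x.2))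
      (fun x => rpoiW1 E.ε (E.u r) (nP (bufP E.ε r u Lg τV τX (At.asite x.2))) (At.asite x.2).V) nP :=
  rpoi_incoming_el E (At.earlierX r T J cl ap) hε hu hLg hK1 hK2 τV τX nP
    (fun x _ => rpoi_grid hA T J cl ap x)
    (fun x hx => hal x.1 (rpoi_supp r T J cl ap hne x hx).1 x.2 (rpoi_supp r T J cl ap hne x hx).2)

/-- **`Incoming` of the returned test, isotropic case** -/
theorem rpoi_earlier_iso (hε : 0 < E.ε) (hA : At.Good E B t r bs p) (T : PTest) (J : T.Ω → Classes.Lab τ)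
    (cl : Classes.Lab τ → Finset At.𝔸) (ap : At.𝔸 → Geo)
    {h u Lg Kc : ℝ} (hu : u = E.u r - h) (hLg : 1 ≤ Lg) (hK1 : 2 * Lg ≤ Kc) (hK2 : 256 ≤ Kc) (τV τX : E2)
    (nP : Loc0 → ℝ) :
    Incoming E (At.earlierX r T J cl ap) h Kc false
      (fun x => bufP E.ε r u Lg τV τX (At.asite x.2)) (fun x => rpoiW2 E.ε (E.u r) (At.asite x.2).V) nP :=
  rpoi_incoming_iso E (At.earlierX r T J cl ap) hε hu hLg hK1 hK2 τV τX nP
    (fun x _ => rpoi_grid hA T J cl ap x)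

end Earlier

/-! ## capacity of a coarse cell -/

/-- one coarse cell carries at most `4 Lg ε^(-h) + 2` fine labels (elongated) -/
theorem rpoi_cap1 {ι : Type} [DecidableEq ℤ] {ε r u h Lg : ℝ} (hε : 0 < ε) (hLg : 0 < Lg) (τV τX : E2) (th : ℝ) (s : ι → Site)
    (S : Finset ι) (P : Loc0) (hS : ∀ i ∈ S, bufP ε r u Lg τV τX (s i) = P) :
    ((S.image fun i => rpoiW1 ε (u + h) th (s i).V).card : ℝ) ≤ 4 * Lg * ε ^ (-h) + 2 := by
  have hw : 0 < ε ^ (u + h) := Real.rpow_pos_of_pos hε _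
  have hρ : 0 ≤ 2 * Lg * ε ^ (-h) := by positivity
  have e : ε ^ u = ε ^ (-h) * ε ^ (u + h) := by
    rw [← Real.rpow_add hε]
    congr 1
    ring
  rcases S.eq_empty_or_nonempty with rfl | ⟨i₀, hi₀⟩
  · simp only [Finset.image_empty, Finset.card_empty, Nat.cast_zero]
    positivity
  · have hsub : (S.image fun i => rpoiW1 ε (u + h) th (s i).V)
        ⊆ ctI (ip (toP (s i₀).V) (nrm th) / ε ^ (u + h)) (2 * Lg * ε ^ (-h)) := by
      intro w hw'
      obtain ⟨i, hi, rfl⟩ := Finset.mem_image.1 hw'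
      refine ct_I_mem hw ?_
      rw [rpoi_ip_sub]
      refine (rpoi_ip_nrm_le _ _).trans ?_
      have := (rpb_close hε hLg ((hS i hi).trans (hS i₀ hi₀).symm)).2.1
      rw [e] at this
      linarith
    have h1 : ((S.image fun i => rpoiW1 ε (u + h) th (s i).V).card : ℝ)
        ≤ ((ctI (ip (toP (s i₀).V) (nrm th) / ε ^ (u + h)) (2 * Lg * ε ^ (-h))).card : ℝ) := by
      exact_mod_cast Finset.card_le_card hsub
    have h2 := ct_I_card (ip (toP (s i₀).V) (nrm th) / ε ^ (u + h)) (2 * Lg * ε ^ (-h)) hρ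
    linarith

/-- one coarse cell carries at most `(4 Lg ε^(-h) + 2)^2` fine labels (isotropic) -/
theorem rpoi_cap2 {ι : Type} [DecidableEq (ℤ × ℤ)] {ε r u h Lg : ℝ} (hε : 0 < ε) (hLg : 0 < Lg) (τV τX : E2) (s : ι → Site)
    (S : Finset ι) (P : Loc0) (hS : ∀ i ∈ S, bufP ε r u Lg τV τX (s i) = P) :
    ((S.image fun i => rpoiW2 ε (u + h) (s i).V).card : ℝ) ≤ (4 * Lg * ε ^ (-h) + 2) ^ 2 := by
  have hw : 0 < ε ^ (u + h) := Real.rpow_pos_of_pos hε _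
  have hρ : 0 ≤ 2 * Lg * ε ^ (-h) := by positivity
  have e : ε ^ u = ε ^ (-h) * ε ^ (u + h) := by
    rw [← Real.rpow_add hε]
    congr 1
    ring
  rcases S.eq_empty_or_nonempty with rfl | ⟨i₀, hi₀⟩
  · simp only [Finset.image_empty, Finset.card_empty, Nat.cast_zero]
    positivity
  · have hsub : (S.image fun i => rpoiW2 ε (u + h) (s i).V)
        ⊆ ctI ((s i₀).V 0 / ε ^ (u + h)) (2 * Lg * ε ^ (-h)) ×ˢ ctI ((s i₀).V 1 / ε ^ (u + h)) (2 * Lg * ε ^ (-h)) := by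
      intro w hw'
      obtain ⟨i, hi, rfl⟩ := Finset.mem_image.1 hw'
      have := (rpb_close hε hLg ((hS i hi).trans (hS i₀ hi₀).symm)).2.1
      rw [e] at this
      have c0 : |(s i).V 0 - (s i₀).V 0| ≤ 2 * Lg * ε ^ (-h) * ε ^ (u + h) :=
        (rpb_coord_le ((s i).V - (s i₀).V) 0).trans (by linarith)
      have c1 : |(s i).V 1 - (s i₀).V 1| ≤ 2 * Lg * ε ^ (-h) * ε ^ (u + h) :=
        (rpb_coord_le ((s i).V - (s i₀).V) 1).trans (by linarith)
      exact Finset.mem_product.2 ⟨ct_I_mem hw c0, ct_I_mem hw c1⟩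
    have h1 : ((S.image fun i => rpoiW2 ε (u + h) (s i).V).card : ℝ)
        ≤ ((ctI ((s i₀).V 0 / ε ^ (u + h)) (2 * Lg * ε ^ (-h))).card : ℝ)
          * ((ctI ((s i₀).V 1 / ε ^ (u + h)) (2 * Lg * ε ^ (-h))).card : ℝ) := by
      have := Finset.card_le_card hsub
      rw [Finset.card_product] at this
      exact_mod_cast this
    have h2 := ct_I_card ((s i₀).V 0 / ε ^ (u + h)) (2 * Lg * ε ^ (-h)) hρ
    have h3 := ct_I_card ((s i₀).V 1 / ε ^ (u + h)) (2 * Lg * ε ^ (-h)) hρ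
    refine h1.trans ?_
    rw [sq]
    exact mul_le_mul (by linarith) (by linarith) (Nat.cast_nonneg _) (by positivity)

end Claimed.Agent.R255
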