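-- KEEP
import Claimed.Agent.R255.Rep.Bins
import Claimed.Agent.R255.Rep.OutInc
import Claimed.Agent.R255.Pk9.Classes

/-!
# Row 255 (BR paper), Sec. 11.3 + 11.5: THE SUBCLASS TAGS on the frozen data of a cut, and the OUTGOING CREDIT (stage S7 OUT, part (4))      (helper51; prefix `rpot_`)

Data: atoms `At`, whole classes `Cl`, a mark `mk : atoms → μ` (alignment mark; `μ = Unit` in the isotropic case), coarse label `PA`, fine label `WA` of the atoms, bin ratio `b = ε^(-ξ)`.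
* `rpotCls Cl mk j c m`   the marked part of the whole class `(j, c)`
* `rpotTag Cl b n mk PA WA : atoms → μ × Fin (n+1) × Fin (n+1)`   THE TAG MAP of stage C of `Pkt/Cut` : (mark, fibre size bin, bin of the number of `W` over `P`) of helper128's `Rep/Bins`,
  computed inside the marked class of the atom, clamped at `n` (a FINITE tag type of cardinality `#μ (n+1)²`, independent of `ε`)
* `RpotOK`                "no clamping happens";  `rpot_ok_of_card`, `rpot_ok` : it holds as soon as `2 Hmax + 1 ≤ ξ (n+1)` and `ε < ε₀(B, p)`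
* `rpot_clsOf`            `Cl.clsOf tag (j, c, m, i, k) = rep_sub b (rpotCls Cl mk j c m) PA WA i k`
* `rpot_nw`               (11.velocity-fiber-regularity) : `b^k ≤ #{W | P} < b^(k+1)` in every retained class
* `rpot_credit`           (11.repayment-outgoing-credit) : `Credit (pcMu π J (clsOf tag)) PA WA (b / b^k₀)` if the `k` tag is common on the support of `π`
* `rpot_credit_eps`       the same with `ε^(ξ k₀ - acc)`
* `rpot_cap_el`, `rpot_cap_iso`   `ξ k ≤ d h + d log (4 Lg + 2) / ℓ`  for the labels `bufP`, `rpoiW1/2`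
* `rpot_state_el`, `rpot_state_iso`   the field `credit` of `RState` for the returned test.
-/

set_option autoImplicit false

namespace Claimed.Agent.R255

open scoped BigOperators
open Classical
open FLaw Pkt Osc

section Tags

variable {At : Atoms} (Cl : Classes At) {α β μ : Type}

/-- the marked part of a whole class -/
noncomputable def rpotCls (mk : At.𝔸 → μ) (j : Loc0) (c : ℕ) (m : μ) : Finset At.𝔸 :=
  Finset.univ.filter (fun A => At.loc A = j ∧ Cl.cls A = c ∧ mk A = m)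

/-- the marked class of an atom -/
noncomputable def rpotOwn (mk : At.𝔸 → μ) (A : At.𝔸) : Finset At.𝔸 := rpotCls Cl mk (At.loc A) (Cl.cls A) (mk A)

/-- **the tag map** -/
noncomputable def rpotTag (b : ℝ) (n : ℕ) (mk : At.𝔸 → μ) (PA : At.𝔸 → α) (WA : At.𝔸 → β) (A : At.𝔸) :
    μ × Fin (n + 1) × Fin (n + 1) :=
  (mk A, ⟨min (rep_sz b (rpotOwn Cl mk A) PA WA A) n, Nat.lt_succ_of_le (min_le_right _ _)⟩,
    ⟨min (rep_kt b (rpotOwn Cl mk A) PA WA A) n, Nat.lt_succ_of_le (min_le_right _ _)⟩)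

/-- no clamping -/
def RpotOK (b : ℝ) (n : ℕ) (mk : At.𝔸 → μ) (PA : At.𝔸 → α) (WA : At.𝔸 → β) : Prop :=
  ∀ A, rep_sz b (rpotOwn Cl mk A) PA WA A ≤ n ∧ rep_kt b (rpotOwn Cl mk A) PA WA A ≤ n

theorem rpot_eqns_cite : True := by
  have := @rpotCls.eq_1
  have := @rpotOwn.eq_1
  have := @rpotTag.eq_1
  have := @RpotOK.eq_1
  trivial

theorem rpot_mem_own (mk : At.𝔸 → μ) (A : At.𝔸) : A ∈ rpotOwn Cl mk A :=
  Finset.mem_filter.2 ⟨Finset.mem_univ _, rfl, rfl, rfl⟩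

theorem rpot_mem_cls (mk : At.𝔸 → μ) (j : Loc0) (c : ℕ) (m : μ) (A : At.𝔸) :
    A ∈ rpotCls Cl mk j c m ↔ At.loc A = j ∧ Cl.cls A = c ∧ mk A = m := by
  unfold rpotCls
  simp

theorem rpot_cls_sub_loc (mk : At.𝔸 → μ) (j : Loc0) (c : ℕ) (m : μ) :
    rpotCls Cl mk j c m ⊆ Finset.univ.filter (fun A => At.loc A = j) := by
  intro A hA
  exact Finset.mem_filter.2 ⟨Finset.mem_univ _, ((rpot_mem_cls Cl mk j c m A).1 hA).1⟩

/-- no clamping if the populations of the localizers are smaller than `b^(n+1)` -/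
theorem rpot_ok_of_card {b : ℝ} (hb : 1 < b) (n : ℕ) (mk : At.𝔸 → μ) (PA : At.𝔸 → α) (WA : At.𝔸 → β)
    (hcard : ∀ j : Loc0, ((Finset.univ.filter fun A => At.loc A = j).card : ℝ) < b ^ (n + 1)) :
    RpotOK Cl b n mk PA WA := by
  intro A
  have hm := rep_mem_sub b (rpotOwn Cl mk A) PA WA (rpot_mem_own Cl mk A)
  obtain ⟨h1, h2⟩ := rep_sub_tags_le hb (rpotOwn Cl mk A) PA WA ⟨A, hm⟩
  have h3 : ((rpotOwn Cl mk A).card : ℝ) < b ^ (n + 1) :=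
    lt_of_le_of_lt (by exact_mod_cast Finset.card_le_card (rpot_cls_sub_loc Cl mk _ _ _)) (hcard (At.loc A))
  exact ⟨Nat.lt_succ_iff.1 ((pow_lt_pow_iff_right₀ hb).1 (h1.trans_lt h3)),
    Nat.lt_succ_iff.1 ((pow_lt_pow_iff_right₀ hb).1 (h2.trans_lt h3))⟩

/-- **the retained classes are the subclasses of `Rep/Bins`** -/
theorem rpot_clsOf {b : ℝ} {n : ℕ} {mk : At.𝔸 → μ} {PA : At.𝔸 → α} {WA : At.𝔸 → β}
    (hok : RpotOK Cl b n mk PA WA) (J : Classes.Lab (μ × Fin (n + 1) × Fin (n + 1))) :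
    Cl.clsOf (rpotTag Cl b n mk PA WA) J
      = rep_sub b (rpotCls Cl mk J.1 J.2.1 J.2.2.1) PA WA (J.2.2.2.1 : ℕ) (J.2.2.2.2 : ℕ) := by
  obtain ⟨j, c, m, i, k⟩ := J
  ext A
  unfold Classes.clsOf Classes.lab rep_sub rpotTag
  simp only [Finset.mem_filter, Finset.mem_univ, true_and, Prod.mk.injEq, rpot_mem_cls, Fin.ext_iff]
  obtain ⟨o1, o2⟩ := hok A
  rw [min_eq_left o1, min_eq_left o2]
  constructor
  · rintro ⟨rfl, rfl, rfl, h1, h2⟩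
    exact ⟨⟨rfl, rfl, rfl⟩, h1, h2⟩
  · rintro ⟨⟨rfl, rfl, rfl⟩, h1, h2⟩
    exact ⟨rfl, rfl, rfl, h1, h2⟩

/-- (11.velocity-fiber-regularity) -/
theorem rpot_nw {b : ℝ} (hb : 1 < b) {n : ℕ} {mk : At.𝔸 → μ} {PA : At.𝔸 → α} {WA : At.𝔸 → β}
    (hok : RpotOK Cl b n mk PA WA) (J : Classes.Lab (μ × Fin (n + 1) × Fin (n + 1))) {A : At.𝔸}
    (hA : A ∈ Cl.clsOf (rpotTag Cl b n mk PA WA) J) :
    b ^ (J.2.2.2.2 : ℕ)
        ≤ ((((Cl.clsOf (rpotTag Cl b n mk PA WA) J).filter (fun A' => PA A' = PA A)).image WA).card : ℝ) ∧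
      ((((Cl.clsOf (rpotTag Cl b n mk PA WA) J).filter (fun A' => PA A' = PA A)).image WA).card : ℝ)
        < b ^ ((J.2.2.2.2 : ℕ) + 1) := by
  rw [rpot_clsOf Cl hok J] at hA ⊢
  exact rep_sub_nw hb _ PA WA hA

/-- (11.prepared-velocity-probability), counting form -/
theorem rpot_fibre {b : ℝ} (hb : 1 < b) {n : ℕ} {mk : At.𝔸 → μ} {PA : At.𝔸 → α} {WA : At.𝔸 → β}
    (hok : RpotOK Cl b n mk PA WA) (J : Classes.Lab (μ × Fin (n + 1) × Fin (n + 1))) {A : At.𝔸}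
    (hA : A ∈ Cl.clsOf (rpotTag Cl b n mk PA WA) J) :
    (((Cl.clsOf (rpotTag Cl b n mk PA WA) J).filter (fun A' => PA A' = PA A ∧ WA A' = WA A)).card : ℝ)
      ≤ b / b ^ (J.2.2.2.2 : ℕ)
        * (((Cl.clsOf (rpotTag Cl b n mk PA WA) J).filter (fun A' => PA A' = PA A)).card : ℝ) := by
  rw [rpot_clsOf Cl hok J] at hA ⊢
  exact rep_sub_credit hb _ PA WA hA

/-- capacity -/
theorem rpot_capacity {b : ℝ} (hb : 1 < b) {n : ℕ} {mk : At.𝔸 → μ} {PA : At.𝔸 → α} {WA : At.𝔸 → β}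
    (hok : RpotOK Cl b n mk PA WA) (J : Classes.Lab (μ × Fin (n + 1) × Fin (n + 1)))
    (hne : (Cl.clsOf (rpotTag Cl b n mk PA WA) J).Nonempty) {M : ℝ}
    (hM : ∀ (S : Finset At.𝔸) (P : α), (∀ A ∈ S, PA A = P) → ((S.image WA).card : ℝ) ≤ M) :
    b ^ (J.2.2.2.2 : ℕ) ≤ M := by
  rw [rpot_clsOf Cl hok J] at hne
  exact rep_sub_capacity hb _ PA WA hne
    (fun t _ => hM _ (PA t) (fun A hA => (Finset.mem_filter.1 hA).2))

/-- the earlier law is the uniform extension of `Rep/Kit` -/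
theorem rpot_mu_eq [Nonempty At.𝔸] {Ω 𝒥 : Type} [Fintype Ω] (π : FLaw Ω) (J : Ω → 𝒥) (cl : 𝒥 → Finset At.𝔸) :
    pcMu π J cl = rep_unif π (fun o => cl (J o)) := rfl

/-- **(11.repayment-outgoing-credit)** -/
theorem rpot_credit [Nonempty At.𝔸] {b : ℝ} (hb : 1 < b) {n : ℕ} {mk : At.𝔸 → μ} {PA : At.𝔸 → α} {WA : At.𝔸 → β}
    (hok : RpotOK Cl b n mk PA WA) {Ω : Type} [Fintype Ω] (π : FLaw Ω)
    (J : Ω → Classes.Lab (μ × Fin (n + 1) × Fin (n + 1)))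
    (hne : ∀ o, π.p o ≠ 0 → (Cl.clsOf (rpotTag Cl b n mk PA WA) (J o)).Nonempty) (k₀ : ℕ)
    (hk : ∀ o, π.p o ≠ 0 → ((J o).2.2.2.2 : ℕ) = k₀) :
    Credit (pcMu π J (Cl.clsOf (rpotTag Cl b n mk PA WA))) (fun x => PA x.2) (fun x => WA x.2) (b / b ^ k₀) := by
  rw [rpot_mu_eq]
  refine rep_credit_unif π _ hne PA WA (fun o ho A hA => ?_) (by positivity)
  have := rpot_fibre Cl hb hok (J o) hA
  rwa [hk o ho] at this

end Tags

/-! ## powers of `ε` -/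

theorem rpot_b_gt {ε ξ : ℝ} (h0 : 0 < ε) (h1 : ε < 1) (hξ : 0 < ξ) : 1 < ε ^ (-ξ) :=
  Real.one_lt_rpow_of_pos_of_lt_one_of_neg h0 h1 (by linarith)

theorem rpot_b_pow {ε : ℝ} (h0 : 0 < ε) (ξ : ℝ) (k : ℕ) : (ε ^ (-ξ)) ^ k = ε ^ (-(ξ * k)) := by
  rw [← Real.rpow_natCast, ← Real.rpow_mul h0.le]
  congr 1
  ring

theorem rpot_kappa {ε : ℝ} (h0 : 0 < ε) (ξ : ℝ) (k : ℕ) : ε ^ (-ξ) / (ε ^ (-ξ)) ^ k = ε ^ (ξ * k - ξ) := by
  rw [rpot_b_pow h0, ← Real.rpow_sub h0]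
  congr 1
  ring

/-- `ε^(-x) ≤ M` means `x ≤ log M / ℓ` -/
theorem rpot_exp_le {ε x M : ℝ} (h0 : 0 < ε) (h1 : ε < 1) (h : ε ^ (-x) ≤ M) : x ≤ Real.log M / lg ε := by
  have hl : 0 < lg ε := by
    unfold lg
    exact Real.log_pos (by rw [one_div]; exact (one_lt_inv₀ h0).2 h1)
  rw [le_div_iff₀ hl]
  have h2 := Real.log_le_log (Real.rpow_pos_of_pos h0 _) h
  rw [Real.log_rpow h0] at h2
  unfold lg
  rw [one_div, Real.log_inv]
  linarith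

theorem rpot_h_div {ε : ℝ} (h0 : 0 < ε) (h1 : ε < 1) (h : ℝ) : -h * Real.log ε / lg ε = h := by
  have hl : Real.log ε ≠ 0 := (Real.log_neg h0 h1).ne
  unfold lg
  rw [one_div, Real.log_inv]
  field_simp

/-- **no clamping** for the atoms of a cut -/
theorem rpot_ok (B : PBd) (p : Atoms.Par) (ξ : ℝ) (n : ℕ) (hn : 2 * B.Hmax + 1 ≤ ξ * ((n : ℝ) + 1)) :
    ∃ ε₀ : ℝ, 0 < ε₀ ∧ ∀ (E : PEnv) (t r bs : ℝ) (At : Atoms), E.Obeys B → E.ε < ε₀ → 0 ≤ r → 0 ≤ bs → bs ≤ E.u r →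
      At.Good E B t r bs p → ∀ (Cl : Classes At) (α β μ : Type) (mk : At.𝔸 → μ) (PA : At.𝔸 → α) (WA : At.𝔸 → β),
        0 < ξ → RpotOK Cl (E.ε ^ (-ξ)) n mk PA WA := by
  set C : ℝ := p.Mu * (4 * max p.Ca 0 + 2) ^ 4 with hC
  have hC0 : 0 ≤ C := by positivity
  refine ⟨1 / (C + 1), by positivity, ?_⟩
  intro E t r bs At hE hε hr hbs hbu hA Cl α β μ mk PA WA hξ
  have h0 := hE.ε0
  have h1 := hE.ε1
  refine rpot_ok_of_card Cl (rpot_b_gt h0 h1 hξ) n mk PA WA (fun j => ?_)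
  refine lt_of_le_of_lt (p9_cd_pop_card E B hE t r bs p At hA hbu j) ?_
  rw [← hC, rpot_b_pow h0]
  have hCε : C < E.ε ^ (-(1 : ℝ)) := by
    rw [Real.rpow_neg h0.le, Real.rpow_one]
    have : E.ε < (C + 1)⁻¹ := by rwa [one_div] at hε
    have h2 : C + 1 < E.ε⁻¹ := by
      rw [lt_inv_comm₀ (by positivity) h0]
      exact this
    linarith
  have hexp : -(ξ * ((n + 1 : ℕ) : ℝ)) ≤ -(1 : ℝ) + -(4 * (E.u r - bs)) := by
    have hu : E.u r ≤ B.Hmax / 2 := by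
      unfold PEnv.u
      linarith [hE.H1]
    push_cast
    linarith
  calc C * E.ε ^ (-(4 * (E.u r - bs))) < E.ε ^ (-(1 : ℝ)) * E.ε ^ (-(4 * (E.u r - bs))) :=
        mul_lt_mul_of_pos_right hCε (Real.rpow_pos_of_pos h0 _)
    _ = E.ε ^ (-(1 : ℝ) + -(4 * (E.u r - bs))) := (Real.rpow_add h0 _ _).symm
    _ ≤ E.ε ^ (-(ξ * ((n + 1 : ℕ) : ℝ))) := Real.rpow_le_rpow_of_exponent_ge h0 h1.le hexp

/-! ## the concrete labels of the atoms -/

/-- coarse label of an atom: the buffered cell of S1 (`u = u_t`) -/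
noncomputable abbrev rpotPA (At : Atoms) (ε r u Lg : ℝ) (τV τX : E2) : At.𝔸 → Loc0 :=
  fun A => bufP ε r u Lg τV τX (At.asite A)

/-- fine label of an atom, elongated case (`uf = u_r = u + h`, `nP` = table of predicted normals) -/
noncomputable abbrev rpotW1 (At : Atoms) (ε r u Lg : ℝ) (τV τX : E2) (uf : ℝ) (nP : Loc0 → ℝ) : At.𝔸 → ℤ :=
  fun A => rpoiW1 ε uf (nP (bufP ε r u Lg τV τX (At.asite A))) (At.asite A).V

/-- fine label of an atom, isotropic case -/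
noncomputable abbrev rpotW2 (At : Atoms) (ε uf : ℝ) : At.𝔸 → ℤ × ℤ := fun A => rpoiW2 ε uf (At.asite A).V

/-- the alignment mark of an atom: the normal of the assigned cap is within `Km ε^h` of the predicted normal of its coarse cell -/
noncomputable def rpotMk {At : Atoms} (Cl : Classes At) (ε h Km : ℝ) (nP : Loc0 → ℝ) (PA : At.𝔸 → Loc0) (A : At.𝔸) : Bool :=
  decide (|Real.sin ((Cl.acap A).th - nP (PA A))| ≤ Km * ε ^ h)

theorem rpot_mk_eqns_cite : True := by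
  have := @rpotMk.eq_1
  trivial

section Eps

variable {At : Atoms} (Cl : Classes At) {α β μ : Type}

/-- the mark is constant on a retained class -/
theorem rpot_mk_of_mem {b : ℝ} {n : ℕ} {mk : At.𝔸 → μ} {PA : At.𝔸 → α} {WA : At.𝔸 → β}
    {J : Classes.Lab (μ × Fin (n + 1) × Fin (n + 1))} {A : At.𝔸} (hA : A ∈ Cl.clsOf (rpotTag Cl b n mk PA WA) J) :
    mk A = J.2.2.1 := by
  unfold Classes.clsOf at hA
  have h : Cl.lab (rpotTag Cl b n mk PA WA) A = J := by simpa using hA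
  exact congrArg (fun x => x.2.2.1) h

/-- aligned classes -/
theorem rpot_aligned {b ε h Km : ℝ} {n : ℕ} {nP : Loc0 → ℝ} {PA : At.𝔸 → Loc0} {WA : At.𝔸 → β}
    {J : Classes.Lab (Bool × Fin (n + 1) × Fin (n + 1))} (hJ : J.2.2.1 = true) {A : At.𝔸}
    (hA : A ∈ Cl.clsOf (rpotTag Cl b n (rpotMk Cl ε h Km nP PA) PA WA) J) :
    |Real.sin ((Cl.acap A).th - nP (PA A))| ≤ Km * ε ^ h := by
  have h1 := rpot_mk_of_mem Cl hA
  rw [hJ] at h1
  exact of_decide_eq_true h1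

/-- misaligned classes -/
theorem rpot_misaligned {b ε h Km : ℝ} {n : ℕ} {nP : Loc0 → ℝ} {PA : At.𝔸 → Loc0} {WA : At.𝔸 → β}
    {J : Classes.Lab (Bool × Fin (n + 1) × Fin (n + 1))} (hJ : J.2.2.1 = false) {A : At.𝔸}
    (hA : A ∈ Cl.clsOf (rpotTag Cl b n (rpotMk Cl ε h Km nP PA) PA WA) J) :
    Km * ε ^ h < |Real.sin ((Cl.acap A).th - nP (PA A))| := by
  have h1 := rpot_mk_of_mem Cl hA
  rw [hJ] at h1
  exact not_le.1 (of_decide_eq_false h1)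

/-- the outgoing credit in powers of `ε` : credit `k = ξ k₀`, error `acc ≥ ξ` -/
theorem rpot_credit_eps [Nonempty At.𝔸] {ε ξ acc : ℝ} (h0 : 0 < ε) (h1 : ε < 1) (hξ : 0 < ξ) (hacc : ξ ≤ acc) {n : ℕ}
    {mk : At.𝔸 → μ} {PA : At.𝔸 → α} {WA : At.𝔸 → β} (hok : RpotOK Cl (ε ^ (-ξ)) n mk PA WA) {Ω : Type} [Fintype Ω]
    (π : FLaw Ω) (J : Ω → Classes.Lab (μ × Fin (n + 1) × Fin (n + 1)))
    (hne : ∀ o, π.p o ≠ 0 → (Cl.clsOf (rpotTag Cl (ε ^ (-ξ)) n mk PA WA) (J o)).Nonempty) (k₀ : ℕ)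
    (hk : ∀ o, π.p o ≠ 0 → ((J o).2.2.2.2 : ℕ) = k₀) :
    Credit (pcMu π J (Cl.clsOf (rpotTag Cl (ε ^ (-ξ)) n mk PA WA))) (fun x => PA x.2) (fun x => WA x.2)
      (ε ^ (ξ * k₀ - acc)) := by
  refine rep_credit_mono (rpot_credit Cl (rpot_b_gt h0 h1 hξ) hok π J hne k₀ hk) ?_
  rw [rpot_kappa h0]
  exact Real.rpow_le_rpow_of_exponent_ge h0 h1.le (by linarith)

/-- capacity, elongated labels -/
theorem rpot_cap_el {ε ξ r u uf h Lg : ℝ} (h0 : 0 < ε) (h1 : ε < 1) (hξ : 0 < ξ) (hh : 0 ≤ h) (huf : uf = u + h)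
    (hLg : 0 < Lg) (τV τX : E2) (nP : Loc0 → ℝ) {n : ℕ} {mk : At.𝔸 → μ}
    (hok : RpotOK Cl (ε ^ (-ξ)) n mk (rpotPA At ε r u Lg τV τX) (rpotW1 At ε r u Lg τV τX uf nP))
    (J : Classes.Lab (μ × Fin (n + 1) × Fin (n + 1)))
    (hne : (Cl.clsOf (rpotTag Cl (ε ^ (-ξ)) n mk (rpotPA At ε r u Lg τV τX) (rpotW1 At ε r u Lg τV τX uf nP))
      J).Nonempty) :
    ξ * (J.2.2.2.2 : ℕ) ≤ h + Real.log (4 * Lg + 2) / lg ε := by
  subst huf
  have hl : 0 < lg ε := by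
    unfold lg
    exact Real.log_pos (by rw [one_div]; exact (one_lt_inv₀ h0).2 h1)
  have hεh : 1 ≤ ε ^ (-h) := Real.one_le_rpow_of_pos_of_le_one_of_nonpos h0 h1.le (by linarith)
  have hcap := rpot_capacity Cl (rpot_b_gt h0 h1 hξ) hok J hne (M := (4 * Lg + 2) * ε ^ (-h)) (by
    intro S P hS
    have e : @Finset.image _ _ (fun a b => propDecidable (a = b))
        (fun A => rpoiW1 ε (u + h) (nP (bufP ε r u Lg τV τX (At.asite A))) (At.asite A).V) S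
        = @Finset.image _ _ (fun a b => propDecidable (a = b)) (fun A => rpoiW1 ε (u + h) (nP P) (At.asite A).V) S :=
      @Finset.image_congr _ _ (fun a b => propDecidable (a = b)) _ _ _ (fun A hA => by
        show rpoiW1 ε (u + h) (nP (bufP ε r u Lg τV τX (At.asite A))) (At.asite A).V = _
        have hP : bufP ε r u Lg τV τX (At.asite A) = P := hS A (Finset.mem_coe.1 hA)
        rw [hP])
    rw [e]
    refine (@rpoi_cap1 At.𝔸 (fun a b => propDecidable (a = b)) ε r u h Lg h0 hLg τV τX (nP P) At.asite S P hS).trans ?_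
    nlinarith)
  rw [rpot_b_pow h0] at hcap
  have h2 := rpot_exp_le h0 h1 hcap
  rw [Real.log_mul (by positivity) (by positivity), Real.log_rpow h0, add_div] at h2
  have h3 : -h * Real.log ε / lg ε = h := rpot_h_div h0 h1 h
  rw [h3] at h2
  linarith

/-- capacity, isotropic labels -/
theorem rpot_cap_iso {ε ξ r u uf h Lg : ℝ} (h0 : 0 < ε) (h1 : ε < 1) (hξ : 0 < ξ) (hh : 0 ≤ h) (huf : uf = u + h)
    (hLg : 0 < Lg) (τV τX : E2) {n : ℕ} {mk : At.𝔸 → μ}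
    (hok : RpotOK Cl (ε ^ (-ξ)) n mk (rpotPA At ε r u Lg τV τX) (rpotW2 At ε uf))
    (J : Classes.Lab (μ × Fin (n + 1) × Fin (n + 1)))
    (hne : (Cl.clsOf (rpotTag Cl (ε ^ (-ξ)) n mk (rpotPA At ε r u Lg τV τX) (rpotW2 At ε uf)) J).Nonempty) :
    ξ * (J.2.2.2.2 : ℕ) ≤ 2 * h + 2 * (Real.log (4 * Lg + 2) / lg ε) := by
  subst huf
  have hl : 0 < lg ε := by
    unfold lg
    exact Real.log_pos (by rw [one_div]; exact (one_lt_inv₀ h0).2 h1)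
  have hεh : 1 ≤ ε ^ (-h) := Real.one_le_rpow_of_pos_of_le_one_of_nonpos h0 h1.le (by linarith)
  have hcap := rpot_capacity Cl (rpot_b_gt h0 h1 hξ) hok J hne (M := ((4 * Lg + 2) * ε ^ (-h)) ^ 2) (by
    intro S P hS
    refine (@rpoi_cap2 At.𝔸 (fun a b => propDecidable (a = b)) ε r u h Lg h0 hLg τV τX At.asite S P hS).trans ?_
    apply pow_le_pow_left₀ (by positivity)
    nlinarith)
  rw [rpot_b_pow h0] at hcap
  have h2 := rpot_exp_le h0 h1 hcap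
  rw [Real.log_pow, Real.log_mul (by positivity) (by positivity), Real.log_rpow h0] at h2
  have h3 : -h * Real.log ε / lg ε = h := rpot_h_div h0 h1 h
  have h4 : ((2 : ℕ) : ℝ) * (Real.log (4 * Lg + 2) + -h * Real.log ε) / lg ε
      = 2 * (Real.log (4 * Lg + 2) / lg ε) + 2 * (-h * Real.log ε / lg ε) := by
    push_cast
    ring
  rw [h4, h3] at h2
  linarith

/-- **the field `credit` of `RState` for the returned test, elongated case**: credit `k = ξ k₀` -/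
theorem rpot_state_el [Nonempty At.𝔸] {E : PEnv} {B : PBd} {t r bs : ℝ} {p : Atoms.Par} (h0 : 0 < E.ε) (h1 : E.ε < 1)
    (hA : At.Good E B t r bs p) (T : PTest) {ξ acc h u Lg Kc : ℝ} (hξ : 0 < ξ) (hacc : ξ ≤ acc) (hu : u = E.u r - h)
    (hLg : 1 ≤ Lg) (hK1 : 2 * Lg ≤ Kc) (hK2 : 256 ≤ Kc) (τV τX : E2) (nP : Loc0 → ℝ) {n : ℕ} {mk : At.𝔸 → μ}
    (hok : RpotOK Cl (E.ε ^ (-ξ)) n mk (rpotPA At E.ε r u Lg τV τX) (rpotW1 At E.ε r u Lg τV τX (E.u r) nP))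
    (J : T.Ω → Classes.Lab (μ × Fin (n + 1) × Fin (n + 1))) (ap : At.𝔸 → Geo)
    (hne : ∀ o, 0 < T.P.p o → (Cl.clsOf (rpotTag Cl (E.ε ^ (-ξ)) n mk (rpotPA At E.ε r u Lg τV τX)
      (rpotW1 At E.ε r u Lg τV τX (E.u r) nP)) (J o)).Nonempty) (k₀ : ℕ)
    (hk : ∀ o, 0 < T.P.p o → ((J o).2.2.2.2 : ℕ) = k₀)
    (hal : ∀ o, 0 < T.P.p o → ∀ A ∈ Cl.clsOf (rpotTag Cl (E.ε ^ (-ξ)) n mk (rpotPA At E.ε r u Lg τV τX)
      (rpotW1 At E.ε r u Lg τV τX (E.u r) nP)) (J o),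
      |Real.sin ((ap A).th - nP (rpotPA At E.ε r u Lg τV τX A))| ≤ Kc * E.ε ^ h) :
    ∃ (α β' : Type)
      (Pf : (At.earlierX r T J (Cl.clsOf (rpotTag Cl (E.ε ^ (-ξ)) n mk (rpotPA At E.ε r u Lg τV τX)
        (rpotW1 At E.ε r u Lg τV τX (E.u r) nP))) ap).Ω → α)
      (Wf : (At.earlierX r T J (Cl.clsOf (rpotTag Cl (E.ε ^ (-ξ)) n mk (rpotPA At E.ε r u Lg τV τX)
        (rpotW1 At E.ε r u Lg τV τX (E.u r) nP))) ap).Ω → β') (nf : α → ℝ),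
      Credit (At.earlierX r T J (Cl.clsOf (rpotTag Cl (E.ε ^ (-ξ)) n mk (rpotPA At E.ε r u Lg τV τX)
        (rpotW1 At E.ε r u Lg τV τX (E.u r) nP))) ap).P Pf Wf (E.ε ^ (ξ * k₀ - acc)) ∧
      Incoming E (At.earlierX r T J (Cl.clsOf (rpotTag Cl (E.ε ^ (-ξ)) n mk (rpotPA At E.ε r u Lg τV τX)
        (rpotW1 At E.ε r u Lg τV τX (E.u r) nP))) ap) h Kc true Pf Wf nf :=
  ⟨Loc0, ℤ, fun x => rpotPA At E.ε r u Lg τV τX x.2, fun x => rpotW1 At E.ε r u Lg τV τX (E.u r) nP x.2, nP,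
    rpot_credit_eps Cl h0 h1 hξ hacc hok T.P J (fun o ho => hne o (ct_pos_of_ne _ ho)) k₀
      (fun o ho => hk o (ct_pos_of_ne _ ho)),
    rpoi_earlier_el h0 hA T J _ ap hne hu hLg hK1 hK2 τV τX nP hal⟩

/-- **the field `credit` of `RState` for the returned test, isotropic case**: credit `k = ξ k₀` -/
theorem rpot_state_iso [Nonempty At.𝔸] {E : PEnv} {B : PBd} {t r bs : ℝ} {p : Atoms.Par} (h0 : 0 < E.ε) (h1 : E.ε < 1)
    (hA : At.Good E B t r bs p) (T : PTest) {ξ acc h u Lg Kc : ℝ} (hξ : 0 < ξ) (hacc : ξ ≤ acc) (hu : u = E.u r - h)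
    (hLg : 1 ≤ Lg) (hK1 : 2 * Lg ≤ Kc) (hK2 : 256 ≤ Kc) (τV τX : E2) {n : ℕ} {mk : At.𝔸 → μ}
    (hok : RpotOK Cl (E.ε ^ (-ξ)) n mk (rpotPA At E.ε r u Lg τV τX) (rpotW2 At E.ε (E.u r)))
    (J : T.Ω → Classes.Lab (μ × Fin (n + 1) × Fin (n + 1))) (ap : At.𝔸 → Geo)
    (hne : ∀ o, 0 < T.P.p o → (Cl.clsOf (rpotTag Cl (E.ε ^ (-ξ)) n mk (rpotPA At E.ε r u Lg τV τX)
      (rpotW2 At E.ε (E.u r))) (J o)).Nonempty) (k₀ : ℕ)
    (hk : ∀ o, 0 < T.P.p o → ((J o).2.2.2.2 : ℕ) = k₀) :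
    ∃ (α β' : Type)
      (Pf : (At.earlierX r T J (Cl.clsOf (rpotTag Cl (E.ε ^ (-ξ)) n mk (rpotPA At E.ε r u Lg τV τX)
        (rpotW2 At E.ε (E.u r)))) ap).Ω → α)
      (Wf : (At.earlierX r T J (Cl.clsOf (rpotTag Cl (E.ε ^ (-ξ)) n mk (rpotPA At E.ε r u Lg τV τX)
        (rpotW2 At E.ε (E.u r)))) ap).Ω → β') (nf : α → ℝ),
      Credit (At.earlierX r T J (Cl.clsOf (rpotTag Cl (E.ε ^ (-ξ)) n mk (rpotPA At E.ε r u Lg τV τX)
        (rpotW2 At E.ε (E.u r)))) ap).P Pf Wf (E.ε ^ (ξ * k₀ - acc)) ∧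
      Incoming E (At.earlierX r T J (Cl.clsOf (rpotTag Cl (E.ε ^ (-ξ)) n mk (rpotPA At E.ε r u Lg τV τX)
        (rpotW2 At E.ε (E.u r)))) ap) h Kc false Pf Wf nf :=
  ⟨Loc0, ℤ × ℤ, fun x => rpotPA At E.ε r u Lg τV τX x.2, fun x => rpotW2 At E.ε (E.u r) x.2, fun _ => 0,
    rpot_credit_eps Cl h0 h1 hξ hacc hok T.P J (fun o ho => hne o (ct_pos_of_ne _ ho)) k₀
      (fun o ho => hk o (ct_pos_of_ne _ ho)),
    rpoi_earlier_iso h0 hA T J _ ap hu hLg hK1 hK2 τV τX _⟩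

end Eps

end Claimed.Agent.R255
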