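-- KEEP
import Claimed.Agent.R255.Rep.Out
import Claimed.Agent.R255.Rep.OutTag

/-!
# Row 255 (BR paper), Sec. 11.3, isotropic chain `step_iso`, file 1: THE CONCRETE SUBCLASS TAGS      (chief helper220; prefix `rsi_`)

The tag layer is helper51's `rpotTag` (`Rep/OutTag.lean`) with the trivial mark, the coarse label `bufP` (S1) and the fine velocity label `rpoW false` (S7) of the atoms.
* `rsiPa`, `rsiWa`   coarse / fine label of an atom in the cut `t - 2h → t`
* `rsiTg`            the tag map, values in `Unit × Fin (n+1) × Fin (n+1)`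
* `rsi_tag_ok`       for `ε` small: regularity (outgoing credit), number of `W`-values (coherence), capacity of every nonempty retained class.
-/

set_option autoImplicit false

namespace Claimed.Agent.R255

open scoped BigOperators
open Classical
open FLaw Pkt Osc

/-- the tag type -/
abbrev RsiT (n : ℕ) : Type := Unit × Fin (n + 1) × Fin (n + 1)

/-- the coarse label of an atom in the cut `t - 2h → t` -/
noncomputable def rsiPa (E : PEnv) (t h Lg : ℝ) (τV τX : E2) (At : Atoms) (A : At.𝔸) : Loc0 :=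
  bufP E.ε (t - 2 * h) (E.u t) Lg τV τX (At.asite A)

/-- the fine velocity label of an atom: both components at depth `u_r` -/
noncomputable def rsiWa (E : PEnv) (t h : ℝ) (At : Atoms) (A : At.𝔸) : ℤ × ℤ :=
  rpoW false (E.ε ^ E.u (t - 2 * h)) 0 (At.asite A)

/-- the tag map of the isotropic prepared cut -/
noncomputable def rsiTg (E : PEnv) (t h Lg ξ' : ℝ) (n : ℕ) (τV τX : E2) {At : Atoms} (Cl : Classes At) :
    At.𝔸 → RsiT n :=
  rpotTag Cl (E.ε ^ (-ξ')) n (fun _ => ()) (rsiPa E t h Lg τV τX At) (rsiWa E t h At)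

theorem rsi_tag_eqns_cite : True := by
  have := @rsiPa.eq_1
  have := @rsiWa.eq_1
  have := @rsiTg.eq_1
  trivial

theorem rsi_card_T (n : ℕ) : Fintype.card (RsiT n) = (n + 1) * (n + 1) := by
  simp [RsiT]

theorem rsi_u_r (E : PEnv) (t h : ℝ) : E.u (t - 2 * h) = E.u t + h := by
  unfold PEnv.u
  ring

/-- **(11.velocity-fiber-regularity), (11.prepared-velocity-probability)** for the concrete tags -/
theorem rsi_tag_ok (B : PBd) (p : Atoms.Par) (h ξ' Lg : ℝ) (hh : 0 < h) (hξ : 0 < ξ') (hLg : 1 ≤ Lg)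
    (n : ℕ) (hn : 2 * B.Hmax + 1 ≤ ξ' * ((n : ℝ) + 1)) :
    ∃ ε₀ : ℝ, 0 < ε₀ ∧ ∀ (E : PEnv) (t : ℝ) (At : Atoms) (Cl : Classes At) (τV τX : E2), E.Obeys B → E.ε < ε₀ →
      0 ≤ t - 2 * h → 0 ≤ E.u (t - 2 * h) → At.Good E B t (t - 2 * h) 0 p →
      ∀ J : Classes.Lab (RsiT n), (Cl.clsOf (rsiTg E t h Lg ξ' n τV τX Cl) J).Nonempty →
        rpoReg (Cl.clsOf (rsiTg E t h Lg ξ' n τV τX Cl) J) (rsiPa E t h Lg τV τX At) (rsiWa E t h At)
          (E.ε ^ (ξ' * ((J.2.2.2.2 : ℕ) : ℝ) - ξ')) ∧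
        (∀ q : Loc0, ((((Cl.clsOf (rsiTg E t h Lg ξ' n τV τX Cl) J).filter
            (fun A => rsiPa E t h Lg τV τX At A = q)).image (rsiWa E t h At)).card : ℝ)
          ≤ E.ε ^ (-(ξ' * (((J.2.2.2.2 : ℕ) : ℝ) + 1)))) ∧
        ξ' * ((J.2.2.2.2 : ℕ) : ℝ) ≤ 2 * h + 2 * Real.log (6 * Lg) / lg E.ε := by
  obtain ⟨ε₀, h0, H⟩ := rpot_ok B p ξ' n hn
  refine ⟨ε₀, h0, ?_⟩
  intro E t At Cl τV τX hE hε hr hu hG J hne
  have hok : RpotOK Cl (E.ε ^ (-ξ')) n (fun _ => ()) (rsiPa E t h Lg τV τX At) (rsiWa E t h At) :=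
    H E t (t - 2 * h) 0 At hE hε hr le_rfl hu hG Cl _ _ _ _ _ _ hξ
  have hb : 1 < E.ε ^ (-ξ') := rpot_b_gt hE.ε0 hE.ε1 hξ
  refine ⟨?_, ?_, ?_⟩
  · intro A hA
    have := rpot_fibre Cl hb hok J hA
    rw [rpot_kappa hE.ε0] at this
    exact this
  · intro q
    by_cases hq : ∃ A ∈ Cl.clsOf (rsiTg E t h Lg ξ' n τV τX Cl) J, rsiPa E t h Lg τV τX At A = q
    · obtain ⟨A, hA, rfl⟩ := hq
      have := (rpot_nw Cl hb hok J hA).2.le
      rw [rpot_b_pow hE.ε0] at this
      push_cast at this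
      refine le_trans (le_of_eq ?_) this
      congr!
    · have : (Cl.clsOf (rsiTg E t h Lg ξ' n τV τX Cl) J).filter (fun A => rsiPa E t h Lg τV τX At A = q) = ∅ := by
        rw [Finset.filter_eq_empty_iff]
        intro A hA hAq
        exact hq ⟨A, hA, hAq⟩
      rw [this]
      simp only [Finset.image_empty, Finset.card_empty, Nat.cast_zero]
      exact (Real.rpow_pos_of_pos hE.ε0 _).le
  · have e := rpot_clsOf Cl hok J
    have hne' := hne
    unfold rsiTg at hne'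
    rw [e] at hne'
    have := rpo_capacity (r := t - 2 * h) (u := E.u t) (h := h) hE.ε0 hE.ε1 hh.le hLg hξ τV τX false (fun _ => 0)
      (rpotCls Cl (fun _ => ()) J.1 J.2.1 J.2.2.1) At.asite (J.2.2.2.1 : ℕ) (J.2.2.2.2 : ℕ)
      (by
        have e2 : (fun a => rpoW false (E.ε ^ (E.u t + h)) 0 (At.asite a)) = rsiWa E t h At := by
          funext a
          unfold rsiWa
          rw [rsi_u_r]
        rw [e2]
        exact hne')
    simpa using this

end Claimed.Agent.R255
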