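-- KEEP
import Claimed.Agent.R255.Rep.Mass
import Claimed.Agent.R255.Rep.Buffer

/-!
# Row 255 (BR paper), Sec. 11, stage S3 MASS with the buffered label `bufP` of S1      (helper171; prefix `rm_`)

* `rm_near_buf`  : a possible contributor (`AnNear`) of a `Buffered` endpoint site has the coarse label of the site.
* `rm_near_atom` : the same for the atoms of the localizer of the site.
* `rm_collapse_buf` : `rm_collapse` for `Cand = {A ∈ 𝒯_J : bufP (asite A) = P}` and the buffered floor sites with labels `(J, P, C_t)`.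
-/

set_option autoImplicit false

namespace Claimed.Agent.R255

open MeasureTheory Metric Set Osc Pkt
open scoped BigOperators
open Classical

/-- a possible contributor of a buffered endpoint site has its coarse label -/
theorem rm_near_buf {E : PEnv} (hε : 0 < E.ε) (hε1 : E.ε < 1) {t r η Rn Lg : ℝ} (hη : η ≤ (t - r) / 2)
    {τV τX : E2} {s a : Site} (hC : a.C = tanchor E.ε r s.C)
    (hb : Buffered E.ε r (E.u t) Lg (2 * max Rn 1) τV τX s) (hn : AnNear E t r η Rn s a) :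
    bufP E.ε r (E.u t) Lg τV τX a = bufP E.ε r (E.u t) Lg τV τX s := by
  have hu : 0 < E.ε ^ (E.u t) := Real.rpow_pos_of_pos hε _
  have hC0 : (0 : ℝ) ≤ max Rn 1 := le_trans zero_le_one (le_max_right _ _)
  have hV : ‖s.V - a.V‖ ≤ max Rn 1 * E.ε ^ (E.u t) := by
    rw [norm_sub_rev]
    exact hn.1.trans (mul_le_mul_of_nonneg_right (le_max_left _ _) hu.le)
  have es : E.sig r = E.ε ^ (r + E.u t + (t - r) / 2) := by
    unfold PEnv.sig PEnv.u
    congr 1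
    ring
  have hX : ‖s.X - a.X - (s.C - a.C) • a.V‖ ≤ max Rn 1 * (E.ε ^ (-η) * E.ε ^ (r + E.u t + (t - r) / 2)) := by
    refine hn.2.trans ?_
    rw [es]
    have : 0 ≤ E.ε ^ (-η) * E.ε ^ (r + E.u t + (t - r) / 2) := by positivity
    calc _ = 1 * (E.ε ^ (-η) * E.ε ^ (r + E.u t + (t - r) / 2)) := (one_mul _).symm
      _ ≤ _ := mul_le_mul_of_nonneg_right (le_max_right _ _) this
  obtain ⟨h1, h2, h3⟩ := rpb_near hε hε1 hη hC0 hC hV hX
  exact hb a h1 h2 h3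

/-- the same for the atoms of the localizer of the site -/
theorem rm_near_atom {E : PEnv} {B : PBd} {t r bs : ℝ} {p : Atoms.Par} {At : Atoms} (hE : E.Obeys B)
    (hG : At.Good E B t r bs p) {η Rn Lg : ℝ} (hη : η ≤ (t - r) / 2) {τV τX : E2} {s : Site} {A : At.𝔸}
    (hA : At.loc A = loc0 E.ε r bs s) (hb : Buffered E.ε r (E.u t) Lg (2 * max Rn 1) τV τX s)
    (hn : AnNear E t r η Rn s (At.asite A)) :
    bufP E.ε r (E.u t) Lg τV τX (At.asite A) = bufP E.ε r (E.u t) Lg τV τX s :=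
  rm_near_buf hE.ε0 hE.ε1 hη (by rw [hG.time A, hA]; rfl) hb hn

/-- **COLLAPSE with the buffered label**: buffered floor sites with one `(J, P, C_t)`; `N_{J,P} = #{A ∈ 𝒯_J : bufP (asite A) = P}`. -/
theorem rm_collapse_buf (B : PBd) (hB : B.Good) (Ra : ℝ) (Bb : ℕ → ℝ) : ∃ C : ℝ, 0 ≤ C ∧
    ∀ (Mu : ℕ) (Ca η Atr : ℝ), 0 < η → 0 < Atr → ∃ ε₀ : ℝ, 0 < ε₀ ∧
    ∀ (E : PEnv) (T : PTest) (r bs : ℝ) (p : Atoms.Par) (At : Atoms), p.Ra = Ra → p.Bb = Bb → p.Mu = Mu →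
      p.Ca = Ca → E.Obeys B → T.Obeys B E → E.ε < ε₀ → 0 ≤ r → r ≤ T.t → 0 ≤ bs → bs ≤ E.u T.t → At.Good E B T.t r bs p →
      η ≤ (T.t - r) / 2 →
      ∀ (γ ξ : ℝ) (S0 : ℕ) (Cl : Classes At) (τ : Type) [Fintype τ] (tag : At.𝔸 → τ) (win : T.ι → ℕ × τ),
      Cl.Good γ E r bs ξ S0 → Cl.IsWin E T.t r bs tag T.site win →
      ∀ A0 : ℝ, E.ε ^ (p.A - A0 / 2) ≤ 1 / 2 → 8 * ((S0 : ℝ) * Fintype.card τ) * E.ε ^ (Atr - A0 / 2) ≤ 1 →
      ∀ (Lg : ℝ) (τV τX : E2) (J : Classes.Lab τ) (P : Loc0) (c : ℝ) (sO : Finset T.ι),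
      (∀ i ∈ sO, T.act i ∧ (T.site i).C = c ∧ Classes.Jof E r bs T.site win i = J ∧
        E.ε ^ A0 * E.nrm2 ≤ E.m T.t (T.site i) ∧
        Buffered E.ε r (E.u T.t) Lg (2 * max (B.Ra + Ra) 1) τV τX (T.site i) ∧
        bufP E.ε r (E.u T.t) Lg τV τX (T.site i) = P) →
      ∑ i ∈ sO, mass E.lam (E.rho T.t) E.Φ (Cl.hJ E r tag J) (T.site i)
          ≤ C * B.Mu * Mu *
            (Finset.univ.filter (fun A => Cl.lab tag A = J ∧ bufP E.ε r (E.u T.t) Lg τV τX (At.asite A) = P)).card *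
            (Cl.mB J.1 J.2.1 * E.ε ^ (-ξ)) ∧
        ∑ i ∈ sO, E.m T.t (T.site i)
          ≤ 4 * ((S0 : ℝ) * Fintype.card τ) ^ 2 * (C * B.Mu * Mu *
            (Finset.univ.filter (fun A => Cl.lab tag A = J ∧ bufP E.ε r (E.u T.t) Lg τV τX (At.asite A) = P)).card *
            (Cl.mB J.1 J.2.1 * E.ε ^ (-ξ))) ∧
        (sO.Nonempty → ∃ A, Cl.lab tag A = J ∧ bufP E.ε r (E.u T.t) Lg τV τX (At.asite A) = P) := by
  obtain ⟨C, hC, h⟩ := rm_collapse B hB Ra Bb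
  refine ⟨C, hC, fun Mu Ca η Atr hη hA => ?_⟩
  obtain ⟨ε₀, h0, h⟩ := h Mu Ca η Atr hη hA
  refine ⟨ε₀, h0, ?_⟩
  intro E T r bs p At hRa hBb hMu hCa hE hT hε hr hrt hbs hbt hG hηh γ ξ S0 Cl τ _ tag win hCl hw A0 hq hq2 Lg τV τX J P c sO hsO
  have key := h E T r bs p At hRa hBb hMu hCa hE hT hε hr hrt hbs hbt hG γ ξ S0 Cl τ tag win hCl hw A0 hq hq2 J
    (fun A => Cl.lab tag A = J ∧ bufP E.ε r (E.u T.t) Lg τV τX (At.asite A) = P) (fun A hA => hA.1) c sO (by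
      intro i hi
      obtain ⟨h1, h2, h3, h4, h5, h6⟩ := hsO i hi
      refine ⟨h1, h2, h3, h4, fun A hA hn => ⟨hA, ?_⟩⟩
      rw [← h6]
      refine rm_near_atom hE hG hηh ?_ h5 hn
      have : At.loc A = J.1 := congrArg Prod.fst hA
      rw [this, ← h3]
      rfl)
  convert key

end Claimed.Agent.R255
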