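-- KEEP
import Claimed.Agent.R255.Pkt.Cut
import Claimed.Agent.R255.Cl.Tools.Tau
import Claimed.Agent.R255.Rep.Kit
import Claimed.Agent.R255.Iso.Grid

/-!
# Row 255 (BR paper), Secs. 10-11: THE CLASSICAL TRANSFER on the frozen data of a cut      (architect helper171; prefix `cls_`)

Used in L10.3 ((10.off-boundary-finite-growth)) and in (11.faithful-classical-bound).
The atoms of ONE greedy class `(j,k)` carry EXACT lines: velocity `V_T`, position `X_T` at the time `C_r` of the localizer.  In the local coordinates of the localizer they form a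
classical system `clsSys` (`Base/Classical`).  For ANY finite law `R` with observations `A` (an atom of the class), `c` (an endpoint time anchor in `[C_r, C_r + ε^r)`) and ANY label `G`
whose read-out (ABSOLUTE widths, depth `t`) is FAITHFUL for the line at the time `c`:
  `E [w(G) - 2 b_*] + (H(A | G) + 2 H(c | A)) / ℓ ≤ g(j,k) + γ (t - r) + ν`        (`cls_growth`)
* `cls_tau_le` : the root supremum of `clsSys` is at most `g - H(A)/ℓ`, EXACTLY (cap count (9.24) for all caps, no error).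
* horizon `Lc` (local units): `t - r ≤ Lc`, `Lc + b_* ≤ min (L - r, u_r)`.
-/

set_option autoImplicit false

namespace Claimed.Agent.R255

open scoped BigOperators
open Classical
open FLaw Pkt Osc

/-- the classical system of the exact lines of the atoms, in the local coordinates of the localizer `j` -/
noncomputable def clsSys (At : Atoms) (ε r bs : ℝ) (j : Loc0) {Ω : Type} [Fintype Ω] (R : FLaw Ω)
    (A : Ω → At.𝔸) (c : Ω → ℝ) : CSys where
  Ω := Ω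
  fin := inferInstance
  P := R
  ι := At.𝔸
  T := A
  V := fun T => toP ((ε ^ bs)⁻¹ • ((At.asite T).V - j.VJ ε bs))
  A := fun T => toP ((ε ^ r * ε ^ bs)⁻¹ • ((At.asite T).X - j.XJ ε r bs))
  c := fun ω => (c ω - j.Cr ε r) / ε ^ r

/-- the read-out `g` (ABSOLUTE widths, depth `t`) is faithful, with enlargement `K`, for the exact line through `s.X` at the time `Cr` with velocity `s.V`, at the time `c` -/
def Faith (g : Geo) (K ε t Cr c : ℝ) (s : Site) : Prop :=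
  g.tc = c ∧ InRect K ε g.b g.a g.th (toP s.V - g.vc) ∧
    InRect K ε (g.b + t) (g.a + t) g.th (toP (s.X + (c - Cr) • s.V) - g.xc)

/-! ## scaling of rectangles -/

theorem cls_inRect_scale {K ε b a th s : ℝ} (h0 : 0 < ε) (z : ℝ × ℝ) :
    InRect K ε (b - s) (a - s) th ((ε ^ s)⁻¹ • z) ↔ InRect K ε b a th z := by
  have hs : 0 < ε ^ s := Real.rpow_pos_of_pos h0 s
  unfold InRect
  rw [tl_ip_smul, tl_ip_smul, abs_mul, abs_mul, abs_of_pos (inv_pos.2 hs), Real.rpow_sub h0,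
    Real.rpow_sub h0]
  constructor
  · rintro ⟨h1, h2⟩
    constructor
    · have := mul_le_mul_of_nonneg_left h1 hs.le
      rw [← mul_assoc, mul_inv_cancel₀ hs.ne', one_mul] at this
      calc _ ≤ _ := this
        _ = K * ε ^ b := by field_simp
    · have := mul_le_mul_of_nonneg_left h2 hs.le
      rw [← mul_assoc, mul_inv_cancel₀ hs.ne', one_mul] at this
      calc _ ≤ _ := this
        _ = K * ε ^ a := by field_simp
  · rintro ⟨h1, h2⟩
    constructor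
    · calc (ε ^ s)⁻¹ * |ip z (tang th)| ≤ (ε ^ s)⁻¹ * (K * ε ^ b) :=
          mul_le_mul_of_nonneg_left h1 (inv_pos.2 hs).le
        _ = K * (ε ^ b / ε ^ s) := by field_simp
    · calc (ε ^ s)⁻¹ * |ip z (nrm th)| ≤ (ε ^ s)⁻¹ * (K * ε ^ a) :=
          mul_le_mul_of_nonneg_left h2 (inv_pos.2 hs).le
        _ = K * (ε ^ a / ε ^ s) := by field_simp

theorem cls_toP_add (x y : E2) : toP (x + y) = toP x + toP y := rfl
theorem cls_toP_sub (x y : E2) : toP (x - y) = toP x - toP y := rfl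
theorem cls_toP_smul (c : ℝ) (x : E2) : toP (c • x) = c • toP x := rfl

theorem cls_toP_abs (x : E2) : |(toP x).1| ≤ ‖x‖ ∧ |(toP x).2| ≤ ‖x‖ := by
  constructor
  · have := PiLp.norm_apply_le x 0
    rwa [Real.norm_eq_abs] at this
  · have := PiLp.norm_apply_le x 1
    rwa [Real.norm_eq_abs] at this

theorem cls_wt_gresc (γ : ℝ) (g : Geo) (ε r bs Cr : ℝ) (VJ XJ : E2) :
    wt γ (gresc g ε r bs Cr VJ XJ) = wt γ g - 2 * bs := by
  unfold wt gresc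
  ring

/-! ## the system is bounded, the label is a label -/

theorem cls_bdd (At : Atoms) (ε r bs Ca : ℝ) (h0 : 0 < ε) (j : Loc0) {Ω : Type} [Fintype Ω] (R : FLaw Ω)
    (A : Ω → At.𝔸) (c : Ω → ℝ)
    (hV : ∀ ω, 0 < R.p ω → ‖(At.asite (A ω)).V - j.VJ ε bs‖ ≤ Ca * ε ^ bs)
    (hX : ∀ ω, 0 < R.p ω → ‖(At.asite (A ω)).X - j.XJ ε r bs‖ ≤ Ca * (ε ^ r * ε ^ bs))
    (hc : ∀ ω, 0 < R.p ω → j.Cr ε r ≤ c ω ∧ c ω < j.Cr ε r + ε ^ r) :
    (clsSys At ε r bs j R A c).Bdd (max Ca 1) := by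
  intro ω hω
  have hb : 0 < ε ^ bs := Real.rpow_pos_of_pos h0 bs
  have hr : 0 < ε ^ r := Real.rpow_pos_of_pos h0 r
  have n1 : ‖(ε ^ bs)⁻¹ • ((At.asite (A ω)).V - j.VJ ε bs)‖ ≤ max Ca 1 := by
    rw [norm_smul, Real.norm_eq_abs, abs_of_pos (inv_pos.2 hb)]
    refine le_trans ?_ (le_max_left _ _)
    calc (ε ^ bs)⁻¹ * ‖(At.asite (A ω)).V - j.VJ ε bs‖ ≤ (ε ^ bs)⁻¹ * (Ca * ε ^ bs) :=
          mul_le_mul_of_nonneg_left (hV ω hω) (inv_pos.2 hb).le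
      _ = Ca := by field_simp
  have n2 : ‖(ε ^ r * ε ^ bs)⁻¹ • ((At.asite (A ω)).X - j.XJ ε r bs)‖ ≤ max Ca 1 := by
    have hrb : 0 < ε ^ r * ε ^ bs := mul_pos hr hb
    rw [norm_smul, Real.norm_eq_abs, abs_of_pos (inv_pos.2 hrb)]
    refine le_trans ?_ (le_max_left _ _)
    calc (ε ^ r * ε ^ bs)⁻¹ * ‖(At.asite (A ω)).X - j.XJ ε r bs‖
        ≤ (ε ^ r * ε ^ bs)⁻¹ * (Ca * (ε ^ r * ε ^ bs)) :=
          mul_le_mul_of_nonneg_left (hX ω hω) (inv_pos.2 hrb).le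
      _ = Ca := by field_simp
  refine ⟨(cls_toP_abs _).1.trans n1, (cls_toP_abs _).2.trans n1, (cls_toP_abs _).1.trans n2,
    (cls_toP_abs _).2.trans n2, ?_⟩
  obtain ⟨c1, c2⟩ := hc ω hω
  show |(c ω - j.Cr ε r) / ε ^ r| ≤ max Ca 1
  rw [abs_of_nonneg (div_nonneg (by linarith) hr.le)]
  refine le_trans ?_ (le_max_right _ _)
  rw [div_le_one hr]
  linarith

theorem cls_label (At : Atoms) (ε r t bs K Lc : ℝ) (h0 : 0 < ε) (j : Loc0) {Ω : Type} [Fintype Ω]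
    (R : FLaw Ω) (A : Ω → At.𝔸) (c : Ω → ℝ) {Γ : Type} (G : Ω → Γ) (geo : Γ → Geo)
    (hw : ∀ ω, 0 < R.p ω → bs ≤ (geo (G ω)).b ∧ (geo (G ω)).b ≤ (geo (G ω)).a ∧
      (geo (G ω)).a - bs + (t - r) ≤ Lc)
    (hf : ∀ ω, 0 < R.p ω → Faith (geo (G ω)) K ε t (j.Cr ε r) (c ω) (At.asite (A ω))) :
    (clsSys At ε r bs j R A c).IsLabel K ε (t - r) Lc G
      (fun g => gresc (geo g) ε r bs (j.Cr ε r) (j.VJ ε bs) (j.XJ ε r bs)) := by
  intro ω hω
  obtain ⟨w1, w2, w3⟩ := hw ω hω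
  obtain ⟨f1, f2, f3⟩ := hf ω hω
  have hb : 0 < ε ^ bs := Real.rpow_pos_of_pos h0 bs
  have hr : 0 < ε ^ r := Real.rpow_pos_of_pos h0 r
  have hK : 0 ≤ K := by
    have h1 := (abs_nonneg _).trans f2.1
    exact nonneg_of_mul_nonneg_left h1 (Real.rpow_pos_of_pos h0 _)
  refine ⟨by show 0 ≤ (geo (G ω)).b - bs; linarith, by show (geo (G ω)).b - bs ≤ (geo (G ω)).a - bs; linarith,
    w3, ?_, ?_, ?_⟩
  · show |(c ω - j.Cr ε r) / ε ^ r - ((geo (G ω)).tc - j.Cr ε r) / ε ^ r| ≤ K * ε ^ (t - r)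
    rw [f1, sub_self, abs_zero]
    exact mul_nonneg hK (Real.rpow_pos_of_pos h0 _).le
  · show InRect K ε ((geo (G ω)).b - bs) ((geo (G ω)).a - bs) (geo (G ω)).th
      (toP ((ε ^ bs)⁻¹ • ((At.asite (A ω)).V - j.VJ ε bs)) - (ε ^ bs)⁻¹ • ((geo (G ω)).vc - toP (j.VJ ε bs)))
    have e : toP ((ε ^ bs)⁻¹ • ((At.asite (A ω)).V - j.VJ ε bs)) - (ε ^ bs)⁻¹ • ((geo (G ω)).vc - toP (j.VJ ε bs))
        = (ε ^ bs)⁻¹ • (toP (At.asite (A ω)).V - (geo (G ω)).vc) := by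
      rw [cls_toP_smul, cls_toP_sub, ← smul_sub]
      congr 1
      abel
    rw [e, cls_inRect_scale h0]
    exact f2
  · show InRect K ε ((geo (G ω)).b - bs + (t - r)) ((geo (G ω)).a - bs + (t - r)) (geo (G ω)).th
      (toP ((ε ^ r * ε ^ bs)⁻¹ • ((At.asite (A ω)).X - j.XJ ε r bs))
        + (((geo (G ω)).tc - j.Cr ε r) / ε ^ r) • toP ((ε ^ bs)⁻¹ • ((At.asite (A ω)).V - j.VJ ε bs))
        - (ε ^ r * ε ^ bs)⁻¹ • ((geo (G ω)).xc - toP (j.XJ ε r bs)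
            - ((geo (G ω)).tc - j.Cr ε r) • toP (j.VJ ε bs)))
    have hrb : ε ^ r * ε ^ bs = ε ^ (r + bs) := (Real.rpow_add h0 r bs).symm
    have e : toP ((ε ^ r * ε ^ bs)⁻¹ • ((At.asite (A ω)).X - j.XJ ε r bs))
        + (((geo (G ω)).tc - j.Cr ε r) / ε ^ r) • toP ((ε ^ bs)⁻¹ • ((At.asite (A ω)).V - j.VJ ε bs))
        - (ε ^ r * ε ^ bs)⁻¹ • ((geo (G ω)).xc - toP (j.XJ ε r bs)
            - ((geo (G ω)).tc - j.Cr ε r) • toP (j.VJ ε bs))
        = (ε ^ (r + bs))⁻¹ • (toP ((At.asite (A ω)).X + (c ω - j.Cr ε r) • (At.asite (A ω)).V)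
            - (geo (G ω)).xc) := by
      rw [f1, ← hrb]
      simp only [cls_toP_smul, cls_toP_sub, cls_toP_add]
      ext
      · simp only [Prod.fst_add, Prod.fst_sub, Prod.smul_fst, smul_eq_mul]
        field_simp
        ring
      · simp only [Prod.snd_add, Prod.snd_sub, Prod.smul_snd, smul_eq_mul]
        field_simp
        ring
    rw [e, show (geo (G ω)).b - bs + (t - r) = (geo (G ω)).b + t - (r + bs) by ring,
      show (geo (G ω)).a - bs + (t - r) = (geo (G ω)).a + t - (r + bs) by ring, cls_inRect_scale h0]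
    exact f3

/-! ## the root supremum -/

/-- entropy only depends on the law of the observation -/
theorem cls_ent_eq {Ω Ω' ι : Type} [Fintype Ω] [Fintype Ω'] [Fintype ι] (P : FLaw Ω) (P' : FLaw Ω')
    (X : Ω → ι) (X' : Ω' → ι) (h : ∀ i, P'.pr (fun ω => X' ω = i) = P.pr (fun ω => X ω = i)) :
    P'.ent X' = P.ent X := by
  rw [ent_eq_sum P' X' Finset.univ fun _ _ => Finset.mem_univ _,
    ent_eq_sum P X Finset.univ fun _ _ => Finset.mem_univ _]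
  exact Finset.sum_congr rfl fun i _ => by rw [h i]

/-- the absolute cap of a local root read-out -/
noncomputable def clsAbs (g : Geo) (ε r bs : ℝ) (j : Loc0) : Geo where
  b := g.b + bs
  a := g.a + bs
  tc := j.Cr ε r
  th := g.th
  vc := toP (j.VJ ε bs) + ε ^ bs • g.vc
  xc := toP (j.XJ ε r bs) + (ε ^ r * ε ^ bs) • g.xc

theorem cls_log_rpow_neg {ε : ℝ} (h0 : 0 < ε) (x : ℝ) : Real.log (ε ^ (-x)) = x * lg ε := by
  rw [Real.log_rpow h0]
  unfold lg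
  rw [one_div, Real.log_inv]
  ring

/-- one root test of the lines of one class -/
theorem cls_root_le (γ : ℝ) (E : PEnv) (r bs ξ : ℝ) (S0 : ℕ) (At : Atoms) (Cl : Classes At)
    (h0 : 0 < E.ε) (h1 : E.ε < 1) (hCl : Cl.Good γ E r bs ξ S0) (j : Loc0) (k : ℕ) {Ω : Type} [Fintype Ω]
    (R : FLaw Ω) (A : Ω → At.𝔸) (Lc : ℝ)
    (hcls : ∀ ω, 0 < R.p ω → At.loc (A ω) = j ∧ Cl.cls (A ω) = k)
    (hL1 : Lc + bs ≤ E.L - r) (hL2 : Lc + bs ≤ E.u r)
    (Ω' : Type) [Fintype Ω'] (P' : FLaw Ω') (T' : Ω' → At.𝔸) (Γ : Type) (D : Ω' → Γ) (geo : Γ → Geo)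
    (hlaw' : ∀ i, P'.pr (fun ω => T' ω = i) = R.pr (fun ω => A ω = i))
    (hc : ∀ ω, 0 < P'.p ω → (geo (D ω)).RootCompat 1 E.ε Lc
      (toP ((E.ε ^ bs)⁻¹ • ((At.asite (T' ω)).V - j.VJ E.ε bs)))
      (toP ((E.ε ^ r * E.ε ^ bs)⁻¹ • ((At.asite (T' ω)).X - j.XJ E.ε r bs)))) :
    P'.ev (fun ω => wt γ (geo (D ω))) - P'.mi T' D / lg E.ε ≤ Cl.gB j k - R.ent A / lg E.ε := by
  have hl : 0 < lg E.ε := tl_tau_lg_pos h0 h1
  have hb : 0 < E.ε ^ bs := Real.rpow_pos_of_pos h0 bs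
  have hr : 0 < E.ε ^ r := Real.rpow_pos_of_pos h0 r
  have e1 : P'.ent T' = R.ent A := cls_ent_eq R P' A T' hlaw'
  -- the atoms seen by the root test belong to the class
  have hmem : ∀ ω, P'.p ω ≠ 0 → At.loc (T' ω) = j ∧ Cl.cls (T' ω) = k := by
    intro ω hω
    have h2 : 0 < P'.pr (fun ω' => T' ω' = T' ω) := ent_fib_pos P' T' hω
    rw [hlaw' (T' ω)] at h2
    obtain ⟨ω₁, hA, hp⟩ := (ent_pr_pos_iff R _).1 h2
    have := hcls ω₁ (lt_of_le_of_ne (R.nonneg ω₁) (Ne.symm hp))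
    rw [hA] at this
    exact this
  have e2 : P'.entC T' D ≤ P'.ev (fun ω => Real.log (E.ε ^ (-(Cl.gB j k - wt γ (geo (D ω)))))) := by
    refine rep_entC_le_ev_log P' T' D _ fun ω₀ hω₀ => ?_
    obtain ⟨c1, c2, c3, -, -⟩ := hc ω₀ (lt_of_le_of_ne (P'.nonneg ω₀) (Ne.symm hω₀))
    refine ⟨Finset.univ.filter (fun T => At.loc T = j ∧ Cl.cls T = k ∧
      InCap 1 E.ε r (clsAbs (geo (D ω₀)) E.ε r bs j) (At.asite T)), ?_, ?_⟩
    · have h3 := hCl.capcount j k (clsAbs (geo (D ω₀)) E.ε r bs j)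
        (by show bs ≤ (geo (D ω₀)).b + bs; linarith)
        (by show (geo (D ω₀)).b + bs ≤ (geo (D ω₀)).a + bs; linarith)
        (by show (geo (D ω₀)).a + bs ≤ E.L - r; linarith)
        (by show (geo (D ω₀)).a + bs ≤ E.u r; linarith)
      have e3 : wt γ (clsAbs (geo (D ω₀)) E.ε r bs j) - 2 * bs = wt γ (geo (D ω₀)) := by
        unfold wt clsAbs
        ring
      rw [e3] at h3
      exact h3
    · intro ω hω hD
      obtain ⟨-, -, -, c4, c5⟩ := hc ω (lt_of_le_of_ne (P'.nonneg ω) (Ne.symm hω))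
      rw [hD] at c4 c5
      obtain ⟨m1, m2⟩ := hmem ω hω
      rw [Finset.mem_filter]
      refine ⟨Finset.mem_univ _, m1, m2, ?_, ?_⟩
      · show InRect 1 E.ε ((geo (D ω₀)).b + bs) ((geo (D ω₀)).a + bs) (geo (D ω₀)).th
          (toP (At.asite (T' ω)).V - (toP (j.VJ E.ε bs) + E.ε ^ bs • (geo (D ω₀)).vc))
        rw [← cls_inRect_scale (s := bs) h0, add_sub_cancel_right, add_sub_cancel_right]
        have e4 : (E.ε ^ bs)⁻¹ • (toP (At.asite (T' ω)).V - (toP (j.VJ E.ε bs) + E.ε ^ bs • (geo (D ω₀)).vc))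
            = toP ((E.ε ^ bs)⁻¹ • ((At.asite (T' ω)).V - j.VJ E.ε bs)) - (geo (D ω₀)).vc := by
          rw [cls_toP_smul, cls_toP_sub, ← sub_sub, smul_sub, smul_smul, inv_mul_cancel₀ hb.ne', one_smul]
        rw [e4]
        exact c4
      · show InRect 1 E.ε ((geo (D ω₀)).b + bs + r) ((geo (D ω₀)).a + bs + r) (geo (D ω₀)).th
          (toP (At.asite (T' ω)).X - (toP (j.XJ E.ε r bs) + (E.ε ^ r * E.ε ^ bs) • (geo (D ω₀)).xc))
        have hrb : E.ε ^ r * E.ε ^ bs = E.ε ^ (bs + r) := by rw [add_comm, Real.rpow_add h0]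
        rw [← cls_inRect_scale (s := bs + r) h0,
          show (geo (D ω₀)).b + bs + r - (bs + r) = (geo (D ω₀)).b by ring,
          show (geo (D ω₀)).a + bs + r - (bs + r) = (geo (D ω₀)).a by ring]
        have e4 : (E.ε ^ (bs + r))⁻¹ • (toP (At.asite (T' ω)).X
              - (toP (j.XJ E.ε r bs) + (E.ε ^ r * E.ε ^ bs) • (geo (D ω₀)).xc))
            = toP ((E.ε ^ r * E.ε ^ bs)⁻¹ • ((At.asite (T' ω)).X - j.XJ E.ε r bs)) - (geo (D ω₀)).xc := by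
          rw [← hrb, cls_toP_smul, cls_toP_sub, ← sub_sub, smul_sub, smul_smul,
            inv_mul_cancel₀ (mul_pos hr hb).ne', one_smul]
        rw [e4]
        exact c5
  have e3 : P'.ev (fun ω => Real.log (E.ε ^ (-(Cl.gB j k - wt γ (geo (D ω))))))
      = (Cl.gB j k - P'.ev (fun ω => wt γ (geo (D ω)))) * lg E.ε := by
    have : (fun ω => Real.log (E.ε ^ (-(Cl.gB j k - wt γ (geo (D ω))))))
        = fun ω => lg E.ε * (Cl.gB j k - wt γ (geo (D ω))) := by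
      funext ω
      rw [cls_log_rpow_neg h0]
      ring
    rw [this, ent_ev_mul_left, ent_ev_sub, ent_ev_const]
    ring
  rw [e3] at e2
  rw [ent_mi_eq, e1, sub_div]
  have e5 : P'.entC T' D / lg E.ε ≤ Cl.gB j k - P'.ev (fun ω => wt γ (geo (D ω))) := by
    rw [div_le_iff₀ hl]
    exact e2
  linarith

/-- **the root supremum of the lines of one class**: `τ ≤ g - H(A)/ℓ` -/
theorem cls_tau_le (γ : ℝ) (E : PEnv) (r bs ξ : ℝ) (S0 : ℕ) (At : Atoms) (Cl : Classes At)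
    (h0 : 0 < E.ε) (h1 : E.ε < 1) (hCl : Cl.Good γ E r bs ξ S0) (j : Loc0) (k : ℕ) {Ω : Type} [Fintype Ω]
    (R : FLaw Ω) (A : Ω → At.𝔸) (c : Ω → ℝ) (Bc Lc : ℝ) (hB : (clsSys At E.ε r bs j R A c).Bdd Bc)
    (hcls : ∀ ω, 0 < R.p ω → At.loc (A ω) = j ∧ Cl.cls (A ω) = k)
    (hL0 : 0 ≤ Lc) (hL1 : Lc + bs ≤ E.L - r) (hL2 : Lc + bs ≤ E.u r) :
    (clsSys At E.ε r bs j R A c).tau γ E.ε Lc ≤ Cl.gB j k - R.ent A / lg E.ε := by
  refine csSup_le (tl_tau_nonempty _ Bc γ E.ε Lc hB h0 h1 hL0) ?_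
  rintro x ⟨Ω', f', P', T', Γ, D, geo, hlaw, hc, rfl⟩
  exact cls_root_le γ E r bs ξ S0 At Cl h0 h1 hCl j k R A Lc hcls hL1 hL2 Ω' P' T' Γ D geo hlaw hc

/-! ## time anchors and dyadic time cells -/

theorem cls_time (ε r t : ℝ) (h0 : 0 < ε) (Cr : ℝ) (Mu : ℕ) {Ω α : Type} [Fintype Ω]
    (R : FLaw Ω) (A : Ω → α) (c : Ω → ℝ)
    (hmult : ∀ ω, 0 < R.p ω → ((((Finset.univ.filter (fun ω' => 0 < R.p ω')).image c).filter
      (fun c' => |c' - c ω| < ε ^ t)).card : ℝ) ≤ Mu) :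
    R.entC c A ≤ R.entC (fun ω => tcell ε (t - r) ((c ω - Cr) / ε ^ r)) A + Real.log Mu := by
  have hr : 0 < ε ^ r := Real.rpow_pos_of_pos h0 r
  set Ct : Ω → ℤ := fun ω => tcell ε (t - r) ((c ω - Cr) / ε ^ r) with hCt
  have s1 : R.entC c A ≤ R.entC (pair Ct c) A :=
    ent_entC_mono R (pair Ct c) c A fun ω ω' _ _ h _ => (Prod.ext_iff.1 h).2
  have s2 := ent_entC_chain R Ct c A
  have s3 := ent_entC_pair_le R c Ct A
  have s4 : R.entC c Ct ≤ Real.log Mu := by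
    refine ent_entC_le_log_nval R c Ct ?_
    intro ω₀
    by_cases hex : ∃ ω₁, 0 < R.p ω₁ ∧ Ct ω₁ = Ct ω₀
    · obtain ⟨ω₁, hp1, hC1⟩ := hex
      refine ⟨_, hmult ω₁ hp1, fun ω hω _ hC => ?_⟩
      have hp : 0 < R.p ω := lt_of_le_of_ne (R.nonneg ω) (Ne.symm hω)
      rw [Finset.mem_filter, Finset.mem_image]
      refine ⟨⟨ω, by simp [hp], rfl⟩, ?_⟩
      -- same dyadic cell
      have hcc : Ct ω = Ct ω₁ := hC.trans hC1.symm
      have a1 := ig_cell_le ε (t - r) ((c ω - Cr) / ε ^ r)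
      have a2 := ig_lt_cell ε (t - r) ((c ω - Cr) / ε ^ r)
      have b1 := ig_cell_le ε (t - r) ((c ω₁ - Cr) / ε ^ r)
      have b2 := ig_lt_cell ε (t - r) ((c ω₁ - Cr) / ε ^ r)
      have hcc' : tcell ε (t - r) ((c ω - Cr) / ε ^ r) = tcell ε (t - r) ((c ω₁ - Cr) / ε ^ r) := hcc
      rw [hcc'] at a1 a2
      have hm := ig_msh_le ε (t - r) h0
      have d1 : |(c ω - Cr) / ε ^ r - (c ω₁ - Cr) / ε ^ r| < ε ^ (t - r) := by
        rw [abs_lt]
        constructor <;> linarith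
      have d2 : (c ω - Cr) / ε ^ r - (c ω₁ - Cr) / ε ^ r = (c ω - c ω₁) / ε ^ r := by ring
      rw [d2, abs_div, abs_of_pos hr, div_lt_iff₀ hr, ← Real.rpow_add h0, sub_add_cancel] at d1
      exact d1
    · refine ⟨∅, by simp, fun ω hω _ hC => ?_⟩
      exact absurd ⟨ω, lt_of_le_of_ne (R.nonneg ω) (Ne.symm hω), hC⟩ hex
  linarith

/-! ## the transfer -/

/-- **CLASSICAL TRANSFER**.  `K` enlargement of the faithful label, `Ca` atoms near their localizer, `Lmax` bound of the horizons, `dmin` lower bound of the durations, `Mu` multiplicity of the time anchors. -/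
theorem cls_growth (γ : ℝ) (hcl : UnivBound γ γ) (K Ca Lmax dmin ν : ℝ) (Mu : ℕ)
    (hd : 0 < dmin) (hν : 0 < ν) :
    ∃ ε₀ : ℝ, 0 < ε₀ ∧ ε₀ < 1 ∧ ∀ (E : PEnv) (r t bs ξ : ℝ) (S0 : ℕ) (At : Atoms) (Cl : Classes At),
      0 < E.ε → E.ε < ε₀ → Cl.Good γ E r bs ξ S0 → r + dmin ≤ t →
      ∀ (j : Loc0) (k : ℕ) (Ω : Type) [Fintype Ω] (R : FLaw Ω) (A : Ω → At.𝔸) (c : Ω → ℝ) (Γ : Type)
        (G : Ω → Γ) (geo : Γ → Geo) (Lc : ℝ),
        (∀ ω, 0 < R.p ω → At.loc (A ω) = j ∧ Cl.cls (A ω) = k) →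
        (∀ ω, 0 < R.p ω → ‖(At.asite (A ω)).V - j.VJ E.ε bs‖ ≤ Ca * E.ε ^ bs) →
        (∀ ω, 0 < R.p ω → ‖(At.asite (A ω)).X - j.XJ E.ε r bs‖ ≤ Ca * (E.ε ^ r * E.ε ^ bs)) →
        (∀ ω, 0 < R.p ω → j.Cr E.ε r ≤ c ω ∧ c ω < j.Cr E.ε r + E.ε ^ r) →
        (∀ ω, 0 < R.p ω → ((((Finset.univ.filter (fun ω' => 0 < R.p ω')).image c).filter
          (fun c' => |c' - c ω| < E.ε ^ t)).card : ℝ) ≤ Mu) →
        t - r ≤ Lc → Lc ≤ Lmax → Lc + bs ≤ E.L - r → Lc + bs ≤ E.u r →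
        (∀ ω, 0 < R.p ω → bs ≤ (geo (G ω)).b ∧ (geo (G ω)).b ≤ (geo (G ω)).a ∧
          (geo (G ω)).a - bs + (t - r) ≤ Lc) →
        (∀ ω, 0 < R.p ω → Faith (geo (G ω)) K E.ε t (j.Cr E.ε r) (c ω) (At.asite (A ω))) →
        R.ev (fun ω => wt γ (geo (G ω)) - 2 * bs) + (R.entC A G + 2 * R.entC c A) / lg E.ε
          ≤ Cl.gB j k + γ * (t - r) + ν := by
  obtain ⟨ε₁, e10, e11, H1⟩ := hcl K (max Ca 1) Lmax dmin (ν / 2) hd (half_pos hν)
  obtain ⟨ε₂, e20, e21, H2⟩ := tl_div_lg_le (2 * Real.log Mu) (half_pos hν)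
  refine ⟨min ε₁ ε₂, lt_min e10 e20, lt_of_le_of_lt (min_le_left _ _) e11, ?_⟩
  intro E r t bs ξ S0 At Cl hε0 hε hCl hrt j k Ω _ R A c Γ G geo Lc hcls hV hX hc hmult hL0 hL1 hL2 hL3 hw hf
  have hε1 : E.ε < 1 := lt_trans (lt_of_lt_of_le hε (min_le_left _ _)) e11
  have hl : 0 < lg E.ε := tl_tau_lg_pos hε0 hε1
  have hB := cls_bdd At E.ε r bs Ca hε0 j R A c hV hX hc
  have hlab := cls_label At E.ε r t bs K Lc hε0 j R A c G geo hw hf
  have g1 := H1 E.ε hε0 (lt_of_lt_of_le hε (min_le_left _ _)) (t - r) Lc (by linarith) hL0 hL1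
    (clsSys At E.ε r bs j R A c) Γ G _ hB hlab
  have g2 := cls_tau_le γ E r bs ξ S0 At Cl hε0 hε1 hCl j k R A c (max Ca 1) Lc hB hcls
    (by linarith) hL2 hL3
  have g3 := cls_time E.ε r t hε0 (j.Cr E.ε r) Mu R A c hmult
  have g4 := H2 E.ε hε0 (lt_of_lt_of_le hε (min_le_right _ _))
  -- unfold the score
  have s1 : (clsSys At E.ε r bs j R A c).score γ E.ε (t - r) G
        (fun g => gresc (geo g) E.ε r bs (j.Cr E.ε r) (j.VJ E.ε bs) (j.XJ E.ε r bs))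
      = R.ev (fun ω => wt γ (geo (G ω)) - 2 * bs) - R.mi A G / lg E.ε
        + 2 * (R.entC (fun ω => tcell E.ε (t - r) ((c ω - j.Cr E.ε r) / E.ε ^ r)) A / lg E.ε) := by
    unfold CSys.score CSys.St
    congr 2
    congr 1
    funext ω
    exact cls_wt_gresc γ _ _ _ _ _ _ _
  rw [s1, ent_mi_eq] at g1
  have g5 : R.entC c A / lg E.ε ≤ R.entC (fun ω => tcell E.ε (t - r) ((c ω - j.Cr E.ε r) / E.ε ^ r)) A / lg E.ε
      + Real.log Mu / lg E.ε := by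
    rw [← add_div]
    exact div_le_div_of_nonneg_right g3 hl.le
  have g6 : (R.entC A G + 2 * R.entC c A) / lg E.ε = R.entC A G / lg E.ε + 2 * (R.entC c A / lg E.ε) := by
    ring
  have g7 : 2 * Real.log Mu / lg E.ε = 2 * (Real.log Mu / lg E.ε) := by ring
  have g8 : (R.ent A - R.entC A G) / lg E.ε = R.ent A / lg E.ε - R.entC A G / lg E.ε := by ring
  rw [g6]
  rw [g7] at g4
  rw [g8] at g1
  linarith

theorem cls_eqns_cite : True := by
  have := @clsSys.eq_1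
  have := @Faith.eq_1
  have := @clsAbs.eq_1
  trivial

end Claimed.Agent.R255
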