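-- KEEP
import Claimed.Agent.R255.Rep.Kit

/-!
# Row 255 (BR paper), Sec. 11, file 5: the three entropy cores      (architect helper128)

PAPER-FREE entropy algebra.  Units are arbitrary but common (the statements are homogeneous): in the applications everything is in natural units,
i.e. depths are multiplied by `ℓ = log (1/ε)`.

* `rep_coarsen`      (9.packet-coarsen-mass)  : log-sum on the fibres `O ↦ Z`, conditional on `J`
* `rep_contrib`      (9.packet-contributor-identity) conditional on `J`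
* `rep_split_J`      (10.finite-packet-split) : `H(O) + ½ H(O|D) ≤ H(J) + H(O|J) + ½ H(O|D,J) + ½ H(J|D)`
* `rep_align_core`   Lemma 11.3 on the assembled law `ϱ^P` (all entropies conditional on `J`)
* `rep_info_split`   (11.time-correct-information-splitting) + (11.information-before-credit)
* `rep_credit_info`  (11.credit-information)
* `rep_repay_core`   Proposition 11.4 : `𝓔 ≤ E[log N + 3/2 log m + ½ g] + γ h + ½ (k - k_f) + errors`
-/

set_option autoImplicit false

namespace Claimed.Agent.R255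

open scoped BigOperators
open Classical
open FLaw

variable {Ω : Type} [Fintype Ω]

/-- `Y` is a.e. a function of `X` -/
def FLaw.Fn {α β : Type} (P : FLaw Ω) (X : Ω → α) (Y : Ω → β) : Prop :=
  ∀ ω ω', P.p ω ≠ 0 → P.p ω' ≠ 0 → X ω = X ω' → Y ω = Y ω'

/-- (10.finite-packet-split), entropy part -/
theorem rep_split_J {α δ ι : Type} (P : FLaw Ω) (O : Ω → α) (D : Ω → δ) (J : Ω → ι) :
    P.ent O + P.entC O D / 2
      ≤ P.ent J + P.entC O J + P.entC O (pair D J) / 2 + P.entC J D / 2 := by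
  unfold FLaw.entC
  have k1 := ent_le_pair_left P O J
  have k2 := ent_le_pair_left P (pair O D) J
  have k3 : P.ent (pair (pair O D) J) = P.ent (pair O (pair D J)) :=
    rep_ent_perm P _ _ (by intro ω ω'; simp only [pair, Prod.mk.injEq]; tauto)
  have k4 : P.ent (pair J D) = P.ent (pair D J) :=
    rep_ent_perm P _ _ (by intro ω ω'; simp only [pair, Prod.mk.injEq]; tauto)
  linarith

/-- (9.packet-coarsen-mass) conditional on `J`.  `mO` = mass of the site (a function of `(O,J)`), `mZ` = any bound for the sum of the masses of the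
distinct sites over one value of `(Z,J)`. -/
theorem rep_coarsen {α δ ι ζ : Type} (P : FLaw Ω) (O : Ω → α) (D : Ω → δ) (J : Ω → ι) (Z : Ω → ζ)
    (mO mZ : Ω → ℝ)
    (hZ : P.Fn (pair O J) Z)
    (hpos : ∀ ω, P.p ω ≠ 0 → 0 < mO ω)
    (hfun : ∀ ω ω', P.p ω ≠ 0 → P.p ω' ≠ 0 → O ω = O ω' → J ω = J ω' → mO ω = mO ω')
    (hsum : ∀ ω₀, P.p ω₀ ≠ 0 → ∀ S : Finset Ω,
      (∀ ω ∈ S, P.p ω ≠ 0 ∧ Z ω = Z ω₀ ∧ J ω = J ω₀) →
      (∀ ω ∈ S, ∀ ω' ∈ S, O ω = O ω' → ω = ω') → ∑ ω ∈ S, mO ω ≤ mZ ω₀) :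
    P.entC O J + P.entC O (pair D J) / 2 + 3 / 2 * P.ev (fun ω => Real.log (mO ω))
      ≤ P.entC Z J + P.entC Z (pair D J) / 2 + 3 / 2 * P.ev (fun ω => Real.log (mZ ω)) := by
  have l1 := rep_logsum P O (pair Z J) mO mZ hpos
    (fun ω ω' h h' hO hY => hfun ω ω' h h' hO (by simp only [pair, Prod.mk.injEq] at hY; exact hY.2))
    (fun ω₀ h0 S hS hinj => hsum ω₀ h0 S
      (fun ω hω => ⟨(hS ω hω).1, by have := (hS ω hω).2; simp only [pair, Prod.mk.injEq] at this; exact this⟩) hinj)
  have l2 := rep_logsum P O (pair Z (pair D J)) mO mZ hpos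
    (fun ω ω' h h' hO hY => hfun ω ω' h h' hO (by simp only [pair, Prod.mk.injEq] at hY; exact hY.2.2))
    (fun ω₀ h0 S hS hinj => hsum ω₀ h0 S
      (fun ω hω => ⟨(hS ω hω).1, by
        have := (hS ω hω).2; simp only [pair, Prod.mk.injEq] at this; exact ⟨this.1, this.2.2⟩⟩) hinj)
  unfold FLaw.entC at *
  have k1 : P.ent (pair O (pair Z J)) = P.ent (pair O J) := by
    apply ent_congr_ker
    intro ω ω' hω hω'
    constructor
    · intro h'
      simp only [pair, Prod.mk.injEq] at h' ⊢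
      tauto
    · intro h'
      have hz : Z ω = Z ω' := hZ ω ω' hω hω' h'
      simp only [pair, Prod.mk.injEq] at h' ⊢
      tauto
  have k2 : P.ent (pair O (pair Z (pair D J))) = P.ent (pair O (pair D J)) := by
    apply ent_congr_ker
    intro ω ω' hω hω'
    constructor
    · intro h'
      simp only [pair, Prod.mk.injEq] at h' ⊢
      tauto
    · intro h'
      simp only [pair, Prod.mk.injEq] at h' ⊢
      have hz : Z ω = Z ω' := hZ ω ω' hω hω' (by simp only [pair, Prod.mk.injEq]; tauto)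
      tauto
  linarith

/-- (9.packet-contributor-identity) conditional on `J` -/
theorem rep_contrib {δ ι ζ τ κ : Type} (P : FLaw Ω) (D : Ω → δ) (J : Ω → ι) (Z : Ω → ζ) (T : Ω → τ)
    (Ct : Ω → κ) (B1 : ℝ)
    (hCZ : P.Fn (pair Z J) Ct) (hCD : P.Fn (pair D J) Ct)
    (h1 : P.entC T (pair Z J) = B1) (h2 : P.entC T (pair Z (pair D J)) = B1) :
    P.entC Z J + P.entC Z (pair D J) / 2 + 3 / 2 * B1
      ≤ P.entC T J + P.entC T (pair D J) / 2 + P.entC Ct (pair T J)
        + 3 / 2 * P.entC Z (pair (pair T Ct) J) := by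
  unfold FLaw.entC at *
  -- H(Z,T,Ct,J) = H(T,Z,J)
  have k1 : P.ent (pair Z (pair (pair T Ct) J)) = P.ent (pair T (pair Z J)) := by
    apply ent_congr_ker
    intro ω ω' hω hω'
    constructor
    · intro h
      simp only [pair, Prod.mk.injEq] at h ⊢
      tauto
    · intro h
      simp only [pair, Prod.mk.injEq] at h ⊢
      have hc : Ct ω = Ct ω' := hCZ ω ω' hω hω' (by simp only [pair, Prod.mk.injEq]; tauto)
      tauto
  have k3 : P.ent (pair (pair T Ct) J) = P.ent (pair Ct (pair T J)) :=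
    rep_ent_perm P _ _ (by intro ω ω'; simp only [pair, Prod.mk.injEq]; tauto)
  -- H(Z | T, D, J) ≤ H(Z | T, Ct, J) : submodularity X = Z, Y = D, W = (T,Ct,J)
  have sm := ent_submod P Z D (pair (pair T Ct) J)
  have k4 : P.ent (pair (pair Z D) (pair (pair T Ct) J)) = P.ent (pair T (pair Z (pair D J))) := by
    apply ent_congr_ker
    intro ω ω' hω hω'
    constructor
    · intro h
      simp only [pair, Prod.mk.injEq] at h ⊢
      tauto
    · intro h
      simp only [pair, Prod.mk.injEq] at h ⊢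
      have hc : Ct ω = Ct ω' := hCZ ω ω' hω hω' (by simp only [pair, Prod.mk.injEq]; tauto)
      tauto
  have k5 : P.ent (pair D (pair (pair T Ct) J)) = P.ent (pair T (pair D J)) := by
    apply ent_congr_ker
    intro ω ω' hω hω'
    constructor
    · intro h
      simp only [pair, Prod.mk.injEq] at h ⊢
      tauto
    · intro h
      simp only [pair, Prod.mk.injEq] at h ⊢
      have hc : Ct ω = Ct ω' := hCD ω ω' hω hω' (by simp only [pair, Prod.mk.injEq]; tauto)
      tauto
  linarith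

/-- **Lemma 11.3**, entropy core on the assembled law.
`LN = E log N(J)`, `LA = E log N_all(J)`, `G = E g(J)`, `Dl = E δ_J`. -/
theorem rep_align_core {δ ι τ κ σ μ υ : Type} (R : FLaw Ω) (J : Ω → ι) (T : Ω → τ) (D : Ω → δ)
    (E : Ω → σ) (M : Ω → μ) (Y : Ω → υ) (Ct : Ω → κ)
    (hE : R.Fn (pair T J) E) (hM : R.Fn (pair T J) M)
    (γ e j l h LN LA G Dl η1 η3 η4 η5 η6 η7 η8 η9 : ℝ)
    (a1 : LN + G / 2 - Dl ≤ R.entC T J + (R.entC T (pair D J) + (1 - γ) * e) / 2
      + R.entC Ct (pair T J) + η1)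
    (a2 : R.entC T J ≤ LN)
    (a3 : R.entC Ct (pair T J) ≤ 2 * h + η3)
    (a4 : R.entC T (pair D J) ≤ G - (1 - γ) * e + η4)
    (a5 : R.entC E J ≤ LA - G + ((1 + γ) * j + (1 - γ) * l) + η5)
    (a6 : R.entC T (pair D (pair E J)) ≤ G - 2 * e + η6)
    (a7 : R.entC M (pair E J) ≤ η7)
    (a8 : R.entC Y (pair D J) ≤ η8)
    (a9 : R.entC M (pair Y J) + R.entC T (pair M J) ≤ G - (1 - γ) * j + η9) :
    2 * γ * (e - j) ≤ (LA - LN) + 3 * Dl + 6 * h + (1 - γ) * (l - e)
      + (3 * η1 + 3 * η3 + η4 / 2 + η5 + η6 + η7 + η8 + η9) := by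
  unfold FLaw.entC at *
  -- abbreviations of joint entropies; E, M functions of (T,J)
  have kTE : R.ent (pair T (pair D (pair E J))) = R.ent (pair T (pair D J)) := by
    apply ent_congr_ker
    intro ω ω' hω hω'
    constructor
    · intro h
      simp only [pair, Prod.mk.injEq] at h ⊢
      tauto
    · intro h
      simp only [pair, Prod.mk.injEq] at h ⊢
      have hc : E ω = E ω' := hE ω ω' hω hω' (by simp only [pair, Prod.mk.injEq]; tauto)
      tauto
  have kTM : R.ent (pair T (pair M J)) = R.ent (pair T J) := by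
    apply ent_congr_ker
    intro ω ω' hω hω'
    constructor
    · intro h
      simp only [pair, Prod.mk.injEq] at h ⊢
      tauto
    · intro h
      simp only [pair, Prod.mk.injEq] at h ⊢
      have hc : M ω = M ω' := hM ω ω' hω hω' (by simp only [pair, Prod.mk.injEq]; tauto)
      tauto
  have sm1 := ent_submod R D E (pair M J)
  have m1 : R.ent (pair D (pair E J)) ≤ R.ent (pair (pair D E) (pair M J)) := by
    apply ent_mono_ker
    intro ω ω' _ _ h
    simp only [pair, Prod.mk.injEq] at h ⊢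
    tauto
  have k7 : R.ent (pair E (pair M J)) = R.ent (pair M (pair E J)) :=
    rep_ent_perm R _ _ (by intro ω ω'; simp only [pair, Prod.mk.injEq]; tauto)
  -- H(M,Y,J) + H(D,J) ≥ ... : I(M;D|J) ≥ I(M;Y|J) - H(Y|D,J)
  -- H(M,D,J) ≤ H(M,Y,D,J) ≤ H(M,Y,J) + H(Y,D,J) - H(Y,J)
  have sm2 := ent_submod R M D (pair Y J)
  have m2 : R.ent (pair D (pair M J)) ≤ R.ent (pair (pair M D) (pair Y J)) := by
    apply ent_mono_ker
    intro ω ω' _ _ h
    simp only [pair, Prod.mk.injEq] at h ⊢
    tauto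
  have k6 : R.ent (pair D (pair Y J)) = R.ent (pair Y (pair D J)) :=
    rep_ent_perm R _ _ (by intro ω ω'; simp only [pair, Prod.mk.injEq]; tauto)
  linarith

/-- (11.time-correct-information-splitting) and (11.information-before-credit) -/
theorem rep_info_split {δ ι τ κ φ ψ : Type} (R : FLaw Ω) (J : Ω → ι) (T : Ω → τ) (D : Ω → δ)
    (G : Ω → ψ) (F : Ω → φ) (Ct : Ω → κ)
    (hCD : R.Fn (pair D J) Ct) (hCG : R.Fn (pair G J) Ct) (hCF : R.Fn (pair F J) Ct)
    (hF : R.Fn (pair (pair T Ct) J) F)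
    (hci : R.miC T G (pair F J) = 0) (e6 : ℝ)
    (hdp : R.miC F G (pair Ct J) ≤ R.miC F D (pair Ct J) + e6) :
    R.entC T (pair D J) ≤ R.entC T (pair G J) - R.miC T D (pair F J) + e6 := by
  unfold FLaw.miC FLaw.entC at *
  -- joint entropies.  (T,D,F,J) = (T,D,J) ; (T,G,F,J) = (T,G,J); (F,Ct,J) = (F,J); (F,D,Ct,J) = (F,D,J); (D,Ct,J) = (D,J)
  have k1 : R.ent (pair (pair T D) (pair F J)) = R.ent (pair T (pair D J)) := by
    apply ent_congr_ker
    intro ω ω' hω hω'
    constructor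
    · intro h'
      simp only [pair, Prod.mk.injEq] at h' ⊢
      tauto
    · intro h'
      simp only [pair, Prod.mk.injEq] at h' ⊢
      have hc : Ct ω = Ct ω' := hCD ω ω' hω hω' (by simp only [pair, Prod.mk.injEq]; tauto)
      have hf : F ω = F ω' := hF ω ω' hω hω' (by simp only [pair, Prod.mk.injEq]; tauto)
      tauto
  have k2 : R.ent (pair (pair T G) (pair F J)) = R.ent (pair T (pair G J)) := by
    apply ent_congr_ker
    intro ω ω' hω hω'
    constructor
    · intro h'
      simp only [pair, Prod.mk.injEq] at h' ⊢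
      tauto
    · intro h'
      simp only [pair, Prod.mk.injEq] at h' ⊢
      have hc : Ct ω = Ct ω' := hCG ω ω' hω hω' (by simp only [pair, Prod.mk.injEq]; tauto)
      have hf : F ω = F ω' := hF ω ω' hω hω' (by simp only [pair, Prod.mk.injEq]; tauto)
      tauto
  have k3 : R.ent (pair F (pair Ct J)) = R.ent (pair F J) := by
    apply ent_congr_ker
    intro ω ω' hω hω'
    constructor
    · intro h'
      simp only [pair, Prod.mk.injEq] at h' ⊢
      tauto
    · intro h'
      simp only [pair, Prod.mk.injEq] at h' ⊢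
      have hc : Ct ω = Ct ω' := hCF ω ω' hω hω' (by simp only [pair, Prod.mk.injEq]; tauto)
      tauto
  have k4 : R.ent (pair (pair F D) (pair Ct J)) = R.ent (pair D (pair F J)) := by
    apply ent_congr_ker
    intro ω ω' hω hω'
    constructor
    · intro h'
      simp only [pair, Prod.mk.injEq] at h' ⊢
      tauto
    · intro h'
      simp only [pair, Prod.mk.injEq] at h' ⊢
      have hc : Ct ω = Ct ω' := hCF ω ω' hω hω' (by simp only [pair, Prod.mk.injEq]; tauto)
      tauto
  have k5 : R.ent (pair (pair F G) (pair Ct J)) = R.ent (pair G (pair F J)) := by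
    apply ent_congr_ker
    intro ω ω' hω hω'
    constructor
    · intro h'
      simp only [pair, Prod.mk.injEq] at h' ⊢
      tauto
    · intro h'
      simp only [pair, Prod.mk.injEq] at h' ⊢
      have hc : Ct ω = Ct ω' := hCF ω ω' hω hω' (by simp only [pair, Prod.mk.injEq]; tauto)
      tauto
  have k6 : R.ent (pair D (pair Ct J)) = R.ent (pair D J) := by
    apply ent_congr_ker
    intro ω ω' hω hω'
    constructor
    · intro h'
      simp only [pair, Prod.mk.injEq] at h' ⊢
      tauto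
    · intro h'
      simp only [pair, Prod.mk.injEq] at h' ⊢
      have hc : Ct ω = Ct ω' := hCD ω ω' hω hω' (by simp only [pair, Prod.mk.injEq]; tauto)
      tauto
  have k7 : R.ent (pair G (pair Ct J)) = R.ent (pair G J) := by
    apply ent_congr_ker
    intro ω ω' hω hω'
    constructor
    · intro h'
      simp only [pair, Prod.mk.injEq] at h' ⊢
      tauto
    · intro h'
      simp only [pair, Prod.mk.injEq] at h' ⊢
      have hc : Ct ω = Ct ω' := hCG ω ω' hω hω' (by simp only [pair, Prod.mk.injEq]; tauto)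
      tauto
  linarith

/-- (11.credit-information) -/
theorem rep_credit_info {δ ι τ φ α β : Type} (R : FLaw Ω) (J : Ω → ι) (T : Ω → τ) (D : Ω → δ)
    (F : Ω → φ) (Pf : Ω → α) (Wf : Ω → β) (kf e7 e8 e9 : ℝ)
    (hk : kf ≤ R.entC Wf Pf)
    (h7 : R.entC (pair F J) Pf ≤ e7)
    (h8 : R.entC Wf (pair D (pair F J)) ≤ e8)
    (h9 : R.entC Wf (pair T (pair F J)) ≤ e9) :
    kf - e7 - e8 - e9 ≤ R.miC T D (pair F J) := by
  have k1 := rep_info_of_common R Wf T D (pair F J)
  have k2 := rep_entC_change R Wf (pair F J) Pf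
  linarith

/-- **Proposition 11.4**, entropy core.
`B1 = E log N_{J,Q}`, `Lm = E log m(J)`, `LZ = E log m_Z`, `WD = E w_loc(D)`, `WG = E w(G)`, `LN = E log N(J)`, `Gg = E g(J)`,
`kd = k - d h`, `I0` = a lower bound of `I(T;D|F,J)` (`k_f - C η`, or `0`). -/
theorem rep_repay_core {δ ι τ κ ζ χ ψ : Type} (R : FLaw Ω) (J : Ω → ι) (T : Ω → τ) (D : Ω → δ)
    (G : Ω → ψ) (Ct : Ω → κ) (Z : Ω → ζ) (Q : Ω → χ)
    (hQZ : R.Fn (pair Z J) Q) (hCQ : R.Fn (pair Q J) Ct)
    (B1 Lm LZ WD WG LN Gg kd gh dh I0 e1 e2 e3 e4 e5 e6 e8 : ℝ)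
    (h1 : R.entC T (pair Z J) = B1) (h2 : R.entC T (pair Z (pair D J)) = B1)
    (r1 : R.entC Q (pair (pair T Ct) J) ≤ e1)
    (r2 : R.entC Z (pair T (pair D J)) ≤ e2)
    (r3 : R.entC Z (pair Q J) + LZ ≤ B1 + Lm + e3)
    (r4 : LZ ≤ B1 + Lm + kd + e4)
    (r5 : WG + R.entC T (pair G J) + 2 * R.entC Ct (pair T J) ≤ Gg + 2 * gh + e5)
    (r6 : R.entC T (pair D J) ≤ R.entC T (pair G J) - I0 + e6)
    (r8 : WD - WG ≤ dh + e8)
    (r9 : R.entC T J ≤ LN) :
    R.entC Z J + R.entC Z (pair D J) / 2 + 3 / 2 * LZ + WD / 2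
      ≤ LN + 3 / 2 * Lm + Gg / 2 + gh + (kd + dh - I0) / 2
        + (e1 + e2 / 2 + e3 + e4 / 2 + e5 / 2 + e6 / 2 + e8 / 2) := by
  unfold FLaw.entC at *
  -- submodularity  X = (T,Ct), Y = Z, W = (Q,J)
  have sm := ent_submod R (pair T Ct) Z (pair Q J)
  -- H(T,Ct,Z,Q,J) = H(T,Z,J)
  have k1 : R.ent (pair (pair (pair T Ct) Z) (pair Q J)) = R.ent (pair T (pair Z J)) := by
    apply ent_congr_ker
    intro ω ω' hω hω'
    constructor
    · intro h
      simp only [pair, Prod.mk.injEq] at h ⊢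
      tauto
    · intro h
      simp only [pair, Prod.mk.injEq] at h ⊢
      have hq : Q ω = Q ω' := hQZ ω ω' hω hω' (by simp only [pair, Prod.mk.injEq]; tauto)
      have hc : Ct ω = Ct ω' := hCQ ω ω' hω hω' (by simp only [pair, Prod.mk.injEq]; tauto)
      tauto
  have k2 : R.ent (pair (pair T Ct) (pair Q J)) = R.ent (pair Q (pair (pair T Ct) J)) :=
    rep_ent_perm R _ _ (by intro ω ω'; simp only [pair, Prod.mk.injEq]; tauto)
  have k3 : R.ent (pair (pair T Ct) J) = R.ent (pair Ct (pair T J)) :=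
    rep_ent_perm R _ _ (by intro ω ω'; simp only [pair, Prod.mk.injEq]; tauto)
  have k4 : R.ent (pair T (pair Z (pair D J))) = R.ent (pair Z (pair T (pair D J))) :=
    rep_ent_perm R _ _ (by intro ω ω'; simp only [pair, Prod.mk.injEq]; tauto)
  linarith

theorem rep_core_eqns_cite : True := by
  have := @FLaw.Fn.eq_1
  trivial

end Claimed.Agent.R255
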