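-- KEEP
import Claimed.Agent.R255.Comp.CutThm
import Claimed.Agent.R255.Rep.State
import Claimed.Agent.R255.Rep.Buffer
import Claimed.Agent.R255.Rep.Core
import Claimed.Agent.R255.Rep.Cls
import Claimed.Agent.R255.Rep.Mass

/-!
# Row 255 (BR paper), Sec. 11, stage S6 REPAY (Proposition 11.4): THE CONCRETE LABELS      (architect helper207; prefix `rq_`, `RqD`)

FROZEN DEFINITIONS.   ABSOLUTE coordinates.   `t = T.t`, `r = t - 2h`, `u = u_t`, `u_r = u + h`, `σ_r = ε^(t+u-h)`, `σ_t = ε^(t+u)`.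
DATA `RqD` : a prepared cut = `(E, T, h, bs, At, Cl, tag, win)` (frozen data of `Pkt/Cut.lean`; the CURRENT endpoint law is `T.P`), the translated grid `(Lg, τV, τX)` of `Rep/Buffer.lean`,
the normal table `ntab`, the tail exponent `θ`, the fine velocity label `W` of the atoms with the centres `yb` (elongated) / `Vb` (isotropic) of its bins.
LABELS (functions of the endpoint SITE INDEX `i : T.ι`, resp. of the atom):
* `PS s = bufP …`  the buffered coarse label of a site;   `Pi i`, `Pa A`;        `Ji i` the tagged localizer (`= ctJ`)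
* `line A c = X_A + (c - C_A) V_A`   the exact line of an atom
* `Qi i = (P, C_i, cell_{σ_r} X_i)`;   `Cand i` = atoms of the class `J` with the same `P` whose line at `C_i` is within `2 ε^(-θ) σ_r` of the CENTRE of that cell;   `hQ i = Σ_{Cand} c_A g_A`
* `Zi i = (Q, fine)`,  `fine = ⌊⟨X_i, n(P)⟩ / σ_t⌋` (elongated), `cell_{σ_t} X_i` (isotropic)
* `mO i = m_i(h_{J,Q})`,   `mZ i = Σ_{i' active, Z(i') = Z(i), J(i') = J(i)} m_{i'}(h_{J,Q})`                (11.repayment-candidate-mass)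
LAWS: `R1 = π̃` on `T.Ω × atoms` (11.repayment-candidate-law) `= rep_unif T.P Cand`;  observables `J1 D1 A1 C1 Q1 Z1 F1`;
* `F1 x = (C, cell_{ε^(u-h)} V_A, cell_{σ_r} line_A(C))`                                                      (the label `F_T`)
* `Yb x : Geo` = the enlarged coarsening `\bar Y` : widths `(bG, u-h)`, `bG = bs` (elongated), `u-h` (isotropic), orientation of `D` (NOT coarsened), centres = centres of the cells of `F`, rounded in the frame of `D`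
* `R2 = rep_two R1 (F1, J1)` : the label `G` is `Yb` of the SECOND copy.
`RqD.Ok Kn Kc η k kf αf` : the standing hypotheses.
-/

set_option autoImplicit false

namespace Claimed.Agent.R255

open scoped BigOperators
open Classical
open FLaw Pkt Osc

/-- the data of a prepared cut -/
structure RqD where
  γ : ℝ
  E : PEnv
  B : PBd
  T : PTest
  h : ℝ
  bs : ℝ
  p : Atoms.Par
  ξ : ℝ
  S0 : ℕ
  A0 : ℝ
  At : Atoms
  ne : Nonempty At.𝔸
  Cl : Classes At
  τ : Type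
  finτ : Fintype τ
  tag : At.𝔸 → τ
  win : T.ι → ℕ × τ
  /-- `true` : elongated (`d = 1`), `false` : isotropic (`d = 2`) -/
  el : Bool
  Lg : ℝ
  τV : E2
  τX : E2
  ntab : Loc0 → ℝ
  θ : ℝ
  β : Type
  W : At.𝔸 → β
  yb : β → ℝ
  Vb : β → E2

attribute [instance] RqD.ne RqD.finτ

namespace RqD

variable (X : RqD)

/-- the cut time -/
noncomputable def r : ℝ := X.T.t - 2 * X.h
/-- `u_t` -/
noncomputable def u : ℝ := X.E.u X.T.t
/-- `σ_r` -/
noncomputable def sr : ℝ := X.E.sig X.r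
/-- `σ_t` -/
noncomputable def st : ℝ := X.E.sig X.T.t
/-- `d` -/
noncomputable def d : ℝ := if X.el = true then 1 else 2

/-- the buffered coarse label of a site -/
noncomputable def PS (s : Site) : Loc0 := bufP X.E.ε X.r X.u X.Lg X.τV X.τX s
noncomputable def Pi (i : X.T.ι) : Loc0 := X.PS (X.T.site i)
noncomputable def Pa (A : X.At.𝔸) : Loc0 := X.PS (X.At.asite A)

/-- the tagged localizer of an endpoint site -/
noncomputable def Ji (i : X.T.ι) : Classes.Lab X.τ := Classes.Jof X.E X.r X.bs X.T.site X.win i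

/-- the exact line of an atom -/
noncomputable def line (A : X.At.𝔸) (c : ℝ) : E2 := (X.At.asite A).X + (c - (X.At.asite A).C) • (X.At.asite A).V

/-- `Q` -/
noncomputable def Qi (i : X.T.ι) : Loc0 × ℝ × (ℤ × ℤ) := (X.Pi i, (X.T.site i).C, cell X.sr (X.T.site i).X)

/-- the candidates -/
noncomputable def Cand (i : X.T.ι) : Finset X.At.𝔸 :=
  (X.Cl.clsOf X.tag (X.Ji i)).filter (fun A => X.Pa A = X.Pi i ∧
    ‖X.line A (X.T.site i).C - cellC X.sr (cell X.sr (X.T.site i).X)‖ ≤ 2 * X.E.ε ^ (-X.θ) * X.sr)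

/-- the fine position label -/
noncomputable def fine (i : X.T.ι) : ℤ × ℤ :=
  if X.el = true then (⌊ip (toP (X.T.site i).X) (nrm (X.ntab (X.Pi i))) / X.st⌋, 0) else cell X.st (X.T.site i).X

/-- `Z` -/
noncomputable def Zi (i : X.T.ι) : (Loc0 × ℝ × (ℤ × ℤ)) × (ℤ × ℤ) := (X.Qi i, X.fine i)

/-- the candidate-truncated input `h_{J,Q}` -/
noncomputable def hQ (i : X.T.ι) : E2 → ℂ := X.At.sup X.E X.r (fun A => A ∈ X.Cand i)

/-- `m_O(h_{J,Q})` -/
noncomputable def mO (i : X.T.ι) : ℝ := mass X.E.lam (X.E.rho X.T.t) X.E.Φ (X.hQ i) (X.T.site i)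

/-- `m_Z`      (11.repayment-candidate-mass) -/
noncomputable def mZ (i : X.T.ι) : ℝ :=
  ∑ i' ∈ Finset.univ.filter (fun i' => X.T.act i' ∧ X.Zi i' = X.Zi i ∧ X.Ji i' = X.Ji i),
    mass X.E.lam (X.E.rho X.T.t) X.E.Φ (X.hQ i) (X.T.site i')

/-- the candidate law `π̃`      (11.repayment-candidate-law) -/
noncomputable def R1 : FLaw (X.T.Ω × X.At.𝔸) := rep_unif X.T.P (fun o => X.Cand (X.T.O o))

noncomputable def J1 (x : X.T.Ω × X.At.𝔸) : Classes.Lab X.τ := X.Ji (X.T.O x.1)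
def D1 (x : X.T.Ω × X.At.𝔸) : X.T.Γ := X.T.D x.1
def A1 (x : X.T.Ω × X.At.𝔸) : X.At.𝔸 := x.2
def C1 (x : X.T.Ω × X.At.𝔸) : ℝ := (X.T.site (X.T.O x.1)).C
noncomputable def Q1 (x : X.T.Ω × X.At.𝔸) : Loc0 × ℝ × (ℤ × ℤ) := X.Qi (X.T.O x.1)
noncomputable def Z1 (x : X.T.Ω × X.At.𝔸) : (Loc0 × ℝ × (ℤ × ℤ)) × (ℤ × ℤ) := X.Zi (X.T.O x.1)

/-- the label `F_T` -/
noncomputable def F1 (x : X.T.Ω × X.At.𝔸) : ℝ × (ℤ × ℤ) × (ℤ × ℤ) :=
  (X.C1 x, cell (X.E.ε ^ (X.u - X.h)) (X.At.asite x.2).V, cell X.sr (X.line x.2 (X.C1 x)))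

/-- the smaller width of `G` -/
noncomputable def bG : ℝ := if X.el = true then X.bs else X.u - X.h

/-- the weight of `G` (a constant) -/
noncomputable def wG : ℝ := (1 + X.γ) * X.bG + (1 - X.γ) * (X.u - X.h)

end RqD

/-- rounding of a point in the frame of angle `th` at the meshes `(w1, w2)` -/
noncomputable def rqRnd (th w1 w2 : ℝ) (z : ℝ × ℝ) : ℝ × ℝ :=
  (w1 * (⌊ip z (tang th) / w1⌋ : ℝ)) • tang th + (w2 * (⌊ip z (nrm th) / w2⌋ : ℝ)) • nrm th

namespace RqD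

variable (X : RqD)

/-- the enlarged coarsening `\bar Y` of `D` around the cell `F_T` -/
noncomputable def Yb (x : X.T.Ω × X.At.𝔸) : Geo where
  b := X.bG
  a := X.u - X.h
  tc := X.C1 x
  th := (X.T.geo (X.D1 x)).th
  vc := rqRnd (X.T.geo (X.D1 x)).th (X.E.ε ^ X.bG) (X.E.ε ^ (X.u - X.h))
    (toP (cellC (X.E.ε ^ (X.u - X.h)) (X.F1 x).2.1))
  xc := rqRnd (X.T.geo (X.D1 x)).th (X.E.ε ^ (X.bG + X.T.t)) (X.E.ε ^ (X.u - X.h + X.T.t))
    (toP (cellC X.sr (X.F1 x).2.2))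

/-- two copies of `π̃`, conditionally independent given `(F_T, J)` : `G = Yb` of the second copy -/
noncomputable def R2 : FLaw ((X.T.Ω × X.At.𝔸) × (X.T.Ω × X.At.𝔸)) := rep_two X.R1 (pair X.F1 X.J1)

/-- the standing hypotheses of the repayment estimate -/
structure Ok (Kn Kc η k kf αf : ℝ) : Prop where
  cut : CutOK X.γ X.E X.B X.T X.r X.bs X.p X.ξ X.S0 X.A0 X.At X.Cl X.tag X.win
  hA : X.A0 / 2 < X.p.A
  h0 : 0 < X.h
  θ0 : 0 < X.θ
  θh : X.θ ≤ X.h / 10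
  η0 : 0 ≤ η
  ηh : η ≤ X.h
  ξ0 : 0 < X.ξ
  α0 : 0 ≤ αf
  /-- (11.repayment-localizer-depth) -/
  bsu : X.bs ≤ X.u - X.h
  Lg1 : 1 ≤ X.Lg
  /-- the buffered property: every possible contributor shares the coarse label -/
  share : ∀ i, X.T.act i → ∀ A, X.At.loc A = loc0 X.E.ε X.r X.bs (X.T.site i) →
    AnNear X.E X.T.t X.r X.θ (X.B.Ra + X.p.Ra) (X.T.site i) (X.At.asite A) → X.Pa A = X.Pi i
  /-- the predicted normal -/
  pred : X.el = true → ∀ o, 0 < X.T.P.p o →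
    |Real.sin ((X.T.geo (X.T.D o)).th - X.ntab (X.Pi (X.T.O o)))| ≤ Kn * X.E.ε ^ (4 * X.h)
  shA : ∀ o, 0 < X.T.P.p o → X.u - η ≤ (X.T.geo (X.T.D o)).a
  shB : X.el = true → ∀ o, 0 < X.T.P.p o → (X.T.geo (X.T.D o)).b ≤ X.bs + η
  shB' : X.el = false → ∀ o, 0 < X.T.P.p o → X.u - η ≤ (X.T.geo (X.T.D o)).b
  /-- the bins of the fine velocity label -/
  wb1 : X.el = true → ∀ A, |ip (toP (X.At.asite A).V) (nrm (X.ntab (X.Pa A))) - X.yb (X.W A)| ≤ X.E.rho X.r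
  wb2 : X.el = false → ∀ A, ‖(X.At.asite A).V - X.Vb (X.W A)‖ ≤ X.E.rho X.r
  /-- (11.velocity-fiber-regularity), upper half -/
  wcnt : ∀ i, X.T.act i → ∀ q : Loc0,
    ((((X.Cl.clsOf X.tag (X.Ji i)).filter (fun A => X.Pa A = q)).image X.W).card : ℝ) ≤ X.E.ε ^ (-(k + X.ξ))
  /-- (11.repayment-selected-credit) -/
  credit : kf = 0 ∨ ∃ (α β' : Type) (Pf : X.T.Ω → α) (Wf : X.T.Ω → β') (nf : α → ℝ),
    Credit X.T.P Pf Wf (X.E.ε ^ (kf - αf)) ∧ Incoming X.E X.T X.h Kc X.el Pf Wf nf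

end RqD

theorem rq_defs_eqns_cite : True := by
  have := @RqD.r.eq_1
  have := @RqD.u.eq_1
  have := @RqD.sr.eq_1
  have := @RqD.st.eq_1
  have := @RqD.d.eq_1
  have := @RqD.PS.eq_1
  have := @RqD.Pi.eq_1
  have := @RqD.Pa.eq_1
  have := @RqD.Ji.eq_1
  have := @RqD.line.eq_1
  have := @RqD.Qi.eq_1
  have := @RqD.Cand.eq_1
  have := @RqD.fine.eq_1
  have := @RqD.Zi.eq_1
  have := @RqD.hQ.eq_1
  have := @RqD.mO.eq_1
  have := @RqD.mZ.eq_1
  have := @RqD.R1.eq_1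
  have := @RqD.J1.eq_1
  have := @RqD.D1.eq_1
  have := @RqD.A1.eq_1
  have := @RqD.C1.eq_1
  have := @RqD.Q1.eq_1
  have := @RqD.Z1.eq_1
  have := @RqD.F1.eq_1
  have := @RqD.bG.eq_1
  have := @RqD.wG.eq_1
  have := @rqRnd.eq_1
  have := @RqD.Yb.eq_1
  have := @RqD.R2.eq_1
  trivial

end Claimed.Agent.R255
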