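-- KEEP
import Claimed.Agent.R255.Rep.RqDefs

/-!
# Row 255 (BR paper), Sec. 11, stage S6 REPAY: constants `RqK`, `RqD.Fits`, the labels and the averages on the endpoint sample space, paper-free glue lemmas      (architect helper207; prefix `rq_`)
FROZEN DEFINITIONS (imported by the parts A, B, C).
-/

set_option autoImplicit false

namespace Claimed.Agent.R255

open scoped BigOperators
open Classical
open FLaw Pkt Osc

/-- the constants of a prepared cut -/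
structure RqK where
  γ : ℝ
  B : PBd
  p : Atoms.Par
  S0 : ℕ
  Stag : ℕ
  A0 : ℝ
  Lg : ℝ
  Kn : ℝ
  Kc : ℝ
  h : ℝ
  θ : ℝ

/-- the data use the constants `c` -/
structure RqD.Fits (X : RqD) (c : RqK) : Prop where
  γ : X.γ = c.γ
  B : X.B = c.B
  p : X.p = c.p
  S0 : X.S0 = c.S0
  Stag : Fintype.card X.τ ≤ c.Stag
  A0 : X.A0 = c.A0
  Lg : X.Lg = c.Lg
  h : X.h = c.h
  θ : X.θ = c.θ

namespace RqD

variable (X : RqD)

/-- the labels as functions of the endpoint sample -/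
noncomputable def Jo (o : X.T.Ω) : Classes.Lab X.τ := X.Ji (X.T.O o)
noncomputable def Zo (o : X.T.Ω) : (Loc0 × ℝ × (ℤ × ℤ)) × (ℤ × ℤ) := X.Zi (X.T.O o)
noncomputable def Qo (o : X.T.Ω) : Loc0 × ℝ × (ℤ × ℤ) := X.Qi (X.T.O o)
/-- `E log m_Z` -/
noncomputable def LZ : ℝ := X.T.P.ev (fun o => Real.log (X.mZ (X.T.O o)))
/-- `B_1 = E log N_{J,Q}` -/
noncomputable def B1 : ℝ := X.T.P.ev (fun o => Real.log ((X.Cand (X.T.O o)).card : ℝ))
/-- `E log m(J)` -/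
noncomputable def Lm : ℝ := X.T.P.ev (fun o => Real.log (X.Cl.mB (X.Jo o).1 (X.Jo o).2.1))
/-- `E log N(J)` -/
noncomputable def LN : ℝ := X.T.P.ev (fun o => Real.log (X.Cl.N X.tag (X.Jo o) : ℝ))
/-- `E g(J)` -/
noncomputable def Eg : ℝ := X.T.P.ev (fun o => X.Cl.gB (X.Jo o).1 (X.Jo o).2.1)
/-- `E w_loc(D)` -/
noncomputable def EwD : ℝ := X.T.P.ev (fun o => wt X.γ (X.T.geo (X.T.D o)) - 2 * X.bs)

end RqD

/-! ## the glue -/

/-- `rep_repay_core` with `G` eliminated -/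
theorem rq_core {Ω : Type} [Fintype Ω] {δ ι τ κ ζ χ : Type} (R : FLaw Ω) (J : Ω → ι) (T : Ω → τ) (D : Ω → δ)
    (Ct : Ω → κ) (Z : Ω → ζ) (Q : Ω → χ)
    (hQZ : R.Fn (pair Z J) Q) (hCQ : R.Fn (pair Q J) Ct)
    (B1 Lm LZ WD WG LN Gg kd gh dh I0 e1 e2 e3 e4 e56 e8 : ℝ)
    (h1 : R.entC T (pair Z J) = B1) (h2 : R.entC T (pair Z (pair D J)) = B1)
    (r1 : R.entC Q (pair (pair T Ct) J) ≤ e1)
    (r2 : R.entC Z (pair T (pair D J)) ≤ e2)
    (r3 : R.entC Z (pair Q J) + LZ ≤ B1 + Lm + e3)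
    (r4 : LZ ≤ B1 + Lm + kd + e4)
    (r56 : WG + R.entC T (pair D J) + 2 * R.entC Ct (pair T J) + I0 ≤ Gg + 2 * gh + e56)
    (r8 : WD - WG ≤ dh + e8)
    (r9 : R.entC T J ≤ LN) :
    R.entC Z J + R.entC Z (pair D J) / 2 + 3 / 2 * LZ + WD / 2
      ≤ LN + 3 / 2 * Lm + Gg / 2 + gh + (kd + dh - I0) / 2
        + (e1 + e2 / 2 + e3 + e4 / 2 + e56 / 2 + e8 / 2) := by
  have := rep_repay_core R J T D D Ct Z Q hQZ hCQ B1 Lm LZ WD (WG + I0) LN Gg kd gh (dh - I0) 0 e1 e2 e3 e4 e56 0 e8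
    h1 h2 r1 r2 r3 r4 (by linarith) (by linarith) (by linarith) r9
  linarith

/-- transfer of the endpoint entropies to the candidate law -/
theorem rq_transfer (X : RqD) {α β : Type} (U : X.T.Ω → α) (V : X.T.Ω → β) :
    X.R1.entC (fun x => U x.1) (fun x => V x.1) = X.T.P.entC U V := by
  have h := ent_map_entC X.R1 Prod.fst U V
  rw [show X.R1.map Prod.fst = X.T.P from rep_unif_map_fst X.T.P _] at h
  exact h.symm

/-- `ℓ E A_J` -/
theorem rq_AJ (X : RqD) (hl : 0 < lg X.E.ε) :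
    lg X.E.ε * X.T.P.ev (fun o => X.Cl.AJ X.E X.tag (X.Jo o)) = X.LN + 3 / 2 * X.Lm + lg X.E.ε * X.Eg / 2 := by
  unfold RqD.LN RqD.Lm RqD.Eg FLaw.ev Classes.AJ
  rw [Finset.mul_sum, Finset.mul_sum, Finset.mul_sum, Finset.sum_div, ← Finset.sum_add_distrib,
    ← Finset.sum_add_distrib]
  refine Finset.sum_congr rfl fun o _ => ?_
  field_simp

theorem rq_repay_eqns_cite : True := by
  have := @RqD.Jo.eq_1
  have := @RqD.Zo.eq_1
  have := @RqD.Qo.eq_1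
  have := @RqD.LZ.eq_1
  have := @RqD.B1.eq_1
  have := @RqD.Lm.eq_1
  have := @RqD.LN.eq_1
  have := @RqD.Eg.eq_1
  have := @RqD.EwD.eq_1
  trivial

end Claimed.Agent.R255
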