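-- KEEP
import Claimed.Agent.R255.Rep.RqK

/-!
# Row 255 (BR paper), Sec. 11, stage S6 REPAY, PART A, export `rq_A3` (the candidate law)      (helper26; prefix `rqa3_`)
-/

set_option autoImplicit false

namespace Claimed.Agent.R255

open scoped BigOperators
open Classical
open FLaw Pkt Osc

/-- the candidate set is a function of `(Q, J)` -/
theorem rqa3_cand_congr (X : RqD) (i i' : X.T.ι) (hQ : X.Qi i = X.Qi i') (hJ : X.Ji i = X.Ji i') :
    X.Cand i = X.Cand i' := by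
  have h1 : X.Pi i = X.Pi i' := congrArg Prod.fst hQ
  have h2 : (X.T.site i).C = (X.T.site i').C := congrArg (fun q => q.2.1) hQ
  have h3 : cell X.sr (X.T.site i).X = cell X.sr (X.T.site i').X := congrArg (fun q => q.2.2) hQ
  unfold RqD.Cand
  rw [hJ, h1, h2, h3]

theorem rqa3_main (X : RqD) (hne : ∀ o, X.T.P.p o ≠ 0 → (X.Cand (X.T.O o)).Nonempty) :
    X.R1.entC X.A1 (pair X.Z1 X.J1) = X.B1 ∧ X.R1.entC X.A1 (pair X.Z1 (pair X.D1 X.J1)) = X.B1 ∧
    X.R1.entC X.A1 X.J1 ≤ X.LN := by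
  refine ⟨?_, ?_, ?_⟩
  · refine rep_unif_entC X.T.P (fun o => X.Cand (X.T.O o)) hne (pair X.Zo X.Jo) ?_
    intro o o' _ _ h
    have hZ : X.Zo o = X.Zo o' := congrArg Prod.fst h
    have hJ : X.Jo o = X.Jo o' := congrArg Prod.snd h
    exact rqa3_cand_congr X _ _ (congrArg Prod.fst hZ) hJ
  · refine rep_unif_entC X.T.P (fun o => X.Cand (X.T.O o)) hne (pair X.Zo (pair X.T.D X.Jo)) ?_
    intro o o' _ _ h
    have hZ : X.Zo o = X.Zo o' := congrArg Prod.fst h
    have hJ : X.Jo o = X.Jo o' := congrArg (fun q => q.2.2) h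
    exact rqa3_cand_congr X _ _ (congrArg Prod.fst hZ) hJ
  · have h1 : X.R1.entC X.A1 X.J1 ≤ X.R1.ev (fun x => Real.log (X.Cl.N X.tag (X.Jo x.1) : ℝ)) := by
      refine rep_entC_le_ev_log X.R1 X.A1 X.J1 _ ?_
      intro x₀ _
      refine ⟨X.Cl.clsOf X.tag (X.J1 x₀), le_of_eq rfl, ?_⟩
      intro x hx hJ
      have h2 := ((rep_unif_supp X.T.P (fun o => X.Cand (X.T.O o)) hne x).1 hx).2
      have h3 : x.2 ∈ X.Cl.clsOf X.tag (X.Ji (X.T.O x.1)) := (Finset.mem_filter.1 h2).1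
      rw [← hJ]
      exact h3
    refine h1.trans (le_of_eq ?_)
    have h4 := ent_map_ev X.R1 Prod.fst (fun o => Real.log (X.Cl.N X.tag (X.Jo o) : ℝ))
    rw [show X.R1.map Prod.fst = X.T.P from rep_unif_map_fst X.T.P _] at h4
    exact h4.symm

end Claimed.Agent.R255
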