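-- KEEP
import Claimed.Agent.R255.Rep.Mass
import Claimed.Agent.R255.Rep.Core
import Claimed.Agent.R255.Comp.CutThm

/-!
# Row 255 (BR paper), Sec. 11, stage S6 REPAY, PART A: everything that touches masses      (helper171; prefix `rme_`)

LABEL-AGNOSTIC.  Data: a cut (`CutOK`), site labels `Qs : T.ι → χ`, `Zs : T.ι → ζ` (`Z` contains `Q`, `Q` contains `C_t`), candidate sets `Cd J q : Finset atoms`
(`⊆ 𝒯_J`, containing every atom of `J` near a site with labels `(J, q)`): structure `RmeLab`.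
* `rmeMC i`  = `m_O(h_{J,Q})`, the candidate-truncated mass of the site `i`;   `rmeMZ i₀` = `m_Z` (11.repayment-candidate-mass): sum over ALL active sites with the labels `(J, Z)` of `i₀`.
* (A0) `rme_candOK`   (11.repayment-winning-candidate): `m_O(h_J) ≤ 4 m_O(h_{J,Q})`, `0 < m_O(h_{J,Q})`, `N_{J,Q} > 0` on the support.
* (A1) `rme_PJ_le`    (11.repayment-candidate-expression), second half: `E P_J ≤ [H(Z|J) + ½ H(Z|D,J)]/ℓ + 3/2 E log m_Z/ℓ + ½ E (w - 2 b_*) + 3/2 log 4/ℓ`.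
* (A2) `rme_r3`, `rme_r4_one`, `rme_r4_two` : the hypotheses `r3`, `r4` of `rep_repay_core` (natural units).
* (A3) `rmeR1` = the candidate law (11.repayment-candidate-law) on `T.Ω × atoms`; `rme_h1`, `rme_h2`, `rme_r9`.
-/

set_option autoImplicit false

namespace Claimed.Agent.R255

open MeasureTheory Metric Set Osc Pkt FLaw
open scoped BigOperators
open Classical

variable {τ χ ζ : Type}

/-- candidate data of a cut -/
structure RmeLab (E : PEnv) (T : PTest) (r bs η Rn : ℝ) (At : Atoms) (Cl : Classes At) (tag : At.𝔸 → τ)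
    (win : T.ι → ℕ × τ) (Qs : T.ι → χ) (Zs : T.ι → ζ) (Cd : Classes.Lab τ → χ → Finset At.𝔸) : Prop where
  zq : ∀ i i', T.act i → T.act i' → Zs i = Zs i' → Qs i = Qs i'
  qc : ∀ i i', T.act i → T.act i' → Qs i = Qs i' → (T.site i).C = (T.site i').C
  sub : ∀ J q, ∀ A ∈ Cd J q, Cl.lab tag A = J
  near : ∀ i, T.act i → ∀ A, Cl.lab tag A = Classes.Jof E r bs T.site win i →
    AnNear E T.t r η Rn (T.site i) (At.asite A) → A ∈ Cd (Classes.Jof E r bs T.site win i) (Qs i)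

/-- the candidate-truncated mass `m_O(h_{J,Q})` of a site -/
noncomputable def rmeMC (E : PEnv) (T : PTest) (r bs : ℝ) (At : Atoms) (win : T.ι → ℕ × τ) (Qs : T.ι → χ)
    (Cd : Classes.Lab τ → χ → Finset At.𝔸) (i : T.ι) : ℝ :=
  mass E.lam (E.rho T.t) E.Φ (At.sup E r (fun A => A ∈ Cd (Classes.Jof E r bs T.site win i) (Qs i))) (T.site i)

/-- `m_Z` (11.repayment-candidate-mass) -/
noncomputable def rmeMZ (E : PEnv) (T : PTest) (r bs : ℝ) (At : Atoms) (win : T.ι → ℕ × τ) (Qs : T.ι → χ)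
    (Zs : T.ι → ζ) (Cd : Classes.Lab τ → χ → Finset At.𝔸) (i₀ : T.ι) : ℝ :=
  ∑ i ∈ Finset.univ.filter (fun i => T.act i ∧
      Classes.Jof E r bs T.site win i = Classes.Jof E r bs T.site win i₀ ∧ Zs i = Zs i₀),
    rmeMC E T r bs At win Qs Cd i

/-- the conclusion of (11.repayment-winning-candidate), as a hypothesis for the entropy lemmas -/
def CandOK (E : PEnv) (T : PTest) (r bs : ℝ) (At : Atoms) (Cl : Classes At) (tag : At.𝔸 → τ) (win : T.ι → ℕ × τ)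
    (Qs : T.ι → χ) (Cd : Classes.Lab τ → χ → Finset At.𝔸) : Prop :=
  ∀ o, 0 < T.P.p o →
    0 < (E.withInput (Cl.hJ E r tag (ctJ E r bs T win o))).m T.t (T.site (T.O o)) ∧
    (E.withInput (Cl.hJ E r tag (ctJ E r bs T win o))).m T.t (T.site (T.O o)) ≤ 4 * rmeMC E T r bs At win Qs Cd (T.O o) ∧
    0 < rmeMC E T r bs At win Qs Cd (T.O o) ∧ (Cd (ctJ E r bs T win o) (Qs (T.O o))).Nonempty

/-- **(A0)** (11.repayment-winning-candidate) on the support of the current law -/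
theorem rme_candOK (B : PBd) (hB : B.Good) (p : Atoms.Par) (η Atr : ℝ) (hη : 0 < η) (hA : 0 < Atr) :
    ∃ ε₀ : ℝ, 0 < ε₀ ∧ ∀ (γ : ℝ) (E : PEnv) (T : PTest) (r bs ξ : ℝ) (S0 : ℕ) (A0 : ℝ) (At : Atoms) (Cl : Classes At)
      (τ : Type) [Fintype τ] (tag : At.𝔸 → τ) (win : T.ι → ℕ × τ) (χ ζ : Type) (Qs : T.ι → χ) (Zs : T.ι → ζ)
      (Cd : Classes.Lab τ → χ → Finset At.𝔸), E.ε < ε₀ → CutOK γ E B T r bs p ξ S0 A0 At Cl tag win →
      RmeLab E T r bs η (B.Ra + p.Ra) At Cl tag win Qs Zs Cd → E.ε ^ (p.A - A0 / 2) ≤ 1 / 2 →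
      8 * ((S0 : ℝ) * Fintype.card τ) * E.ε ^ (Atr - A0 / 2) ≤ 1 → CandOK E T r bs At Cl tag win Qs Cd := by
  obtain ⟨ε₀, h0, h⟩ := rm_win_cand B hB p.Ra p.Bb p.Mu p.Ca η Atr hη hA
  refine ⟨ε₀, h0, ?_⟩
  intro γ E T r bs ξ S0 A0 At Cl τ _ tag win χ ζ Qs Zs Cd hε H L hq hq2 o ho
  have hact : T.act (T.O o) := ⟨o, ho, rfl⟩
  have hbu : bs ≤ E.u T.t := by
    have hg := H.obT.geo o ho
    linarith [H.bsb o ho, hg.2.1, hg.2.2.2.1]
  obtain ⟨a1, -, a3, A, a4⟩ := h E T.t r bs p At rfl rfl rfl rfl H.obE hε H.r0 H.rt H.bs0 hbu H.goodA γ ξ S0 Cl τ tag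
    T.ι T.site win H.goodC H.win A0 hq hq2 (T.O o) (rm_siteOK H.obT _ hact) (H.floor o ho) (H.obT.mpos o ho)
    (fun A => A ∈ Cd (Classes.Jof E r bs T.site win (T.O o)) (Qs (T.O o))) (fun A hA => L.sub _ _ A hA)
    (fun A hA hn => L.near _ hact A hA hn)
  have a5 := rm_winner γ ξ S0 Cl tag T.site win H.obE H.goodA H.goodC H.win A0 hq (T.O o) (rm_siteOK H.obT _ hact)
    (H.floor o ho)
  have a6 := H.obT.mpos o ho
  refine ⟨?_, a1, a3, ⟨A, a4⟩⟩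
  by_contra hcon
  have a7 : mass E.lam (E.rho T.t) E.Φ (Cl.hJ E r tag (Classes.Jof E r bs T.site win (T.O o))) (T.site (T.O o)) ≤ 0 :=
    not_lt.1 hcon
  have a8 : 0 ≤ 4 * ((S0 : ℝ) * Fintype.card τ) ^ 2 := by positivity
  nlinarith

theorem rme_MC_nonneg (E : PEnv) (T : PTest) (r bs : ℝ) (At : Atoms) (win : T.ι → ℕ × τ) (Qs : T.ι → χ)
    (Cd : Classes.Lab τ → χ → Finset At.𝔸) (i : T.ι) : 0 ≤ rmeMC E T r bs At win Qs Cd i := by
  unfold rmeMC mass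
  positivity

/-- sums over samples with distinct sites are sums over sites -/
theorem rme_sum_samples {T : PTest} (S : Finset T.Ω) (hinj : ∀ o ∈ S, ∀ o' ∈ S, T.O o = T.O o' → o = o') (f : T.ι → ℝ) :
    ∑ o ∈ S, f (T.O o) = ∑ i ∈ S.image T.O, f i := (Finset.sum_image hinj).symm

section
variable {γ : ℝ} {E : PEnv} {B : PBd} {T : PTest} {r bs : ℝ} {p : Atoms.Par} {ξ : ℝ} {S0 : ℕ} {A0 : ℝ}
  {At : Atoms} {Cl : Classes At} {tag : At.𝔸 → τ} {win : T.ι → ℕ × τ} {Qs : T.ι → χ} {Zs : T.ι → ζ}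
  {Cd : Classes.Lab τ → χ → Finset At.𝔸} {η Rn : ℝ}

/-- `m_Z` dominates the candidate masses of distinct sampled sites with the same `(Z, J)` -/
theorem rme_MZ_ge (o₀ : T.Ω) (S : Finset T.Ω)
    (hS : ∀ o ∈ S, T.P.p o ≠ 0 ∧ Zs (T.O o) = Zs (T.O o₀) ∧ ctJ E r bs T win o = ctJ E r bs T win o₀)
    (hinj : ∀ o ∈ S, ∀ o' ∈ S, T.O o = T.O o' → o = o') :
    ∑ o ∈ S, rmeMC E T r bs At win Qs Cd (T.O o) ≤ rmeMZ E T r bs At win Qs Zs Cd (T.O o₀) := by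
  rw [rme_sum_samples S hinj (rmeMC E T r bs At win Qs Cd)]
  unfold rmeMZ
  refine Finset.sum_le_sum_of_subset_of_nonneg ?_ fun i _ _ => rme_MC_nonneg E T r bs At win Qs Cd i
  intro i hi
  obtain ⟨o, ho, rfl⟩ := Finset.mem_image.1 hi
  obtain ⟨h1, h2, h3⟩ := hS o ho
  exact Finset.mem_filter.2 ⟨Finset.mem_univ _, ⟨o, ct_pos_of_ne _ h1, rfl⟩, h3, h2⟩

theorem rme_MZ_pos (hC : CandOK E T r bs At Cl tag win Qs Cd) (o : T.Ω) (ho : T.P.p o ≠ 0) :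
    0 < rmeMZ E T r bs At win Qs Zs Cd (T.O o) := by
  have h1 := rme_MZ_ge (E := E) (r := r) (bs := bs) (At := At) (win := win) (Qs := Qs) (Zs := Zs) (Cd := Cd) o {o}
    (by simp [ho]) (by simp)
  rw [Finset.sum_singleton] at h1
  exact (hC o (ct_pos_of_ne _ ho)).2.2.1.trans_le h1

/-- **(A1)** (11.repayment-candidate-expression), second half -/
theorem rme_PJ_le (hε : 0 < E.ε) (hε1 : E.ε < 1) (hC : CandOK E T r bs At Cl tag win Qs Cd) :
    T.P.ev (pcPJ (lg E.ε) T.P T.O T.D (ctJ E r bs T win) (Cl.LmW E r bs tag T win) (ctW γ T) bs)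
      ≤ (T.P.entC (fun o => Zs (T.O o)) (ctJ E r bs T win)
          + T.P.entC (fun o => Zs (T.O o)) (pair T.D (ctJ E r bs T win)) / 2) / lg E.ε
        + 3 / 2 * T.P.ev (fun o => Real.log (rmeMZ E T r bs At win Qs Zs Cd (T.O o)) / lg E.ε)
        + 1 / 2 * T.P.ev (fun o => ctW γ T o - 2 * bs) + 3 / 2 * (Real.log 4 / lg E.ε) := by
  have hl : 0 < lg E.ε := p9_lg_pos hε hε1
  unfold pcPJ
  rw [pc_ev_cfib]
  have h1 : T.P.ev (Cl.LmW E r bs tag T win)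
      ≤ T.P.ev (fun o => Real.log (rmeMC E T r bs At win Qs Cd (T.O o))) / lg E.ε + Real.log 4 / lg E.ε := by
    have e : T.P.ev (fun o => Real.log (rmeMC E T r bs At win Qs Cd (T.O o))) / lg E.ε + Real.log 4 / lg E.ε
        = T.P.ev (fun o => (lg E.ε)⁻¹ * Real.log (rmeMC E T r bs At win Qs Cd (T.O o)) + Real.log 4 / lg E.ε) := by
      rw [ent_ev_add, ent_ev_const, ent_ev_mul_left]
      ring
    rw [e]
    refine ent_ev_mono _ fun o ho => ?_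
    obtain ⟨c1, c2, c3, -⟩ := hC o (ct_pos_of_ne _ ho)
    unfold Classes.LmW
    have := Real.log_le_log c1 c2
    rw [Real.log_mul (by norm_num) c3.ne'] at this
    calc _ ≤ (Real.log 4 + Real.log (rmeMC E T r bs At win Qs Cd (T.O o))) / lg E.ε :=
          div_le_div_of_nonneg_right this hl.le
      _ = _ := by ring
  have h2 := rep_coarsen T.P T.O T.D (ctJ E r bs T win) (fun o => Zs (T.O o))
    (fun o => rmeMC E T r bs At win Qs Cd (T.O o)) (fun o => rmeMZ E T r bs At win Qs Zs Cd (T.O o))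
    (fun o o' _ _ h => by
      have : T.O o = T.O o' := congrArg Prod.fst h
      show Zs (T.O o) = Zs (T.O o')
      rw [this])
    (fun o ho => (hC o (ct_pos_of_ne _ ho)).2.2.1)
    (fun o o' _ _ h _ => by
      show rmeMC E T r bs At win Qs Cd (T.O o) = rmeMC E T r bs At win Qs Cd (T.O o')
      rw [h])
    (fun o₀ _ S hS hinj => rme_MZ_ge o₀ S hS hinj)
  have e2 : T.P.ev (fun o => Real.log (rmeMZ E T r bs At win Qs Zs Cd (T.O o)) / lg E.ε)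
      = T.P.ev (fun o => Real.log (rmeMZ E T r bs At win Qs Zs Cd (T.O o))) / lg E.ε := by
    have : (fun o => Real.log (rmeMZ E T r bs At win Qs Zs Cd (T.O o)) / lg E.ε)
        = fun o => (lg E.ε)⁻¹ * Real.log (rmeMZ E T r bs At win Qs Zs Cd (T.O o)) := by
      funext o
      ring
    rw [this, ent_ev_mul_left]
    ring
  rw [e2]
  have h3 := div_le_div_of_nonneg_right h2 hl.le
  have e3 : ∀ a b c : ℝ, (a + b / 2 + 3 / 2 * c) / lg E.ε = (a + b / 2) / lg E.ε + 3 / 2 * (c / lg E.ε) := fun a b c => by ring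
  rw [e3, e3] at h3
  linarith

end

/-! ## (A2) the aggregate bound and `r3` -/

theorem rme_log_rpow_neg {ε : ℝ} (h0 : 0 < ε) (x : ℝ) : Real.log (ε ^ (-x)) = x * lg ε := by
  rw [Real.log_rpow h0]
  unfold lg
  rw [one_div, Real.log_inv]
  ring

theorem rme_sum_ite_mem {α : Type} [Fintype α] (S : Finset α) (f : α → ℝ) (d : ∀ a, Decidable (a ∈ S)) :
    (∑ a, @ite ℝ (a ∈ S) (d a) (f a) 0) = ∑ a ∈ S, f a := by
  rw [← Finset.sum_filter]
  congr 1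
  ext a
  simp

/-- the coefficient square sum of a candidate set -/
theorem rme_coef {γ : ℝ} {E : PEnv} {r bs ξ : ℝ} {S0 : ℕ} {At : Atoms} {Cl : Classes At} (hCl : Cl.Good γ E r bs ξ S0)
    (tag : At.𝔸 → τ) (J : Classes.Lab τ) (S : Finset At.𝔸) (hS : ∀ A ∈ S, Cl.lab tag A = J) :
    ∑ A ∈ S, ‖At.coef E r A‖ ^ 2 ≤ (S.card : ℝ) * (Cl.mB J.1 J.2.1 * E.ε ^ (-ξ)) := by
  refine (Finset.sum_le_card_nsmul _ _ (Cl.mB J.1 J.2.1 * E.ε ^ (-ξ)) fun A hA => ?_).trans (le_of_eq ?_)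
  · have h1 : At.loc A = J.1 := congrArg Prod.fst (hS A hA)
    have h2 : Cl.cls A = J.2.1 := congrArg (fun x => x.2.1) (hS A hA)
    have := hCl.massHi A
    rwa [h1, h2] at this
  · rw [nsmul_eq_mul]

/-- **the aggregate bound** for any set of active sites with one `(J, Q)` -/
theorem rme_agg (B : PBd) (hB : B.Good) (Ra : ℝ) (Bb : ℕ → ℝ) : ∃ C : ℝ, 0 ≤ C ∧
    ∀ (γ : ℝ) (E : PEnv) (T : PTest) (r bs ξ : ℝ) (p : Atoms.Par) (S0 : ℕ) (A0 : ℝ) (At : Atoms) (Cl : Classes At)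
      (τ : Type) (tag : At.𝔸 → τ) (win : T.ι → ℕ × τ) (χ ζ : Type) (Qs : T.ι → χ) (Zs : T.ι → ζ)
      (Cd : Classes.Lab τ → χ → Finset At.𝔸) (η Rn : ℝ), p.Ra = Ra → p.Bb = Bb →
      CutOK γ E B T r bs p ξ S0 A0 At Cl tag win → RmeLab E T r bs η Rn At Cl tag win Qs Zs Cd →
      ∀ (i₀ : T.ι) (sO : Finset T.ι), T.act i₀ → (∀ i ∈ sO, T.act i ∧
        Classes.Jof E r bs T.site win i = Classes.Jof E r bs T.site win i₀ ∧ Qs i = Qs i₀) →
      ∑ i ∈ sO, rmeMC E T r bs At win Qs Cd i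
        ≤ C * B.Mu * p.Mu * (((Cd (Classes.Jof E r bs T.site win i₀) (Qs i₀)).card : ℝ) *
          (Cl.mB (Classes.Jof E r bs T.site win i₀).1 (Classes.Jof E r bs T.site win i₀).2.1 * E.ε ^ (-ξ))) := by
  obtain ⟨C, hC, h⟩ := rm_agg B hB Ra Bb
  refine ⟨C, hC, ?_⟩
  intro γ E T r bs ξ p S0 A0 At Cl τ tag win χ ζ Qs Zs Cd η Rn hRa hBb H L i₀ sO hi₀ hsO
  set J := Classes.Jof E r bs T.site win i₀ with hJ
  have hs := rm_siteOK H.obT i₀ hi₀
  have hCr := rm_loc0_Cr (r := r) (bs := bs) H.obE.ε0 (T.site i₀) hs.c0 hs.c1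
  have a1 := h E T r bs p At hRa hBb H.obE H.obT H.goodA (H.rt.trans (rm_test_H H.obT i₀ hi₀)) J.1 hCr.1 hCr.2
    (fun A => A ∈ Cd J (Qs i₀)) (fun A hA => congrArg Prod.fst (L.sub _ _ A hA)) (T.site i₀).C sO
    (fun i hi => ⟨(hsO i hi).1, L.qc i i₀ (hsO i hi).1 hi₀ (hsO i hi).2.2⟩)
  have a2 := rme_coef H.goodC tag J (Cd J (Qs i₀)) (L.sub _ _)
  have e : ∑ i ∈ sO, rmeMC E T r bs At win Qs Cd i
      = ∑ i ∈ sO, mass E.lam (E.rho T.t) E.Φ (At.sup E r (fun A => A ∈ Cd J (Qs i₀))) (T.site i) :=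
    Finset.sum_congr rfl fun i hi => by
      unfold rmeMC
      rw [(hsO i hi).2.1, (hsO i hi).2.2]
  rw [e]
  rw [rme_sum_ite_mem _ _ (fun a => propDecidable _)] at a1
  exact a1.trans (mul_le_mul_of_nonneg_left a2 (by positivity))

/-- logarithm of a positive product `K (N (m e))` with nonnegative `K`, `N` and positive `e` -/
theorem rme_log_prod {K N m e : ℝ} (hK : 0 ≤ K) (hN : 0 ≤ N) (he : 0 < e) (h : 0 < K * (N * (m * e))) :
    0 < K ∧ 0 < N ∧ 0 < m ∧ Real.log (K * (N * (m * e))) = Real.log K + Real.log N + Real.log m + Real.log e := by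
  have h1 : 0 < K := by
    rcases hK.lt_or_eq with h1 | h1
    · exact h1
    · rw [← h1, zero_mul] at h
      exact absurd h (lt_irrefl _)
  have h2 : 0 < N * (m * e) := (mul_pos_iff_of_pos_left h1).1 h
  have h3 : 0 < N := by
    rcases hN.lt_or_eq with h3 | h3
    · exact h3
    · rw [← h3, zero_mul] at h2
      exact absurd h2 (lt_irrefl _)
  have h4 : 0 < m * e := (mul_pos_iff_of_pos_left h3).1 h2
  have h5 : 0 < m := (mul_pos_iff_of_pos_right he).1 h4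
  refine ⟨h1, h3, h5, ?_⟩
  rw [Real.log_mul h1.ne' h2.ne', Real.log_mul h3.ne' h4.ne', Real.log_mul h5.ne' he.ne']
  ring

/-- **(A2) `r3`** : conditional log-sum on the aggregate bound (natural units) -/
theorem rme_r3 (B : PBd) (hB : B.Good) (Ra : ℝ) (Bb : ℕ → ℝ) : ∃ C : ℝ, 0 ≤ C ∧
    ∀ (γ : ℝ) (E : PEnv) (T : PTest) (r bs ξ : ℝ) (p : Atoms.Par) (S0 : ℕ) (A0 : ℝ) (At : Atoms) (Cl : Classes At)
      (τ : Type) (tag : At.𝔸 → τ) (win : T.ι → ℕ × τ) (χ ζ : Type) (Qs : T.ι → χ) (Zs : T.ι → ζ)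
      (Cd : Classes.Lab τ → χ → Finset At.𝔸) (η Rn : ℝ), p.Ra = Ra → p.Bb = Bb →
      CutOK γ E B T r bs p ξ S0 A0 At Cl tag win → RmeLab E T r bs η Rn At Cl tag win Qs Zs Cd →
      CandOK E T r bs At Cl tag win Qs Cd →
      T.P.entC (fun o => Zs (T.O o)) (pair (fun o => Qs (T.O o)) (ctJ E r bs T win))
          + T.P.ev (fun o => Real.log (rmeMZ E T r bs At win Qs Zs Cd (T.O o)))
        ≤ T.P.ev (fun o => Real.log ((Cd (ctJ E r bs T win o) (Qs (T.O o))).card : ℝ))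
          + T.P.ev (fun o => Real.log (Cl.mB (ctJ E r bs T win o).1 (ctJ E r bs T win o).2.1))
          + (Real.log (C * B.Mu * p.Mu) + ξ * lg E.ε) := by
  obtain ⟨C, hC, h⟩ := rme_agg B hB Ra Bb
  refine ⟨C, hC, ?_⟩
  intro γ E T r bs ξ p S0 A0 At Cl τ tag win χ ζ Qs Zs Cd η Rn hRa hBb H L hCd
  have hsum : ∀ o₀, T.P.p o₀ ≠ 0 → ∀ S : Finset T.Ω,
      (∀ o ∈ S, T.P.p o ≠ 0 ∧ pair (fun o => Qs (T.O o)) (ctJ E r bs T win) o
        = pair (fun o => Qs (T.O o)) (ctJ E r bs T win) o₀) →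
      (∀ o ∈ S, ∀ o' ∈ S, Zs (T.O o) = Zs (T.O o') → o = o') →
      ∑ o ∈ S, rmeMZ E T r bs At win Qs Zs Cd (T.O o)
        ≤ C * B.Mu * p.Mu * (((Cd (ctJ E r bs T win o₀) (Qs (T.O o₀))).card : ℝ) *
          (Cl.mB (ctJ E r bs T win o₀).1 (ctJ E r bs T win o₀).2.1 * E.ε ^ (-ξ))) := by
    intro o₀ ho₀ S hS hinj
    unfold rmeMZ
    rw [← Finset.sum_biUnion]
    · refine h γ E T r bs ξ p S0 A0 At Cl τ tag win χ ζ Qs Zs Cd η Rn hRa hBb H L (T.O o₀) _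
        ⟨o₀, ct_pos_of_ne _ ho₀, rfl⟩ ?_
      intro i hi
      obtain ⟨o, ho, hi'⟩ := Finset.mem_biUnion.1 hi
      obtain ⟨-, a1, a2, a3⟩ := Finset.mem_filter.1 hi'
      obtain ⟨b1, b2⟩ := hS o ho
      have b3 : Qs (T.O o) = Qs (T.O o₀) := congrArg Prod.fst b2
      have b4 : ctJ E r bs T win o = ctJ E r bs T win o₀ := congrArg Prod.snd b2
      exact ⟨a1, a2.trans b4, (L.zq i (T.O o) a1 ⟨o, ct_pos_of_ne _ b1, rfl⟩ a3).trans b3⟩
    · intro o ho o' ho' hne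
      rw [Function.onFun, Finset.disjoint_left]
      intro i hi hi'
      have a3 := (Finset.mem_filter.1 hi).2.2.2
      have a3' := (Finset.mem_filter.1 hi').2.2.2
      exact hne (hinj o ho o' ho' (a3.symm.trans a3'))
  have l1 := rep_logsum T.P (fun o => Zs (T.O o)) (pair (fun o => Qs (T.O o)) (ctJ E r bs T win))
    (fun o => rmeMZ E T r bs At win Qs Zs Cd (T.O o))
    (fun o => C * B.Mu * p.Mu * (((Cd (ctJ E r bs T win o) (Qs (T.O o))).card : ℝ) *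
          (Cl.mB (ctJ E r bs T win o).1 (ctJ E r bs T win o).2.1 * E.ε ^ (-ξ))))
    (fun o ho => rme_MZ_pos hCd o ho)
    (fun o o' _ _ hZ hY => by
      have b4 : Classes.Jof E r bs T.site win (T.O o) = Classes.Jof E r bs T.site win (T.O o') := congrArg Prod.snd hY
      have hZ' : Zs (T.O o) = Zs (T.O o') := hZ
      show rmeMZ E T r bs At win Qs Zs Cd (T.O o) = rmeMZ E T r bs At win Qs Zs Cd (T.O o')
      unfold rmeMZ
      rw [b4, hZ'])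
    hsum
  refine l1.trans (le_of_eq ?_)
  rw [← ent_ev_const T.P (Real.log (C * B.Mu * p.Mu) + ξ * lg E.ε), ← ent_ev_add, ← ent_ev_add]
  refine ent_ev_congr _ fun o ho => ?_
  have hpos : 0 < C * B.Mu * p.Mu * (((Cd (ctJ E r bs T win o) (Qs (T.O o))).card : ℝ) *
          (Cl.mB (ctJ E r bs T win o).1 (ctJ E r bs T win o).2.1 * E.ε ^ (-ξ))) := by
    have := hsum o ho {o} (by simp [ho]) (by simp)
    rw [Finset.sum_singleton] at this
    exact (rme_MZ_pos hCd o ho).trans_le this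
  obtain ⟨-, -, -, e⟩ := rme_log_prod (by positivity) (Nat.cast_nonneg _) (Real.rpow_pos_of_pos H.obE.ε0 _) hpos
  rw [e, rme_log_rpow_neg H.obE.ε0]
  ring

/-! ## (A2) the coherent bounds and `r4` -/

theorem rme_filter_mem {α : Type} [Fintype α] (S : Finset α) (d : DecidablePred (fun a => a ∈ S)) :
    @Finset.filter α (fun a => a ∈ S) d Finset.univ = S := by
  ext a
  simp

/-- **coherence, `d = 1`** : `m_Z ≤ C Mu Mu' K ε^h N_{J,Q} m(J) ε^{-ξ}` -/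
theorem rme_MZ_one (B : PBd) (hB : B.Good) (Ra C₁ : ℝ) (Bb : ℕ → ℝ) : ∃ C : ℝ, 0 ≤ C ∧
    ∀ (γ : ℝ) (E : PEnv) (T : PTest) (r bs ξ : ℝ) (p : Atoms.Par) (S0 : ℕ) (A0 : ℝ) (At : Atoms) (Cl : Classes At)
      (τ : Type) (tag : At.𝔸 → τ) (win : T.ι → ℕ × τ) (χ ζ : Type) (Qs : T.ι → χ) (Zs : T.ι → ζ)
      (Cd : Classes.Lab τ → χ → Finset At.𝔸) (η Rn : ℝ), p.Ra = Ra → p.Bb = Bb →
      CutOK γ E B T r bs p ξ S0 A0 At Cl tag win → RmeLab E T r bs η Rn At Cl tag win Qs Zs Cd →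
      ∀ i₀ : T.ι, T.act i₀ → ∀ th y₀ : ℝ,
      (∀ i, T.act i → Classes.Jof E r bs T.site win i = Classes.Jof E r bs T.site win i₀ → Zs i = Zs i₀ →
        |ip (toP (T.site i).X) (nrm th) - y₀| ≤ C₁ * E.sig T.t) →
      ∀ (Bn : Type) (β : At.𝔸 → Bn) (yb : Bn → ℝ),
      (∀ A ∈ Cd (Classes.Jof E r bs T.site win i₀) (Qs i₀), |ip (toP (At.asite A).V) (nrm th) - yb (β A)| ≤ E.rho r) →
      rmeMZ E T r bs At win Qs Zs Cd i₀
        ≤ C * B.Mu * p.Mu * ((Cd (Classes.Jof E r bs T.site win i₀) (Qs i₀)).image β).card * E.ε ^ ((T.t - r) / 2) *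
          (((Cd (Classes.Jof E r bs T.site win i₀) (Qs i₀)).card : ℝ) *
          (Cl.mB (Classes.Jof E r bs T.site win i₀).1 (Classes.Jof E r bs T.site win i₀).2.1 * E.ε ^ (-ξ))) := by
  obtain ⟨C, hC, h⟩ := rm_coh1 B hB Ra C₁ Bb
  refine ⟨C, hC, ?_⟩
  intro γ E T r bs ξ p S0 A0 At Cl τ tag win χ ζ Qs Zs Cd η Rn hRa hBb H L i₀ hi₀ th y₀ hX Bn β yb hyb
  set J := Classes.Jof E r bs T.site win i₀ with hJ
  have hs := rm_siteOK H.obT i₀ hi₀
  have hCr := rm_loc0_Cr (r := r) (bs := bs) H.obE.ε0 (T.site i₀) hs.c0 hs.c1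
  have hF : ∀ i ∈ Finset.univ.filter (fun i => T.act i ∧ Classes.Jof E r bs T.site win i = J ∧ Zs i = Zs i₀),
      T.act i ∧ Classes.Jof E r bs T.site win i = J ∧ Zs i = Zs i₀ := fun i hi => (Finset.mem_filter.1 hi).2
  have a1 := h E T r bs p At hRa hBb H.obE H.obT H.goodA H.rt J.1 hCr.1 hCr.2
    (fun A => A ∈ Cd J (Qs i₀)) (fun A hA => congrArg Prod.fst (L.sub _ _ A hA)) (T.site i₀).C
    (Finset.univ.filter (fun i => T.act i ∧ Classes.Jof E r bs T.site win i = J ∧ Zs i = Zs i₀))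
    (fun i hi => ⟨(hF i hi).1, L.qc i i₀ (hF i hi).1 hi₀ (L.zq i i₀ (hF i hi).1 hi₀ (hF i hi).2.2)⟩) th y₀
    (fun i hi => hX i (hF i hi).1 (hF i hi).2.1 (hF i hi).2.2) Bn β yb hyb
  have a2 := rme_coef H.goodC tag J (Cd J (Qs i₀)) (L.sub _ _)
  rw [rme_sum_ite_mem _ _ (fun a => propDecidable _), rme_filter_mem] at a1
  have e : rmeMZ E T r bs At win Qs Zs Cd i₀
      = ∑ i ∈ Finset.univ.filter (fun i => T.act i ∧ Classes.Jof E r bs T.site win i = J ∧ Zs i = Zs i₀),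
        mass E.lam (E.rho T.t) E.Φ (At.sup E r (fun A => A ∈ Cd J (Qs i₀))) (T.site i) := by
    unfold rmeMZ
    refine Finset.sum_congr rfl fun i hi => ?_
    unfold rmeMC
    rw [(hF i hi).2.1, L.zq i i₀ (hF i hi).1 hi₀ (hF i hi).2.2]
  rw [e]
  have hε := H.obE.ε0
  exact a1.trans (mul_le_mul_of_nonneg_left a2 (by positivity))

/-- **coherence, `d = 2`** : `m_Z ≤ M_Z C Mu' K ε^{2h} N_{J,Q} m(J) ε^{-ξ}`, `M_Z` = number of active sites in the fibre of `Z` -/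
theorem rme_MZ_two (B : PBd) (hB : B.Good) (Ra : ℝ) (Bb : ℕ → ℝ) : ∃ C : ℝ, 0 ≤ C ∧
    ∀ (γ : ℝ) (E : PEnv) (T : PTest) (r bs ξ : ℝ) (p : Atoms.Par) (S0 : ℕ) (A0 : ℝ) (At : Atoms) (Cl : Classes At)
      (τ : Type) (tag : At.𝔸 → τ) (win : T.ι → ℕ × τ) (χ ζ : Type) (Qs : T.ι → χ) (Zs : T.ι → ζ)
      (Cd : Classes.Lab τ → χ → Finset At.𝔸) (η Rn : ℝ), p.Ra = Ra → p.Bb = Bb →
      CutOK γ E B T r bs p ξ S0 A0 At Cl tag win → RmeLab E T r bs η Rn At Cl tag win Qs Zs Cd →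
      ∀ i₀ : T.ι, T.act i₀ → ∀ MZ : ℝ,
      (((Finset.univ.filter (fun i => T.act i ∧
        Classes.Jof E r bs T.site win i = Classes.Jof E r bs T.site win i₀ ∧ Zs i = Zs i₀)).card : ℝ) ≤ MZ) →
      ∀ (Bn : Type) (β : At.𝔸 → Bn) (Vb : Bn → E2),
      (∀ A ∈ Cd (Classes.Jof E r bs T.site win i₀) (Qs i₀), ‖(At.asite A).V - Vb (β A)‖ ≤ E.rho r) →
      rmeMZ E T r bs At win Qs Zs Cd i₀
        ≤ C * MZ * p.Mu * ((Cd (Classes.Jof E r bs T.site win i₀) (Qs i₀)).image β).card * E.ε ^ (T.t - r) *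
          (((Cd (Classes.Jof E r bs T.site win i₀) (Qs i₀)).card : ℝ) *
          (Cl.mB (Classes.Jof E r bs T.site win i₀).1 (Classes.Jof E r bs T.site win i₀).2.1 * E.ε ^ (-ξ))) := by
  obtain ⟨C, hC, h⟩ := rm_coh2 B hB Ra Bb
  refine ⟨C, hC, ?_⟩
  intro γ E T r bs ξ p S0 A0 At Cl τ tag win χ ζ Qs Zs Cd η Rn hRa hBb H L i₀ hi₀ MZ hMZ Bn β Vb hVb
  set J := Classes.Jof E r bs T.site win i₀ with hJ
  have hs := rm_siteOK H.obT i₀ hi₀
  have hCr := rm_loc0_Cr (r := r) (bs := bs) H.obE.ε0 (T.site i₀) hs.c0 hs.c1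
  have hε := H.obE.ε0
  have hF : ∀ i ∈ Finset.univ.filter (fun i => T.act i ∧ Classes.Jof E r bs T.site win i = J ∧ Zs i = Zs i₀),
      T.act i ∧ Classes.Jof E r bs T.site win i = J ∧ Zs i = Zs i₀ := fun i hi => (Finset.mem_filter.1 hi).2
  have a2 := rme_coef H.goodC tag J (Cd J (Qs i₀)) (L.sub _ _)
  have hm0 : 0 ≤ (((Cd J (Qs i₀)).card : ℝ) * (Cl.mB J.1 J.2.1 * E.ε ^ (-ξ))) :=
    le_trans (Finset.sum_nonneg fun A _ => by positivity) a2
  have key : ∀ i ∈ Finset.univ.filter (fun i => T.act i ∧ Classes.Jof E r bs T.site win i = J ∧ Zs i = Zs i₀),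
      rmeMC E T r bs At win Qs Cd i ≤ C * p.Mu * ((Cd J (Qs i₀)).image β).card * E.ε ^ (T.t - r) *
          (((Cd J (Qs i₀)).card : ℝ) * (Cl.mB J.1 J.2.1 * E.ε ^ (-ξ))) := by
    intro i hi
    have a1 := h E T.t r bs p At hRa hBb H.obE H.goodA H.rt (rm_test_H H.obT i₀ hi₀) J.1 hCr.1 hCr.2
      (fun A => A ∈ Cd J (Qs i₀)) (fun A hA => congrArg Prod.fst (L.sub _ _ A hA)) (T.site i)
      (rm_siteOK H.obT i (hF i hi).1) Bn β Vb hVb
    rw [rme_sum_ite_mem _ _ (fun a => propDecidable _), rme_filter_mem] at a1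
    unfold rmeMC
    rw [(hF i hi).2.1, L.zq i i₀ (hF i hi).1 hi₀ (hF i hi).2.2]
    exact a1.trans (mul_le_mul_of_nonneg_left a2 (by positivity))
  unfold rmeMZ
  refine (Finset.sum_le_card_nsmul _ _ _ key).trans ?_
  rw [nsmul_eq_mul]
  have hb0 : 0 ≤ C * p.Mu * ((Cd J (Qs i₀)).image β).card * E.ε ^ (T.t - r) *
          (((Cd J (Qs i₀)).card : ℝ) * (Cl.mB J.1 J.2.1 * E.ε ^ (-ξ))) := by positivity
  calc _ ≤ MZ * (C * p.Mu * ((Cd J (Qs i₀)).image β).card * E.ε ^ (T.t - r) *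
          (((Cd J (Qs i₀)).card : ℝ) * (Cl.mB J.1 J.2.1 * E.ε ^ (-ξ)))) := mul_le_mul_of_nonneg_right hMZ hb0
    _ = _ := by ring

/-- **(A2) `r4`** : the logarithm of a pointwise bound `m_Z ≤ K₀ K_b ε^{dh} N_{J,Q} m(J) ε^{-ξ}` (natural units) -/
theorem rme_r4 {E : PEnv} {T : PTest} {r bs ξ : ℝ} {At : Atoms} {Cl : Classes At} {tag : At.𝔸 → τ} {win : T.ι → ℕ × τ}
    {Qs : T.ι → χ} {Zs : T.ι → ζ} {Cd : Classes.Lab τ → χ → Finset At.𝔸} (hε : 0 < E.ε)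
    (hCd : CandOK E T r bs At Cl tag win Qs Cd) (K₀ Kb dh : ℝ) (hK : 0 ≤ K₀) (hKb : 0 ≤ Kb)
    (hb : ∀ o, T.P.p o ≠ 0 → rmeMZ E T r bs At win Qs Zs Cd (T.O o)
      ≤ K₀ * Kb * E.ε ^ dh * (((Cd (ctJ E r bs T win o) (Qs (T.O o))).card : ℝ) *
          (Cl.mB (ctJ E r bs T win o).1 (ctJ E r bs T win o).2.1 * E.ε ^ (-ξ)))) :
    T.P.ev (fun o => Real.log (rmeMZ E T r bs At win Qs Zs Cd (T.O o)))
      ≤ T.P.ev (fun o => Real.log ((Cd (ctJ E r bs T win o) (Qs (T.O o))).card : ℝ))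
        + T.P.ev (fun o => Real.log (Cl.mB (ctJ E r bs T win o).1 (ctJ E r bs T win o).2.1))
        + (Real.log K₀ + Real.log Kb - dh * lg E.ε + ξ * lg E.ε) := by
  rw [← ent_ev_const T.P (Real.log K₀ + Real.log Kb - dh * lg E.ε + ξ * lg E.ε), ← ent_ev_add, ← ent_ev_add]
  refine ent_ev_mono _ fun o ho => ?_
  have h1 := rme_MZ_pos (Zs := Zs) hCd o ho
  have h2 := hb o ho
  have hd : 0 < E.ε ^ dh := Real.rpow_pos_of_pos hε _
  obtain ⟨k1, -, -, e⟩ := rme_log_prod (by positivity) (Nat.cast_nonneg _) (Real.rpow_pos_of_pos hε _) (h1.trans_le h2)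
  have k2 : 0 < K₀ * Kb := (mul_pos_iff_of_pos_right hd).1 k1
  have k3 : 0 < K₀ := by
    rcases hK.lt_or_eq with h3 | h3
    · exact h3
    · rw [← h3, zero_mul] at k2
      exact absurd k2 (lt_irrefl _)
  have k4 : 0 < Kb := (mul_pos_iff_of_pos_left k3).1 k2
  refine (Real.log_le_log h1 h2).trans (le_of_eq ?_)
  have e2 : Real.log (E.ε ^ dh) = - (dh * lg E.ε) := by
    have := rme_log_rpow_neg hε (-dh)
    rw [neg_neg] at this
    rw [this]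
    ring
  rw [e, rme_log_rpow_neg hε, Real.log_mul k2.ne' hd.ne', Real.log_mul k3.ne' k4.ne', e2]
  ring

/-! ## (A3) the candidate law -/

/-- the candidate law (11.repayment-candidate-law) on `T.Ω × atoms` -/
noncomputable def rmeR1 (E : PEnv) (T : PTest) (r bs : ℝ) (At : Atoms) [Nonempty At.𝔸] (win : T.ι → ℕ × τ)
    (Qs : T.ι → χ) (Cd : Classes.Lab τ → χ → Finset At.𝔸) : FLaw (T.Ω × At.𝔸) :=
  rep_unif T.P (fun o => Cd (ctJ E r bs T win o) (Qs (T.O o)))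

section
variable {E : PEnv} {T : PTest} {r bs : ℝ} {At : Atoms} [Nonempty At.𝔸] {Cl : Classes At} {tag : At.𝔸 → τ}
  {win : T.ι → ℕ × τ} {Qs : T.ι → χ} {Zs : T.ι → ζ} {Cd : Classes.Lab τ → χ → Finset At.𝔸} {η Rn : ℝ}

/-- the endpoint marginal is the current law -/
theorem rme_R1_fst : (rmeR1 E T r bs At win Qs Cd).map Prod.fst = T.P := rep_unif_map_fst _ _

theorem rme_R1_ev (f : T.Ω → ℝ) : (rmeR1 E T r bs At win Qs Cd).ev (fun x => f x.1) = T.P.ev f := by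
  rw [← ent_map_ev (rmeR1 E T r bs At win Qs Cd) Prod.fst f, rme_R1_fst]

theorem rme_R1_ent {α : Type} (X : T.Ω → α) : (rmeR1 E T r bs At win Qs Cd).ent (fun x => X x.1) = T.P.ent X := by
  rw [← ent_map_ent (rmeR1 E T r bs At win Qs Cd) Prod.fst X, rme_R1_fst]

theorem rme_R1_entC {α β : Type} (X : T.Ω → α) (Y : T.Ω → β) :
    (rmeR1 E T r bs At win Qs Cd).entC (fun x => X x.1) (fun x => Y x.1) = T.P.entC X Y := by
  rw [← ent_map_entC (rmeR1 E T r bs At win Qs Cd) Prod.fst X Y, rme_R1_fst]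

theorem rme_R1_supp (hCd : CandOK E T r bs At Cl tag win Qs Cd) (x : T.Ω × At.𝔸) :
    (rmeR1 E T r bs At win Qs Cd).p x ≠ 0 ↔ T.P.p x.1 ≠ 0 ∧ x.2 ∈ Cd (ctJ E r bs T win x.1) (Qs (T.O x.1)) :=
  rep_unif_supp T.P _ (fun o ho => (hCd o (ct_pos_of_ne _ ho)).2.2.2) x

/-- the sampling rule: `H(A | Y) = E log N_{J,Q}` for every endpoint observation `Y` which determines `(J, Q)` -/
theorem rme_h (hCd : CandOK E T r bs At Cl tag win Qs Cd) {β : Type} (Y : T.Ω → β)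
    (hY : ∀ o o', T.P.p o ≠ 0 → T.P.p o' ≠ 0 → Y o = Y o' →
      ctJ E r bs T win o = ctJ E r bs T win o' ∧ Qs (T.O o) = Qs (T.O o')) :
    (rmeR1 E T r bs At win Qs Cd).entC (fun x => x.2) (fun x => Y x.1)
      = T.P.ev (fun o => Real.log ((Cd (ctJ E r bs T win o) (Qs (T.O o))).card : ℝ)) :=
  rep_unif_entC T.P _ (fun o ho => (hCd o (ct_pos_of_ne _ ho)).2.2.2) Y (fun o o' ho ho' h => by
    obtain ⟨h1, h2⟩ := hY o o' ho ho' h
    show Cd (ctJ E r bs T win o) (Qs (T.O o)) = Cd (ctJ E r bs T win o') (Qs (T.O o'))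
    rw [h1, h2])

/-- **`h1`** of `rep_repay_core` -/
theorem rme_h1 (L : RmeLab E T r bs η Rn At Cl tag win Qs Zs Cd) (hCd : CandOK E T r bs At Cl tag win Qs Cd) :
    (rmeR1 E T r bs At win Qs Cd).entC (fun x => x.2)
        (pair (fun x => Zs (T.O x.1)) (fun x => ctJ E r bs T win x.1))
      = T.P.ev (fun o => Real.log ((Cd (ctJ E r bs T win o) (Qs (T.O o))).card : ℝ)) :=
  rme_h hCd (pair (fun o => Zs (T.O o)) (ctJ E r bs T win)) (fun o o' ho ho' h =>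
    ⟨congrArg Prod.snd h, L.zq _ _ ⟨o, ct_pos_of_ne _ ho, rfl⟩ ⟨o', ct_pos_of_ne _ ho', rfl⟩ (congrArg Prod.fst h)⟩)

/-- **`h2`** of `rep_repay_core` -/
theorem rme_h2 (L : RmeLab E T r bs η Rn At Cl tag win Qs Zs Cd) (hCd : CandOK E T r bs At Cl tag win Qs Cd) :
    (rmeR1 E T r bs At win Qs Cd).entC (fun x => x.2)
        (pair (fun x => Zs (T.O x.1)) (pair (fun x => T.D x.1) (fun x => ctJ E r bs T win x.1)))
      = T.P.ev (fun o => Real.log ((Cd (ctJ E r bs T win o) (Qs (T.O o))).card : ℝ)) :=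
  rme_h hCd (pair (fun o => Zs (T.O o)) (pair T.D (ctJ E r bs T win))) (fun o o' ho ho' h =>
    ⟨congrArg (fun y => y.2.2) h,
      L.zq _ _ ⟨o, ct_pos_of_ne _ ho, rfl⟩ ⟨o', ct_pos_of_ne _ ho', rfl⟩ (congrArg Prod.fst h)⟩)

/-- **`r9`** of `rep_repay_core` : every candidate lies in its retained class -/
theorem rme_r9 (L : RmeLab E T r bs η Rn At Cl tag win Qs Zs Cd) (hCd : CandOK E T r bs At Cl tag win Qs Cd) :
    (rmeR1 E T r bs At win Qs Cd).entC (fun x => x.2) (fun x => ctJ E r bs T win x.1)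
      ≤ T.P.ev (fun o => Real.log ((Cl.clsOf tag (ctJ E r bs T win o)).card : ℝ)) := by
  rw [← rme_R1_ev (E := E) (r := r) (bs := bs) (At := At) (win := win) (Qs := Qs) (Cd := Cd)
    (fun o => Real.log ((Cl.clsOf tag (ctJ E r bs T win o)).card : ℝ))]
  refine rep_entC_le_ev_log _ _ _ _ fun x₀ _ => ⟨Cl.clsOf tag (ctJ E r bs T win x₀.1), le_rfl, fun x hx hJ => ?_⟩
  have h1 := ((rme_R1_supp hCd x).1 hx).2
  have h2 := L.sub _ _ _ h1
  have hJ' : ctJ E r bs T win x.1 = ctJ E r bs T win x₀.1 := hJ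
  exact Finset.mem_filter.2 ⟨Finset.mem_univ _, h2.trans hJ'⟩

end

theorem rme_eqns_cite : True := by
  have := @rmeMC.eq_1
  have := @rmeMZ.eq_1
  have := @CandOK.eq_1
  have := @rmeR1.eq_1
  trivial

end Claimed.Agent.R255
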