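-- KEEP
import Claimed.Agent.R255.Rep.RqK
import Claimed.Agent.R255.Rep.MassEnt
import Claimed.Agent.R255.Pk9.Classes

/-!
# Row 255 (BR paper), Sec. 11, stage S6 REPAY, PART A on the concrete labels of `Rep/RqDefs.lean`      (helper171; prefix `rqa_`)

Instantiates the label-agnostic `Rep/MassEnt.lean` (`RmeLab`, `CandOK`, `rme_PJ_le`, `rme_r3`, `rme_MZ_one/two`, `rme_r4`) at `Qs = X.Qi`, `Zs = X.Zi`, `Cd = X.Cd`.
EXPORTS: `rqa_A1`, `rqa_A2` (= the stubs `rq_A1`, `rq_A2` of `Rep/RqA.lean`).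
-/

set_option autoImplicit false

namespace Claimed.Agent.R255

open scoped BigOperators
open Classical
open FLaw Pkt Osc

/-- the candidates as a function of `(J, Q)` -/
noncomputable def RqD.Cd (X : RqD) (J : Classes.Lab X.τ) (q : Loc0 × ℝ × (ℤ × ℤ)) : Finset X.At.𝔸 :=
  (X.Cl.clsOf X.tag J).filter (fun A => X.Pa A = q.1 ∧
    ‖X.line A q.2.1 - cellC X.sr q.2.2‖ ≤ 2 * X.E.ε ^ (-X.θ) * X.sr)

theorem rqa_cand_eq (X : RqD) (i : X.T.ι) : X.Cand i = X.Cd (X.Ji i) (X.Qi i) := rfl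

/-- the concrete labels are candidate data -/
theorem rqa_lab (X : RqD) {Kn Kc η k kf αf : ℝ} (H : X.Ok Kn Kc η k kf αf) :
    RmeLab X.E X.T X.r X.bs X.θ (X.B.Ra + X.p.Ra) X.At X.Cl X.tag X.win X.Qi X.Zi X.Cd where
  zq := fun i i' _ _ h => congrArg Prod.fst h
  qc := fun i i' _ _ h => congrArg (fun q => q.2.1) h
  sub := fun J q A hA => (Finset.mem_filter.1 (Finset.mem_filter.1 hA).1).2
  near := fun i hi A hA hn => by
    have hε := H.cut.obE.ε0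
    have hsr : 0 < X.sr := Real.rpow_pos_of_pos hε _
    refine Finset.mem_filter.2 ⟨Finset.mem_filter.2 ⟨Finset.mem_univ _, hA⟩,
      H.share i hi A (congrArg Prod.fst hA) hn, ?_⟩
    show ‖X.line A (X.T.site i).C - cellC X.sr (cell X.sr (X.T.site i).X)‖ ≤ 2 * X.E.ε ^ (-X.θ) * X.sr
    have h1 : ‖(X.T.site i).X - cellC X.sr (cell X.sr (X.T.site i).X)‖ ≤ X.sr := pk_cell_near hsr _
    have h2 : ‖(X.T.site i).X - (X.At.asite A).X - ((X.T.site i).C - (X.At.asite A).C) • (X.At.asite A).V‖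
        ≤ X.E.ε ^ (-X.θ) * X.sr := hn.2
    have h3 : (1 : ℝ) ≤ X.E.ε ^ (-X.θ) :=
      Real.one_le_rpow_of_pos_of_le_one_of_nonpos hε H.cut.obE.ε1.le (by linarith [H.θ0])
    have e : X.line A (X.T.site i).C - cellC X.sr (cell X.sr (X.T.site i).X)
        = ((X.T.site i).X - cellC X.sr (cell X.sr (X.T.site i).X))
          - ((X.T.site i).X - (X.At.asite A).X - ((X.T.site i).C - (X.At.asite A).C) • (X.At.asite A).V) := by
      unfold RqD.line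
      abel
    rw [e]
    refine (norm_sub_le _ _).trans ?_
    nlinarith

/-- `m_Z` of `Rep/RqDefs.lean` is `rmeMZ` -/
theorem rqa_mZ_eq (X : RqD) (i : X.T.ι) :
    X.mZ i = rmeMZ X.E X.T X.r X.bs X.At X.win X.Qi X.Zi X.Cd i := by
  unfold RqD.mZ rmeMZ
  refine Finset.sum_congr ?_ ?_
  · ext i'
    simp only [Finset.mem_filter, Finset.mem_univ, true_and]
    constructor
    · rintro ⟨a, b, c⟩
      exact ⟨a, c, b⟩
    · rintro ⟨a, b, c⟩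
      exact ⟨a, c, b⟩
  · intro i' hi'
    simp only [Finset.mem_filter, Finset.mem_univ, true_and] at hi'
    obtain ⟨-, hJ, hZ⟩ := hi'
    have hQ : X.Qi i' = X.Qi i := congrArg Prod.fst hZ
    unfold rmeMC
    rw [hJ, hQ]
    rfl

/-- a positive power of `ε` is small -/
theorem rqa_rpow_small (a δ : ℝ) (ha : 0 < a) (hδ : 0 < δ) :
    ∃ ε₀ : ℝ, 0 < ε₀ ∧ ∀ ε : ℝ, 0 < ε → ε < ε₀ → ε ^ a ≤ δ := by
  refine ⟨δ ^ (1 / a), by positivity, fun ε h0 h1 => ?_⟩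
  have h2 : ε ^ a < (δ ^ (1 / a)) ^ a := Real.rpow_lt_rpow h0.le h1 ha
  rw [← Real.rpow_mul hδ.le, one_div_mul_cancel ha.ne', Real.rpow_one] at h2
  exact h2.le

/-- the number of subclasses at a localizer -/
noncomputable def RqD.S (X : RqD) : ℝ := (X.S0 : ℝ) * (Fintype.card X.τ : ℝ)

theorem rqa_S_pos (X : RqD) {Kn Kc η k kf αf : ℝ} (H : X.Ok Kn Kc η k kf αf) : 1 ≤ X.S := by
  obtain ⟨A⟩ := X.ne
  have h1 : 0 < X.S0 := lt_of_le_of_lt (Nat.zero_le _) (H.cut.goodC.ncls A)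
  have h2 : 0 < Fintype.card X.τ := Fintype.card_pos_iff.2 ⟨X.tag A⟩
  have h1' : (1 : ℝ) ≤ (X.S0 : ℝ) := by exact_mod_cast h1
  have h2' : (1 : ℝ) ≤ (Fintype.card X.τ : ℝ) := by exact_mod_cast h2
  unfold RqD.S
  nlinarith

theorem rqa_S_le (X : RqD) (c : RqK) (hF : X.Fits c) : X.S ≤ (c.S0 : ℝ) * (c.Stag : ℝ) := by
  unfold RqD.S
  rw [hF.S0]
  have : (Fintype.card X.τ : ℝ) ≤ (c.Stag : ℝ) := by exact_mod_cast hF.Stag
  exact mul_le_mul_of_nonneg_left this (Nat.cast_nonneg _)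

/-- **the winner and the candidates** on the concrete labels -/
theorem rqa_candOK (c : RqK) (hB : c.B.Good) : ∃ ε₀ : ℝ, 0 < ε₀ ∧ ∀ (X : RqD) (η k kf αf : ℝ),
    X.Fits c → X.E.ε < ε₀ → X.Ok c.Kn c.Kc η k kf αf →
    WinOK X.E X.r X.bs X.T X.Cl X.tag X.win X.S ∧ CandOK X.E X.T X.r X.bs X.At X.Cl X.tag X.win X.Qi X.Cd := by
  by_cases hc : 0 < c.θ ∧ c.A0 / 2 < c.p.A
  swap
  · refine ⟨1, one_pos, fun X η k kf αf hF _ H => absurd ⟨?_, ?_⟩ hc⟩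
    · rw [← hF.θ]; exact H.θ0
    · rw [← hF.A0, ← hF.p]; exact H.hA
  obtain ⟨hθ, hA⟩ := hc
  obtain ⟨ε₁, e1, H1⟩ := rme_candOK c.B hB c.p c.θ (|c.A0| / 2 + 1) hθ (by positivity)
  obtain ⟨ε₂, e2, H2⟩ := rqa_rpow_small (c.p.A - c.A0 / 2) (1 / 2) (by linarith) (by norm_num)
  obtain ⟨ε₃, e3, H3⟩ := rqa_rpow_small (|c.A0| / 2 + 1 - c.A0 / 2) (1 / (8 * ((c.S0 : ℝ) * (c.Stag : ℝ)) + 1))
    (by linarith [le_abs_self c.A0]) (by positivity)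
  refine ⟨min ε₁ (min ε₂ ε₃), by positivity, ?_⟩
  intro X η k kf αf hF hε H
  have hε1 : X.E.ε < ε₁ := lt_of_lt_of_le hε (min_le_left _ _)
  have hε2 : X.E.ε < ε₂ := lt_of_lt_of_le hε ((min_le_right _ _).trans (min_le_left _ _))
  have hε3 : X.E.ε < ε₃ := lt_of_lt_of_le hε ((min_le_right _ _).trans (min_le_right _ _))
  have hε0 := H.cut.obE.ε0
  have hq : X.E.ε ^ (X.p.A - X.A0 / 2) ≤ 1 / 2 := by
    rw [hF.p, hF.A0]
    exact H2 _ hε0 hε2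
  have hq2 : 8 * ((X.S0 : ℝ) * Fintype.card X.τ) * X.E.ε ^ (|c.A0| / 2 + 1 - X.A0 / 2) ≤ 1 := by
    rw [hF.A0]
    have h3 := H3 _ hε0 hε3
    have h4 := rqa_S_le X c hF
    unfold RqD.S at h4
    have h5 : 0 ≤ (X.S0 : ℝ) * Fintype.card X.τ := by positivity
    have h6 : 0 < 8 * ((c.S0 : ℝ) * (c.Stag : ℝ)) + 1 := by positivity
    calc 8 * ((X.S0 : ℝ) * Fintype.card X.τ) * X.E.ε ^ (|c.A0| / 2 + 1 - c.A0 / 2)
        ≤ (8 * ((c.S0 : ℝ) * (c.Stag : ℝ)) + 1) * (1 / (8 * ((c.S0 : ℝ) * (c.Stag : ℝ)) + 1)) :=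
          mul_le_mul (by linarith) h3 (Real.rpow_pos_of_pos hε0 _).le h6.le
      _ = 1 := by field_simp
  constructor
  · intro o ho
    exact rm_winner X.γ X.ξ X.S0 X.Cl X.tag X.T.site X.win H.cut.obE H.cut.goodA H.cut.goodC H.cut.win X.A0 hq (X.T.O o)
      (rm_siteOK H.cut.obT _ ⟨o, ho, rfl⟩) (H.cut.floor o ho)
  · have cut := H.cut
    have lab := rqa_lab X H
    rw [hF.B, hF.p] at cut
    rw [hF.B, hF.p, hF.θ] at lab
    rw [hF.p] at hq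
    exact H1 X.γ X.E X.T X.r X.bs X.ξ X.S0 X.A0 X.At X.Cl X.τ X.tag X.win _ _ X.Qi X.Zi X.Cd hε1 cut lab hq hq2

theorem rqa_LZ_eq (X : RqD) :
    X.T.P.ev (fun o => Real.log (rmeMZ X.E X.T X.r X.bs X.At X.win X.Qi X.Zi X.Cd (X.T.O o))) = X.LZ := by
  unfold RqD.LZ
  refine ent_ev_congr _ fun o _ => ?_
  rw [rqa_mZ_eq]

/-- **`rq_A1`** -/
theorem rqa_A1 (c : RqK) (hB : c.B.Good) (ν : ℝ) (hν : 0 < ν) : ∃ ε₀ : ℝ, 0 < ε₀ ∧ ∀ (X : RqD) (η k kf αf : ℝ),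
    X.Fits c → X.E.ε < ε₀ → X.Ok c.Kn c.Kc η k kf αf →
    (∀ o, X.T.P.p o ≠ 0 → (X.Cand (X.T.O o)).Nonempty) ∧
    lg X.E.ε * score X.γ X.E X.T ≤ X.T.P.ent X.Jo + lg X.E.ε * X.bs
      + (X.T.P.entC X.Zo X.Jo + X.T.P.entC X.Zo (pair X.T.D X.Jo) / 2 + 3 / 2 * X.LZ) + lg X.E.ε * X.EwD / 2
      + ν * lg X.E.ε := by
  obtain ⟨ε₁, e1, H1⟩ := rqa_candOK c hB
  obtain ⟨C, hC1, HL⟩ := ct_list c.B.Ke
  obtain ⟨ε₂, e2, -, H2⟩ := tl_div_lg_le (Real.log (C * ((c.S0 : ℝ) * (c.Stag : ℝ))) / 2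
    + 3 / 2 * Real.log (4 * ((c.S0 : ℝ) * (c.Stag : ℝ)) ^ 2) + 3 / 2 * Real.log 4) hν
  refine ⟨min ε₁ ε₂, by positivity, ?_⟩
  intro X η k kf αf hF hε H
  obtain ⟨hW, hCd⟩ := H1 X η k kf αf hF (lt_of_lt_of_le hε (min_le_left _ _)) H
  have hε0 := H.cut.obE.ε0
  have hl : 0 < lg X.E.ε := p9_lg_pos hε0 H.cut.obE.ε1
  have hS1 := rqa_S_pos X H
  have hSle := rqa_S_le X c hF
  refine ⟨fun o ho => (hCd o (ct_pos_of_ne _ ho)).2.2.2, ?_⟩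
  have hL0 := HL X.E X.B X.T X.r X.bs (by rw [hF.B]) H.cut.obE H.cut.obT H.cut.r0 H.cut.rt H.cut.bs0 H.cut.bsb
  have hL := ct_list_J X.E X.T X.r X.bs C X.S0 X.win hL0 (fun o ho => ct_win_lt H.cut hW o ho)
  have s1 := ct_split H.cut hW (by linarith) hL
  have s2 := rme_PJ_le (γ := X.γ) (Zs := X.Zi) hε0 H.cut.obE.ε1 hCd
  have e3 : X.T.P.ev (fun o => Real.log (rmeMZ X.E X.T X.r X.bs X.At X.win X.Qi X.Zi X.Cd (X.T.O o)) / lg X.E.ε)
      = X.LZ / lg X.E.ε := by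
    rw [← rqa_LZ_eq]
    have : (fun o => Real.log (rmeMZ X.E X.T X.r X.bs X.At X.win X.Qi X.Zi X.Cd (X.T.O o)) / lg X.E.ε)
        = fun o => (lg X.E.ε)⁻¹ * Real.log (rmeMZ X.E X.T X.r X.bs X.At X.win X.Qi X.Zi X.Cd (X.T.O o)) := by
      funext o
      ring
    rw [this, ent_ev_mul_left]
    ring
  rw [e3] at s2
  -- the constants
  have k1 : Real.log (C * ((X.S0 : ℝ) * (Fintype.card X.τ : ℝ))) ≤ Real.log (C * ((c.S0 : ℝ) * (c.Stag : ℝ))) :=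
    Real.log_le_log (by have := hS1; unfold RqD.S at this; positivity)
      (mul_le_mul_of_nonneg_left hSle (by linarith))
  have k2 : Real.log (4 * X.S ^ 2) ≤ Real.log (4 * ((c.S0 : ℝ) * (c.Stag : ℝ)) ^ 2) :=
    Real.log_le_log (by positivity) (by
      have := pow_le_pow_left₀ (by linarith : (0 : ℝ) ≤ X.S) hSle 2
      linarith)
  have k3 := H2 X.E.ε hε0 (lt_of_lt_of_le hε (min_le_right _ _))
  rw [div_le_iff₀ hl] at k3
  -- names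
  change score X.γ X.E X.T ≤ X.T.P.ent X.Jo / lg X.E.ε + X.bs
      + X.T.P.ev (pcPJ (lg X.E.ε) X.T.P X.T.O X.T.D X.Jo (X.Cl.LmW X.E X.r X.bs X.tag X.T X.win) (ctW X.γ X.T) X.bs)
      + (Real.log (C * ((X.S0 : ℝ) * (Fintype.card X.τ : ℝ))) / (2 * lg X.E.ε)
        + 3 / 2 * (Real.log (4 * X.S ^ 2) / lg X.E.ε)) at s1
  change X.T.P.ev (pcPJ (lg X.E.ε) X.T.P X.T.O X.T.D X.Jo (X.Cl.LmW X.E X.r X.bs X.tag X.T X.win) (ctW X.γ X.T) X.bs)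
      ≤ (X.T.P.entC X.Zo X.Jo + X.T.P.entC X.Zo (pair X.T.D X.Jo) / 2) / lg X.E.ε + 3 / 2 * (X.LZ / lg X.E.ε)
        + 1 / 2 * X.EwD + 3 / 2 * (Real.log 4 / lg X.E.ε) at s2
  have key : score X.γ X.E X.T ≤ (X.T.P.ent X.Jo
      + (X.T.P.entC X.Zo X.Jo + X.T.P.entC X.Zo (pair X.T.D X.Jo) / 2 + 3 / 2 * X.LZ)
      + (Real.log (C * ((X.S0 : ℝ) * (Fintype.card X.τ : ℝ))) / 2 + 3 / 2 * Real.log (4 * X.S ^ 2)
        + 3 / 2 * Real.log 4)) / lg X.E.ε + X.bs + X.EwD / 2 := by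
    have e : (X.T.P.ent X.Jo
      + (X.T.P.entC X.Zo X.Jo + X.T.P.entC X.Zo (pair X.T.D X.Jo) / 2 + 3 / 2 * X.LZ)
      + (Real.log (C * ((X.S0 : ℝ) * (Fintype.card X.τ : ℝ))) / 2 + 3 / 2 * Real.log (4 * X.S ^ 2)
        + 3 / 2 * Real.log 4)) / lg X.E.ε
        = X.T.P.ent X.Jo / lg X.E.ε
          + ((X.T.P.entC X.Zo X.Jo + X.T.P.entC X.Zo (pair X.T.D X.Jo) / 2) / lg X.E.ε + 3 / 2 * (X.LZ / lg X.E.ε))
          + (Real.log (C * ((X.S0 : ℝ) * (Fintype.card X.τ : ℝ))) / (2 * lg X.E.ε)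
            + 3 / 2 * (Real.log (4 * X.S ^ 2) / lg X.E.ε)) + 3 / 2 * (Real.log 4 / lg X.E.ε) := by
      field_simp
      ring
    rw [e]
    linarith
  have fin := mul_le_mul_of_nonneg_left key hl.le
  have e4 : ∀ Y : ℝ, lg X.E.ε * (Y / lg X.E.ε + X.bs + X.EwD / 2) = Y + lg X.E.ε * X.bs + lg X.E.ε * X.EwD / 2 := by
    intro Y
    field_simp
  rw [e4] at fin
  linarith

/-! ## `rq_A2` -/

theorem rqa_B1_eq (X : RqD) :
    X.T.P.ev (fun o => Real.log ((X.Cd (ctJ X.E X.r X.bs X.T X.win o) (X.Qi (X.T.O o))).card : ℝ)) = X.B1 := rfl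

theorem rqa_Lm_eq (X : RqD) :
    X.T.P.ev (fun o => Real.log (X.Cl.mB (ctJ X.E X.r X.bs X.T X.win o).1 (ctJ X.E X.r X.bs X.T X.win o).2.1)) = X.Lm := rfl

/-- the number of velocity bins of a candidate set -/
theorem rqa_bins (X : RqD) {Kn Kc η k kf αf : ℝ} (H : X.Ok Kn Kc η k kf αf) (i : X.T.ι) (hi : X.T.act i) :
    (((X.Cd (X.Ji i) (X.Qi i)).image X.W).card : ℝ) ≤ X.E.ε ^ (-(k + X.ξ)) := by
  refine le_trans ?_ (H.wcnt i hi (X.Pi i))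
  have : ((X.Cd (X.Ji i) (X.Qi i)).image X.W).card
      ≤ (((X.Cl.clsOf X.tag (X.Ji i)).filter (fun A => X.Pa A = X.Pi i)).image X.W).card := by
    refine Finset.card_le_card (Finset.image_subset_image ?_)
    intro A hA
    obtain ⟨h1, h2, -⟩ := Finset.mem_filter.1 hA
    exact Finset.mem_filter.2 ⟨h1, h2⟩
  exact_mod_cast this

/-- nonnegativity of `N (m ε^{-ξ})` -/
theorem rqa_Nm_nonneg (X : RqD) {Kn Kc η k kf αf : ℝ} (H : X.Ok Kn Kc η k kf αf) (i : X.T.ι) :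
    0 ≤ ((X.Cd (X.Ji i) (X.Qi i)).card : ℝ) * (X.Cl.mB (X.Ji i).1 (X.Ji i).2.1 * X.E.ε ^ (-X.ξ)) :=
  le_trans (Finset.sum_nonneg fun A _ => by positivity)
    (rme_coef H.cut.goodC X.tag (X.Ji i) (X.Cd (X.Ji i) (X.Qi i)) ((rqa_lab X H).sub _ _))

/-- the strip of a fibre of `Z` (elongated case) -/
theorem rqa_strip (X : RqD) (hε : 0 < X.E.ε) (hel : X.el = true) (i i₀ : X.T.ι) (hZ : X.Zi i = X.Zi i₀) :
    |ip (toP (X.T.site i).X) (nrm (X.ntab (X.Pi i₀)))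
      - X.st * (⌊ip (toP (X.T.site i₀).X) (nrm (X.ntab (X.Pi i₀))) / X.st⌋ : ℝ)| ≤ 1 * X.E.sig X.T.t := by
  have hst : 0 < X.st := Real.rpow_pos_of_pos hε _
  have hP : X.Pi i = X.Pi i₀ := congrArg (fun z => z.1.1) hZ
  have hf : X.fine i = X.fine i₀ := congrArg Prod.snd hZ
  unfold RqD.fine at hf
  rw [if_pos hel, if_pos hel, hP] at hf
  have hf' : ⌊ip (toP (X.T.site i).X) (nrm (X.ntab (X.Pi i₀))) / X.st⌋
      = ⌊ip (toP (X.T.site i₀).X) (nrm (X.ntab (X.Pi i₀))) / X.st⌋ := congrArg Prod.fst hf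
  rw [← hf']
  have h1 := Int.floor_le (ip (toP (X.T.site i).X) (nrm (X.ntab (X.Pi i₀))) / X.st)
  have h2 := Int.lt_floor_add_one (ip (toP (X.T.site i).X) (nrm (X.ntab (X.Pi i₀))) / X.st)
  rw [le_div_iff₀ hst] at h1
  rw [div_lt_iff₀ hst] at h2
  show _ ≤ 1 * X.st
  rw [abs_le]
  constructor <;> nlinarith

/-- the number of active sites in a fibre of `(Z, J)` (isotropic case) -/
theorem rqa_count (X : RqD) {Kn Kc η k kf αf : ℝ} (H : X.Ok Kn Kc η k kf αf) (hel : X.el = false) (i₀ : X.T.ι) :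
    ((Finset.univ.filter (fun i => X.T.act i ∧
        Classes.Jof X.E X.r X.bs X.T.site X.win i = Classes.Jof X.E X.r X.bs X.T.site X.win i₀ ∧
        X.Zi i = X.Zi i₀)).card : ℝ) ≤ X.B.Mu * ((4 * (2 * X.Lg) + 2) ^ 2 * (4 * 2 + 2) ^ 2) := by
  have hε := H.cut.obE.ε0
  have hst : 0 < X.st := Real.rpow_pos_of_pos hε _
  have hLg : 0 < X.Lg := lt_of_lt_of_le one_pos H.Lg1
  have hF : ∀ i ∈ Finset.univ.filter (fun i => X.T.act i ∧
        Classes.Jof X.E X.r X.bs X.T.site X.win i = Classes.Jof X.E X.r X.bs X.T.site X.win i₀ ∧ X.Zi i = X.Zi i₀),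
      X.T.act i ∧ X.Zi i = X.Zi i₀ := fun i hi => by
    simp only [Finset.mem_filter, Finset.mem_univ, true_and] at hi
    exact ⟨hi.1, hi.2.2⟩
  refine p9_pack _ (fun i => (X.T.site i).V) (fun i => (X.T.site i).X) (X.T.site i₀).V (X.T.site i₀).X
    (X.E.rho X.T.t) (X.E.sig X.T.t) (2 * X.Lg) 2 X.B.Mu (Real.rpow_pos_of_pos hε _) hst (by positivity) (by norm_num)
    ?_ ?_ ?_
  · intro i hi
    have hP : X.Pi i = X.Pi i₀ := congrArg (fun z => z.1.1) (hF i hi).2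
    exact (rpb_close hε hLg hP).2.1
  · intro i hi
    have hf : X.fine i = X.fine i₀ := congrArg Prod.snd (hF i hi).2
    unfold RqD.fine at hf
    rw [if_neg (by rw [hel]; simp), if_neg (by rw [hel]; simp)] at hf
    have h1 := pk_cell_near hst (X.T.site i).X
    have h2 := pk_cell_near hst (X.T.site i₀).X
    rw [hf] at h1
    have h3 := norm_sub_le_norm_sub_add_norm_sub (X.T.site i).X (cellC X.st (cell X.st (X.T.site i₀).X)) (X.T.site i₀).X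
    rw [norm_sub_rev (cellC X.st (cell X.st (X.T.site i₀).X))] at h3
    show _ ≤ 2 * X.st
    linarith
  · intro i hi
    refine le_trans (Finset.card_le_card ?_) (H.cut.obT.multS i (hF i hi).1)
    intro j hj
    obtain ⟨hj1, hj2⟩ := Finset.mem_filter.1 hj
    have hC : (X.T.site j).C = (X.T.site i).C := by
      have a1 : (X.T.site j).C = (X.T.site i₀).C := congrArg (fun z => z.1.2.1) (hF j hj1).2
      have a2 : (X.T.site i).C = (X.T.site i₀).C := congrArg (fun z => z.1.2.1) (hF i hi).2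
      rw [a1, a2]
    exact Finset.mem_filter.2 ⟨Finset.mem_univ _, (hF j hj1).1, hC, hj2.1, hj2.2⟩

/-- **`rq_A2`** -/
theorem rqa_A2 (c : RqK) (hB : c.B.Good) (ν : ℝ) (hν : 0 < ν) : ∃ ε₀ : ℝ, 0 < ε₀ ∧ ∀ (X : RqD) (η k kf αf : ℝ),
    X.Fits c → X.E.ε < ε₀ → X.Ok c.Kn c.Kc η k kf αf →
    X.T.P.entC X.Zo (pair X.Qo X.Jo) + X.LZ ≤ X.B1 + X.Lm + (X.ξ + ν) * lg X.E.ε ∧
    X.LZ ≤ X.B1 + X.Lm + (k - X.d * X.h) * lg X.E.ε + (2 * X.ξ + ν) * lg X.E.ε := by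
  obtain ⟨ε₁, e1, H1⟩ := rqa_candOK c hB
  obtain ⟨C3, hC3, H3⟩ := rme_r3 c.B hB c.p.Ra c.p.Bb
  obtain ⟨Ca, hCa, Ha⟩ := rme_MZ_one c.B hB c.p.Ra 1 c.p.Bb
  obtain ⟨Cb, hCb, Hb⟩ := rme_MZ_two c.B hB c.p.Ra c.p.Bb
  obtain ⟨ε₃, e3, -, L3⟩ := tl_div_lg_le (Real.log (C3 * c.B.Mu * c.p.Mu)) hν
  obtain ⟨ε₄, e4, -, L4⟩ := tl_div_lg_le (Real.log (Ca * c.B.Mu * c.p.Mu)) hν
  obtain ⟨ε₅, e5, -, L5⟩ := tl_div_lg_le
    (Real.log (Cb * (c.B.Mu * ((4 * (2 * c.Lg) + 2) ^ 2 * (4 * 2 + 2) ^ 2)) * c.p.Mu)) hν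
  refine ⟨min ε₁ (min ε₃ (min ε₄ ε₅)), by positivity, ?_⟩
  intro X η k kf αf hF hε H
  have hε1 : X.E.ε < ε₁ := lt_of_lt_of_le hε (min_le_left _ _)
  have hε3 : X.E.ε < ε₃ := lt_of_lt_of_le hε ((min_le_right _ _).trans (min_le_left _ _))
  have hε4 : X.E.ε < ε₄ := lt_of_lt_of_le hε ((min_le_right _ _).trans ((min_le_right _ _).trans (min_le_left _ _)))
  have hε5 : X.E.ε < ε₅ := lt_of_lt_of_le hε ((min_le_right _ _).trans ((min_le_right _ _).trans (min_le_right _ _)))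
  obtain ⟨-, hCd⟩ := H1 X η k kf αf hF hε1 H
  have hε0 := H.cut.obE.ε0
  have hl : 0 < lg X.E.ε := p9_lg_pos hε0 H.cut.obE.ε1
  have lab := rqa_lab X H
  have cut := H.cut
  rw [hF.B] at cut
  have hRa : X.p.Ra = c.p.Ra := by rw [hF.p]
  have hBb : X.p.Bb = c.p.Bb := by rw [hF.p]
  have hMu : X.p.Mu = c.p.Mu := by rw [hF.p]
  constructor
  · have a1 := H3 X.γ X.E X.T X.r X.bs X.ξ X.p X.S0 X.A0 X.At X.Cl X.τ X.tag X.win _ _ X.Qi X.Zi X.Cd X.θ _ hRa hBb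
      cut lab hCd
    rw [rqa_LZ_eq, rqa_B1_eq, rqa_Lm_eq, hMu] at a1
    have a2 := L3 X.E.ε hε0 hε3
    rw [div_le_iff₀ hl] at a2
    change X.T.P.entC X.Zo (pair X.Qo X.Jo) + X.LZ ≤ _ at a1
    linarith
  · -- the pointwise bound
    have hKb : Real.log (X.E.ε ^ (-(k + X.ξ))) = (k + X.ξ) * lg X.E.ε := rme_log_rpow_neg hε0 _
    by_cases hel : X.el = true
    · have hd : X.d = 1 := by unfold RqD.d; rw [if_pos hel]
      have pw : ∀ o, X.T.P.p o ≠ 0 → rmeMZ X.E X.T X.r X.bs X.At X.win X.Qi X.Zi X.Cd (X.T.O o)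
          ≤ (Ca * c.B.Mu * c.p.Mu) * X.E.ε ^ (-(k + X.ξ)) * X.E.ε ^ X.h *
            (((X.Cd (ctJ X.E X.r X.bs X.T X.win o) (X.Qi (X.T.O o))).card : ℝ) *
            (X.Cl.mB (ctJ X.E X.r X.bs X.T X.win o).1 (ctJ X.E X.r X.bs X.T X.win o).2.1 * X.E.ε ^ (-X.ξ))) := by
        intro o ho
        have hact : X.T.act (X.T.O o) := ⟨o, ct_pos_of_ne _ ho, rfl⟩
        have b1 := Ha X.γ X.E X.T X.r X.bs X.ξ X.p X.S0 X.A0 X.At X.Cl X.τ X.tag X.win _ _ X.Qi X.Zi X.Cd X.θ _ hRa hBb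
          cut lab (X.T.O o) hact (X.ntab (X.Pi (X.T.O o)))
          (X.st * (⌊ip (toP (X.T.site (X.T.O o)).X) (nrm (X.ntab (X.Pi (X.T.O o)))) / X.st⌋ : ℝ))
          (fun i _ _ hZ => rqa_strip X hε0 hel i (X.T.O o) hZ) X.β X.W X.yb
          (fun A hA => by
            have hP : X.Pa A = X.Pi (X.T.O o) := (Finset.mem_filter.1 hA).2.1
            have := H.wb1 hel A
            rwa [hP] at this)
        have b2 := rqa_bins X H (X.T.O o) hact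
        have b3 := rqa_Nm_nonneg X H (X.T.O o)
        have eh : (X.T.t - X.r) / 2 = X.h := by unfold RqD.r; ring
        rw [eh, hMu] at b1
        refine b1.trans ?_
        refine mul_le_mul_of_nonneg_right ?_ b3
        refine mul_le_mul_of_nonneg_right ?_ (Real.rpow_pos_of_pos hε0 _).le
        exact mul_le_mul_of_nonneg_left b2 (by positivity)
      have a1 := rme_r4 (Zs := X.Zi) (ξ := X.ξ) hε0 hCd (Ca * c.B.Mu * c.p.Mu) (X.E.ε ^ (-(k + X.ξ))) X.h (by positivity)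
        (Real.rpow_pos_of_pos hε0 _).le pw
      rw [rqa_LZ_eq, rqa_B1_eq, rqa_Lm_eq, hKb] at a1
      have a2 := L4 X.E.ε hε0 hε4
      rw [div_le_iff₀ hl] at a2
      rw [hd]
      nlinarith
    · have hel' : X.el = false := by
        cases h : X.el
        · rfl
        · exact absurd h hel
      have hd : X.d = 2 := by unfold RqD.d; rw [if_neg hel]
      have pw : ∀ o, X.T.P.p o ≠ 0 → rmeMZ X.E X.T X.r X.bs X.At X.win X.Qi X.Zi X.Cd (X.T.O o)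
          ≤ (Cb * (c.B.Mu * ((4 * (2 * c.Lg) + 2) ^ 2 * (4 * 2 + 2) ^ 2)) * c.p.Mu) * X.E.ε ^ (-(k + X.ξ))
            * X.E.ε ^ (2 * X.h) *
            (((X.Cd (ctJ X.E X.r X.bs X.T X.win o) (X.Qi (X.T.O o))).card : ℝ) *
            (X.Cl.mB (ctJ X.E X.r X.bs X.T X.win o).1 (ctJ X.E X.r X.bs X.T X.win o).2.1 * X.E.ε ^ (-X.ξ))) := by
        intro o ho
        have hact : X.T.act (X.T.O o) := ⟨o, ct_pos_of_ne _ ho, rfl⟩
        have hcount := rqa_count X H hel' (X.T.O o)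
        rw [hF.B, hF.Lg] at hcount
        have b1 := Hb X.γ X.E X.T X.r X.bs X.ξ X.p X.S0 X.A0 X.At X.Cl X.τ X.tag X.win _ _ X.Qi X.Zi X.Cd X.θ _ hRa hBb
          cut lab (X.T.O o) hact (c.B.Mu * ((4 * (2 * c.Lg) + 2) ^ 2 * (4 * 2 + 2) ^ 2)) (by convert hcount)
          X.β X.W X.Vb (fun A _ => H.wb2 hel' A)
        have b2 := rqa_bins X H (X.T.O o) hact
        have b3 := rqa_Nm_nonneg X H (X.T.O o)
        have eh : X.T.t - X.r = 2 * X.h := by unfold RqD.r; ring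
        rw [eh, hMu] at b1
        refine b1.trans ?_
        refine mul_le_mul_of_nonneg_right ?_ b3
        refine mul_le_mul_of_nonneg_right ?_ (Real.rpow_pos_of_pos hε0 _).le
        exact mul_le_mul_of_nonneg_left b2 (by positivity)
      have a1 := rme_r4 (Zs := X.Zi) (ξ := X.ξ) hε0 hCd
        (Cb * (c.B.Mu * ((4 * (2 * c.Lg) + 2) ^ 2 * (4 * 2 + 2) ^ 2)) * c.p.Mu) (X.E.ε ^ (-(k + X.ξ))) (2 * X.h)
        (by positivity) (Real.rpow_pos_of_pos hε0 _).le pw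
      rw [rqa_LZ_eq, rqa_B1_eq, rqa_Lm_eq, hKb] at a1
      have a2 := L5 X.E.ε hε0 hε5
      rw [div_le_iff₀ hl] at a2
      rw [hd]
      nlinarith

end Claimed.Agent.R255
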