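-- KEEP
import Claimed.Agent.R255.Rep.RqK
import Claimed.Agent.R255.Rep.RqA3
import Claimed.Agent.R255.Rep.RqAm

/-!
# Row 255 (BR paper), Sec. 11, stage S6 REPAY, PART A (masses, candidate law)      (statements helper207; OWNER helper171)
The owner may import further files of his own here (they import `Rep/RqK.lean`, never `Rep/Repay.lean`).   STATEMENTS FROZEN (consumer: `Rep/Repay.lean`).
-/

set_option autoImplicit false

namespace Claimed.Agent.R255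

open scoped BigOperators
open Classical
open FLaw Pkt Osc

/-! ## PART A -/

/-- **(11.repayment-candidate-expression)**.   `rep_split_J` + `ct_list`, `ct_list_J` (`H(J|D) ≤ log S₁`) + `rm_winner` / `ct_winner` + `rm_cand` (with `Atr = A0/2 + 1`, floor of the winning amplitude, `share`:
every `AnNear` atom of the winning class is a candidate: its line at `C_i` is within `ε^(-θ) σ_r` of `X_i`, and `X_i` is within `σ_r` of the centre of its cell) + `rep_coarsen`. -/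
theorem rq_A1 (c : RqK) (hB : c.B.Good) (ν : ℝ) (hν : 0 < ν) : ∃ ε₀ : ℝ, 0 < ε₀ ∧ ∀ (X : RqD) (η k kf αf : ℝ),
    X.Fits c → X.E.ε < ε₀ → X.Ok c.Kn c.Kc η k kf αf →
    (∀ o, X.T.P.p o ≠ 0 → (X.Cand (X.T.O o)).Nonempty) ∧
    lg X.E.ε * score X.γ X.E X.T ≤ X.T.P.ent X.Jo + lg X.E.ε * X.bs
      + (X.T.P.entC X.Zo X.Jo + X.T.P.entC X.Zo (pair X.T.D X.Jo) / 2 + 3 / 2 * X.LZ) + lg X.E.ε * X.EwD / 2
      + ν * lg X.E.ε :=
  rqa_A1 c hB ν hν

/-- `r3` (conditional log-sum on `rm_agg` + `rm_coef_sum`) and `r4` (`rm_coh1` / `rm_coh2` + site count per `Z` + `wcnt` + `rm_coef_sum`). -/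
theorem rq_A2 (c : RqK) (hB : c.B.Good) (ν : ℝ) (hν : 0 < ν) : ∃ ε₀ : ℝ, 0 < ε₀ ∧ ∀ (X : RqD) (η k kf αf : ℝ),
    X.Fits c → X.E.ε < ε₀ → X.Ok c.Kn c.Kc η k kf αf →
    X.T.P.entC X.Zo (pair X.Qo X.Jo) + X.LZ ≤ X.B1 + X.Lm + (X.ξ + ν) * lg X.E.ε ∧
    X.LZ ≤ X.B1 + X.Lm + (k - X.d * X.h) * lg X.E.ε + (2 * X.ξ + ν) * lg X.E.ε :=
  rqa_A2 c hB ν hν

/-- the candidate law: `rep_unif_entC` (the candidate set is a function of `(Z,J)`), `ent_le_log_card` on the fibres of `J`. -/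
theorem rq_A3 (X : RqD) (hne : ∀ o, X.T.P.p o ≠ 0 → (X.Cand (X.T.O o)).Nonempty) :
    X.R1.entC X.A1 (pair X.Z1 X.J1) = X.B1 ∧ X.R1.entC X.A1 (pair X.Z1 (pair X.D1 X.J1)) = X.B1 ∧
    X.R1.entC X.A1 X.J1 ≤ X.LN :=
  rqa3_main X hne

end Claimed.Agent.R255
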