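-- KEEP
import Claimed.Agent.R255.Pkt.Cut
import Claimed.Agent.R255.Rep.Core
import Claimed.Agent.R255.Comp.Main

/-!
# Row 255 (BR paper), Sec. 11, STAGE S4 = ALIGN (Lemma 11.3), file 1: data, observables, hypotheses      (architect helper46)

SEMI-ABSTRACT: only `Pkt/Base`, `Pkt/Cut`, the entropy kit `Rep/Kit`, `Rep/Core` and `Comp/Main` are used.  Prefix `rpa_` / `Rpa`.
* `RpaData`  = frozen data of a prepared elongated cut: `(γ, E, T, r, h, bs, a, At, Cl, tag, win)` + ABSTRACT coarse labels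
               `PA : atoms → Pt`, `PO : endpoint sites → Pt`  (the buffered cell `P` of Sec. 11.2; any type `Pt`).   NO LAW in the data.
* `RpaC`     = the constants `(Ke, Kg, Ka, Kt, Kc, η, ξ, e1, S0)`.
* `X.Good c A` = the hypotheses, ALL of the form "for every sample `o` with `A o`" (`A` = any set of samples containing the support of the law in use;
               for L11.3 : `A o = (ν.p o ≠ 0 ∧ the winner J o is misaligned)`).   Monotone in `A`.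
* observables on `Ω × atoms` : `xJ xT xD xE xM xY xC xZ`;   the law `ϱ^P = X.R Q = rep_unif Q X.cand`.
EXIT (file `AlnMain.lean`): `rpa_core`, `rpa_align`.
-/

set_option autoImplicit false

namespace Claimed.Agent.R255

open scoped BigOperators
open Classical
open FLaw Pkt

/-- frozen data of the alignment stage -/
structure RpaData where
  γ : ℝ
  E : PEnv
  T : PTest
  r : ℝ
  h : ℝ
  bs : ℝ
  /-- the common larger depth of the endpoint apertures -/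
  a : ℝ
  At : Atoms
  Cl : Classes At
  τ : Type
  tag : At.𝔸 → τ
  win : T.ι → ℕ × τ
  Pt : Type
  /-- buffered coarse cell of an earlier atom -/
  PA : At.𝔸 → Pt
  /-- buffered coarse cell of an endpoint site -/
  PO : T.ι → Pt

/-- constants of the alignment stage -/
structure RpaC where
  /-- enlargement constant of the endpoint apertures -/
  Ke : ℝ
  /-- size of the coarse cells -/
  Kg : ℝ
  /-- angle constant -/
  Ka : ℝ
  /-- anchor multiplicity -/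
  Kt : ℝ
  /-- constant of the collapsed mass bound -/
  Kc : ℝ
  /-- depth error -/
  η : ℝ
  /-- mesh of the classes -/
  ξ : ℝ
  /-- lower bound of `e - j` -/
  e1 : ℝ
  S0 : ℕ

namespace RpaData

variable (X : RpaData)

/-- `ℓ = log (1/ε)` -/
noncomputable def l : ℝ := lg X.E.ε
/-- the site observed at a sample -/
def s (o : X.T.Ω) : Site := X.T.site (X.T.O o)
/-- the aperture read-out at a sample -/
def g (o : X.T.Ω) : Geo := X.T.geo (X.T.D o)
/-- the winning label -/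
noncomputable def J (o : X.T.Ω) : Classes.Lab X.τ := Classes.Jof X.E X.r X.bs X.T.site X.win (X.T.O o)
/-- the time anchor `C_r` of a sample -/
noncomputable def Cr (o : X.T.Ω) : ℝ := tanchor X.E.ε X.r (X.s o).C
/-- the winning mass `m_O(h_J)` -/
noncomputable def mW (o : X.T.Ω) : ℝ :=
  mass X.E.lam (X.E.rho X.T.t) X.E.Φ (X.Cl.hJ X.E X.r X.tag (X.J o)) (X.s o)
/-- its normalised logarithm -/
noncomputable def lmW (o : X.T.Ω) : ℝ := Real.log (X.mW o) / X.l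
/-- the weight of the aperture -/
noncomputable def w (o : X.T.Ω) : ℝ := wt X.γ (X.g o)
/-- `P_J` for the current law `Q` -/
noncomputable def PJ (Q : FLaw X.T.Ω) (o : X.T.Ω) : ℝ := pcPJ X.l Q X.T.O X.T.D X.J X.lmW X.w X.bs o
/-- `𝒯_{J,P}` : the atoms of the winning subclass in the coarse cell of the sample -/
noncomputable def cand (o : X.T.Ω) : Finset X.At.𝔸 :=
  Finset.univ.filter (fun T' => X.Cl.lab X.tag T' = X.J o ∧ X.PA T' = X.PO (X.T.O o))
/-- bins of the winning class -/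
noncomputable def gJ (o : X.T.Ω) : ℝ := X.Cl.gB (X.J o).1 (X.J o).2.1
noncomputable def jJ (o : X.T.Ω) : ℝ := X.Cl.jB (X.J o).1 (X.J o).2.1
noncomputable def lJ (o : X.T.Ω) : ℝ := X.Cl.lB (X.J o).1 (X.J o).2.1
noncomputable def mJ (o : X.T.Ω) : ℝ := X.Cl.mB (X.J o).1 (X.J o).2.1
/-- the aperture of a sample referred to the time `C_r` -/
noncomputable def FD (o : X.T.Ω) : Geo where
  b := (X.g o).b
  a := (X.g o).a
  tc := X.Cr o
  th := (X.g o).th
  vc := (X.g o).vc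
  xc := (X.g o).xc - ((X.g o).tc - X.Cr o) • (X.g o).vc

/-- side of the isotropic cell `M_j` of an atom (velocity) -/
noncomputable def wM (T' : X.At.𝔸) : ℝ := X.E.ε ^ (X.Cl.jB (X.At.loc T') (X.Cl.cls T') + X.bs)
/-- the earlier isotropic cell `M_j` of depth `j` (local units) of an atom -/
noncomputable def Mc (T' : X.At.𝔸) : (ℤ × ℤ) × (ℤ × ℤ) :=
  (cell (X.wM T') (X.At.asite T').V, cell (X.E.ε ^ X.r * X.wM T') (X.At.asite T').X)
/-- centres of `M_j` -/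
noncomputable def vM (T' : X.At.𝔸) : ℝ × ℝ := toP (cellC (X.wM T') (X.Mc T').1)
noncomputable def xM (T' : X.At.𝔸) : ℝ × ℝ := toP (cellC (X.E.ε ^ X.r * X.wM T') (X.Mc T').2)

/-- the coarsening of `D` to the local widths `(0, j)` around the centre of `M_j` : frame of `D`, quantised coordinates of the centre of `M_j` -/
noncomputable def Yl (o : X.T.Ω) (T' : X.At.𝔸) : ℝ × (ℤ × ℤ) × (ℤ × ℤ) :=
  ((X.g o).th,
    (⌊ip (X.vM T') (tang (X.g o).th) / X.E.ε ^ X.bs⌋, ⌊ip (X.vM T') (nrm (X.g o).th) / X.wM T'⌋),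
    (⌊ip (X.xM T') (tang (X.g o).th) / (X.E.ε ^ X.r * X.E.ε ^ X.bs)⌋,
      ⌊ip (X.xM T') (nrm (X.g o).th) / (X.E.ε ^ X.r * X.wM T')⌋))

/-! observables on `Ω × atoms` -/
noncomputable def xJ (x : X.T.Ω × X.At.𝔸) : Classes.Lab X.τ := X.J x.1
def xT (x : X.T.Ω × X.At.𝔸) : X.At.𝔸 := x.2
def xD (x : X.T.Ω × X.At.𝔸) : X.T.Γ := X.T.D x.1
def xE (x : X.T.Ω × X.At.𝔸) : Geo := X.Cl.acap x.2
noncomputable def xM' (x : X.T.Ω × X.At.𝔸) : (ℤ × ℤ) × (ℤ × ℤ) := X.Mc x.2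
noncomputable def xY (x : X.T.Ω × X.At.𝔸) : ℝ × (ℤ × ℤ) × (ℤ × ℤ) := X.Yl x.1 x.2
def xC (x : X.T.Ω × X.At.𝔸) : ℝ := (X.s x.1).C
/-- the collapsed observation `Z = (P, C_t)` on `Ω` -/
def Z (o : X.T.Ω) : X.Pt × ℝ := (X.PO (X.T.O o), (X.s o).C)

/-- the assembled law `ϱ^P` -/
noncomputable def R [Nonempty X.At.𝔸] (Q : FLaw X.T.Ω) : FLaw (X.T.Ω × X.At.𝔸) := rep_unif Q X.cand

/-- **the hypotheses of Lemma 11.3** on a set `A` of samples -/
structure Good (c : RpaC) (A : X.T.Ω → Prop) : Prop where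
  ε0 : 0 < X.E.ε
  ε1 : X.E.ε < 1
  γ0 : 0 < X.γ
  γ1 : X.γ < 1
  Ke0 : 0 ≤ c.Ke
  Kg0 : 0 ≤ c.Kg
  Ka0 : 0 < c.Ka
  Kt0 : 0 < c.Kt
  Kc0 : 0 < c.Kc
  η0 : 0 ≤ c.η
  ξ0 : 0 ≤ c.ξ
  e10 : 0 ≤ c.e1
  h0 : 0 < X.h
  ηh : c.η ≤ X.h
  hr : X.r = X.T.t - 2 * X.h
  /-- `e = a - b_* ≥ h + η` -/
  he : X.h + c.η ≤ X.a - X.bs
  cls : X.Cl.Good X.γ X.E X.r X.bs c.ξ c.S0
  /-- endpoint apertures -/
  geo : ∀ o, A o → GeoOK (X.g o) c.Ke X.E.ε X.T.t X.E.L (X.E.u X.T.t) (X.s o)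
  shape : ∀ o, A o → |(X.g o).b - X.bs| ≤ c.η ∧ |(X.g o).a - X.a| ≤ c.η
  bdry : X.E.u X.T.t - c.η ≤ X.a
  /-- earlier shapes: `e1 ≤ e - j`, `e - η ≤ l` -/
  shj : ∀ o, A o → c.e1 ≤ X.a - X.bs - X.jJ o
  shl : ∀ o, A o → X.a - X.bs - c.η ≤ X.lJ o
  /-- the coarse cells: an atom and an endpoint site with the same coarse label are close (positions referred to `C_r`) -/
  cellV : ∀ o, A o → ∀ T' ∈ X.cand o, ‖(X.At.asite T').V - (X.s o).V‖ ≤ c.Kg * X.E.ε ^ (X.E.u X.T.t)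
  cellX : ∀ o, A o → ∀ T' ∈ X.cand o,
    ‖(X.At.asite T').X - ((X.s o).X - ((X.s o).C - X.Cr o) • (X.s o).V)‖ ≤ c.Kg * X.E.ε ^ (X.r + X.E.u X.T.t)
  /-- MISALIGNMENT (prediction + misaligned mark): the assigned cap makes an angle `≥ Ka ε^h` with the aperture -/
  ang : ∀ o, A o → ∀ T' ∈ X.cand o, c.Ka * X.E.ε ^ X.h ≤ |Real.sin ((X.Cl.acap T').th - (X.g o).th)|
  /-- anchors of the endpoint sites over one anchor `C_r` -/
  anch : ∀ o₀, A o₀ → ∃ S : Finset ℝ, (S.card : ℝ) ≤ c.Kt * X.E.ε ^ (-(2 * X.h)) ∧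
    ∀ o, A o → (X.J o).1.1 = (X.J o₀).1.1 → (X.s o).C ∈ S
  /-- positive winning masses -/
  mpos : ∀ o, A o → 0 < X.mW o
  /-- THE COLLAPSED MASS BOUND (stage S3): distinct sites with one `(J, P, C_t)` -/
  collapse : ∀ o₀, A o₀ → ∀ S : Finset X.T.Ω,
    (∀ o ∈ S, A o ∧ X.Z o = X.Z o₀ ∧ X.J o = X.J o₀) →
    (∀ o ∈ S, ∀ o' ∈ S, X.T.O o = X.T.O o' → o = o') →
    ∑ o ∈ S, X.mW o ≤ c.Kc * X.E.ε ^ (-c.η) * X.mJ o₀ * ((X.cand o₀).card : ℝ)

theorem Good.mono {X : RpaData} {c : RpaC} {A A' : X.T.Ω → Prop} (H : X.Good c A) (h : ∀ o, A' o → A o) :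
    X.Good c A' where
  ε0 := H.ε0
  ε1 := H.ε1
  γ0 := H.γ0
  γ1 := H.γ1
  Ke0 := H.Ke0
  Kg0 := H.Kg0
  Ka0 := H.Ka0
  Kt0 := H.Kt0
  Kc0 := H.Kc0
  η0 := H.η0
  ξ0 := H.ξ0
  e10 := H.e10
  h0 := H.h0
  ηh := H.ηh
  hr := H.hr
  he := H.he
  cls := H.cls
  geo := fun o ho => H.geo o (h o ho)
  shape := fun o ho => H.shape o (h o ho)
  bdry := H.bdry
  shj := fun o ho => H.shj o (h o ho)
  shl := fun o ho => H.shl o (h o ho)
  cellV := fun o ho => H.cellV o (h o ho)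
  cellX := fun o ho => H.cellX o (h o ho)
  ang := fun o ho => H.ang o (h o ho)
  anch := fun o₀ ho₀ => by
    obtain ⟨S, hS, hm⟩ := H.anch o₀ (h o₀ ho₀)
    exact ⟨S, hS, fun o ho => hm o (h o ho)⟩
  mpos := fun o ho => H.mpos o (h o ho)
  collapse := fun o₀ ho₀ S hS hinj =>
    H.collapse o₀ (h o₀ ho₀) S (fun o ho => ⟨h o (hS o ho).1, (hS o ho).2⟩) hinj

end RpaData

/-- `K' = Kg + 2 Ke` : enlargement of the aperture referred to `C_r` -/
def RpaC.K' (c : RpaC) : ℝ := c.Kg + 2 * c.Ke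

/-- the logarithmic constant of the final error -/
noncomputable def RpaC.Klog (c : RpaC) : ℝ :=
  9 / 2 * Real.log c.Kc + 3 * Real.log c.Kt + 2 * Real.log (c.K' + 1) + 4 * Real.log ((2 * c.K' + 2) / c.Ka + 1)
    + 4 * Real.log 6 + 4 * Real.log (2 * c.K' + 4) + 4 * Real.log 3

end Claimed.Agent.R255
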