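-- KEEP
import Claimed.Agent.R255.Rep.AlnDefs

/-!
# Row 255 (BR paper), Sec. 11, STAGE S4 = ALIGN (Lemma 11.3), file 1b: basic facts      (architect helper46)

Support of `ϱ^P`, transfer of expectations / entropies from `Ω` to `Ω × atoms`, powers of `ε`, membership in `cand`.
-/

set_option autoImplicit false

namespace Claimed.Agent.R255

open scoped BigOperators
open Classical
open FLaw Pkt

namespace RpaData

variable (X : RpaData)

/-- `E log N(J)` -/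
noncomputable def LN (Q : FLaw X.T.Ω) : ℝ := Q.ev (fun o => Real.log (X.Cl.N X.tag (X.J o)))
/-- `E log N_all(J)` -/
noncomputable def LA (Q : FLaw X.T.Ω) : ℝ := Q.ev (fun o => Real.log (X.Cl.Nall (X.J o)))
/-- `ℓ E g(J)` -/
noncomputable def GG (Q : FLaw X.T.Ω) : ℝ := X.l * Q.ev X.gJ
/-- `ℓ E (A_J - P_J)` -/
noncomputable def Dl (Q : FLaw X.T.Ω) : ℝ := X.l * Q.ev (fun o => X.Cl.AJ X.E X.tag (X.J o) - X.PJ Q o)

end RpaData

variable {X : RpaData} {c : RpaC} {A : X.T.Ω → Prop}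

theorem rpa_l_pos (H : X.Good c A) : 0 < X.l := by
  unfold RpaData.l lg
  exact Real.log_pos (by rw [one_div]; exact (one_lt_inv₀ H.ε0).2 H.ε1)

/-- `log (ε^x) = - x ℓ` -/
theorem rpa_log_pow (H : X.Good c A) (x : ℝ) : Real.log (X.E.ε ^ x) = - (x * X.l) := by
  unfold RpaData.l lg
  rw [Real.log_rpow H.ε0, one_div, Real.log_inv]
  ring

/-- powers of `ε` are antitone in the exponent -/
theorem rpa_pow_le (H : X.Good c A) {x y : ℝ} (h : x ≤ y) : X.E.ε ^ y ≤ X.E.ε ^ x :=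
  Real.rpow_le_rpow_of_exponent_ge H.ε0 H.ε1.le h

theorem rpa_pow_pos (H : X.Good c A) (x : ℝ) : 0 < X.E.ε ^ x := Real.rpow_pos_of_pos H.ε0 x

theorem rpa_pow_add (H : X.Good c A) (x y : ℝ) : X.E.ε ^ (x + y) = X.E.ε ^ x * X.E.ε ^ y := Real.rpow_add H.ε0 x y

/-- the collapsed mass bound forces `m(J) > 0` and `N_{J,P} > 0` -/
theorem rpa_cand_pos (H : X.Good c A) (o : X.T.Ω) (ho : A o) : 0 < X.mJ o ∧ 0 < (X.cand o).card := by
  have h1 := H.collapse o ho {o} (by simp [ho]) (by simp)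
  rw [Finset.sum_singleton] at h1
  have h2 := (H.mpos o ho).trans_le h1
  have h3 : 0 < c.Kc * X.E.ε ^ (-c.η) := mul_pos H.Kc0 (rpa_pow_pos H _)
  rw [mul_assoc] at h2
  have h4 : 0 < X.mJ o * ((X.cand o).card : ℝ) := (mul_pos_iff_of_pos_left h3).1 h2
  have h5 : (0 : ℝ) ≤ ((X.cand o).card : ℝ) := Nat.cast_nonneg _
  have h6 : (0 : ℝ) < ((X.cand o).card : ℝ) := by
    rcases h5.lt_or_eq with h | h
    · exact h
    · rw [← h, mul_zero] at h4
      exact absurd h4 (lt_irrefl _)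
  exact ⟨(mul_pos_iff_of_pos_right h6).1 h4, by exact_mod_cast h6⟩

theorem rpa_cand_ne (H : X.Good c A) (o : X.T.Ω) (ho : A o) : (X.cand o).Nonempty :=
  Finset.card_pos.1 (rpa_cand_pos H o ho).2

theorem rpa_mem_cand {o : X.T.Ω} {T' : X.At.𝔸} (h : T' ∈ X.cand o) :
    X.Cl.lab X.tag T' = X.J o ∧ X.PA T' = X.PO (X.T.O o) := (Finset.mem_filter.1 h).2

theorem rpa_mem_cand_loc {o : X.T.Ω} {T' : X.At.𝔸} (h : T' ∈ X.cand o) :
    X.At.loc T' = (X.J o).1 ∧ X.Cl.cls T' = (X.J o).2.1 := by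
  have h1 := (rpa_mem_cand h).1
  rw [← h1]
  exact ⟨rfl, rfl⟩

/-- the side of `M_j` only depends on `J` -/
theorem rpa_wM {o : X.T.Ω} {T' : X.At.𝔸} (h : T' ∈ X.cand o) : X.wM T' = X.E.ε ^ (X.jJ o + X.bs) := by
  unfold RpaData.wM RpaData.jJ
  rw [(rpa_mem_cand_loc h).1, (rpa_mem_cand_loc h).2]

/-- `C_r` is the anchor of the localizer, `0 ≤ C - C_r < ε^r` -/
theorem rpa_Cr_eq (o : X.T.Ω) : X.Cr o = (X.J o).1.Cr X.E.ε X.r := rfl

theorem rpa_Cr_near (H : X.Good c A) (o : X.T.Ω) : 0 ≤ (X.s o).C - X.Cr o ∧ (X.s o).C - X.Cr o < X.E.ε ^ X.r := by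
  have hp := rpa_pow_pos H X.r
  unfold RpaData.Cr tanchor
  have h1 := Int.floor_le ((X.s o).C / X.E.ε ^ X.r)
  have h2 := Int.lt_floor_add_one ((X.s o).C / X.E.ε ^ X.r)
  rw [le_div_iff₀ hp] at h1
  rw [div_lt_iff₀ hp] at h2
  constructor <;> nlinarith

section law

variable [Nonempty X.At.𝔸]

theorem rpa_R_supp (H : X.Good c A) (Q : FLaw X.T.Ω) (hQ : ∀ o, Q.p o ≠ 0 → A o) (x : X.T.Ω × X.At.𝔸) :
    (X.R Q).p x ≠ 0 ↔ Q.p x.1 ≠ 0 ∧ x.2 ∈ X.cand x.1 :=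
  rep_unif_supp Q X.cand (fun o ho => rpa_cand_ne H o (hQ o ho)) x

theorem rpa_R_ev (Q : FLaw X.T.Ω) (f : X.T.Ω → ℝ) : (X.R Q).ev (fun x => f x.1) = Q.ev f := by
  have := ent_map_ev (X.R Q) Prod.fst f
  rw [show (X.R Q).map Prod.fst = Q from rep_unif_map_fst Q X.cand] at this
  exact this.symm

theorem rpa_R_entC {α β : Type} (Q : FLaw X.T.Ω) (U : X.T.Ω → α) (V : X.T.Ω → β) :
    (X.R Q).entC (fun x => U x.1) (fun x => V x.1) = Q.entC U V := by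
  have := ent_map_entC (X.R Q) Prod.fst U V
  rw [show (X.R Q).map Prod.fst = Q from rep_unif_map_fst Q X.cand] at this
  exact this.symm

end law

end Claimed.Agent.R255
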