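-- KEEP
import Claimed.Agent.R255.Rep.AlnBasic

/-!
# Row 255 (BR paper), Sec. 11, STAGE S4 = ALIGN (Lemma 11.3), file 1c: stand-alone geometry      (architect helper46)

PAPER-FREE plane geometry on `ip`, `tang`, `nrm`, `InRect`, `InCap`, `cell`, `cellC`, and the cap count with an enlargement constant.
-/

set_option autoImplicit false

namespace Claimed.Agent.R255

open scoped BigOperators
open Classical
open FLaw Pkt

/-- **G1** two transversal strips.  PROOF: `p = ip z (nrm θ₁) = - z₁ sin θ₁ + z₂ cos θ₁`, `q = ip z (nrm θ₂)`;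
`p cos θ₂ - q cos θ₁ = - z₁ sin (θ₁ - θ₂)`, `p sin θ₂ - q sin θ₁ = - z₂ sin (θ₁ - θ₂)` (`Real.sin_sub`), `|cos|, |sin| ≤ 1`. -/
theorem rpa_two_strips (θ₁ θ₂ A₁ A₂ s : ℝ) (z : ℝ × ℝ) (h1 : |ip z (nrm θ₁)| ≤ A₁) (h2 : |ip z (nrm θ₂)| ≤ A₂) (hs : 0 < s)
    (hsin : s ≤ |Real.sin (θ₁ - θ₂)|) : |z.1| ≤ (A₁ + A₂) / s ∧ |z.2| ≤ (A₁ + A₂) / s := by
  have hc1 := Real.abs_cos_le_one θ₁
  have hc2 := Real.abs_cos_le_one θ₂
  have hs1 := Real.abs_sin_le_one θ₁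
  have hs2 := Real.abs_sin_le_one θ₂
  have m1 : ∀ x y : ℝ, |y| ≤ 1 → |x * y| ≤ |x| := fun x y hy => by
    rw [abs_mul]
    exact mul_le_of_le_one_right (abs_nonneg _) hy
  have e1 : ip z (nrm θ₁) * Real.cos θ₂ - ip z (nrm θ₂) * Real.cos θ₁ = -(z.1 * Real.sin (θ₁ - θ₂)) := by
    rw [Real.sin_sub]
    unfold ip nrm
    simp only
    ring
  have e2 : ip z (nrm θ₁) * Real.sin θ₂ - ip z (nrm θ₂) * Real.sin θ₁ = -(z.2 * Real.sin (θ₁ - θ₂)) := by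
    rw [Real.sin_sub]
    unfold ip nrm
    simp only
    ring
  have key : ∀ t a b : ℝ, |a| ≤ 1 → |b| ≤ 1 → ip z (nrm θ₁) * a - ip z (nrm θ₂) * b = -(t * Real.sin (θ₁ - θ₂)) →
      |t| ≤ (A₁ + A₂) / s := by
    intro t a b ha hb e
    rw [le_div_iff₀ hs]
    have h3 : |t| * |Real.sin (θ₁ - θ₂)| ≤ A₁ + A₂ := by
      rw [← abs_mul, ← abs_neg, ← e]
      have := norm_sub_le (ip z (nrm θ₁) * a) (ip z (nrm θ₂) * b)
      simp only [Real.norm_eq_abs] at this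
      linarith [m1 (ip z (nrm θ₁)) a ha, m1 (ip z (nrm θ₂)) b hb]
    exact (mul_le_mul_of_nonneg_left hsin (abs_nonneg _)).trans h3
  exact ⟨key _ _ _ hc2 hc1 e1, key _ _ _ hs2 hs1 e2⟩

/-- **G2** the floors of the points of an interval.  PROOF: `S = Finset.Icc ⌊y/w - ρ⌋ ⌊y/w + ρ⌋`, `Int.card_Icc`, `Int.floor_le`, `Int.lt_floor_add_one`, `Int.floor_mono`. -/
theorem rpa_floor_list (y ρ w : ℝ) (hw : 0 < w) (hρ : 0 ≤ ρ) : ∃ S : Finset ℤ, (S.card : ℝ) ≤ 2 * ρ + 2 ∧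
    ∀ x : ℝ, |x - y| ≤ ρ * w → ⌊x / w⌋ ∈ S := by
  refine ⟨Finset.Icc ⌊y / w - ρ⌋ ⌊y / w + ρ⌋, ?_, ?_⟩
  · rw [Int.card_Icc]
    have h1 : (⌊y / w + ρ⌋ : ℝ) ≤ y / w + ρ := Int.floor_le _
    have h2 : y / w - ρ < (⌊y / w - ρ⌋ : ℝ) + 1 := Int.lt_floor_add_one _
    rcases le_or_gt 0 (⌊y / w + ρ⌋ + 1 - ⌊y / w - ρ⌋) with h | h
    · have e : (((⌊y / w + ρ⌋ + 1 - ⌊y / w - ρ⌋).toNat : ℕ) : ℝ) = ((⌊y / w + ρ⌋ + 1 - ⌊y / w - ρ⌋ : ℤ) : ℝ) := by
        have := Int.toNat_of_nonneg h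
        exact_mod_cast this
      rw [e]
      push_cast
      linarith
    · rw [Int.toNat_of_nonpos h.le]
      simp only [Nat.cast_zero]
      linarith
  · intro x hx
    have h' : |x / w - y / w| ≤ ρ := by
      rw [← sub_div, abs_div, abs_of_pos hw, div_le_iff₀ hw]
      exact hx
    obtain ⟨a, b⟩ := abs_le.1 h'
    rw [Finset.mem_Icc]
    exact ⟨Int.floor_le_floor (by linarith), Int.floor_le_floor (by linarith)⟩

/-- **G3** coordinates from a frame.  PROOF: `z₁ = ip z (tang th) cos th - ip z (nrm th) sin th`, `z₂ = ip z (tang th) sin th + ip z (nrm th) cos th`. -/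
theorem rpa_coord_le (th : ℝ) (z : ℝ × ℝ) :
    |z.1| ≤ |ip z (tang th)| + |ip z (nrm th)| ∧ |z.2| ≤ |ip z (tang th)| + |ip z (nrm th)| := by
  have hc := Real.abs_cos_le_one th
  have hs := Real.abs_sin_le_one th
  have hcs := Real.cos_sq_add_sin_sq th
  have e1 : z.1 = ip z (tang th) * Real.cos th - ip z (nrm th) * Real.sin th := by
    unfold ip tang nrm
    simp only
    linear_combination (-z.1) * hcs
  have e2 : z.2 = ip z (tang th) * Real.sin th + ip z (nrm th) * Real.cos th := by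
    unfold ip tang nrm
    simp only
    linear_combination (-z.2) * hcs
  have m1 : ∀ x y : ℝ, |y| ≤ 1 → |x * y| ≤ |x| := fun x y hy => by
    rw [abs_mul]
    exact mul_le_of_le_one_right (abs_nonneg _) hy
  constructor
  · have := norm_sub_le (ip z (tang th) * Real.cos th) (ip z (nrm th) * Real.sin th)
    simp only [Real.norm_eq_abs] at this
    rw [← e1] at this
    linarith [m1 (ip z (tang th)) _ hc, m1 (ip z (nrm th)) _ hs]
  · have := abs_add_le (ip z (tang th) * Real.sin th) (ip z (nrm th) * Real.cos th)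
    rw [← e2] at this
    linarith [m1 (ip z (tang th)) _ hs, m1 (ip z (nrm th)) _ hc]

/-- **G4** frame components from coordinates -/
theorem rpa_ip_le_coord (th : ℝ) (z : ℝ × ℝ) :
    |ip z (tang th)| ≤ |z.1| + |z.2| ∧ |ip z (nrm th)| ≤ |z.1| + |z.2| := by
  have hc := Real.abs_cos_le_one th
  have hs := Real.abs_sin_le_one th
  have m1 : ∀ x y : ℝ, |y| ≤ 1 → |x * y| ≤ |x| := fun x y hy => by
    rw [abs_mul]
    exact mul_le_of_le_one_right (abs_nonneg _) hy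
  unfold ip tang nrm
  simp only
  constructor
  · have := abs_add_le (z.1 * Real.cos th) (z.2 * Real.sin th)
    linarith [m1 z.1 _ hc, m1 z.2 _ hs]
  · have := abs_add_le (z.1 * -Real.sin th) (z.2 * Real.cos th)
    have hs' : |-Real.sin th| ≤ 1 := by rw [abs_neg]; exact hs
    linarith [m1 z.1 _ hs', m1 z.2 _ hc]

/-- **G5** frame components are bounded by the Euclidean norm.  PROOF: Cauchy-Schwarz by hand: `(x₀ c + x₁ s)² ≤ (x₀² + x₁²)(c² + s²)`, `EuclideanSpace.norm_eq`, `Fin.sum_univ_two`. -/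
theorem rpa_ip_le_norm (th : ℝ) (x : Osc.E2) : |ip (toP x) (tang th)| ≤ ‖x‖ ∧ |ip (toP x) (nrm th)| ≤ ‖x‖ := by
  have hcs := Real.cos_sq_add_sin_sq th
  have hn := EuclideanSpace.norm_sq_eq x
  rw [Fin.sum_univ_two, Real.norm_eq_abs, Real.norm_eq_abs, sq_abs, sq_abs] at hn
  have key : ∀ t : ℝ, t ^ 2 ≤ ‖x‖ ^ 2 → |t| ≤ ‖x‖ := by
    intro t ht
    rw [← sq_abs] at ht
    exact (pow_le_pow_iff_left₀ (abs_nonneg _) (norm_nonneg _) (by norm_num)).1 ht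
  unfold ip tang nrm toP
  simp only
  constructor
  · apply key
    rw [hn]
    nlinarith [sq_nonneg (x 0 * Real.sin th - x 1 * Real.cos th)]
  · apply key
    rw [hn]
    nlinarith [sq_nonneg (x 0 * Real.cos th + x 1 * Real.sin th)]

/-- **G6** a point is within half a side (coordinatewise) of the centre of its cell -/
theorem rpa_cell_ip {w : ℝ} (hw : 0 < w) (x : Osc.E2) (th : ℝ) :
    |ip (toP x - toP (cellC w (cell w x))) (tang th)| ≤ w ∧ |ip (toP x - toP (cellC w (cell w x))) (nrm th)| ≤ w := by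
  have hco : ∀ t : ℝ, |t - w * ((⌊t / w⌋ : ℝ) + 1 / 2)| ≤ w / 2 := by
    intro t
    have h1 : (⌊t / w⌋ : ℝ) ≤ t / w := Int.floor_le _
    have h2 : t / w < (⌊t / w⌋ : ℝ) + 1 := Int.lt_floor_add_one _
    rw [le_div_iff₀ hw] at h1
    rw [div_lt_iff₀ hw] at h2
    rw [abs_le]
    constructor <;> nlinarith
  have e1 : (toP x - toP (cellC w (cell w x))).1 = x 0 - w * ((⌊x 0 / w⌋ : ℝ) + 1 / 2) := by
    simp [toP, cellC, cell]
  have e2 : (toP x - toP (cellC w (cell w x))).2 = x 1 - w * ((⌊x 1 / w⌋ : ℝ) + 1 / 2) := by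
    simp [toP, cellC, cell]
  obtain ⟨a, b⟩ := rpa_ip_le_coord th (toP x - toP (cellC w (cell w x)))
  rw [e1, e2] at a b
  have c0 := hco (x 0)
  have c1 := hco (x 1)
  constructor <;> linarith

/-- linearity of `ip` and `toP` (for `simp` / `rw`) -/
theorem rpa_ip_add (u v z : ℝ × ℝ) : ip (u + v) z = ip u z + ip v z := by
  unfold ip; simp only [Prod.fst_add, Prod.snd_add]; ring

theorem rpa_ip_sub (u v z : ℝ × ℝ) : ip (u - v) z = ip u z - ip v z := by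
  unfold ip; simp only [Prod.fst_sub, Prod.snd_sub]; ring

theorem rpa_ip_smul (a : ℝ) (u z : ℝ × ℝ) : ip (a • u) z = a * ip u z := by
  unfold ip; simp only [Prod.smul_fst, Prod.smul_snd, smul_eq_mul]; ring

theorem rpa_toP_sub (x y : Osc.E2) : toP (x - y) = toP x - toP y := rfl

theorem rpa_toP_add (x y : Osc.E2) : toP (x + y) = toP x + toP y := rfl

theorem rpa_toP_smul (a : ℝ) (x : Osc.E2) : toP (a • x) = a • toP x := rfl

theorem rpa_ip_tang_tang (th : ℝ) : ip (tang th) (tang th) = 1 := by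
  unfold ip tang; simp only; nlinarith [Real.sin_sq_add_cos_sq th]

theorem rpa_ip_nrm_nrm (th : ℝ) : ip (nrm th) (nrm th) = 1 := by
  unfold ip nrm; simp only; nlinarith [Real.sin_sq_add_cos_sq th]

theorem rpa_ip_tang_nrm (th : ℝ) : ip (tang th) (nrm th) = 0 := by
  unfold ip tang nrm; simp only; ring

theorem rpa_ip_nrm_tang (th : ℝ) : ip (nrm th) (tang th) = 0 := by
  unfold ip tang nrm; simp only; ring

/-- covering `[-n w, n w]` by `n` intervals of half length `w` -/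
theorem rpa_capK_cov (w x : ℝ) (n : ℕ) (hn : 1 ≤ n) (hw : 0 < w) (hx : |x| ≤ n * w) :
    ∃ i : Fin n, |x - (-(n : ℝ) * w + (2 * ((i : ℕ) : ℝ) + 1) * w)| ≤ w := by
  obtain ⟨h1, h2⟩ := abs_le.1 hx
  obtain ⟨u, hu⟩ : ∃ u : ℝ, u = (x + n * w) / (2 * w) := ⟨_, rfl⟩
  have hu0 : 0 ≤ u := by rw [hu]; exact div_nonneg (by linarith) (by positivity)
  have hxu : x + n * w = u * (2 * w) := by rw [hu]; field_simp
  by_cases hlt : ⌊u⌋₊ < n
  · refine ⟨⟨⌊u⌋₊, hlt⟩, ?_⟩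
    have a1 := Nat.floor_le hu0
    have a2 := Nat.lt_floor_add_one u
    simp only
    rw [abs_le]
    constructor <;> nlinarith
  · have hge : (n : ℝ) ≤ u := by
      have : n ≤ ⌊u⌋₊ := not_lt.1 hlt
      exact le_trans (by exact_mod_cast this) (Nat.floor_le hu0)
    refine ⟨⟨n - 1, by omega⟩, ?_⟩
    have hn1 : ((n - 1 : ℕ) : ℝ) = n - 1 := by
      rw [Nat.cast_sub hn]; simp
    simp only
    rw [hn1, abs_le]
    have hle : u * (2 * w) ≤ n * (2 * w) := by rw [← hxu]; linarith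
    constructor <;> nlinarith

/-- a rectangle of enlargement one around a shifted centre -/
theorem rpa_capK_shift (ε b a th y1 y2 : ℝ) (z c : ℝ × ℝ) (h1 : |ip (z - c) (tang th) - y1| ≤ ε ^ b)
    (h2 : |ip (z - c) (nrm th) - y2| ≤ ε ^ a) :
    InRect 1 ε b a th (z - (c + (y1 • tang th + y2 • nrm th))) := by
  unfold InRect
  rw [← sub_sub, rpa_ip_sub (z - c), rpa_ip_sub (z - c), rpa_ip_add, rpa_ip_add, rpa_ip_smul, rpa_ip_smul,
    rpa_ip_smul, rpa_ip_smul, rpa_ip_tang_tang, rpa_ip_nrm_tang, rpa_ip_tang_nrm, rpa_ip_nrm_nrm]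
  simp only [mul_one, mul_zero, add_zero, zero_add, one_mul]
  exact ⟨h1, h2⟩

/-- **G7 = CAPK** : the cap upper bound (9.24) with an enlargement constant `K`, NO loss in the widths.
PROOF.  `n = max 1 ⌈K⌉₊` (so `K ≤ n ≤ K + 1`).  The interval `[-K w, K w]` is covered by the `n` intervals of half length `w` centred at `(2 i + 1 - K') w`..., precisely: for `|x| ≤ K w` put
`i(x) = min (n - 1) ⌊(x + K w) / (2 w)⌋₊` and `y_i = - K w + (2 i + 1) w`; then `|x - y_{i(x)}| ≤ w`.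
Apply this to the four frame components (tangent / normal, velocity / position) of an atom of the set: index map `f : atoms → (Fin n)^4` (or `ℕ^4` with values `< n`);
the fibre of `f` over `(i₁,i₂,i₃,i₄)` lies in the set counted by `capcount` for the cap `F'` with the same widths, angle and the centres
`vc + y_{i₁} • tang th + y_{i₂} • nrm th`, `xc + y_{i₃} • tang th + y_{i₄} • nrm th` (`wt γ F' = wt γ F`).   `Finset.card_eq_sum_card_fiberwise` / `Finset.card_le_mul_card_image`. -/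
theorem rpa_capK {At : Atoms} {Cl : Classes At} {γ : ℝ} {E : PEnv} {r bs ξ : ℝ} {S0 : ℕ} (hG : Cl.Good γ E r bs ξ S0)
    (h0 : 0 < E.ε) (j : Loc0) (k : ℕ) (F : Geo) (K : ℝ) (hK : 0 ≤ K) (h1 : bs ≤ F.b) (h2 : F.b ≤ F.a) (h3 : F.a ≤ E.L - r)
    (h4 : F.a ≤ E.u r) :
    ((Finset.univ.filter (fun T => At.loc T = j ∧ Cl.cls T = k ∧ InCap K E.ε r F (At.asite T))).card : ℝ)
      ≤ (K + 1) ^ 4 * E.ε ^ (-(Cl.gB j k - (wt γ F - 2 * bs))) := by
  obtain ⟨n, hn1, hKn, hnK⟩ : ∃ n : ℕ, 1 ≤ n ∧ K ≤ n ∧ (n : ℝ) ≤ K + 1 := by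
    refine ⟨max 1 ⌈K⌉₊, le_max_left _ _, ?_, ?_⟩
    · exact (Nat.le_ceil K).trans (by exact_mod_cast le_max_right _ _)
    · rw [Nat.cast_max]
      exact max_le (by simpa using hK) (Nat.ceil_lt_add_one hK).le
  haveI : NeZero n := ⟨by omega⟩
  obtain ⟨y, hy⟩ : ∃ y : ℝ → Fin n → ℝ,
      y = fun (w : ℝ) (i : Fin n) => -(n : ℝ) * w + (2 * ((i : ℕ) : ℝ) + 1) * w := ⟨_, rfl⟩
  obtain ⟨S, hS⟩ : ∃ S : Finset At.𝔸, S = Finset.univ.filter
      (fun T => At.loc T = j ∧ Cl.cls T = k ∧ InCap K E.ε r F (At.asite T)) := ⟨_, rfl⟩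
  rw [← hS]
  have hcov : ∀ (d x : ℝ), |x| ≤ K * E.ε ^ d → ∃ i : Fin n, |x - y (E.ε ^ d) i| ≤ E.ε ^ d := by
    intro d x hx
    have hp : 0 < E.ε ^ d := Real.rpow_pos_of_pos h0 d
    rw [hy]
    exact rpa_capK_cov _ x n hn1 hp (hx.trans (mul_le_mul_of_nonneg_right hKn hp.le))
  have hex : ∀ T : At.𝔸, ∃ idx : Fin n × Fin n × Fin n × Fin n, T ∈ S →
      (|ip (toP (At.asite T).V - F.vc) (tang F.th) - y (E.ε ^ F.b) idx.1| ≤ E.ε ^ F.b ∧
      |ip (toP (At.asite T).V - F.vc) (nrm F.th) - y (E.ε ^ F.a) idx.2.1| ≤ E.ε ^ F.a) ∧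
      |ip (toP (At.asite T).X - F.xc) (tang F.th) - y (E.ε ^ (F.b + r)) idx.2.2.1| ≤ E.ε ^ (F.b + r) ∧
      |ip (toP (At.asite T).X - F.xc) (nrm F.th) - y (E.ε ^ (F.a + r)) idx.2.2.2| ≤ E.ε ^ (F.a + r) := by
    intro T
    by_cases hT : T ∈ S
    · rw [hS, Finset.mem_filter] at hT
      obtain ⟨-, -, -, ⟨c1, c2⟩, c3, c4⟩ := hT
      obtain ⟨i1, e1⟩ := hcov _ _ c1
      obtain ⟨i2, e2⟩ := hcov _ _ c2
      obtain ⟨i3, e3⟩ := hcov _ _ c3
      obtain ⟨i4, e4⟩ := hcov _ _ c4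
      exact ⟨(i1, i2, i3, i4), fun _ => ⟨⟨e1, e2⟩, e3, e4⟩⟩
    · exact ⟨default, fun h => absurd h hT⟩
  choose f hf using hex
  have hcard : (S.card : ℝ) =
      ∑ idx : Fin n × Fin n × Fin n × Fin n, ((S.filter (fun T => f T = idx)).card : ℝ) := by
    rw [Finset.card_eq_sum_card_fiberwise (f := f) (t := Finset.univ) (fun _ _ => Finset.mem_coe.2 (Finset.mem_univ _))]
    push_cast
    rfl
  have hfib : ∀ idx : Fin n × Fin n × Fin n × Fin n, ((S.filter (fun T => f T = idx)).card : ℝ) ≤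
      E.ε ^ (-(Cl.gB j k - (wt γ F - 2 * bs))) := by
    intro idx
    have hc := hG.capcount j k
      { F with
        vc := F.vc + (y (E.ε ^ F.b) idx.1 • tang F.th + y (E.ε ^ F.a) idx.2.1 • nrm F.th)
        xc := F.xc + (y (E.ε ^ (F.b + r)) idx.2.2.1 • tang F.th + y (E.ε ^ (F.a + r)) idx.2.2.2 • nrm F.th) }
      h1 h2 h3 h4
    refine le_trans ?_ hc
    have : S.filter (fun T => f T = idx) ⊆ Finset.univ.filter (fun T => At.loc T = j ∧ Cl.cls T = k ∧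
        InCap 1 E.ε r { F with
          vc := F.vc + (y (E.ε ^ F.b) idx.1 • tang F.th + y (E.ε ^ F.a) idx.2.1 • nrm F.th)
          xc := F.xc + (y (E.ε ^ (F.b + r)) idx.2.2.1 • tang F.th + y (E.ε ^ (F.a + r)) idx.2.2.2 • nrm F.th) }
          (At.asite T)) := by
      intro T hT
      rw [Finset.mem_filter] at hT
      obtain ⟨hTS, hTi⟩ := hT
      obtain ⟨⟨e1, e2⟩, e3, e4⟩ := hf T hTS
      rw [hTi] at e1 e2 e3 e4
      rw [hS, Finset.mem_filter] at hTS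
      rw [Finset.mem_filter]
      exact ⟨Finset.mem_univ _, hTS.2.1, hTS.2.2.1, rpa_capK_shift _ _ _ _ _ _ _ _ e1 e2,
        rpa_capK_shift _ _ _ _ _ _ _ _ e3 e4⟩
    exact_mod_cast Finset.card_le_card this
  rw [hcard]
  have hpos : 0 ≤ E.ε ^ (-(Cl.gB j k - (wt γ F - 2 * bs))) := (Real.rpow_pos_of_pos h0 _).le
  calc ∑ idx : Fin n × Fin n × Fin n × Fin n, ((S.filter (fun T => f T = idx)).card : ℝ)
      ≤ ∑ _idx : Fin n × Fin n × Fin n × Fin n, E.ε ^ (-(Cl.gB j k - (wt γ F - 2 * bs))) :=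
        Finset.sum_le_sum fun idx _ => hfib idx
    _ = (n : ℝ) ^ 4 * E.ε ^ (-(Cl.gB j k - (wt γ F - 2 * bs))) := by
        rw [Finset.sum_const, nsmul_eq_mul, Finset.card_univ]
        simp only [Fintype.card_prod, Fintype.card_fin]
        push_cast
        ring
    _ ≤ (K + 1) ^ 4 * E.ε ^ (-(Cl.gB j k - (wt γ F - 2 * bs))) := by
        refine mul_le_mul_of_nonneg_right ?_ hpos
        exact pow_le_pow_left₀ (Nat.cast_nonneg n) hnK 4

variable {X : RpaData} {c : RpaC} {A : X.T.Ω → Prop}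

/-- **G8** : every candidate atom lies in the aperture of the sample referred to `C_r`, enlargement `K' = Kg + 2 Ke`.
PROOF.  `g = X.g o`, `s = X.s o`, `T = asite T'`.  Velocity: `toP T.V - g.vc = toP (T.V - s.V) + (toP s.V - g.vc)`; first term: `rpa_ip_le_norm`, `H.cellV`, `ε^(u_t) ≤ ε^(g.a) ≤ ε^(g.b)`
(`GeoOK`: `g.b ≤ g.a ≤ u_t`); second term: `GeoOK`.   Position: `g.tc = s.C`,
`toP T.X - (g.xc - (s.C - C_r) • g.vc) = toP (T.X - (s.X - (s.C - C_r) • s.V)) + (toP s.X - g.xc) - (s.C - C_r) • (toP s.V - g.vc)`; `H.cellX`, `GeoOK`, `rpa_Cr_near`, `r ≤ t`. -/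
theorem rpa_Dcap (H : X.Good c A) (o : X.T.Ω) (ho : A o) (T' : X.At.𝔸) (hT : T' ∈ X.cand o) :
    InCap c.K' X.E.ε X.r (X.FD o) (X.At.asite T') := by
  obtain ⟨g0, g1, g2, g3, g4, ⟨g5, g6⟩, g7, g8⟩ := H.geo o ho
  have hV := H.cellV o ho T' hT
  have hX := H.cellX o ho T' hT
  obtain ⟨t0, t1⟩ := rpa_Cr_near H o
  have hrt : X.r ≤ X.T.t := by rw [H.hr]; linarith [H.h0]
  have hKe := H.Ke0
  have hKg := H.Kg0
  -- powers
  have pb := rpa_pow_pos H (X.g o).b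
  have pa := rpa_pow_pos H (X.g o).a
  have pr := rpa_pow_pos H X.r
  have q1 : X.E.ε ^ (X.E.u X.T.t) ≤ X.E.ε ^ (X.g o).a := rpa_pow_le H g3
  have q2 : X.E.ε ^ (X.g o).a ≤ X.E.ε ^ (X.g o).b := rpa_pow_le H g1
  have q3 : X.E.ε ^ (X.r + X.E.u X.T.t) ≤ X.E.ε ^ ((X.g o).a + X.r) := rpa_pow_le H (by linarith)
  have q4 : X.E.ε ^ ((X.g o).a + X.r) ≤ X.E.ε ^ ((X.g o).b + X.r) := rpa_pow_le H (by linarith)
  have q5 : X.E.ε ^ ((X.g o).b + X.T.t) ≤ X.E.ε ^ ((X.g o).b + X.r) := rpa_pow_le H (by linarith)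
  have q6 : X.E.ε ^ ((X.g o).a + X.T.t) ≤ X.E.ε ^ ((X.g o).a + X.r) := rpa_pow_le H (by linarith)
  have q7 : X.E.ε ^ ((X.g o).b + X.r) = X.E.ε ^ (X.g o).b * X.E.ε ^ X.r := rpa_pow_add H _ _
  have q8 : X.E.ε ^ ((X.g o).a + X.r) = X.E.ε ^ (X.g o).a * X.E.ε ^ X.r := rpa_pow_add H _ _
  have eV : toP (X.At.asite T').V - (X.g o).vc =
      toP ((X.At.asite T').V - (X.s o).V) + (toP (X.s o).V - (X.g o).vc) := by
    rw [rpa_toP_sub]; abel
  have eX : toP (X.At.asite T').X - ((X.g o).xc - ((X.g o).tc - X.Cr o) • (X.g o).vc) =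
      toP ((X.At.asite T').X - ((X.s o).X - ((X.s o).C - X.Cr o) • (X.s o).V)) + (toP (X.s o).X - (X.g o).xc)
        - ((X.s o).C - X.Cr o) • (toP (X.s o).V - (X.g o).vc) := by
    rw [g4, rpa_toP_sub, rpa_toP_sub, rpa_toP_smul, smul_sub]; abel
  have hc : |(X.s o).C - X.Cr o| ≤ X.E.ε ^ X.r := by rw [abs_of_nonneg t0]; exact t1.le
  -- generic estimates
  have keyV : ∀ (e : ℝ × ℝ) (d : ℝ), |ip (toP ((X.At.asite T').V - (X.s o).V)) e| ≤
      ‖(X.At.asite T').V - (X.s o).V‖ → |ip (toP (X.s o).V - (X.g o).vc) e| ≤ c.Ke * X.E.ε ^ d →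
      X.E.ε ^ (X.E.u X.T.t) ≤ X.E.ε ^ d →
      |ip (toP (X.At.asite T').V - (X.g o).vc) e| ≤ c.K' * X.E.ε ^ d := by
    intro e d a1 a2 a3
    rw [eV, rpa_ip_add]
    have pd := rpa_pow_pos H d
    have := abs_add_le (ip (toP ((X.At.asite T').V - (X.s o).V)) e) (ip (toP (X.s o).V - (X.g o).vc) e)
    have b1 : c.Kg * X.E.ε ^ (X.E.u X.T.t) ≤ c.Kg * X.E.ε ^ d := mul_le_mul_of_nonneg_left a3 hKg
    have b2 : 0 ≤ c.Ke * X.E.ε ^ d := mul_nonneg hKe pd.le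
    unfold RpaC.K'
    nlinarith
  have keyX : ∀ (e : ℝ × ℝ) (d : ℝ),
      |ip (toP ((X.At.asite T').X - ((X.s o).X - ((X.s o).C - X.Cr o) • (X.s o).V))) e| ≤
        ‖(X.At.asite T').X - ((X.s o).X - ((X.s o).C - X.Cr o) • (X.s o).V)‖ →
      |ip (toP (X.s o).X - (X.g o).xc) e| ≤ c.Ke * X.E.ε ^ (d + X.T.t) →
      |ip (toP (X.s o).V - (X.g o).vc) e| ≤ c.Ke * X.E.ε ^ d →
      X.E.ε ^ (X.r + X.E.u X.T.t) ≤ X.E.ε ^ (d + X.r) →
      |ip (toP (X.At.asite T').X - ((X.g o).xc - ((X.g o).tc - X.Cr o) • (X.g o).vc)) e| ≤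
        c.K' * X.E.ε ^ (d + X.r) := by
    intro e d a1 a2 a3 a4
    rw [eX, rpa_ip_sub, rpa_ip_add, rpa_ip_smul]
    have pd := rpa_pow_pos H d
    have pdr := rpa_pow_pos H (d + X.r)
    have e1 : X.E.ε ^ (d + X.r) = X.E.ε ^ d * X.E.ε ^ X.r := rpa_pow_add H _ _
    have e2 : X.E.ε ^ (d + X.T.t) ≤ X.E.ε ^ (d + X.r) := rpa_pow_le H (by linarith)
    have b1 : c.Kg * X.E.ε ^ (X.r + X.E.u X.T.t) ≤ c.Kg * X.E.ε ^ (d + X.r) := mul_le_mul_of_nonneg_left a4 hKg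
    have b2 : c.Ke * X.E.ε ^ (d + X.T.t) ≤ c.Ke * X.E.ε ^ (d + X.r) := mul_le_mul_of_nonneg_left e2 hKe
    have b3 : |((X.s o).C - X.Cr o) * ip (toP (X.s o).V - (X.g o).vc) e| ≤ c.Ke * X.E.ε ^ (d + X.r) := by
      rw [abs_mul, e1]
      calc |(X.s o).C - X.Cr o| * |ip (toP (X.s o).V - (X.g o).vc) e|
          ≤ X.E.ε ^ X.r * (c.Ke * X.E.ε ^ d) :=
            mul_le_mul hc a3 (abs_nonneg _) pr.le
        _ = c.Ke * (X.E.ε ^ d * X.E.ε ^ X.r) := by ring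
    have t1 := abs_sub (ip (toP ((X.At.asite T').X - ((X.s o).X - ((X.s o).C - X.Cr o) • (X.s o).V))) e
      + ip (toP (X.s o).X - (X.g o).xc) e) (((X.s o).C - X.Cr o) * ip (toP (X.s o).V - (X.g o).vc) e)
    have t2 := abs_add_le (ip (toP ((X.At.asite T').X - ((X.s o).X - ((X.s o).C - X.Cr o) • (X.s o).V))) e)
      (ip (toP (X.s o).X - (X.g o).xc) e)
    unfold RpaC.K'
    nlinarith
  refine ⟨⟨?_, ?_⟩, ?_, ?_⟩
  · exact keyV _ _ (rpa_ip_le_norm _ _).1 g5 (q1.trans q2)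
  · exact keyV _ _ (rpa_ip_le_norm _ _).2 g6 q1
  · exact keyX _ _ (rpa_ip_le_norm _ _).1 g7 g5 (q3.trans q4)
  · exact keyX _ _ (rpa_ip_le_norm _ _).2 g8 g6 q3

/-- **G9** : list form of CAPK on the winning class -/
theorem rpa_cap_list (H : X.Good c A) (o : X.T.Ω) (F : Geo) (K : ℝ) (hK : 0 ≤ K) (h1 : X.bs ≤ F.b) (h2 : F.b ≤ F.a)
    (h3 : F.a ≤ X.E.L - X.r) (h4 : F.a ≤ X.E.u X.r) :
    ∃ S : Finset X.At.𝔸, (S.card : ℝ) ≤ (K + 1) ^ 4 * X.E.ε ^ (-(X.gJ o - (wt X.γ F - 2 * X.bs))) ∧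
      ∀ T', X.Cl.lab X.tag T' = X.J o → InCap K X.E.ε X.r F (X.At.asite T') → T' ∈ S := by
  refine ⟨_, rpa_capK H.cls H.ε0 (X.J o).1 (X.J o).2.1 F K hK h1 h2 h3 h4, fun T' hl hc => ?_⟩
  rw [Finset.mem_filter]
  refine ⟨Finset.mem_univ _, ?_, ?_, hc⟩
  · rw [← hl]; rfl
  · rw [← hl]; rfl

/-- depths: `u_r = u_t + h`, `r ≤ t` -/
theorem rpa_u_r (H : X.Good c A) : X.E.u X.r = X.E.u X.T.t + X.h := by
  unfold PEnv.u
  rw [H.hr]
  ring

end Claimed.Agent.R255
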