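-- KEEP
import Claimed.Agent.R255.Rep.Core

/-!
# Row 255 (BR paper), Sec. 11.6, stage S6 REPAY, part B, file 1: the resampled faithful aperture, entropy side      (architect helper69; prefix `rqb_`)

PAPER-FREE.  `R` = the candidate law on `Ω` (in the application `Ω = T.Ω × atoms`), observations `J` (label), `T` (atom), `D` (aperture), `Ct` (endpoint anchor),
`F` (the isotropic cell `F_T` of the exact line, a function of `(T, Ct, J)`, containing `Ct`), `Y` (the enlarged coarsening `Ȳ` of `D` around the centre of `F`, containing `Ct`).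
The faithful aperture `G` of Sec. 11.6 is `Y` read on the SECOND copy of the two-copy law `rep_two R (pair F J)`.
* `rqb_dp`    : `I(F;Y|Ct,J) ≤ I(F;D|Ct,J) + H(Y|D,J)`          (data processing with a list)
* `rqb_info`  : (11.information-before-credit) with `G` eliminated:
                `H(T|D,J) + I(T;D|F,J) ≤ H_{R₂}(T₁ | Y₂, J₁) + H(Y|D,J)`
* `rqb_lift_entC` : entropies of first-copy observations are those of `R`.
-/

set_option autoImplicit false

namespace Claimed.Agent.R255

open scoped BigOperators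
open Classical
open FLaw

variable {Ω : Type} [Fintype Ω]

/-- data processing with a list: `I(F;Y|W) ≤ I(F;D|W) + H(Y|D,J)` for `W = (Ct,J)` -/
theorem rqb_dp {δ ι κ φ υ : Type} (R : FLaw Ω) (J : Ω → ι) (D : Ω → δ) (F : Ω → φ) (Ct : Ω → κ) (Y : Ω → υ) :
    R.miC F Y (pair Ct J) ≤ R.miC F D (pair Ct J) + R.entC Y (pair D J) := by
  unfold FLaw.miC FLaw.entC
  -- submodularity  X = F, Y = Y, W = (D, Ct, J)  gives  H(F,Y,D,W) + H(D,W) ≤ H(F,D,W) + H(Y,D,W)
  have sm := ent_submod R F Y (pair D (pair Ct J))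
  -- H(F,Y,W) ≥ ... we need  H(F,W)+H(Y,W)-H(F,Y,W)-H(W) ≤ H(F,W)+H(D,W)-H(F,D,W)-H(W) + H(Y,D,J)-H(D,J)
  -- i.e.  H(Y,W) + H(F,D,W) + H(D,J) ≤ H(F,Y,W) + H(D,W) + H(Y,D,J)
  -- second submodularity  X = D, Y = F, W' = (Y, Ct, J):  H(D,F,Y,W) + H(Y,W) ≤ H(D,Y,W) + H(F,Y,W)
  have sm2 := ent_submod R D F (pair Y (pair Ct J))
  -- third:  X = Y, Y = Ct, W = (D,J) :  H(Y,Ct,D,J) + H(D,J) ≤ H(Y,D,J) + H(Ct,D,J)
  have sm3 := ent_submod R Y Ct (pair D J)
  have m1 : R.ent (pair (pair F D) (pair Ct J)) ≤ R.ent (pair (pair D F) (pair Y (pair Ct J))) := by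
    apply ent_mono_ker
    intro ω ω' _ _ h
    simp only [pair, Prod.mk.injEq] at h ⊢
    tauto
  have k1 : R.ent (pair D (pair Y (pair Ct J))) = R.ent (pair (pair Y Ct) (pair D J)) :=
    rep_ent_perm R _ _ (by intro ω ω'; simp only [pair, Prod.mk.injEq]; tauto)
  have k2 : R.ent (pair F (pair Y (pair Ct J))) = R.ent (pair (pair F Y) (pair Ct J)) :=
    rep_ent_perm R _ _ (by intro ω ω'; simp only [pair, Prod.mk.injEq]; tauto)
  have k3 : R.ent (pair Ct (pair D J)) = R.ent (pair D (pair Ct J)) :=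
    rep_ent_perm R _ _ (by intro ω ω'; simp only [pair, Prod.mk.injEq]; tauto)
  linarith

/-- first-copy observations under the two-copy law -/
theorem rqb_lift_ent {γ α : Type} (R : FLaw Ω) (C : Ω → γ) (X : Ω → α) :
    (rep_two R C).ent (fun x => X x.1) = R.ent X := by
  rw [← ent_map_ent (rep_two R C) Prod.fst X, rep_two_map_fst]

/-- second-copy observations under the two-copy law -/
theorem rqb_lift_ent_snd {γ α : Type} (R : FLaw Ω) (C : Ω → γ) (X : Ω → α) :
    (rep_two R C).ent (fun x => X x.2) = R.ent X := by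
  rw [← ent_map_ent (rep_two R C) Prod.snd X, rep_two_map_snd]

theorem rqb_lift_entC {γ α β : Type} (R : FLaw Ω) (C : Ω → γ) (X : Ω → α) (Y : Ω → β) :
    (rep_two R C).entC (fun x => X x.1) (fun x => Y x.1) = R.entC X Y := by
  rw [← ent_map_entC (rep_two R C) Prod.fst X Y, rep_two_map_fst]

theorem rqb_lift_ev {γ : Type} (R : FLaw Ω) (C : Ω → γ) (f : Ω → ℝ) :
    (rep_two R C).ev (fun x => f x.1) = R.ev f := by
  rw [← ent_map_ev (rep_two R C) Prod.fst f, rep_two_map_fst]

theorem rqb_lift_ev_snd {γ : Type} (R : FLaw Ω) (C : Ω → γ) (f : Ω → ℝ) :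
    (rep_two R C).ev (fun x => f x.2) = R.ev f := by
  rw [← ent_map_ev (rep_two R C) Prod.snd f, rep_two_map_snd]

/-- **(11.time-correct-information-splitting) + (11.information-before-credit)** with the resampled aperture `G = Y ∘ snd` on the two-copy law -/
theorem rqb_info {δ ι τ κ φ υ : Type} (R : FLaw Ω) (J : Ω → ι) (T : Ω → τ) (D : Ω → δ) (F : Ω → φ)
    (Ct : Ω → κ) (Y : Ω → υ)
    (hCD : R.Fn (pair D J) Ct) (hCY : R.Fn (pair Y J) Ct) (hCF : R.Fn (pair F J) Ct)
    (hF : R.Fn (pair (pair T Ct) J) F) :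
    R.entC T (pair D J) + R.miC T D (pair F J)
      ≤ (rep_two R (pair F J)).entC (fun x => T x.1) (pair (fun x => Y x.2) (fun x => J x.1))
        + R.entC Y (pair D J) := by
  set R2 := rep_two R (pair F J) with hR2
  have hs : ∀ x, R2.p x ≠ 0 → R.p x.1 ≠ 0 ∧ R.p x.2 ≠ 0 ∧ F x.1 = F x.2 ∧ J x.1 = J x.2 := by
    intro x hx
    obtain ⟨h1, h2, h3⟩ := (rep_two_supp R (pair F J) x).1 hx
    simp only [pair, Prod.mk.injEq] at h3
    exact ⟨h1, h2, h3.1, h3.2⟩
  have hC12 : ∀ x, R2.p x ≠ 0 → Ct x.1 = Ct x.2 := by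
    intro x hx
    obtain ⟨h1, h2, h3, h4⟩ := hs x hx
    exact hCF _ _ h1 h2 (by simp only [pair, Prod.mk.injEq]; exact ⟨h3, h4⟩)
  have key := rep_info_split R2 (fun x => J x.1) (fun x => T x.1) (fun x => D x.1) (fun x => Y x.2)
    (fun x => F x.1) (fun x => Ct x.1)
    (by
      intro x x' hx hx' h
      simp only [pair, Prod.mk.injEq] at h
      exact hCD _ _ (hs x hx).1 (hs x' hx').1 (by simp only [pair, Prod.mk.injEq]; exact h))
    (by
      intro x x' hx hx' h
      simp only [pair, Prod.mk.injEq] at h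
      show Ct x.1 = Ct x'.1
      rw [hC12 x hx, hC12 x' hx']
      refine hCY _ _ (hs x hx).2.1 (hs x' hx').2.1 ?_
      simp only [pair, Prod.mk.injEq]
      exact ⟨h.1, by rw [← (hs x hx).2.2.2, ← (hs x' hx').2.2.2]; exact h.2⟩)
    (by
      intro x x' hx hx' h
      simp only [pair, Prod.mk.injEq] at h
      exact hCF _ _ (hs x hx).1 (hs x' hx').1 (by simp only [pair, Prod.mk.injEq]; exact h))
    (by
      intro x x' hx hx' h
      simp only [pair, Prod.mk.injEq] at h
      exact hF _ _ (hs x hx).1 (hs x' hx').1 (by simp only [pair, Prod.mk.injEq]; exact h))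
    (rep_two_ci R (pair F J) T Y) (R.entC Y (pair D J))
    (by
      have e1 : R2.miC (fun x => F x.1) (fun x => D x.1) (pair (fun x => Ct x.1) (fun x => J x.1))
          = R.miC F D (pair Ct J) := by
        have := ent_map_miC R2 Prod.fst F D (pair Ct J)
        rw [hR2, rep_two_map_fst] at this
        exact this.symm
      have e2 : R2.miC (fun x => F x.1) (fun x => Y x.2) (pair (fun x => Ct x.1) (fun x => J x.1))
          = R.miC F Y (pair Ct J) := by
        have e3 : R2.miC (fun x => F x.2) (fun x => Y x.2) (pair (fun x => Ct x.2) (fun x => J x.2))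
            = R.miC F Y (pair Ct J) := by
          have := ent_map_miC R2 Prod.snd F Y (pair Ct J)
          rw [hR2, rep_two_map_snd] at this
          exact this.symm
        rw [← e3]
        unfold FLaw.miC
        have c1 : R2.ent (pair (fun x => F x.1) (pair (fun x => Ct x.1) (fun x => J x.1)))
            = R2.ent (pair (fun x => F x.2) (pair (fun x => Ct x.2) (fun x => J x.2))) := by
          refine ent_congr_ker _ _ _ fun x x' hx hx' => ?_
          simp only [pair, Prod.mk.injEq, (hs x hx).2.2.1, (hs x hx).2.2.2, (hs x' hx').2.2.1,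
            (hs x' hx').2.2.2, hC12 x hx, hC12 x' hx']
        have c2 : R2.ent (pair (fun x => Y x.2) (pair (fun x => Ct x.1) (fun x => J x.1)))
            = R2.ent (pair (fun x => Y x.2) (pair (fun x => Ct x.2) (fun x => J x.2))) := by
          refine ent_congr_ker _ _ _ fun x x' hx hx' => ?_
          simp only [pair, Prod.mk.injEq, (hs x hx).2.2.2, (hs x' hx').2.2.2, hC12 x hx, hC12 x' hx']
        have c3 : R2.ent (pair (pair (fun x => F x.1) (fun x => Y x.2)) (pair (fun x => Ct x.1) (fun x => J x.1)))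
            = R2.ent (pair (pair (fun x => F x.2) (fun x => Y x.2)) (pair (fun x => Ct x.2) (fun x => J x.2))) := by
          refine ent_congr_ker _ _ _ fun x x' hx hx' => ?_
          simp only [pair, Prod.mk.injEq, (hs x hx).2.2.1, (hs x hx).2.2.2, (hs x' hx').2.2.1,
            (hs x' hx').2.2.2, hC12 x hx, hC12 x' hx']
        have c4 : R2.ent (pair (fun x => Ct x.1) (fun x => J x.1))
            = R2.ent (pair (fun x => Ct x.2) (fun x => J x.2)) := by
          refine ent_congr_ker _ _ _ fun x x' hx hx' => ?_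
          simp only [pair, Prod.mk.injEq, (hs x hx).2.2.2, (hs x' hx').2.2.2, hC12 x hx, hC12 x' hx']
        rw [c1, c2, c3, c4]
      rw [e1, e2]
      exact rqb_dp R J D F Ct Y)
  have f1 : R2.entC (fun x => T x.1) (pair (fun x => D x.1) (fun x => J x.1)) = R.entC T (pair D J) :=
    rqb_lift_entC R (pair F J) T (pair D J)
  have f2 : R2.miC (fun x => T x.1) (fun x => D x.1) (pair (fun x => F x.1) (fun x => J x.1))
      = R.miC T D (pair F J) := by
    have := ent_map_miC R2 Prod.fst T D (pair F J)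
    rw [hR2, rep_two_map_fst] at this
    exact this.symm
  rw [f1, f2] at key
  linarith

end Claimed.Agent.R255
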