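-- KEEP
import Claimed.Agent.R255.Rep.RqDefs
import Claimed.Agent.R255.Rep.AlnGeo
import Claimed.Agent.R255.Rep.RqbInfo

/-!
# Row 255 (BR paper), Sec. 11, stage S6 REPAY, part B, file 2: elementary facts on the concrete labels `RqD`      (architect helper69; prefix `rqb_`)

* scales: `u_r = u + h`, `σ_r = ε^(u-h+t)`, `σ_t = ε^(u+t)`, `σ_r = ε^(-h) σ_t`
* `RqD.Ne` : candidates exist on the support (exported by part A);  `rqb_supp1` : the support of the candidate law `R1`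
* a candidate `A ∈ Cand i` : `‖V_A - V_i‖ ≤ 2 Lg ε^u`, `‖line_A(C_i) - X_i‖ ≤ 3 ε^(-θ) σ_r`
-/

set_option autoImplicit false

namespace Claimed.Agent.R255

open scoped BigOperators
open Classical
open FLaw Pkt Osc

/-- candidates exist on the support of the endpoint law (exported by part A: `rm_win_cand`) -/
def RqD.Ne (X : RqD) : Prop := ∀ o, X.T.P.p o ≠ 0 → (X.Cand (X.T.O o)).Nonempty

/-- the constant of the list `Z | T, D, J` -/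
noncomputable def rqbC2 (Ke Kn : ℝ) : ℝ := 36 * (4 * Ke + 6 * |Kn| + 2) ^ 2

/-- the constant of the list `Ȳ | D, J` -/
noncomputable def rqbCY (Ke Lg : ℝ) : ℝ := (4 + 4 * Lg + 2 * Ke) ^ 2 * (10 + 2 * Ke) ^ 2

variable {X : RqD} {Kn Kc η k kf αf : ℝ}

theorem rqb_eps0 (H : X.Ok Kn Kc η k kf αf) : 0 < X.E.ε := H.cut.obE.ε0
theorem rqb_eps1 (H : X.Ok Kn Kc η k kf αf) : X.E.ε < 1 := H.cut.obE.ε1

theorem rqb_l_pos (H : X.Ok Kn Kc η k kf αf) : 0 < lg X.E.ε := by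
  unfold lg
  exact Real.log_pos (by rw [one_div]; exact (one_lt_inv₀ (rqb_eps0 H)).2 (rqb_eps1 H))

theorem rqb_log_pow (H : X.Ok Kn Kc η k kf αf) (x : ℝ) : Real.log (X.E.ε ^ x) = -(x * lg X.E.ε) := by
  unfold lg
  rw [Real.log_rpow (rqb_eps0 H), one_div, Real.log_inv]
  ring

theorem rqb_pow_le (H : X.Ok Kn Kc η k kf αf) {x y : ℝ} (h : x ≤ y) : X.E.ε ^ y ≤ X.E.ε ^ x :=
  Real.rpow_le_rpow_of_exponent_ge (rqb_eps0 H) (rqb_eps1 H).le h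

theorem rqb_pow_pos (H : X.Ok Kn Kc η k kf αf) (x : ℝ) : 0 < X.E.ε ^ x := Real.rpow_pos_of_pos (rqb_eps0 H) x

theorem rqb_one_le_pow (H : X.Ok Kn Kc η k kf αf) {x : ℝ} (h : 0 ≤ x) : 1 ≤ X.E.ε ^ (-x) := by
  have := rqb_pow_le H (x := -x) (y := 0) (by linarith)
  rwa [Real.rpow_zero] at this

theorem rqb_ur (X : RqD) : X.E.u X.r = X.u + X.h := by
  unfold RqD.u RqD.r PEnv.u
  ring

theorem rqb_sr (X : RqD) : X.sr = X.E.ε ^ (X.u - X.h + X.T.t) := by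
  unfold RqD.sr PEnv.sig
  rw [rqb_ur]
  congr 1
  unfold RqD.r
  ring

theorem rqb_st (X : RqD) : X.st = X.E.ε ^ (X.u + X.T.t) := rfl

theorem rqb_sr_pos (H : X.Ok Kn Kc η k kf αf) : 0 < X.sr := by
  rw [rqb_sr]; exact rqb_pow_pos H _

theorem rqb_st_pos (H : X.Ok Kn Kc η k kf αf) : 0 < X.st := by
  rw [rqb_st]; exact rqb_pow_pos H _

theorem rqb_sr_st (H : X.Ok Kn Kc η k kf αf) : X.sr = X.E.ε ^ (-X.h) * X.st := by
  rw [rqb_sr, rqb_st, ← Real.rpow_add (rqb_eps0 H)]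
  congr 1
  ring

theorem rqb_bG (H : X.Ok Kn Kc η k kf αf) : X.bs ≤ X.bG ∧ X.bG ≤ X.u - X.h := by
  unfold RqD.bG
  split_ifs
  · exact ⟨le_rfl, H.bsu⟩
  · exact ⟨H.bsu, le_rfl⟩

theorem rqb_pos_of_ne {Ω : Type} [Fintype Ω] (P : FLaw Ω) {o : Ω} (h : P.p o ≠ 0) : 0 < P.p o :=
  lt_of_le_of_ne (P.nonneg o) (Ne.symm h)

theorem rqb_supp1 (hne : X.Ne) (x : X.T.Ω × X.At.𝔸) :
    X.R1.p x ≠ 0 ↔ X.T.P.p x.1 ≠ 0 ∧ x.2 ∈ X.Cand (X.T.O x.1) :=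
  rep_unif_supp X.T.P (fun o => X.Cand (X.T.O o)) hne x

theorem rqb_mem_cand {i : X.T.ι} {A : X.At.𝔸} (h : A ∈ X.Cand i) :
    X.Cl.lab X.tag A = X.Ji i ∧ X.Pa A = X.Pi i ∧
      ‖X.line A (X.T.site i).C - cellC X.sr (cell X.sr (X.T.site i).X)‖ ≤ 2 * X.E.ε ^ (-X.θ) * X.sr := by
  unfold RqD.Cand Classes.clsOf at h
  rw [Finset.mem_filter, Finset.mem_filter] at h
  exact ⟨h.1.2, h.2.1, h.2.2⟩

/-- a point is within one side of the centre of its cell -/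
theorem rqb_cell_norm {w : ℝ} (hw : 0 < w) (x : E2) : ‖x - cellC w (cell w x)‖ ≤ w := by
  have hco : ∀ t : ℝ, |t - w * ((⌊t / w⌋ : ℝ) + 1 / 2)| ≤ w / 2 := by
    intro t
    have h1 : (⌊t / w⌋ : ℝ) ≤ t / w := Int.floor_le _
    have h2 : t / w < (⌊t / w⌋ : ℝ) + 1 := Int.lt_floor_add_one _
    rw [le_div_iff₀ hw] at h1
    rw [div_lt_iff₀ hw] at h2
    rw [abs_le]
    constructor <;> nlinarith
  refine (rpb_norm_le _).trans ?_
  have e0 : (x - cellC w (cell w x)) 0 = x 0 - w * ((⌊x 0 / w⌋ : ℝ) + 1 / 2) := by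
    simp [cellC, cell]
  have e1 : (x - cellC w (cell w x)) 1 = x 1 - w * ((⌊x 1 / w⌋ : ℝ) + 1 / 2) := by
    simp [cellC, cell]
  rw [e0, e1]
  linarith [hco (x 0), hco (x 1)]

theorem rqb_cand_V (H : X.Ok Kn Kc η k kf αf) {i : X.T.ι} {A : X.At.𝔸} (h : A ∈ X.Cand i) :
    ‖(X.At.asite A).V - (X.T.site i).V‖ ≤ 2 * X.Lg * X.E.ε ^ X.u :=
  (rpb_close (rqb_eps0 H) (by linarith [H.Lg1]) (rqb_mem_cand h).2.1).2.1

theorem rqb_cand_X (H : X.Ok Kn Kc η k kf αf) {i : X.T.ι} {A : X.At.𝔸} (h : A ∈ X.Cand i) :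
    ‖X.line A (X.T.site i).C - (X.T.site i).X‖ ≤ 3 * X.E.ε ^ (-X.θ) * X.sr := by
  have h1 := (rqb_mem_cand h).2.2
  have h2 := rqb_cell_norm (rqb_sr_pos H) (X.T.site i).X
  have h3 := rqb_one_le_pow H H.θ0.le
  have h4 := rqb_sr_pos H
  have h5 : ‖X.line A (X.T.site i).C - (X.T.site i).X‖
      ≤ ‖X.line A (X.T.site i).C - cellC X.sr (cell X.sr (X.T.site i).X)‖
        + ‖(X.T.site i).X - cellC X.sr (cell X.sr (X.T.site i).X)‖ := by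
    rw [← norm_neg ((X.T.site i).X - cellC X.sr (cell X.sr (X.T.site i).X))]
    refine le_trans (le_of_eq ?_) (norm_add_le _ _)
    congr 1
    abel
  nlinarith

theorem rqb_geo (H : X.Ok Kn Kc η k kf αf) (o : X.T.Ω) (ho : 0 < X.T.P.p o) :
    GeoOK (X.T.geo (X.T.D o)) X.B.Ke X.E.ε X.T.t X.E.L X.u (X.T.site (X.T.O o)) := H.cut.obT.geo o ho

theorem rqb_act (o : X.T.Ω) (ho : 0 < X.T.P.p o) : X.T.act (X.T.O o) := ⟨o, ho, rfl⟩

theorem rqb_Ke (H : X.Ok Kn Kc η k kf αf) : 0 ≤ X.B.Ke := by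
  obtain ⟨o, ho⟩ := ent_exists_supp X.T.P
  have h1 := (rqb_geo H o (rqb_pos_of_ne _ ho)).2.2.2.2.2.1.1
  have h2 := rqb_pow_pos H (X.T.geo (X.T.D o)).b
  by_contra hc
  rw [not_le] at hc
  have := abs_nonneg (ip (toP (X.T.site (X.T.O o)).V - (X.T.geo (X.T.D o)).vc) (tang (X.T.geo (X.T.D o)).th))
  nlinarith

theorem rqb_base_eqns_cite : True := by
  have := @RqD.Ne.eq_1
  have := @rqbC2.eq_1
  have := @rqbCY.eq_1
  trivial

end Claimed.Agent.R255
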