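-- KEEP
import Claimed.Agent.R255.Rep.RqbBase

/-!
# Row 255 (BR paper), Sec. 11.6, stage S6 REPAY, part B, file 4: `Ȳ` IS FAITHFUL FOR EVERY LINE OF ITS CELL `F_T`      (architect helper69; prefix `rqb_`)
-/

set_option autoImplicit false

namespace Claimed.Agent.R255

open scoped BigOperators
open Classical
open FLaw Pkt Osc

variable {X : RqD} {Kn Kc η k kf αf : ℝ}

/-- the rounding moves each frame component by at most one mesh.
PROOF: `ip (rqRnd th w1 w2 z) (tang th) = w1 ⌊ip z (tang th) / w1⌋` (`rpa_ip_add`, `rpa_ip_smul`, `rpa_ip_tang_tang`, `rpa_ip_nrm_tang`), `0 ≤ x - w ⌊x / w⌋ < w`. -/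
theorem rqb_rnd (th w1 w2 : ℝ) (h1 : 0 < w1) (h2 : 0 < w2) (z : ℝ × ℝ) :
    |ip (z - rqRnd th w1 w2 z) (tang th)| ≤ w1 ∧ |ip (z - rqRnd th w1 w2 z) (nrm th)| ≤ w2 := by
  have hfl : ∀ (w x : ℝ), 0 < w → |x - w * (⌊x / w⌋ : ℝ)| ≤ w := by
    intro w x hw
    have a1 : (⌊x / w⌋ : ℝ) ≤ x / w := Int.floor_le _
    have a2 : x / w < (⌊x / w⌋ : ℝ) + 1 := Int.lt_floor_add_one _
    rw [le_div_iff₀ hw] at a1
    rw [div_lt_iff₀ hw] at a2
    rw [abs_le]
    constructor <;> nlinarith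
  constructor
  · have e : ip (z - rqRnd th w1 w2 z) (tang th) = ip z (tang th) - w1 * (⌊ip z (tang th) / w1⌋ : ℝ) := by
      unfold rqRnd
      rw [rpa_ip_sub, rpa_ip_add, rpa_ip_smul, rpa_ip_smul, rpa_ip_tang_tang, rpa_ip_nrm_tang]
      ring
    rw [e]
    exact hfl w1 _ h1
  · have e : ip (z - rqRnd th w1 w2 z) (nrm th) = ip z (nrm th) - w2 * (⌊ip z (nrm th) / w2⌋ : ℝ) := by
      unfold rqRnd
      rw [rpa_ip_sub, rpa_ip_add, rpa_ip_smul, rpa_ip_smul, rpa_ip_tang_nrm, rpa_ip_nrm_nrm]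
      ring
    rw [e]
    exact hfl w2 _ h2

/-- a point against the rounded centre of its cell -/
theorem rqb_faith_aux (th w w1 : ℝ) (hw : 0 < w) (hw1 : w ≤ w1) (y : E2) :
    |ip (toP y - rqRnd th w1 w (toP (cellC w (cell w y)))) (tang th)| ≤ 2 * w1 ∧
      |ip (toP y - rqRnd th w1 w (toP (cellC w (cell w y)))) (nrm th)| ≤ 2 * w := by
  have e : toP y - rqRnd th w1 w (toP (cellC w (cell w y)))
      = (toP y - toP (cellC w (cell w y)))
        + (toP (cellC w (cell w y)) - rqRnd th w1 w (toP (cellC w (cell w y)))) := by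
    abel
  obtain ⟨a1, a2⟩ := rpa_cell_ip hw y th
  obtain ⟨b1, b2⟩ := rqb_rnd th w1 w (hw.trans_le hw1) hw (toP (cellC w (cell w y)))
  rw [e, rpa_ip_add, rpa_ip_add]
  constructor
  · refine (abs_add_le _ _).trans ?_
    linarith
  · refine (abs_add_le _ _).trans ?_
    linarith

/-- **FAITHFULNESS.**  If `x` and `x'` have the same label `F_T`, the read-out `Ȳ(x')` is faithful (enlargement `2`) for the exact line of the atom of `x` at the time `C1 x`.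
PROOF.  `F1 x = F1 x'` : `C1 x = C1 x'`, the velocity of `x.2` lies in the cell `(F1 x').2.1` of side `ε^(u-h)`, its line at `C1 x` in the cell `(F1 x').2.2` of side `σ_r = ε^(u-h+t)` (`rqb_sr`).
`toP V - vc = (toP V - toP vF) + (toP vF - rqRnd .. (toP vF))`: components `≤ ε^(u-h)` (`rpa_cell_ip`) `+ ε^bG` resp. `+ ε^(u-h)` (`rqb_rnd`), `ε^(u-h) ≤ ε^bG` (`rqb_bG`).  The same for the positions with `+ t`. -/
theorem rqb_faith (H : X.Ok Kn Kc η k kf αf) (x x' : X.T.Ω × X.At.𝔸) (hF : X.F1 x = X.F1 x') :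
    Faith (X.Yb x') 2 X.E.ε X.T.t (X.At.asite x.2).C (X.C1 x) (X.At.asite x.2) := by
  have hC : X.C1 x' = X.C1 x := (congrArg (fun y => y.1) hF).symm
  have hV : (X.F1 x').2.1 = cell (X.E.ε ^ (X.u - X.h)) (X.At.asite x.2).V := (congrArg (fun y => y.2.1) hF).symm
  have hX : (X.F1 x').2.2 = cell X.sr (X.line x.2 (X.C1 x)) := (congrArg (fun y => y.2.2) hF).symm
  have hb := (rqb_bG H).2
  refine ⟨hC, ?_, ?_⟩
  · have h1 := rqb_faith_aux (X.T.geo (X.D1 x')).th (X.E.ε ^ (X.u - X.h)) (X.E.ε ^ X.bG) (rqb_pow_pos H _)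
      (rqb_pow_le H hb) (X.At.asite x.2).V
    show InRect 2 X.E.ε X.bG (X.u - X.h) (X.T.geo (X.D1 x')).th
      (toP (X.At.asite x.2).V - rqRnd (X.T.geo (X.D1 x')).th (X.E.ε ^ X.bG) (X.E.ε ^ (X.u - X.h))
        (toP (cellC (X.E.ε ^ (X.u - X.h)) (X.F1 x').2.1)))
    rw [hV]
    exact h1
  · have h1 := rqb_faith_aux (X.T.geo (X.D1 x')).th (X.E.ε ^ (X.u - X.h + X.T.t)) (X.E.ε ^ (X.bG + X.T.t)) (rqb_pow_pos H _)
      (rqb_pow_le H (by linarith)) (X.line x.2 (X.C1 x))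
    show InRect 2 X.E.ε (X.bG + X.T.t) (X.u - X.h + X.T.t) (X.T.geo (X.D1 x')).th
      (toP (X.line x.2 (X.C1 x)) - rqRnd (X.T.geo (X.D1 x')).th (X.E.ε ^ (X.bG + X.T.t)) (X.E.ε ^ (X.u - X.h + X.T.t))
        (toP (cellC X.sr (X.F1 x').2.2)))
    rw [hX, rqb_sr]
    exact h1

end Claimed.Agent.R255
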