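-- KEEP
import Claimed.Agent.R255.Rep.Cls

/-!
# Row 255 (BR paper), Sec. 11.6, stage S6 REPAY, part B, file 5: the classical transfer AVERAGED over the label `J`   ((11.faithful-classical-bound-averaged))      (architect helper69; prefix `rqb_`)
-/

set_option autoImplicit false

namespace Claimed.Agent.R255

open scoped BigOperators
open Classical
open FLaw Pkt Osc

/-- **`cls_growth` averaged over `J`.**
PROOF.  `ε₀` of `cls_growth γ hcl K Ca Lmax dmin ν Mu`.  `R.ev f = R.ev (fun ω => (R.cfib J ω).ev f)` (`ent_ev_tower`), `R.entC A (pair G J) = R.ev (fun ω => (R.cfib J ω).entC A G)`,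
`R.entC c (pair A J) = R.ev (fun ω => (R.cfib J ω).entC c A)` (`ent_entC_pair_eq_avg`).  For `ω₀` in the support apply `cls_growth` to the law `R.cfib J ω₀`, `j = (J ω₀).1`, `k = (J ω₀).2.1`:
its support is `{J = J ω₀} ∩ supp R` (`ent_cnd_supp`, `ent_fib_pos`); the multiplicity bound passes to the smaller support (`Finset.card_le_card`).  Then `ent_ev_mono`, `ent_ev_add`, `ent_ev_const`. -/
theorem rqb_growth (γ : ℝ) (hcl : UnivBound γ γ) (K Ca Lmax dmin ν : ℝ) (Mu : ℕ) (hd : 0 < dmin) (hν : 0 < ν) :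
    ∃ ε₀ : ℝ, 0 < ε₀ ∧ ε₀ < 1 ∧ ∀ (E : PEnv) (r t bs ξ : ℝ) (S0 : ℕ) (At : Atoms) (Cl : Classes At),
      0 < E.ε → E.ε < ε₀ → Cl.Good γ E r bs ξ S0 → r + dmin ≤ t →
      ∀ (τ : Type) (Ω : Type) [Fintype Ω] (R : FLaw Ω) (A : Ω → At.𝔸) (c : Ω → ℝ) (J : Ω → Classes.Lab τ) (Γ : Type)
        (G : Ω → Γ) (geo : Γ → Geo) (Lc : ℝ),
        (∀ ω, 0 < R.p ω → At.loc (A ω) = (J ω).1 ∧ Cl.cls (A ω) = (J ω).2.1) →
        (∀ ω, 0 < R.p ω → ‖(At.asite (A ω)).V - (J ω).1.VJ E.ε bs‖ ≤ Ca * E.ε ^ bs) →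
        (∀ ω, 0 < R.p ω → ‖(At.asite (A ω)).X - (J ω).1.XJ E.ε r bs‖ ≤ Ca * (E.ε ^ r * E.ε ^ bs)) →
        (∀ ω, 0 < R.p ω → (J ω).1.Cr E.ε r ≤ c ω ∧ c ω < (J ω).1.Cr E.ε r + E.ε ^ r) →
        (∀ ω, 0 < R.p ω → ((((Finset.univ.filter (fun ω' => 0 < R.p ω')).image c).filter
          (fun c' => |c' - c ω| < E.ε ^ t)).card : ℝ) ≤ Mu) →
        t - r ≤ Lc → Lc ≤ Lmax → Lc + bs ≤ E.L - r → Lc + bs ≤ E.u r →
        (∀ ω, 0 < R.p ω → bs ≤ (geo (G ω)).b ∧ (geo (G ω)).b ≤ (geo (G ω)).a ∧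
          (geo (G ω)).a - bs + (t - r) ≤ Lc) →
        (∀ ω, 0 < R.p ω → Faith (geo (G ω)) K E.ε t ((J ω).1.Cr E.ε r) (c ω) (At.asite (A ω))) →
        R.ev (fun ω => wt γ (geo (G ω)) - 2 * bs) + (R.entC A (pair G J) + 2 * R.entC c (pair A J)) / lg E.ε
          ≤ R.ev (fun ω => Cl.gB (J ω).1 (J ω).2.1) + γ * (t - r) + ν := by
  obtain ⟨ε₀, h0, h1, H⟩ := cls_growth γ hcl K Ca Lmax dmin ν Mu hd hν
  refine ⟨ε₀, h0, h1, ?_⟩
  intro E r t bs ξ S0 At Cl hε0 hε hCl hrt τ Ω _ R A c J Γ G geo Lc hcls hV hX hc hmult hL0 hL1 hL2 hL3 hw hf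
  -- the support of a fibre law
  have hsupp : ∀ ω₀, R.p ω₀ ≠ 0 → ∀ ω, 0 < (R.cfib J ω₀).p ω → J ω = J ω₀ ∧ 0 < R.p ω := by
    intro ω₀ h₀ ω hω
    have h2 := (ent_cnd_supp R (fun ω => J ω = J ω₀) (ent_fib_pos R J h₀)).1 hω.ne'
    exact ⟨h2.1, lt_of_le_of_ne (R.nonneg ω) (Ne.symm h2.2)⟩
  -- the transfer on every fibre
  have key : ∀ ω₀, R.p ω₀ ≠ 0 →
      (R.cfib J ω₀).ev (fun ω => wt γ (geo (G ω)) - 2 * bs)
          + ((R.cfib J ω₀).entC A G + 2 * (R.cfib J ω₀).entC c A) / lg E.ε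
        ≤ Cl.gB (J ω₀).1 (J ω₀).2.1 + γ * (t - r) + ν := by
    intro ω₀ h₀
    refine H E r t bs ξ S0 At Cl hε0 hε hCl hrt (J ω₀).1 (J ω₀).2.1 Ω (R.cfib J ω₀) A c Γ G geo Lc
      ?_ ?_ ?_ ?_ ?_ hL0 hL1 hL2 hL3 ?_ ?_
    · intro ω hω
      obtain ⟨e, hp⟩ := hsupp ω₀ h₀ ω hω
      rw [← e]
      exact hcls ω hp
    · intro ω hω
      obtain ⟨e, hp⟩ := hsupp ω₀ h₀ ω hω
      rw [← e]
      exact hV ω hp
    · intro ω hω
      obtain ⟨e, hp⟩ := hsupp ω₀ h₀ ω hω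
      rw [← e]
      exact hX ω hp
    · intro ω hω
      obtain ⟨e, hp⟩ := hsupp ω₀ h₀ ω hω
      rw [← e]
      exact hc ω hp
    · intro ω hω
      obtain ⟨e, hp⟩ := hsupp ω₀ h₀ ω hω
      refine le_trans ?_ (hmult ω hp)
      refine Nat.cast_le.2 (Finset.card_le_card (Finset.filter_subset_filter _ (Finset.image_subset_image ?_)))
      intro ω' h'
      rw [Finset.mem_filter] at h' ⊢
      exact ⟨h'.1, (hsupp ω₀ h₀ ω' h'.2).2⟩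
    · intro ω hω
      exact hw ω (hsupp ω₀ h₀ ω hω).2
    · intro ω hω
      obtain ⟨e, hp⟩ := hsupp ω₀ h₀ ω hω
      rw [← e]
      exact hf ω hp
  -- the average
  have hav := ent_ev_mono R key
  have eL : R.ev (fun ω₀ => (R.cfib J ω₀).ev (fun ω => wt γ (geo (G ω)) - 2 * bs)
          + ((R.cfib J ω₀).entC A G + 2 * (R.cfib J ω₀).entC c A) / lg E.ε)
      = R.ev (fun ω => wt γ (geo (G ω)) - 2 * bs) + (R.entC A (pair G J) + 2 * R.entC c (pair A J)) / lg E.ε := by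
    rw [ent_ev_tower R J (fun ω => wt γ (geo (G ω)) - 2 * bs), ent_entC_pair_eq_avg, ent_entC_pair_eq_avg]
    have e1 : (fun ω₀ => (R.cfib J ω₀).ev (fun ω => wt γ (geo (G ω)) - 2 * bs)
          + ((R.cfib J ω₀).entC A G + 2 * (R.cfib J ω₀).entC c A) / lg E.ε)
        = fun ω₀ => (R.cfib J ω₀).ev (fun ω => wt γ (geo (G ω)) - 2 * bs)
          + (lg E.ε)⁻¹ * ((R.cfib J ω₀).entC A G + 2 * (R.cfib J ω₀).entC c A) := by
      funext ω₀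
      ring
    rw [e1, ent_ev_add, ent_ev_mul_left, ent_ev_add, ent_ev_mul_left]
    ring
  have eR : R.ev (fun ω₀ => Cl.gB (J ω₀).1 (J ω₀).2.1 + γ * (t - r) + ν)
      = R.ev (fun ω => Cl.gB (J ω).1 (J ω).2.1) + γ * (t - r) + ν := by
    rw [ent_ev_add, ent_ev_add, ent_ev_const, ent_ev_const]
  rw [eL, eR] at hav
  exact hav

end Claimed.Agent.R255
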