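-- KEEP
import Claimed.Agent.R255.Rep.RqbBase

/-!
# Row 255 (BR paper), Sec. 11, stage S6 REPAY, part B, file 3: THE GEOMETRIC LISTS (no law, no entropy)      (architect helper69; prefix `rqb_`)

Notation: `i` endpoint site, `A ∈ Cand i` a candidate atom, `c = C_i`, `g = T.D o` the aperture label, `geo g = (b, a, tc, th, vc, xc)`.
TOOLS: `rpa_floor_list` (floors of the points of an interval: `≤ 2ρ+2`), `rpa_ip_le_norm`, `rpa_coord_le`, `rpa_cell_ip`, `rpa_ip_add/sub/smul` (`Rep/AlnGeo.lean`),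
`rqb_cand_V`, `rqb_cand_X`, `rqb_mem_cand`, `rqb_cell_norm`, `rqb_sr`, `rqb_st`, `rqb_sr_st`, `rqb_pow_le`, `rqb_one_le_pow`, `rqb_geo`, `rqb_Ke` (`Rep/RqbBase.lean`).
* `rqb_Q_list`     : `(A, c)` determine `Q` up to `25 ε^(-2θ)` values
* `rqb_fine_el`    : elongated: `(A, g)` determine `fine` up to `(2 Ke + 6 Kn + 2) ε^(-η)` values
* `rqb_fine_iso`   : isotropic: `g` determines `fine` up to `(4 Ke + 2)² ε^(-2η)` values
* `rqb_Y_list`     : `g` determines `Ȳ` up to `rqbCY Ke Lg · ε^(-2θ)` values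
-/

set_option autoImplicit false

namespace Claimed.Agent.R255

open scoped BigOperators
open Classical
open FLaw Pkt Osc

variable {X : RqD} {Kn Kc η k kf αf : ℝ}

theorem rqb_floor_centre {w : ℝ} (hw : 0 < w) (m : ℤ) : ⌊w * ((m : ℝ) + 1 / 2) / w⌋ = m := by
  have e : w * ((m : ℝ) + 1 / 2) / w = (m : ℝ) + 1 / 2 := by
    field_simp
  rw [e, Int.floor_eq_iff]
  constructor <;> linarith

/-- the cells whose CENTRE is within `ρ w` of a point.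
PROOF: `|y k - w (κ_k + 1/2)| ≤ ‖y - cellC w κ‖ ≤ ρ w` (`rpb_coord_le`), so `κ_k = ⌊(w (κ_k + 1/2)) / w⌋` is the floor of a point within `ρ w` of `y k`: `rpa_floor_list (y k) ρ w`; product of the two lists. -/
theorem rqb_centre_list (y : E2) (ρ w : ℝ) (hw : 0 < w) (hρ : 0 ≤ ρ) :
    ∃ S : Finset (ℤ × ℤ), (S.card : ℝ) ≤ (2 * ρ + 2) ^ 2 ∧ ∀ κ : ℤ × ℤ, ‖y - cellC w κ‖ ≤ ρ * w → κ ∈ S := by
  obtain ⟨S0, hS0, h0⟩ := rpa_floor_list (y 0) ρ w hw hρ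
  obtain ⟨S1, hS1, h1⟩ := rpa_floor_list (y 1) ρ w hw hρ
  refine ⟨S0 ×ˢ S1, ?_, fun κ hκ => ?_⟩
  · rw [Finset.card_product, Nat.cast_mul, pow_two]
    exact mul_le_mul hS0 hS1 (Nat.cast_nonneg _) (by linarith)
  · have c0 := (rpb_coord_le (y - cellC w κ) 0).trans hκ
    have c1 := (rpb_coord_le (y - cellC w κ) 1).trans hκ
    have e0 : (y - cellC w κ) 0 = y 0 - w * ((κ.1 : ℝ) + 1 / 2) := by
      simp [cellC]
    have e1 : (y - cellC w κ) 1 = y 1 - w * ((κ.2 : ℝ) + 1 / 2) := by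
      simp [cellC]
    rw [e0, abs_sub_comm] at c0
    rw [e1, abs_sub_comm] at c1
    have m0 := h0 _ c0
    have m1 := h1 _ c1
    rw [rqb_floor_centre hw] at m0 m1
    exact Finset.mem_product.2 ⟨m0, m1⟩

/-- **(r1), geometric form.**  PROOF: `Qi i = (Pi i, C_i, cell σ_r X_i) = (Pa A, c, κ)` with `‖line A c - cellC σ_r κ‖ ≤ 2 ε^(-θ) σ_r` (`rqb_mem_cand`);
`rqb_centre_list (line A c) (2 ε^(-θ)) σ_r`; image under `κ ↦ (Pa A, c, κ)`; `(4 ε^(-θ) + 2)² ≤ (6 ε^(-θ))² = 36 ε^(-2θ)`. -/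
theorem rqb_Q_list (H : X.Ok Kn Kc η k kf αf) (A : X.At.𝔸) (c : ℝ) :
    ∃ S : Finset (Loc0 × ℝ × (ℤ × ℤ)), (S.card : ℝ) ≤ 36 * X.E.ε ^ (-(2 * X.θ)) ∧
      ∀ i, A ∈ X.Cand i → (X.T.site i).C = c → X.Qi i ∈ S := by
  have hp := rqb_pow_pos H (-X.θ)
  have h1 := rqb_one_le_pow H H.θ0.le
  obtain ⟨S, hS, hmem⟩ := rqb_centre_list (X.line A c) (2 * X.E.ε ^ (-X.θ)) X.sr (rqb_sr_pos H) (by positivity)
  refine ⟨S.image (fun κ => (X.Pa A, c, κ)), ?_, fun i hi hc => ?_⟩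
  · have hc : ((S.image (fun κ => (X.Pa A, c, κ))).card : ℝ) ≤ (S.card : ℝ) := by
      exact_mod_cast Finset.card_image_le
    have e : X.E.ε ^ (-(2 * X.θ)) = (X.E.ε ^ (-X.θ)) ^ 2 := by
      rw [← Real.rpow_natCast, ← Real.rpow_mul (rqb_eps0 H).le]
      congr 1
      push_cast
      ring
    rw [e]
    refine hc.trans (hS.trans ?_)
    nlinarith
  · obtain ⟨-, h2, h3⟩ := rqb_mem_cand hi
    rw [hc] at h3
    refine Finset.mem_image.2 ⟨cell X.sr (X.T.site i).X, hmem _ h3, ?_⟩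
    unfold RqD.Qi
    rw [h2, hc]

/-- rotation of the normal: `nrm (θ - δ) = cos δ • nrm θ + sin δ • tang θ` -/
theorem rqb_nrm_sub (th δ : ℝ) : nrm (th - δ) = Real.cos δ • nrm th + Real.sin δ • tang th := by
  unfold nrm tang
  rw [Real.sin_sub, Real.cos_sub]
  refine Prod.ext ?_ ?_
  · simp only [Prod.smul_mk, Prod.mk_add_mk, smul_eq_mul]
    ring
  · simp only [Prod.smul_mk, Prod.mk_add_mk, smul_eq_mul]
    ring

theorem rqb_ip_comb (z u v : ℝ × ℝ) (a b : ℝ) : ip z (a • u + b • v) = a * ip z u + b * ip z v := by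
  unfold ip
  simp only [Prod.fst_add, Prod.snd_add, Prod.smul_fst, Prod.smul_snd, smul_eq_mul]
  ring

theorem rqb_Kn (H : X.Ok Kn Kc η k kf αf) (hel : X.el = true) : 0 ≤ Kn := by
  obtain ⟨o, ho⟩ := ent_exists_supp X.T.P
  have h1 := H.pred hel o (rqb_pos_of_ne _ ho)
  have h2 := rqb_pow_pos H (4 * X.h)
  by_contra hc
  rw [not_le] at hc
  have := abs_nonneg (Real.sin ((X.T.geo (X.T.D o)).th - X.ntab (X.Pi (X.T.O o))))
  nlinarith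

theorem rqb_pow_st (H : X.Ok Kn Kc η k kf αf) {a : ℝ} (ha : X.u - η ≤ a) : X.E.ε ^ (a + X.T.t) ≤ X.E.ε ^ (-η) * X.st := by
  rw [rqb_st, ← Real.rpow_add (rqb_eps0 H)]
  exact rqb_pow_le H (by linarith)

/-- **the fine label, elongated case.**
PROOF.  `n₀ = ntab (Pa A)` (`= ntab (Pi i)`), `G = geo g`, `δ = G.th - n₀`, `|sin δ| ≤ Kn ε^(4h)` (`H.pred`), `x = toP X_i`, `y = toP (line A G.tc)` (`G.tc = C_i` by `GeoOK`).
`nrm n₀ = cos δ • nrm G.th + sin δ • tang G.th` (`rqb_nrm_sub`), hence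
`ip x (nrm n₀) - y₀ = cos δ * ip (x - G.xc) (nrm G.th) + sin δ * ip (x - y) (tang G.th)` with `y₀ = ip y (nrm n₀) + cos δ * ip (G.xc - y) (nrm G.th)` (depends on `(A, g)` only).
`|ip (x - G.xc) (nrm G.th)| ≤ Ke ε^(a+t) ≤ Ke ε^(-η) σ_t` (`GeoOK`, `H.shA`);  `|ip (x - y) (tang ..)| ≤ ‖X_i - line‖ ≤ 3 ε^(-θ) σ_r = 3 ε^(-θ-h) σ_t` (`rqb_cand_X`, `rqb_sr_st`), `ε^(4h-θ-h) ≤ 1`.
So `|ip x (nrm n₀) - y₀| ≤ (Ke + 3 Kn) ε^(-η) σ_t`;  `rpa_floor_list y₀ ((Ke + 3 Kn) ε^(-η)) σ_t`, image under `m ↦ (m, 0)`. -/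
theorem rqb_fine_el (H : X.Ok Kn Kc η k kf αf) (hel : X.el = true) (A : X.At.𝔸) (g : X.T.Γ) :
    ∃ S : Finset (ℤ × ℤ), (S.card : ℝ) ≤ (2 * X.B.Ke + 6 * Kn + 2) * X.E.ε ^ (-η) ∧
      ∀ o, 0 < X.T.P.p o → A ∈ X.Cand (X.T.O o) → X.T.D o = g → X.fine (X.T.O o) ∈ S := by
  have hKe := rqb_Ke H
  have hKn := rqb_Kn H hel
  have hst := rqb_st_pos H
  have hη1 := rqb_one_le_pow H H.η0
  have hη0 : 0 < X.E.ε ^ (-η) := rqb_pow_pos H _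
  obtain ⟨n₀, hn₀⟩ : ∃ n₀ : ℝ, n₀ = X.ntab (X.Pa A) := ⟨_, rfl⟩
  obtain ⟨G, hG⟩ : ∃ G : Geo, G = X.T.geo g := ⟨_, rfl⟩
  obtain ⟨δ, hδ⟩ : ∃ δ : ℝ, δ = G.th - n₀ := ⟨_, rfl⟩
  obtain ⟨y, hy⟩ : ∃ y : ℝ × ℝ, y = toP (X.line A G.tc) := ⟨_, rfl⟩
  obtain ⟨y₀, hy₀⟩ : ∃ y₀ : ℝ, y₀ = ip y (nrm n₀) + Real.cos δ * ip (G.xc - y) (nrm G.th) := ⟨_, rfl⟩
  obtain ⟨S₀, hc, hS₀⟩ := rpa_floor_list y₀ ((X.B.Ke + 3 * Kn) * X.E.ε ^ (-η)) X.st hst (by positivity)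
  refine ⟨S₀.image fun m => (m, 0), ?_, ?_⟩
  · have h1 : ((S₀.image fun m : ℤ => ((m, 0) : ℤ × ℤ)).card : ℝ) ≤ (S₀.card : ℝ) := by
      exact_mod_cast Finset.card_image_le
    refine h1.trans (hc.trans ?_)
    nlinarith
  · intro o ho hA hD
    obtain ⟨i, hi⟩ : ∃ i, i = X.T.O o := ⟨_, rfl⟩
    rw [← hi] at hA ⊢
    have hgeo := rqb_geo H o ho
    rw [hD, ← hG, ← hi] at hgeo
    obtain ⟨-, -, -, -, htc, -, -, hx2⟩ := hgeo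
    have hPa : X.Pa A = X.Pi i := (rqb_mem_cand hA).2.1
    have hpred := H.pred hel o ho
    rw [hD, ← hG, ← hi, ← hPa, ← hn₀, ← hδ] at hpred
    have hsa := H.shA o ho
    rw [hD, ← hG] at hsa
    obtain ⟨x, hx⟩ : ∃ x : ℝ × ℝ, x = toP (X.T.site i).X := ⟨_, rfl⟩
    rw [← hx] at hx2
    have hfine : X.fine i = (⌊ip x (nrm n₀) / X.st⌋, 0) := by
      unfold RqD.fine
      rw [if_pos hel, ← hPa, ← hn₀, ← hx]
    rw [hfine]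
    refine Finset.mem_image.2 ⟨_, hS₀ _ ?_, rfl⟩
    -- the identity
    have hn : nrm n₀ = Real.cos δ • nrm G.th + Real.sin δ • tang G.th := by
      rw [← rqb_nrm_sub, hδ]
      congr 1
      ring
    have e1 : ip x (nrm n₀) - y₀ = Real.cos δ * ip (x - G.xc) (nrm G.th) + Real.sin δ * ip (x - y) (tang G.th) := by
      have a1 : ip x (nrm n₀) - ip y (nrm n₀) = ip (x - y) (nrm n₀) := (rpa_ip_sub _ _ _).symm
      have a2 : ip (x - y) (nrm n₀) = Real.cos δ * ip (x - y) (nrm G.th) + Real.sin δ * ip (x - y) (tang G.th) := by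
        rw [hn, rqb_ip_comb]
      have a3 : ip (x - y) (nrm G.th) = ip (x - G.xc) (nrm G.th) + ip (G.xc - y) (nrm G.th) := by
        rw [← rpa_ip_add]
        congr 1
        abel
      rw [hy₀]
      rw [a3] at a2
      linarith
    rw [e1]
    -- the two bounds
    have b1 : |Real.cos δ * ip (x - G.xc) (nrm G.th)| ≤ X.B.Ke * (X.E.ε ^ (-η) * X.st) := by
      rw [abs_mul]
      have c1 := Real.abs_cos_le_one δ
      have c2 : |ip (x - G.xc) (nrm G.th)| ≤ X.B.Ke * (X.E.ε ^ (-η) * X.st) :=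
        hx2.trans (mul_le_mul_of_nonneg_left (rqb_pow_st H hsa) hKe)
      calc |Real.cos δ| * |ip (x - G.xc) (nrm G.th)| ≤ 1 * |ip (x - G.xc) (nrm G.th)| :=
            mul_le_mul_of_nonneg_right c1 (abs_nonneg _)
        _ ≤ _ := by rw [one_mul]; exact c2
    have b2 : |Real.sin δ * ip (x - y) (tang G.th)| ≤ 3 * Kn * (X.E.ε ^ (-η) * X.st) := by
      rw [abs_mul]
      have c1 : |ip (x - y) (tang G.th)| ≤ 3 * X.E.ε ^ (-X.θ) * X.sr := by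
        have d1 := (rpa_ip_le_norm G.th ((X.T.site i).X - X.line A G.tc)).1
        rw [rpa_toP_sub, ← hx, ← hy] at d1
        have d2 := rqb_cand_X H hA
        rw [← htc, ← norm_neg, neg_sub] at d2
        exact d1.trans d2
      have c2 : |Real.sin δ| * |ip (x - y) (tang G.th)| ≤ (Kn * X.E.ε ^ (4 * X.h)) * (3 * X.E.ε ^ (-X.θ) * X.sr) :=
        mul_le_mul hpred c1 (abs_nonneg _) (by have := rqb_pow_pos H (4 * X.h); positivity)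
      refine c2.trans ?_
      rw [rqb_sr_st H]
      have e2 : Kn * X.E.ε ^ (4 * X.h) * (3 * X.E.ε ^ (-X.θ) * (X.E.ε ^ (-X.h) * X.st))
          = 3 * Kn * ((X.E.ε ^ (4 * X.h) * X.E.ε ^ (-X.θ) * X.E.ε ^ (-X.h)) * X.st) := by ring
      rw [e2, ← Real.rpow_add (rqb_eps0 H), ← Real.rpow_add (rqb_eps0 H)]
      refine mul_le_mul_of_nonneg_left (mul_le_mul_of_nonneg_right ?_ hst.le) (by positivity)
      refine rqb_pow_le H ?_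
      have := H.θh
      have := H.h0
      have := H.η0
      linarith
    have := abs_add_le (Real.cos δ * ip (x - G.xc) (nrm G.th)) (Real.sin δ * ip (x - y) (tang G.th))
    have e3 : (X.B.Ke + 3 * Kn) * X.E.ε ^ (-η) * X.st = X.B.Ke * (X.E.ε ^ (-η) * X.st) + 3 * Kn * (X.E.ε ^ (-η) * X.st) := by ring
    rw [e3]
    linarith

/-- **the fine label, isotropic case.**
PROOF.  `G = geo g`: `InRect Ke ε (b+t) (a+t) th (toP X_i - G.xc)` with `u - η ≤ b, a` (`H.shB'`, `H.shA`): both frame components are `≤ Ke ε^(-η) σ_t`, so both coordinates of `toP X_i - G.xc` are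
`≤ 2 Ke ε^(-η) σ_t` (`rpa_coord_le`);  `rpa_floor_list` twice, product. -/
theorem rqb_fine_iso (H : X.Ok Kn Kc η k kf αf) (hel : X.el = false) (g : X.T.Γ) :
    ∃ S : Finset (ℤ × ℤ), (S.card : ℝ) ≤ ((4 * X.B.Ke + 2) * X.E.ε ^ (-η)) ^ 2 ∧
      ∀ o, 0 < X.T.P.p o → X.T.D o = g → X.fine (X.T.O o) ∈ S := by
  have hKe := rqb_Ke H
  have hst := rqb_st_pos H
  have hη1 := rqb_one_le_pow H H.η0
  have hη0 : 0 < X.E.ε ^ (-η) := rqb_pow_pos H _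
  obtain ⟨G, hG⟩ : ∃ G : Geo, G = X.T.geo g := ⟨_, rfl⟩
  obtain ⟨S₁, hc₁, hS₁⟩ := rpa_floor_list G.xc.1 (2 * X.B.Ke * X.E.ε ^ (-η)) X.st hst (by positivity)
  obtain ⟨S₂, hc₂, hS₂⟩ := rpa_floor_list G.xc.2 (2 * X.B.Ke * X.E.ε ^ (-η)) X.st hst (by positivity)
  refine ⟨S₁ ×ˢ S₂, ?_, ?_⟩
  · rw [Finset.card_product]
    push_cast
    have h1 : 2 * (2 * X.B.Ke * X.E.ε ^ (-η)) + 2 ≤ (4 * X.B.Ke + 2) * X.E.ε ^ (-η) := by nlinarith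
    rw [sq]
    exact mul_le_mul (hc₁.trans h1) (hc₂.trans h1) (Nat.cast_nonneg _) (by positivity)
  · intro o ho hD
    obtain ⟨i, hi⟩ : ∃ i, i = X.T.O o := ⟨_, rfl⟩
    rw [← hi]
    have hgeo := rqb_geo H o ho
    rw [hD, ← hG, ← hi] at hgeo
    obtain ⟨-, -, -, -, -, -, hx1, hx2⟩ := hgeo
    have hsa := H.shA o ho
    have hsb := H.shB' hel o ho
    rw [hD, ← hG] at hsa hsb
    have b1 : |ip (toP (X.T.site i).X - G.xc) (tang G.th)| ≤ X.B.Ke * (X.E.ε ^ (-η) * X.st) :=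
      hx1.trans (mul_le_mul_of_nonneg_left (rqb_pow_st H hsb) hKe)
    have b2 : |ip (toP (X.T.site i).X - G.xc) (nrm G.th)| ≤ X.B.Ke * (X.E.ε ^ (-η) * X.st) :=
      hx2.trans (mul_le_mul_of_nonneg_left (rqb_pow_st H hsa) hKe)
    obtain ⟨c1, c2⟩ := rpa_coord_le G.th (toP (X.T.site i).X - G.xc)
    have hfine : X.fine i = (⌊(X.T.site i).X 0 / X.st⌋, ⌊(X.T.site i).X 1 / X.st⌋) := by
      unfold RqD.fine
      rw [if_neg (by rw [hel]; simp)]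
      rfl
    rw [hfine, Finset.mem_product]
    have e : 2 * X.B.Ke * X.E.ε ^ (-η) * X.st = X.B.Ke * (X.E.ε ^ (-η) * X.st) + X.B.Ke * (X.E.ε ^ (-η) * X.st) := by ring
    refine ⟨hS₁ _ ?_, hS₂ _ ?_⟩
    · rw [e]
      have : (toP (X.T.site i).X - G.xc).1 = (X.T.site i).X 0 - G.xc.1 := rfl
      rw [this] at c1
      linarith
    · rw [e]
      have : (toP (X.T.site i).X - G.xc).2 = (X.T.site i).X 1 - G.xc.2 := rfl
      rw [this] at c2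
      linarith

/-- three-term triangle inequality for one frame component -/
theorem rqb_tri (zF zA zi c e : ℝ × ℝ) {α β δ : ℝ} (h1 : |ip (zA - zF) e| ≤ α) (h2 : |ip (zA - zi) e| ≤ β)
    (h3 : |ip (zi - c) e| ≤ δ) : |ip zF e - ip c e| ≤ α + β + δ := by
  have e1 : ip zF e - ip c e = -(ip (zA - zF) e) + ip (zA - zi) e + ip (zi - c) e := by
    rw [rpa_ip_sub, rpa_ip_sub, rpa_ip_sub]
    ring
  rw [e1]
  obtain ⟨a1, a2⟩ := abs_le.1 h1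
  obtain ⟨b1, b2⟩ := abs_le.1 h2
  obtain ⟨c1, c2⟩ := abs_le.1 h3
  rw [abs_le]
  constructor <;> linarith

/-- the four frame coordinates of the centres of the cells of `F_T` are within bounded multiples of the meshes of points determined by `g`.
PROOF.  `G = geo (T.D o)`, `i = T.O o`, `vF = cellC (ε^(u-h)) (cell (ε^(u-h)) V_A)`, `xF = cellC σ_r (cell σ_r (line A C_i))`.
`toP vF - G.vc = (toP vF - toP V_A) + (toP V_A - toP V_i) + (toP V_i - G.vc)`: frame components `≤ ε^(u-h)` (`rpa_cell_ip`), `≤ 2 Lg ε^u` (`rqb_cand_V`, `rpa_ip_le_norm`), `≤ Ke ε^b` resp. `Ke ε^a` (`GeoOK`).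
`ε^(u-h), ε^u, ε^b ≤ ε^bG` (elongated: `bG = bs ≤ b` by `H.cut.bsb`, `bs ≤ u - h`; isotropic: `bG = u - h ≤ u - η ≤ b`), `ε^a ≤ ε^(u-η) ≤ ε^(u-h)`.
Positions: `≤ σ_r`, `≤ 3 ε^(-θ) σ_r` (`rqb_cand_X`), `≤ Ke ε^(b+t)` resp. `Ke ε^(a+t)`;  `σ_r = ε^(u-h+t) ≤ ε^(bG+t)`; `1 ≤ ε^(-θ)`. -/
theorem rqb_Y_coord (H : X.Ok Kn Kc η k kf αf) (o : X.T.Ω) (ho : 0 < X.T.P.p o) (A : X.At.𝔸)
    (hA : A ∈ X.Cand (X.T.O o)) :
    |ip (toP (cellC (X.E.ε ^ (X.u - X.h)) (X.F1 (o, A)).2.1)) (tang (X.T.geo (X.T.D o)).th)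
        - ip (X.T.geo (X.T.D o)).vc (tang (X.T.geo (X.T.D o)).th)| ≤ (1 + 2 * X.Lg + X.B.Ke) * X.E.ε ^ X.bG ∧
    |ip (toP (cellC (X.E.ε ^ (X.u - X.h)) (X.F1 (o, A)).2.1)) (nrm (X.T.geo (X.T.D o)).th)
        - ip (X.T.geo (X.T.D o)).vc (nrm (X.T.geo (X.T.D o)).th)| ≤ (1 + 2 * X.Lg + X.B.Ke) * X.E.ε ^ (X.u - X.h) ∧
    |ip (toP (cellC X.sr (X.F1 (o, A)).2.2)) (tang (X.T.geo (X.T.D o)).th)
        - ip (X.T.geo (X.T.D o)).xc (tang (X.T.geo (X.T.D o)).th)|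
      ≤ ((4 + X.B.Ke) * X.E.ε ^ (-X.θ)) * X.E.ε ^ (X.bG + X.T.t) ∧
    |ip (toP (cellC X.sr (X.F1 (o, A)).2.2)) (nrm (X.T.geo (X.T.D o)).th)
        - ip (X.T.geo (X.T.D o)).xc (nrm (X.T.geo (X.T.D o)).th)|
      ≤ ((4 + X.B.Ke) * X.E.ε ^ (-X.θ)) * X.E.ε ^ (X.u - X.h + X.T.t) := by
  obtain ⟨G, hG⟩ : ∃ G, G = X.T.geo (X.T.D o) := ⟨_, rfl⟩
  obtain ⟨-, -, -, -, -, ⟨gv1, gv2⟩, gx1, gx2⟩ := rqb_geo H o ho
  rw [← hG] at gv1 gv2 gx1 gx2 ⊢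
  have hKe := rqb_Ke H
  have hLg : 0 ≤ X.Lg := by linarith [H.Lg1]
  have hh := H.h0
  -- exponents
  have hbG := (rqb_bG H).2
  have hbGb : X.bG ≤ G.b := by
    rw [hG]
    unfold RqD.bG
    split_ifs with hel
    · exact H.cut.bsb o ho
    · have := H.shB' (by simpa using hel) o ho
      linarith [H.ηh]
  have hua : X.u - X.h ≤ G.a := by
    rw [hG]
    have := H.shA o ho
    linarith [H.ηh]
  have hw : 0 < X.E.ε ^ (X.u - X.h) := rqb_pow_pos H _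
  have hsr := rqb_sr_pos H
  have hth := rqb_one_le_pow H H.θ0.le
  -- the velocity
  have v1 := rpa_cell_ip hw (X.At.asite A).V G.th
  have v2 := rpa_ip_le_norm G.th ((X.At.asite A).V - (X.T.site (X.T.O o)).V)
  rw [rpa_toP_sub] at v2
  have v3 := rqb_cand_V H hA
  -- the position
  have x1 := rpa_cell_ip hsr (X.line A (X.T.site (X.T.O o)).C) G.th
  have x2 := rpa_ip_le_norm G.th (X.line A (X.T.site (X.T.O o)).C - (X.T.site (X.T.O o)).X)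
  rw [rpa_toP_sub] at x2
  have x3 := rqb_cand_X H hA
  have p0 := rqb_pow_pos H X.bG
  have p1 : X.E.ε ^ (X.u - X.h) ≤ X.E.ε ^ X.bG := rqb_pow_le H hbG
  have p2 : X.E.ε ^ X.u ≤ X.E.ε ^ (X.u - X.h) := rqb_pow_le H (by linarith)
  have p3 : X.E.ε ^ G.b ≤ X.E.ε ^ X.bG := rqb_pow_le H hbGb
  have p4 : X.E.ε ^ G.a ≤ X.E.ε ^ (X.u - X.h) := rqb_pow_le H hua
  have q0 := rqb_pow_pos H (X.bG + X.T.t)
  have q0' := rqb_pow_pos H (X.u - X.h + X.T.t)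
  have q1 : X.sr ≤ X.E.ε ^ (X.bG + X.T.t) := by
    rw [rqb_sr]
    exact rqb_pow_le H (by linarith)
  have q3 : X.E.ε ^ (G.b + X.T.t) ≤ X.E.ε ^ (X.bG + X.T.t) := rqb_pow_le H (by linarith)
  have q4 : X.E.ε ^ (G.a + X.T.t) ≤ X.E.ε ^ (X.u - X.h + X.T.t) := rqb_pow_le H (by linarith)
  have q5 : X.sr = X.E.ε ^ (X.u - X.h + X.T.t) := rqb_sr X
  refine ⟨?_, ?_, ?_, ?_⟩
  · refine (rqb_tri _ _ _ _ _ v1.1 (v2.1.trans v3) gv1).trans ?_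
    have a1 : 2 * X.Lg * X.E.ε ^ X.u ≤ 2 * X.Lg * X.E.ε ^ X.bG := mul_le_mul_of_nonneg_left (p2.trans p1) (by linarith)
    have a2 : X.B.Ke * X.E.ε ^ G.b ≤ X.B.Ke * X.E.ε ^ X.bG := mul_le_mul_of_nonneg_left p3 hKe
    linarith
  · refine (rqb_tri _ _ _ _ _ v1.2 (v2.2.trans v3) gv2).trans ?_
    have a1 : 2 * X.Lg * X.E.ε ^ X.u ≤ 2 * X.Lg * X.E.ε ^ (X.u - X.h) := mul_le_mul_of_nonneg_left p2 (by linarith)
    have a2 : X.B.Ke * X.E.ε ^ G.a ≤ X.B.Ke * X.E.ε ^ (X.u - X.h) := mul_le_mul_of_nonneg_left p4 hKe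
    linarith
  · refine (rqb_tri _ _ _ _ _ x1.1 (x2.1.trans x3) gx1).trans ?_
    have a0 : X.sr ≤ X.E.ε ^ (-X.θ) * X.E.ε ^ (X.bG + X.T.t) := by
      calc X.sr ≤ 1 * X.E.ε ^ (X.bG + X.T.t) := by rw [one_mul]; exact q1
        _ ≤ _ := mul_le_mul_of_nonneg_right hth q0.le
    have a1 : 3 * X.E.ε ^ (-X.θ) * X.sr ≤ 3 * X.E.ε ^ (-X.θ) * X.E.ε ^ (X.bG + X.T.t) :=
      mul_le_mul_of_nonneg_left q1 (by linarith)
    have a2 : X.B.Ke * X.E.ε ^ (G.b + X.T.t) ≤ X.B.Ke * (X.E.ε ^ (-X.θ) * X.E.ε ^ (X.bG + X.T.t)) := by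
      refine mul_le_mul_of_nonneg_left ?_ hKe
      calc X.E.ε ^ (G.b + X.T.t) ≤ 1 * X.E.ε ^ (X.bG + X.T.t) := by rw [one_mul]; exact q3
        _ ≤ _ := mul_le_mul_of_nonneg_right hth q0.le
    linarith
  · refine (rqb_tri _ _ _ _ _ x1.2 (x2.2.trans x3) gx2).trans ?_
    rw [q5]
    have a0 : X.E.ε ^ (X.u - X.h + X.T.t) ≤ X.E.ε ^ (-X.θ) * X.E.ε ^ (X.u - X.h + X.T.t) := by
      calc X.E.ε ^ (X.u - X.h + X.T.t) = 1 * X.E.ε ^ (X.u - X.h + X.T.t) := (one_mul _).symm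
        _ ≤ _ := mul_le_mul_of_nonneg_right hth q0'.le
    have a2 : X.B.Ke * X.E.ε ^ (G.a + X.T.t) ≤ X.B.Ke * (X.E.ε ^ (-X.θ) * X.E.ε ^ (X.u - X.h + X.T.t)) :=
      mul_le_mul_of_nonneg_left (q4.trans a0) hKe
    linarith

/-- **the list of `Ȳ` over one aperture label.**
PROOF.  `G = geo g`.  `Yb (o, A) = ⟨bG, u-h, G.tc, G.th, (w1 m1) • tang + (w2 m2) • nrm, (w3 m3) • tang + (w4 m4) • nrm⟩` with the four floors `m1 .. m4` of `rqRnd`; by `rqb_Y_coord` and `rpa_floor_list`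
they lie in lists of sizes `≤ 2 (1 + 2 Lg + Ke) + 2` (twice), `≤ 2 (4 + Ke) ε^(-θ) + 2 ≤ (10 + 2 Ke) ε^(-θ)` (twice);  image of the product of the four lists under the map `(m1,m2,m3,m4) ↦ Geo`.
(`C1 (o,A) = C_i = G.tc` by `GeoOK`.) -/
theorem rqb_Y_list (H : X.Ok Kn Kc η k kf αf) (g : X.T.Γ) :
    ∃ S : Finset Geo, (S.card : ℝ) ≤ rqbCY X.B.Ke X.Lg * X.E.ε ^ (-(2 * X.θ)) ∧
      ∀ (o : X.T.Ω) (A : X.At.𝔸), 0 < X.T.P.p o → A ∈ X.Cand (X.T.O o) → X.T.D o = g → X.Yb (o, A) ∈ S := by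
  have hKe := rqb_Ke H
  have hLg : 0 ≤ X.Lg := by linarith [H.Lg1]
  have hth := rqb_one_le_pow H H.θ0.le
  obtain ⟨S1, c1, m1⟩ := rpa_floor_list (ip (X.T.geo g).vc (tang (X.T.geo g).th)) (1 + 2 * X.Lg + X.B.Ke) (X.E.ε ^ X.bG)
    (rqb_pow_pos H _) (by linarith)
  obtain ⟨S2, c2, m2⟩ := rpa_floor_list (ip (X.T.geo g).vc (nrm (X.T.geo g).th)) (1 + 2 * X.Lg + X.B.Ke) (X.E.ε ^ (X.u - X.h))
    (rqb_pow_pos H _) (by linarith)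
  obtain ⟨S3, c3, m3⟩ := rpa_floor_list (ip (X.T.geo g).xc (tang (X.T.geo g).th)) ((4 + X.B.Ke) * X.E.ε ^ (-X.θ))
    (X.E.ε ^ (X.bG + X.T.t)) (rqb_pow_pos H _) (mul_nonneg (by linarith) (by linarith))
  obtain ⟨S4, c4, m4⟩ := rpa_floor_list (ip (X.T.geo g).xc (nrm (X.T.geo g).th)) ((4 + X.B.Ke) * X.E.ε ^ (-X.θ))
    (X.E.ε ^ (X.u - X.h + X.T.t)) (rqb_pow_pos H _) (mul_nonneg (by linarith) (by linarith))
  refine ⟨((S1 ×ˢ S2) ×ˢ (S3 ×ˢ S4)).image (fun m : (ℤ × ℤ) × (ℤ × ℤ) =>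
    (⟨X.bG, X.u - X.h, (X.T.geo g).tc, (X.T.geo g).th,
      (X.E.ε ^ X.bG * (m.1.1 : ℝ)) • tang (X.T.geo g).th + (X.E.ε ^ (X.u - X.h) * (m.1.2 : ℝ)) • nrm (X.T.geo g).th,
      (X.E.ε ^ (X.bG + X.T.t) * (m.2.1 : ℝ)) • tang (X.T.geo g).th
        + (X.E.ε ^ (X.u - X.h + X.T.t) * (m.2.2 : ℝ)) • nrm (X.T.geo g).th⟩ : Geo)), ?_, ?_⟩
  · have h1 : ((((S1 ×ˢ S2) ×ˢ (S3 ×ˢ S4)).image (fun m : (ℤ × ℤ) × (ℤ × ℤ) =>
        (⟨X.bG, X.u - X.h, (X.T.geo g).tc, (X.T.geo g).th,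
          (X.E.ε ^ X.bG * (m.1.1 : ℝ)) • tang (X.T.geo g).th + (X.E.ε ^ (X.u - X.h) * (m.1.2 : ℝ)) • nrm (X.T.geo g).th,
          (X.E.ε ^ (X.bG + X.T.t) * (m.2.1 : ℝ)) • tang (X.T.geo g).th
            + (X.E.ε ^ (X.u - X.h + X.T.t) * (m.2.2 : ℝ)) • nrm (X.T.geo g).th⟩ : Geo))).card : ℝ)
        ≤ ((S1.card : ℝ) * S2.card) * ((S3.card : ℝ) * S4.card) := by
      have := Finset.card_image_le (s := (S1 ×ˢ S2) ×ˢ (S3 ×ˢ S4)) (f := fun m : (ℤ × ℤ) × (ℤ × ℤ) =>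
        (⟨X.bG, X.u - X.h, (X.T.geo g).tc, (X.T.geo g).th,
          (X.E.ε ^ X.bG * (m.1.1 : ℝ)) • tang (X.T.geo g).th + (X.E.ε ^ (X.u - X.h) * (m.1.2 : ℝ)) • nrm (X.T.geo g).th,
          (X.E.ε ^ (X.bG + X.T.t) * (m.2.1 : ℝ)) • tang (X.T.geo g).th
            + (X.E.ε ^ (X.u - X.h + X.T.t) * (m.2.2 : ℝ)) • nrm (X.T.geo g).th⟩ : Geo))
      rw [Finset.card_product, Finset.card_product, Finset.card_product] at this
      exact_mod_cast this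
    refine h1.trans ?_
    have d1 : (S1.card : ℝ) ≤ 4 + 4 * X.Lg + 2 * X.B.Ke := by linarith
    have d2 : (S2.card : ℝ) ≤ 4 + 4 * X.Lg + 2 * X.B.Ke := by linarith
    have d3 : (S3.card : ℝ) ≤ (10 + 2 * X.B.Ke) * X.E.ε ^ (-X.θ) := by nlinarith
    have d4 : (S4.card : ℝ) ≤ (10 + 2 * X.B.Ke) * X.E.ε ^ (-X.θ) := by nlinarith
    have e : X.E.ε ^ (-(2 * X.θ)) = X.E.ε ^ (-X.θ) * X.E.ε ^ (-X.θ) := by
      rw [← Real.rpow_add (rqb_eps0 H)]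
      congr 1
      ring
    have f1 : (S1.card : ℝ) * S2.card ≤ (4 + 4 * X.Lg + 2 * X.B.Ke) * (4 + 4 * X.Lg + 2 * X.B.Ke) :=
      mul_le_mul d1 d2 (Nat.cast_nonneg _) (by linarith)
    have f2 : (S3.card : ℝ) * S4.card ≤ ((10 + 2 * X.B.Ke) * X.E.ε ^ (-X.θ)) * ((10 + 2 * X.B.Ke) * X.E.ε ^ (-X.θ)) :=
      mul_le_mul d3 d4 (Nat.cast_nonneg _) (mul_nonneg (by linarith) (by linarith))
    calc ((S1.card : ℝ) * S2.card) * ((S3.card : ℝ) * S4.card)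
        ≤ ((4 + 4 * X.Lg + 2 * X.B.Ke) * (4 + 4 * X.Lg + 2 * X.B.Ke))
          * (((10 + 2 * X.B.Ke) * X.E.ε ^ (-X.θ)) * ((10 + 2 * X.B.Ke) * X.E.ε ^ (-X.θ))) :=
          mul_le_mul f1 f2 (mul_nonneg (Nat.cast_nonneg _) (Nat.cast_nonneg _)) (mul_nonneg (by linarith) (by linarith))
      _ = rqbCY X.B.Ke X.Lg * X.E.ε ^ (-(2 * X.θ)) := by
          rw [e]
          unfold rqbCY
          ring
  · intro o A ho hA hD
    subst hD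
    obtain ⟨y1, y2, y3, y4⟩ := rqb_Y_coord H o ho A hA
    have htc : (X.T.geo (X.T.D o)).tc = (X.T.site (X.T.O o)).C := (rqb_geo H o ho).2.2.2.2.1
    refine Finset.mem_image.2 ⟨((_, _), (_, _)), Finset.mem_product.2 ⟨Finset.mem_product.2 ⟨m1 _ y1, m2 _ y2⟩,
      Finset.mem_product.2 ⟨m3 _ y3, m4 _ y4⟩⟩, ?_⟩
    simp only
    rw [htc]
    rfl

end Claimed.Agent.R255
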