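-- KEEP
import Claimed.Agent.R255.Rep.RqbLists
import Claimed.Agent.R255.Rep.RqbFaith
import Claimed.Agent.R255.Rep.RqbGrow

/-!
# Row 255 (BR paper), Sec. 11, stage S6 REPAY, PART B: EXPORTS      (architect helper69; prefix `rqb_`)

For `X : RqD`, `H : X.Ok Kn Kc η k kf αf`, `hne : X.Ne` (candidates exist on the support; part A).  NATURAL units, `ℓ = lg ε`.
* `rqb_r1`     : `H(Q | T, C, J) ≤ 2 θ ℓ + log 36`
* `rqb_r2`     : `H(Z | T, D, J) ≤ (2 θ + 2 η) ℓ + log (rqbC2 Ke Kn)`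
* `rqb_e6`     : `H(Ȳ | D, J) ≤ 2 θ ℓ + log (rqbCY Ke Lg)`
* `rqb_r8`     : `w(D) - w(G) ≤ d h + 2 η` pointwise on the support
* `rqb_export` : `ℓ (w(G) - 2 b_*) + H(T|D,J) + 2 H(C|T,J) + I(T;D|F,J) ≤ ℓ (E g(J) + 2 γ h + ν + 2 θ) + log (rqbCY Ke Lg)`   for `ε < ε₀(γ, Ca, Hmax, h, ν, Mu)`
                 (= (11.faithful-classical-bound-averaged) + (11.information-before-credit), the label `G` is eliminated)
-/

set_option autoImplicit false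

namespace Claimed.Agent.R255

open scoped BigOperators
open Classical
open FLaw Pkt Osc

variable {X : RqD} {Kn Kc η k kf αf : ℝ}

/-- the anchor is read off from the aperture label -/
theorem rqb_tc (H : X.Ok Kn Kc η k kf αf) (o : X.T.Ω) (ho : 0 < X.T.P.p o) :
    (X.T.geo (X.T.D o)).tc = (X.T.site (X.T.O o)).C := (rqb_geo H o ho).2.2.2.2.1

theorem rqb_log_mul_pow (H : X.Ok Kn Kc η k kf αf) {C : ℝ} (hC : 0 < C) (x : ℝ) :
    Real.log (C * X.E.ε ^ (-x)) = x * lg X.E.ε + Real.log C := by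
  rw [Real.log_mul hC.ne' (rqb_pow_pos H _).ne', rqb_log_pow H]
  ring

/-- **(r1)** -/
theorem rqb_r1 (H : X.Ok Kn Kc η k kf αf) (hne : X.Ne) :
    X.R1.entC X.Q1 (pair (pair X.A1 X.C1) X.J1) ≤ 2 * X.θ * lg X.E.ε + Real.log 36 := by
  rw [← rqb_log_mul_pow H (by norm_num : (0 : ℝ) < 36)]
  refine ent_entC_le_log_nval _ _ _ fun ω₀ => ?_
  obtain ⟨S, hS, hm⟩ := rqb_Q_list H ω₀.2 (X.C1 ω₀)
  refine ⟨S, hS, fun ω hω _ he => ?_⟩
  simp only [pair, Prod.mk.injEq] at he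
  obtain ⟨-, h2⟩ := (rqb_supp1 hne ω).1 hω
  have hA : ω.2 = ω₀.2 := he.1.1
  exact hm (X.T.O ω.1) (hA ▸ h2) he.1.2

/-- the fine label: both cases -/
theorem rqb_fine_list (H : X.Ok Kn Kc η k kf αf) (A : X.At.𝔸) (g : X.T.Γ) :
    ∃ S : Finset (ℤ × ℤ), (S.card : ℝ) ≤ (4 * X.B.Ke + 6 * |Kn| + 2) ^ 2 * X.E.ε ^ (-(2 * η)) ∧
      ∀ o, 0 < X.T.P.p o → A ∈ X.Cand (X.T.O o) → X.T.D o = g → X.fine (X.T.O o) ∈ S := by
  have hKe := rqb_Ke H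
  have hp : 0 < X.E.ε ^ (-η) := rqb_pow_pos H _
  have h1 : 1 ≤ X.E.ε ^ (-η) := rqb_one_le_pow H H.η0
  have e2 : X.E.ε ^ (-(2 * η)) = X.E.ε ^ (-η) * X.E.ε ^ (-η) := by
    rw [← Real.rpow_add (rqb_eps0 H)]
    congr 1
    ring
  have hK : 0 ≤ |Kn| := abs_nonneg _
  have hKn : Kn ≤ |Kn| := le_abs_self _
  by_cases hel : X.el = true
  · obtain ⟨S, hS, hm⟩ := rqb_fine_el H hel A g
    refine ⟨S, hS.trans ?_, hm⟩
    rw [e2]
    have a1 : (2 * X.B.Ke + 6 * Kn + 2) * X.E.ε ^ (-η) ≤ (4 * X.B.Ke + 6 * |Kn| + 2) * X.E.ε ^ (-η) :=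
      mul_le_mul_of_nonneg_right (by linarith) hp.le
    have a2 : (4 * X.B.Ke + 6 * |Kn| + 2) * X.E.ε ^ (-η)
        ≤ (4 * X.B.Ke + 6 * |Kn| + 2) ^ 2 * (X.E.ε ^ (-η) * X.E.ε ^ (-η)) := by
      have b1 : (4 * X.B.Ke + 6 * |Kn| + 2) ≤ (4 * X.B.Ke + 6 * |Kn| + 2) ^ 2 := by nlinarith
      have b2 : X.E.ε ^ (-η) ≤ X.E.ε ^ (-η) * X.E.ε ^ (-η) := by nlinarith
      exact mul_le_mul b1 b2 hp.le (by positivity)
    exact a1.trans a2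
  · have hel' : X.el = false := by simpa using hel
    obtain ⟨S, hS, hm⟩ := rqb_fine_iso H hel' g
    refine ⟨S, hS.trans ?_, fun o ho _ hg => hm o ho hg⟩
    rw [e2, mul_pow, sq (X.E.ε ^ (-η))]
    refine mul_le_mul_of_nonneg_right ?_ (by positivity)
    exact pow_le_pow_left₀ (by positivity) (by linarith) 2

/-- **(r2)** -/
theorem rqb_r2 (H : X.Ok Kn Kc η k kf αf) (hne : X.Ne) :
    X.R1.entC X.Z1 (pair X.A1 (pair X.D1 X.J1)) ≤ (2 * X.θ + 2 * η) * lg X.E.ε + Real.log (rqbC2 X.B.Ke Kn) := by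
  have hKe := rqb_Ke H
  have hC : 0 < rqbC2 X.B.Ke Kn := by
    unfold rqbC2
    have : 0 ≤ |Kn| := abs_nonneg _
    positivity
  rw [← rqb_log_mul_pow H hC]
  refine ent_entC_le_log_nval _ _ _ fun ω₀ => ?_
  obtain ⟨S1, hS1, hm1⟩ := rqb_Q_list H ω₀.2 (X.T.geo (X.D1 ω₀)).tc
  obtain ⟨S2, hS2, hm2⟩ := rqb_fine_list H ω₀.2 (X.D1 ω₀)
  refine ⟨S1 ×ˢ S2, ?_, fun ω hω _ he => ?_⟩
  · rw [Finset.card_product]
    push_cast
    have e : rqbC2 X.B.Ke Kn * X.E.ε ^ (-(2 * X.θ + 2 * η))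
        = (36 * X.E.ε ^ (-(2 * X.θ))) * ((4 * X.B.Ke + 6 * |Kn| + 2) ^ 2 * X.E.ε ^ (-(2 * η))) := by
      have : X.E.ε ^ (-(2 * X.θ + 2 * η)) = X.E.ε ^ (-(2 * X.θ)) * X.E.ε ^ (-(2 * η)) := by
        rw [← Real.rpow_add (rqb_eps0 H)]
        congr 1
        ring
      rw [this]
      unfold rqbC2
      ring
    rw [e]
    exact mul_le_mul hS1 hS2 (Nat.cast_nonneg _) (by have := rqb_pow_pos H (-(2 * X.θ)); positivity)
  · simp only [pair, Prod.mk.injEq] at he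
    obtain ⟨h1, h2⟩ := (rqb_supp1 hne ω).1 hω
    have hA : ω.2 = ω₀.2 := he.1
    have hD : X.T.D ω.1 = X.D1 ω₀ := he.2.1
    have hpos := rqb_pos_of_ne _ h1
    refine Finset.mem_product.2 ⟨hm1 (X.T.O ω.1) (hA ▸ h2) ?_, hm2 ω.1 hpos (hA ▸ h2) hD⟩
    rw [← hD]
    exact (rqb_tc H ω.1 hpos).symm

/-- **(e6)** : the list of `Ȳ` over `D` -/
theorem rqb_e6 (H : X.Ok Kn Kc η k kf αf) (hne : X.Ne) :
    X.R1.entC X.Yb (pair X.D1 X.J1) ≤ 2 * X.θ * lg X.E.ε + Real.log (rqbCY X.B.Ke X.Lg) := by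
  have hKe := rqb_Ke H
  have hC : 0 < rqbCY X.B.Ke X.Lg := by
    unfold rqbCY
    have := H.Lg1
    positivity
  rw [← rqb_log_mul_pow H hC]
  refine ent_entC_le_log_nval _ _ _ fun ω₀ => ?_
  obtain ⟨S, hS, hm⟩ := rqb_Y_list H (X.D1 ω₀)
  refine ⟨S, hS, fun ω hω _ he => ?_⟩
  simp only [pair, Prod.mk.injEq] at he
  obtain ⟨h1, h2⟩ := (rqb_supp1 hne ω).1 hω
  exact hm ω.1 ω.2 (rqb_pos_of_ne _ h1) h2 he.1

/-- **(r8)** : the weight change, pointwise -/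
theorem rqb_r8 (H : X.Ok Kn Kc η k kf αf) (hγ0 : 0 < X.γ) (hγ1 : X.γ < 1) (o : X.T.Ω) (ho : 0 < X.T.P.p o) :
    wt X.γ (X.T.geo (X.T.D o)) - X.wG ≤ X.d * X.h + 2 * η := by
  obtain ⟨g0, g1, -, g3, -⟩ := rqb_geo H o ho
  have hη := H.η0
  have hh := H.h0
  unfold wt RqD.wG RqD.bG RqD.d
  by_cases hel : X.el = true
  · have hb := H.shB hel o ho
    rw [if_pos hel, if_pos hel]
    nlinarith
  · rw [if_neg hel, if_neg hel]
    nlinarith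

/-- the four functional dependences of `rqb_info` -/
theorem rqb_fn (H : X.Ok Kn Kc η k kf αf) (hne : X.Ne) :
    X.R1.Fn (pair X.D1 X.J1) X.C1 ∧ X.R1.Fn (pair X.Yb X.J1) X.C1 ∧ X.R1.Fn (pair X.F1 X.J1) X.C1 ∧
      X.R1.Fn (pair (pair X.A1 X.C1) X.J1) X.F1 := by
  refine ⟨?_, ?_, ?_, ?_⟩
  · intro ω ω' hω hω' he
    simp only [pair, Prod.mk.injEq] at he
    have h1 := rqb_tc H ω.1 (rqb_pos_of_ne _ ((rqb_supp1 hne ω).1 hω).1)
    have h2 := rqb_tc H ω'.1 (rqb_pos_of_ne _ ((rqb_supp1 hne ω').1 hω').1)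
    have hD : X.T.D ω.1 = X.T.D ω'.1 := he.1
    show (X.T.site (X.T.O ω.1)).C = (X.T.site (X.T.O ω'.1)).C
    rw [← h1, ← h2, hD]
  · intro ω ω' _ _ he
    simp only [pair, Prod.mk.injEq] at he
    exact congrArg Geo.tc he.1
  · intro ω ω' _ _ he
    simp only [pair, Prod.mk.injEq] at he
    exact congrArg Prod.fst he.1
  · intro ω ω' _ _ he
    simp only [pair, Prod.mk.injEq] at he
    have hA : ω.2 = ω'.2 := he.1.1
    have hC : X.C1 ω = X.C1 ω' := he.1.2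
    unfold RqD.F1
    rw [hA, hC]

/-- the support of the two-copy law -/
theorem rqb_supp2 (hne : X.Ne) (x : (X.T.Ω × X.At.𝔸) × (X.T.Ω × X.At.𝔸)) (hx : 0 < X.R2.p x) :
    0 < X.T.P.p x.1.1 ∧ x.1.2 ∈ X.Cand (X.T.O x.1.1) ∧ 0 < X.T.P.p x.2.1 ∧ x.2.2 ∈ X.Cand (X.T.O x.2.1) ∧
      X.F1 x.1 = X.F1 x.2 ∧ X.J1 x.1 = X.J1 x.2 := by
  obtain ⟨h1, h2, h3⟩ := (rep_two_supp X.R1 (pair X.F1 X.J1) x).1 hx.ne'
  simp only [pair, Prod.mk.injEq] at h3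
  obtain ⟨a1, a2⟩ := (rqb_supp1 hne x.1).1 h1
  obtain ⟨b1, b2⟩ := (rqb_supp1 hne x.2).1 h2
  exact ⟨rqb_pos_of_ne _ a1, a2, rqb_pos_of_ne _ b1, b2, h3.1, h3.2⟩

/-- **(r5)** on the two-copy law: (11.faithful-classical-bound-averaged) for `G = Ȳ` of the second copy -/
theorem rqb_r5 (γ : ℝ) (hcl : UnivBound γ γ) (Ca Hmax h ν : ℝ) (Mu : ℕ) (hh : 0 < h) (hν : 0 < ν) :
    ∃ ε₀ : ℝ, 0 < ε₀ ∧ ∀ (X : RqD) (Kn Kc η k kf αf : ℝ), X.Ok Kn Kc η k kf αf → X.Ne → X.γ = γ → X.p.Ca = Ca →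
      X.B.Hmax = Hmax → X.B.Mu = Mu → X.h = h → X.E.ε < ε₀ →
      (X.wG - 2 * X.bs) + (X.R2.entC (fun x => X.A1 x.1) (pair (fun x => X.Yb x.2) (fun x => X.J1 x.1))
          + 2 * X.R1.entC X.C1 (pair X.A1 X.J1)) / lg X.E.ε
        ≤ X.R1.ev (fun x => X.Cl.gJ (X.J1 x)) + 2 * γ * h + ν := by
  obtain ⟨ε₀, h0, -, hg⟩ := rqb_growth γ hcl 2 Ca Hmax (2 * h) ν Mu (by positivity) hν
  refine ⟨ε₀, h0, ?_⟩
  intro X Kn Kc η k kf αf H hne hγ hCa hHm hMu hh' hε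
  subst hγ hCa hHm hMu hh'
  have hGA := H.cut.goodA
  obtain ⟨o₀, ho₀⟩ := ent_exists_supp X.T.P
  have hgeo₀ := rqb_geo H o₀ (rqb_pos_of_ne _ ho₀)
  have hu0 : 0 ≤ X.u := le_trans (le_trans hgeo₀.1 hgeo₀.2.1) hgeo₀.2.2.2.1
  have hbG := rqb_bG H
  have hr0 : 0 ≤ X.T.t - 2 * X.h := H.cut.r0
  have hH1 := H.cut.obE.H1
  have hu_def : X.u = (X.E.H - X.T.t) / 2 := rfl
  have key := hg X.E X.r X.T.t X.bs X.ξ X.S0 X.At X.Cl (rqb_eps0 H) hε H.cut.goodC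
    (by unfold RqD.r; linarith) X.τ _ X.R2 (fun x => X.A1 x.1) (fun x => X.C1 x.1) (fun x => X.J1 x.1) Geo
    (fun x => X.Yb x.2) id (X.u + X.h - X.bs)
    (by
      intro x hx
      obtain ⟨-, a2, -⟩ := rqb_supp2 hne x hx
      have := (rqb_mem_cand a2).1
      exact ⟨congrArg Prod.fst this, congrArg (fun z => z.2.1) this⟩)
    (by
      intro x hx
      obtain ⟨-, a2, -⟩ := rqb_supp2 hne x hx
      have h1 : X.At.loc x.1.2 = (X.J1 x.1).1 := congrArg Prod.fst (rqb_mem_cand a2).1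
      have := hGA.nearV x.1.2
      rw [h1] at this
      exact this)
    (by
      intro x hx
      obtain ⟨-, a2, -⟩ := rqb_supp2 hne x hx
      have h1 : X.At.loc x.1.2 = (X.J1 x.1).1 := congrArg Prod.fst (rqb_mem_cand a2).1
      have := hGA.nearX x.1.2
      rw [h1] at this
      exact this)
    (by
      intro x _
      exact rpb_tanchor_le (rqb_eps0 H) _)
    (by
      intro x hx
      obtain ⟨a1, -⟩ := rqb_supp2 hne x hx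
      have hm := H.cut.obT.multT (X.T.O x.1.1) (rqb_act _ a1)
      have : ((((Finset.univ.filter (fun ω' => 0 < X.R2.p ω')).image (fun x => X.C1 x.1)).filter
          (fun c' => |c' - X.C1 x.1| < X.E.ε ^ X.T.t)).card) ≤ X.B.Mu := by
        refine le_trans (Finset.card_le_card ?_) hm
        intro c hc
        rw [Finset.mem_filter, Finset.mem_image] at hc ⊢
        obtain ⟨⟨y, hy, rfl⟩, hlt⟩ := hc
        obtain ⟨b1, -⟩ := rqb_supp2 hne y (Finset.mem_filter.1 hy).2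
        exact ⟨⟨X.T.O y.1.1, Finset.mem_filter.2 ⟨Finset.mem_univ _, rqb_act _ b1⟩, rfl⟩, hlt⟩
      exact_mod_cast this)
    (by unfold RqD.r; linarith [H.bsu])
    (by linarith [H.cut.bs0])
    (by
      have h1 := H.shA o₀ (rqb_pos_of_ne _ ho₀)
      have h2 := hgeo₀.2.2.1
      unfold RqD.r
      linarith [H.ηh])
    (by rw [rqb_ur]; linarith)
    (by
      intro x _
      refine ⟨hbG.1, hbG.2, ?_⟩
      show X.u - X.h - X.bs + (X.T.t - X.r) ≤ _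
      unfold RqD.r
      linarith)
    (by
      intro x hx
      obtain ⟨-, a2, -, -, a5, -⟩ := rqb_supp2 hne x hx
      have h1 : X.At.loc x.1.2 = (X.J1 x.1).1 := congrArg Prod.fst (rqb_mem_cand a2).1
      have h2 := rqb_faith H x.1 x.2 a5
      rw [hGA.time x.1.2, h1] at h2
      exact h2)
  have e1 : X.R2.ev (fun x => wt X.γ (id (X.Yb x.2)) - 2 * X.bs) = X.wG - 2 * X.bs := by
    have : (fun x : (X.T.Ω × X.At.𝔸) × (X.T.Ω × X.At.𝔸) => wt X.γ (id (X.Yb x.2)) - 2 * X.bs)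
        = fun _ => X.wG - 2 * X.bs := by
      funext x
      rfl
    rw [this, ent_ev_const]
  have e2 : X.R2.entC (fun x => X.C1 x.1) (pair (fun x => X.A1 x.1) (fun x => X.J1 x.1))
      = X.R1.entC X.C1 (pair X.A1 X.J1) := rqb_lift_entC X.R1 (pair X.F1 X.J1) X.C1 (pair X.A1 X.J1)
  have e3 : X.R2.ev (fun x => X.Cl.gB (X.J1 x.1).1 (X.J1 x.1).2.1) = X.R1.ev (fun x => X.Cl.gJ (X.J1 x)) :=
    rqb_lift_ev X.R1 (pair X.F1 X.J1) (fun x => X.Cl.gJ (X.J1 x))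
  rw [e1, e2, e3] at key
  have e4 : X.γ * (X.T.t - X.r) = 2 * X.γ * X.h := by unfold RqD.r; ring
  rw [e4] at key
  exact key

/-- **THE EXPORT OF PART B** : (11.faithful-classical-bound-averaged) + (11.information-before-credit), `G` eliminated -/
theorem rqb_export (γ : ℝ) (hcl : UnivBound γ γ) (Ca Hmax h ν : ℝ) (Mu : ℕ) (hh : 0 < h) (hν : 0 < ν) :
    ∃ ε₀ : ℝ, 0 < ε₀ ∧ ∀ (X : RqD) (Kn Kc η k kf αf : ℝ), X.Ok Kn Kc η k kf αf → X.Ne → X.γ = γ → X.p.Ca = Ca →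
      X.B.Hmax = Hmax → X.B.Mu = Mu → X.h = h → X.E.ε < ε₀ →
      lg X.E.ε * (X.wG - 2 * X.bs) + X.R1.entC X.A1 (pair X.D1 X.J1) + 2 * X.R1.entC X.C1 (pair X.A1 X.J1)
          + X.R1.miC X.A1 X.D1 (pair X.F1 X.J1)
        ≤ lg X.E.ε * (X.R1.ev (fun x => X.Cl.gJ (X.J1 x)) + 2 * γ * h + ν + 2 * X.θ)
          + Real.log (rqbCY X.B.Ke X.Lg) := by
  obtain ⟨ε₀, h0, hg⟩ := rqb_r5 γ hcl Ca Hmax h ν Mu hh hν
  refine ⟨ε₀, h0, ?_⟩
  intro X Kn Kc η k kf αf H hne hγ hCa hHm hMu hh' hε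
  have k5 := hg X Kn Kc η k kf αf H hne hγ hCa hHm hMu hh' hε
  obtain ⟨f1, f2, f3, f4⟩ := rqb_fn H hne
  have ki := rqb_info X.R1 X.J1 X.A1 X.D1 X.F1 X.C1 X.Yb f1 f2 f3 f4
  have k6 := rqb_e6 H hne
  have hl := rqb_l_pos H
  have k5' := mul_le_mul_of_nonneg_left k5 hl.le
  rw [mul_add, mul_div_cancel₀ _ hl.ne'] at k5'
  have e : X.R2 = rep_two X.R1 (pair X.F1 X.J1) := rfl
  rw [e] at k5'
  nlinarith

end Claimed.Agent.R255
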