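-- KEEP
import Claimed.Agent.R255.Rep.RqK
import Claimed.Agent.R255.Rep.RqbMain

/-!
# Row 255 (BR paper), Sec. 11, stage S6 REPAY, PART B (proximity lists, faithful aperture, classical bound, information splitting)      (statements helper207; OWNER helper69)
The owner may import further files of his own here (they import `Rep/RqK.lean`, never `Rep/Repay.lean`).   STATEMENTS FROZEN (consumer: `Rep/Repay.lean`).
PROOFS: citations of `Rep/RqbMain.lean` (`rqb_r1`, `rqb_r2`, `rqb_export`); the logarithms of the constants are absorbed in `ν ℓ`.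
-/

set_option autoImplicit false

namespace Claimed.Agent.R255

open scoped BigOperators
open Classical
open FLaw Pkt Osc

/-! ## PART B -/

/-- candidate proximity: `r1`, `r2`.   `r1`: given `(A, C)` : `P = Pa A`, and the centre of the `σ_r`-cell lies within `2 ε^(-θ) σ_r` of `line A C` : at most `25 ε^(-2θ)` cells.
`r2`: `C = tc(D)`; `Q` as in `r1`; `fine`: elongated: `⟨X_i, n_P⟩ = ⟨L, n_P⟩ ± ⟨xc_D - L, n_D⟩ + O(Ke ε^(a+t)) + O(|X_i - L| Kn ε^(4h))`, `L = line A C`, `|X_i - L| ≤ 3 ε^(-θ) σ_r`, `σ_r = ε^(-h) σ_t`, `a ≥ u - η`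
: at most `C ε^(-η)` values;   isotropic: `|X_i - xc_D| ≤ 2 Ke ε^(-η) σ_t` : at most `C ε^(-2η)` values. -/
theorem rq_B1 (c : RqK) (hB : c.B.Good) (ν : ℝ) (hν : 0 < ν) : ∃ ε₀ : ℝ, 0 < ε₀ ∧ ∀ (X : RqD) (η k kf αf : ℝ),
    X.Fits c → X.E.ε < ε₀ → X.Ok c.Kn c.Kc η k kf αf → (∀ o, X.T.P.p o ≠ 0 → (X.Cand (X.T.O o)).Nonempty) →
    X.R1.entC X.Q1 (pair (pair X.A1 X.C1) X.J1) ≤ (2 * X.θ + ν) * lg X.E.ε ∧
    X.R1.entC X.Z1 (pair X.A1 (pair X.D1 X.J1)) ≤ (2 * X.θ + 2 * η + ν) * lg X.E.ε := by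
  obtain ⟨ε₁, e10, -, H1⟩ := tl_div_lg_le (Real.log 36) hν
  obtain ⟨ε₂, e20, -, H2⟩ := tl_div_lg_le (Real.log (rqbC2 c.B.Ke c.Kn)) hν
  refine ⟨min ε₁ ε₂, lt_min e10 e20, ?_⟩
  intro X η k kf αf hF hε H hne
  have hl := rqb_l_pos H
  have a1 := H1 X.E.ε (rqb_eps0 H) (lt_of_lt_of_le hε (min_le_left _ _))
  have a2 := H2 X.E.ε (rqb_eps0 H) (lt_of_lt_of_le hε (min_le_right _ _))
  rw [div_le_iff₀ hl] at a1 a2
  have b1 := rqb_r1 H hne
  have b2 := rqb_r2 H hne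
  rw [hF.B] at b2
  constructor
  · linarith
  · linarith

/-- (11.faithful-classical-bound-averaged) + (11.information-before-credit): on `X.R2`, `G = Yb` of the second copy; `cls_growth` on each fibre of `J` (`ent_entC_pair_eq_avg`), `rep_info_split`,
`hdp` from `rep_miC_determination` and the list `H(Yb | D, C, J) ≤ (2θ) ℓ + log C`; transfer to `R1` by `rep_two_map_fst`, `ent_map_entC`. -/
theorem rq_B2 (c : RqK) (h0 : 0 < c.γ) (h1 : c.γ < 1) (hcl : UnivBound c.γ c.γ) (hB : c.B.Good) (ν : ℝ) (hν : 0 < ν) :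
    ∃ ε₀ : ℝ, 0 < ε₀ ∧ ∀ (X : RqD) (η k kf αf : ℝ),
    X.Fits c → X.E.ε < ε₀ → X.Ok c.Kn c.Kc η k kf αf → (∀ o, X.T.P.p o ≠ 0 → (X.Cand (X.T.O o)).Nonempty) →
    lg X.E.ε * (X.wG - 2 * X.bs) + X.R1.entC X.A1 (pair X.D1 X.J1) + 2 * X.R1.entC X.C1 (pair X.A1 X.J1)
        + X.R1.miC X.A1 X.D1 (pair X.F1 X.J1)
      ≤ lg X.E.ε * X.Eg + 2 * (X.γ * X.h * lg X.E.ε) + (2 * X.θ + ν) * lg X.E.ε := by
  by_cases hh : 0 < c.h
  · obtain ⟨ε₁, e10, H1⟩ := rqb_export c.γ hcl c.p.Ca c.B.Hmax c.h (ν / 2) c.B.Mu hh (half_pos hν)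
    obtain ⟨ε₂, e20, -, H2⟩ := tl_div_lg_le (Real.log (rqbCY c.B.Ke c.Lg)) (half_pos hν)
    refine ⟨min ε₁ ε₂, lt_min e10 e20, ?_⟩
    intro X η k kf αf hF hε H hne
    have hl := rqb_l_pos H
    have a1 := H1 X c.Kn c.Kc η k kf αf H hne hF.γ (by rw [hF.p]) (by rw [hF.B]) (by rw [hF.B]) hF.h
      (lt_of_lt_of_le hε (min_le_left _ _))
    have a2 := H2 X.E.ε (rqb_eps0 H) (lt_of_lt_of_le hε (min_le_right _ _))
    rw [div_le_iff₀ hl] at a2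
    rw [hF.B, hF.Lg] at a1
    have e : X.R1.ev (fun x => X.Cl.gJ (X.J1 x)) = X.Eg := by
      have h := ent_map_ev X.R1 Prod.fst (fun o => X.Cl.gB (X.Jo o).1 (X.Jo o).2.1)
      rw [show X.R1.map Prod.fst = X.T.P from rep_unif_map_fst X.T.P _] at h
      exact h.symm
    rw [e] at a1
    rw [hF.γ, hF.h]
    nlinarith
  · refine ⟨1, one_pos, ?_⟩
    intro X η k kf αf hF _ H _
    exact absurd (hF.h ▸ H.h0) hh

end Claimed.Agent.R255
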