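-- KEEP
import Claimed.Agent.R255.Rep.RqbBase
import Claimed.Agent.R255.Rep.RqK

/-!
# Row 255 (BR paper), Sec. 11, stage S6 REPAY, PART C, file 1: THE GEOMETRIC LISTS of (11.credit-information)      (architect helper46; prefix `rqc_`)

No law, no entropy.   `X : RqD`, `H : X.Ok Kn Kc η k kf αf`, `hI : Incoming X.E X.T X.h Kc X.el Pf Wf nf`;   `o` a charged endpoint sample, `i = T.O o`, `s = T.sat o = T.site i`, `A ∈ Cand i` a candidate atom.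
SCALES: `u = X.u`, `σ_r = X.sr = ε^(u-h+t)` (`rqb_sr`), `1 ≤ ε^(-θ)` (`rqb_one_le_pow`), `ε^y ≤ ε^x` for `x ≤ y` (`rqb_pow_le`).
TOOLS: `rqc_cell_list` (below), `rpa_floor_list`, `rpa_ip_le_norm`, `rpa_coord_le`, `rpa_ip_add/sub/smul`, `rpa_toP_sub` (`Rep/AlnGeo.lean`); `rpb_norm_le`, `rpb_coord_le`, `rpb_tanchor_le` (`Rep/Buffer.lean`);
`rqb_cand_V : ‖V_A - V_i‖ ≤ 2 Lg ε^u`, `rqb_cand_X : ‖line_A(C_i) - X_i‖ ≤ 3 ε^(-θ) σ_r`, `rqb_cell_norm : ‖x - cellC w (cell w x)‖ ≤ w`, `rqb_geo`, `rqb_Ke` (`Rep/RqbBase.lean`).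
* `rqc_F_list`   : over one value of `P_f` the label `F_T` takes `≤ C ε^(-2θ)` values
* `rqc_loc_list` : over one value of `P_f` the geometric localizer takes `≤ C` values
* `rqc_FJ_list`  : both, with the class and the tag                                            (h7)
* `rqc_Pf_list`  : over one value of `F_T` the label `P_f` takes `≤ C ε^(-4θ)` values
* `rqc_W8`       : `(P_f, D)` determine `W_f` up to `C ε^(-2η)` values                          (h8)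
* `rqc_W9`       : `(P_f, A)` determine `W_f` up to `C` values                                  (h9)
-/

set_option autoImplicit false

namespace Claimed.Agent.R255

open scoped BigOperators
open Classical
open FLaw Pkt Osc

/-- the cells of the points of a ball -/
theorem rqc_cell_list (y : E2) (ρ w : ℝ) (hw : 0 < w) (hρ : 0 ≤ ρ) :
    ∃ S : Finset (ℤ × ℤ), (S.card : ℝ) ≤ (2 * ρ + 2) ^ 2 ∧ ∀ x : E2, ‖x - y‖ ≤ ρ * w → cell w x ∈ S := by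
  obtain ⟨S0, h0, m0⟩ := rpa_floor_list (y 0) ρ w hw hρ
  obtain ⟨S1, h1, m1⟩ := rpa_floor_list (y 1) ρ w hw hρ
  refine ⟨S0 ×ˢ S1, ?_, fun x hx => ?_⟩
  · rw [Finset.card_product, Nat.cast_mul, sq]
    exact mul_le_mul h0 h1 (Nat.cast_nonneg _) (by linarith)
  · rw [Finset.mem_product]
    exact ⟨m0 _ ((rpb_coord_le (x - y) 0).trans hx), m1 _ ((rpb_coord_le (x - y) 1).trans hx)⟩

/-- a list of lists -/
theorem rqc_bind {α β : Type} (S : Finset α) (N₁ N₂ : ℝ) (hS : (S.card : ℝ) ≤ N₁) (hN₂ : 0 ≤ N₂) (Sw : α → Finset β)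
    (hw : ∀ p, ((Sw p).card : ℝ) ≤ N₂) : ((S.biUnion Sw).card : ℝ) ≤ N₁ * N₂ := by
  have h1 : ((S.biUnion Sw).card : ℝ) ≤ ∑ p ∈ S, ((Sw p).card : ℝ) := by
    exact_mod_cast Finset.card_biUnion_le
  have h2 : ∑ p ∈ S, ((Sw p).card : ℝ) ≤ ∑ _p ∈ S, N₂ := Finset.sum_le_sum fun p _ => hw p
  rw [Finset.sum_const, nsmul_eq_mul] at h2
  exact h1.trans (h2.trans (mul_le_mul_of_nonneg_right hS hN₂))

/-- the constant of `h7` -/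
noncomputable def rqcC7 (Lg Kc : ℝ) (S0 St : ℕ) : ℝ :=
  (4 * Lg + 2 * Kc + 2) ^ 2 * (2 * Kc + 8) ^ 2 * ((2 * Kc + 2) ^ 2 * (4 * Kc + 2) ^ 2 * ((S0 : ℝ) * (St : ℝ)))

/-- the constant of the list of `P_f` -/
noncomputable def rqcCP (Lg Kc : ℝ) : ℝ := Kc * (2 * Lg + 4) ^ 4

/-- the constant of `W_f | P_f, D` -/
noncomputable def rqcC8 (Ke Kc : ℝ) : ℝ := Kc * (4 * Ke + Kc ^ 2 + 1) ^ 2

/-- the constant of `W_f | P_f, A` -/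
noncomputable def rqcC9 (Lg Kc : ℝ) : ℝ := Kc * (2 * Lg + 1) ^ 2

variable {X : RqD} {Kn Kc η k kf αf : ℝ} {α β : Type} {Pf : X.T.Ω → α} {Wf : X.T.Ω → β} {nf : α → ℝ}

/-- the constant of the incoming labels is at least one -/
theorem rqc_Kc (H : X.Ok Kn Kc η k kf αf) (hI : Incoming X.E X.T X.h Kc X.el Pf Wf nf) : 1 ≤ Kc := by
  obtain ⟨o, ho⟩ := ent_exists_supp X.T.P
  obtain ⟨S, hS, hm⟩ := hI.listP (X.T.sat o).C (X.T.sat o).V (X.T.sat o).X 1 le_rfl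
  have h1 : Pf o ∈ S := hm o (rqb_pos_of_ne _ ho) rfl
    (by rw [sub_self, norm_zero, one_mul]; exact (rqb_pow_pos H _).le)
    (by rw [sub_self, norm_zero, one_mul]; exact (rqb_pow_pos H _).le)
  have h2 : (1 : ℝ) ≤ (S.card : ℝ) := by exact_mod_cast Finset.card_pos.2 ⟨_, h1⟩
  linarith

/-- **L-RQC-F**  over one value of `P_f` (reference sample `o₁`, `s₁ = T.sat o₁`).
PROOF.  `F1 (o, A) = (C_s, cell (ε^(u-h)) V_A, cell σ_r (line A C_s))`.   `C_s = C_{s₁}` (`hI.locC`).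
`‖V_A - V_{s₁}‖ ≤ ‖V_A - V_s‖ + ‖V_s - V_{s₁}‖ ≤ 2 Lg ε^u + Kc ε^(u-h) ≤ (2 Lg + Kc) ε^(u-h)` (`rqb_cand_V`, `hI.locV`): `rqc_cell_list V_{s₁} (2 Lg + Kc) (ε^(u-h))`.
`‖line A C_s - X_{s₁}‖ ≤ 3 ε^(-θ) σ_r + Kc σ_r` (`rqb_cand_X`, `hI.locX`, `rqb_sr`): `rqc_cell_list X_{s₁} (3 ε^(-θ) + Kc) σ_r`; `2 (3 ε^(-θ) + Kc) + 2 ≤ (2 Kc + 8) ε^(-θ)`, `(ε^(-θ))² = ε^(-(2θ))`.
`S = {C_{s₁}} ×ˢ S_V ×ˢ S_X`. -/
theorem rqc_F_list (H : X.Ok Kn Kc η k kf αf) (hI : Incoming X.E X.T X.h Kc X.el Pf Wf nf) (o₁ : X.T.Ω)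
    (ho₁ : 0 < X.T.P.p o₁) :
    ∃ S : Finset (ℝ × (ℤ × ℤ) × (ℤ × ℤ)),
      (S.card : ℝ) ≤ (4 * X.Lg + 2 * Kc + 2) ^ 2 * (2 * Kc + 8) ^ 2 * X.E.ε ^ (-(2 * X.θ)) ∧
      ∀ (o : X.T.Ω) (A : X.At.𝔸), 0 < X.T.P.p o → A ∈ X.Cand (X.T.O o) → Pf o = Pf o₁ → X.F1 (o, A) ∈ S := by
  have hK := rqc_Kc H hI
  have hLg := H.Lg1
  have hθ := rqb_one_le_pow H H.θ0.le
  have hw1 := rqb_pow_pos H (X.u - X.h)
  have hsr := rqb_sr_pos H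
  obtain ⟨SV, hV, mV⟩ := rqc_cell_list (X.T.sat o₁).V (2 * X.Lg + Kc) (X.E.ε ^ (X.u - X.h)) hw1 (by linarith)
  obtain ⟨SX, hX, mX⟩ := rqc_cell_list (X.T.sat o₁).X (3 * X.E.ε ^ (-X.θ) + Kc) X.sr hsr (by linarith)
  refine ⟨{(X.T.sat o₁).C} ×ˢ (SV ×ˢ SX), ?_, fun o A ho hA hP => ?_⟩
  · rw [Finset.card_product, Finset.card_product, Finset.card_singleton]
    push_cast
    rw [one_mul]
    have e1 : X.E.ε ^ (-(2 * X.θ)) = (X.E.ε ^ (-X.θ)) ^ 2 := by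
      rw [← Real.rpow_natCast, ← Real.rpow_mul (rqb_eps0 H).le]
      congr 1
      push_cast
      ring
    have h1 : (2 * (3 * X.E.ε ^ (-X.θ) + Kc) + 2) ^ 2 ≤ ((2 * Kc + 8) * X.E.ε ^ (-X.θ)) ^ 2 := by
      refine pow_le_pow_left₀ (by linarith) ?_ 2
      have : (2 * Kc + 2) * 1 ≤ (2 * Kc + 2) * X.E.ε ^ (-X.θ) := mul_le_mul_of_nonneg_left hθ (by linarith)
      linarith
    have h2 : (2 * (2 * X.Lg + Kc) + 2) ^ 2 = (4 * X.Lg + 2 * Kc + 2) ^ 2 := by ring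
    calc (SV.card : ℝ) * (SX.card : ℝ) ≤ (4 * X.Lg + 2 * Kc + 2) ^ 2 * ((2 * Kc + 8) * X.E.ε ^ (-X.θ)) ^ 2 :=
          mul_le_mul (h2 ▸ hV) (hX.trans h1) (Nat.cast_nonneg _) (by positivity)
      _ = (4 * X.Lg + 2 * Kc + 2) ^ 2 * (2 * Kc + 8) ^ 2 * X.E.ε ^ (-(2 * X.θ)) := by rw [e1]; ring
  · have hC : (X.T.site (X.T.O o)).C = (X.T.sat o₁).C := hI.locC o o₁ ho ho₁ hP
    have hlV : ‖(X.T.site (X.T.O o)).V - (X.T.sat o₁).V‖ ≤ Kc * X.E.ε ^ (X.u - X.h) := hI.locV o o₁ ho ho₁ hP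
    have hlX : ‖(X.T.site (X.T.O o)).X - (X.T.sat o₁).X‖ ≤ Kc * X.sr := by
      have := hI.locX o o₁ ho ho₁ hP
      rw [rqb_sr]
      have e : X.u - X.h + X.T.t = X.T.t + X.E.u X.T.t - X.h := by
        unfold RqD.u
        ring
      rw [e]
      exact this
    have hcV := rqb_cand_V H hA
    have hcX := rqb_cand_X H hA
    rw [Finset.mem_product, Finset.mem_product]
    refine ⟨?_, ?_, ?_⟩
    · rw [Finset.mem_singleton]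
      exact hC
    · show cell (X.E.ε ^ (X.u - X.h)) (X.At.asite A).V ∈ SV
      apply mV
      have h3 : X.E.ε ^ X.u ≤ X.E.ε ^ (X.u - X.h) := rqb_pow_le H (by linarith [H.h0])
      have h4 : ‖(X.At.asite A).V - (X.T.sat o₁).V‖ ≤ ‖(X.At.asite A).V - (X.T.site (X.T.O o)).V‖ + ‖(X.T.site (X.T.O o)).V - (X.T.sat o₁).V‖ :=
        norm_sub_le_norm_sub_add_norm_sub _ _ _
      have h5 : 2 * X.Lg * X.E.ε ^ X.u ≤ 2 * X.Lg * X.E.ε ^ (X.u - X.h) := mul_le_mul_of_nonneg_left h3 (by linarith)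
      calc ‖(X.At.asite A).V - (X.T.sat o₁).V‖ ≤ 2 * X.Lg * X.E.ε ^ (X.u - X.h) + Kc * X.E.ε ^ (X.u - X.h) := by linarith
        _ = (2 * X.Lg + Kc) * X.E.ε ^ (X.u - X.h) := by ring
    · show cell X.sr (X.line A (X.T.site (X.T.O o)).C) ∈ SX
      apply mX
      have h4 : ‖X.line A (X.T.site (X.T.O o)).C - (X.T.sat o₁).X‖ ≤ ‖X.line A (X.T.site (X.T.O o)).C - (X.T.site (X.T.O o)).X‖ + ‖(X.T.site (X.T.O o)).X - (X.T.sat o₁).X‖ :=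
        norm_sub_le_norm_sub_add_norm_sub _ _ _
      calc ‖X.line A (X.T.site (X.T.O o)).C - (X.T.sat o₁).X‖ ≤ 3 * X.E.ε ^ (-X.θ) * X.sr + Kc * X.sr := by linarith
        _ = (3 * X.E.ε ^ (-X.θ) + Kc) * X.sr := by ring

/-- **L-RQC-LOC**  over one value of `P_f` (reference sample `o₁`).
PROOF.  `loc0 ε r bs s = (⌊C_s / ε^r⌋, cell (ε^bs) V_s, cell (ε^r ε^bs) (X_s - (C_s - tanchor ε r C_s) • V_s))`.   `C_s = C_{s₁} =: c` (`hI.locC`).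
`‖V_s - V_{s₁}‖ ≤ Kc ε^(u-h) ≤ Kc ε^bs` (`hI.locV`, `H.bsu`): `rqc_cell_list V_{s₁} Kc (ε^bs)`.
`|c - tanchor ε r c| ≤ ε^r` (`rpb_tanchor_le`), `‖X_s - X_{s₁}‖ ≤ Kc ε^(t+u-h) ≤ Kc ε^r ε^bs` (`hI.locX`; `r ≤ t` : `H.cut.rt`), so the back-transported positions differ by `≤ 2 Kc ε^r ε^bs`:
`rqc_cell_list (X_{s₁} - (c - tanchor ε r c) • V_{s₁}) (2 Kc) (ε^r ε^bs)`.   `S = {⌊c / ε^r⌋} ×ˢ S_V ×ˢ S_X`. -/
theorem rqc_loc_list (H : X.Ok Kn Kc η k kf αf) (hI : Incoming X.E X.T X.h Kc X.el Pf Wf nf) (o₁ : X.T.Ω)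
    (ho₁ : 0 < X.T.P.p o₁) :
    ∃ S : Finset Loc0, (S.card : ℝ) ≤ (2 * Kc + 2) ^ 2 * (4 * Kc + 2) ^ 2 ∧
      ∀ o : X.T.Ω, 0 < X.T.P.p o → Pf o = Pf o₁ → loc0 X.E.ε X.r X.bs (X.T.site (X.T.O o)) ∈ S := by
  have hK := rqc_Kc H hI
  have hK0 : 0 ≤ Kc := by linarith
  have hε := rqb_eps0 H
  have hr := rqb_pow_pos H X.r
  have hb := rqb_pow_pos H X.bs
  obtain ⟨c, hc⟩ : ∃ c : ℝ, c = (X.T.sat o₁).C := ⟨_, rfl⟩
  obtain ⟨a, ha⟩ : ∃ a : ℝ, a = c - tanchor X.E.ε X.r c := ⟨_, rfl⟩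
  have ha0 : |a| ≤ X.E.ε ^ X.r := by
    obtain ⟨h1, h2⟩ := rpb_tanchor_le (r := X.r) hε c
    rw [ha, abs_le]
    constructor <;> linarith
  obtain ⟨SV, hV, mV⟩ := rqc_cell_list (X.T.sat o₁).V Kc (X.E.ε ^ X.bs) hb hK0
  obtain ⟨SX, hX, mX⟩ := rqc_cell_list ((X.T.sat o₁).X - a • (X.T.sat o₁).V) (2 * Kc) (X.E.ε ^ X.r * X.E.ε ^ X.bs)
    (mul_pos hr hb) (by linarith)
  refine ⟨{⌊c / X.E.ε ^ X.r⌋} ×ˢ (SV ×ˢ SX), ?_, fun o ho hP => ?_⟩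
  · rw [Finset.card_product, Finset.card_product, Finset.card_singleton]
    push_cast
    rw [one_mul]
    have e : (2 * (2 * Kc) + 2) ^ 2 = (4 * Kc + 2) ^ 2 := by ring
    rw [e] at hX
    exact mul_le_mul hV hX (Nat.cast_nonneg _) (by positivity)
  · have hC : (X.T.sat o).C = c := by rw [hc]; exact hI.locC o o₁ ho ho₁ hP
    have hVd : ‖(X.T.sat o).V - (X.T.sat o₁).V‖ ≤ Kc * X.E.ε ^ X.bs :=
      (hI.locV o o₁ ho ho₁ hP).trans (mul_le_mul_of_nonneg_left (rqb_pow_le H H.bsu) hK0)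
    have hXd : ‖(X.T.sat o).X - (X.T.sat o₁).X‖ ≤ Kc * (X.E.ε ^ X.r * X.E.ε ^ X.bs) := by
      refine (hI.locX o o₁ ho ho₁ hP).trans (mul_le_mul_of_nonneg_left ?_ hK0)
      rw [← Real.rpow_add hε]
      apply rqb_pow_le H
      have h1 := H.bsu
      have h2 := H.h0
      unfold RqD.r
      unfold RqD.u at h1
      linarith
    have hl : loc0 X.E.ε X.r X.bs (X.T.site (X.T.O o)) =
        (⌊c / X.E.ε ^ X.r⌋, cell (X.E.ε ^ X.bs) (X.T.sat o).V,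
          cell (X.E.ε ^ X.r * X.E.ε ^ X.bs) ((X.T.sat o).X - a • (X.T.sat o).V)) := by
      rw [ha, ← hC]
      rfl
    rw [hl, Finset.mem_product, Finset.mem_product, Finset.mem_singleton]
    refine ⟨rfl, mV _ hVd, mX _ ?_⟩
    have e : (X.T.sat o).X - a • (X.T.sat o).V - ((X.T.sat o₁).X - a • (X.T.sat o₁).V) =
        ((X.T.sat o).X - (X.T.sat o₁).X) - a • ((X.T.sat o).V - (X.T.sat o₁).V) := by
      rw [smul_sub]
      abel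
    rw [e]
    calc ‖((X.T.sat o).X - (X.T.sat o₁).X) - a • ((X.T.sat o).V - (X.T.sat o₁).V)‖
        ≤ ‖(X.T.sat o).X - (X.T.sat o₁).X‖ + ‖a • ((X.T.sat o).V - (X.T.sat o₁).V)‖ := norm_sub_le _ _
      _ ≤ Kc * (X.E.ε ^ X.r * X.E.ε ^ X.bs) + X.E.ε ^ X.r * (Kc * X.E.ε ^ X.bs) := by
          rw [norm_smul, Real.norm_eq_abs]
          exact add_le_add hXd (mul_le_mul ha0 hVd (norm_nonneg _) hr.le)
      _ = 2 * Kc * (X.E.ε ^ X.r * X.E.ε ^ X.bs) := by ring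

/-- **(h7), geometric form** -/
theorem rqc_FJ_list (H : X.Ok Kn Kc η k kf αf) (hI : Incoming X.E X.T X.h Kc X.el Pf Wf nf) (St : ℕ)
    (hSt : Fintype.card X.τ ≤ St) (o₁ : X.T.Ω) (ho₁ : 0 < X.T.P.p o₁) :
    ∃ S : Finset ((ℝ × (ℤ × ℤ) × (ℤ × ℤ)) × Classes.Lab X.τ),
      (S.card : ℝ) ≤ rqcC7 X.Lg Kc X.S0 St * X.E.ε ^ (-(2 * X.θ)) ∧
      ∀ (o : X.T.Ω) (A : X.At.𝔸), 0 < X.T.P.p o → A ∈ X.Cand (X.T.O o) → Pf o = Pf o₁ →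
        (X.F1 (o, A), X.J1 (o, A)) ∈ S := by
  obtain ⟨SF, hF, mF⟩ := rqc_F_list H hI o₁ ho₁
  obtain ⟨SL, hL, mL⟩ := rqc_loc_list H hI o₁ ho₁
  have hK := rqc_Kc H hI
  have hLg := H.Lg1
  have hp := rqb_pow_pos H (-(2 * X.θ))
  refine ⟨SF ×ˢ (SL ×ˢ (Finset.range X.S0 ×ˢ (Finset.univ : Finset X.τ))), ?_, fun o A ho hA hP => ?_⟩
  · rw [Finset.card_product, Finset.card_product, Finset.card_product, Finset.card_range, Finset.card_univ]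
    push_cast
    have h1 : ((Fintype.card X.τ : ℕ) : ℝ) ≤ (St : ℝ) := by exact_mod_cast hSt
    have h2 : (X.S0 : ℝ) * (Fintype.card X.τ : ℝ) ≤ (X.S0 : ℝ) * (St : ℝ) :=
      mul_le_mul_of_nonneg_left h1 (Nat.cast_nonneg _)
    have h3 : (SL.card : ℝ) * ((X.S0 : ℝ) * (Fintype.card X.τ : ℝ))
        ≤ (2 * Kc + 2) ^ 2 * (4 * Kc + 2) ^ 2 * ((X.S0 : ℝ) * (St : ℝ)) :=
      mul_le_mul hL h2 (by positivity) (by positivity)
    calc (SF.card : ℝ) * ((SL.card : ℝ) * ((X.S0 : ℝ) * (Fintype.card X.τ : ℝ)))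
        ≤ ((4 * X.Lg + 2 * Kc + 2) ^ 2 * (2 * Kc + 8) ^ 2 * X.E.ε ^ (-(2 * X.θ)))
          * ((2 * Kc + 2) ^ 2 * (4 * Kc + 2) ^ 2 * ((X.S0 : ℝ) * (St : ℝ))) :=
          mul_le_mul hF h3 (by positivity) (by positivity)
      _ = rqcC7 X.Lg Kc X.S0 St * X.E.ε ^ (-(2 * X.θ)) := by unfold rqcC7; ring
  · have hlab := (rqb_mem_cand hA).1
    have hJ : X.J1 (o, A) = X.Ji (X.T.O o) := rfl
    have h1 : (X.Ji (X.T.O o)).1 = loc0 X.E.ε X.r X.bs (X.T.site (X.T.O o)) := rfl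
    have h2 : (X.Ji (X.T.O o)).2.1 = X.Cl.cls A := by rw [← hlab]; rfl
    rw [Finset.mem_product, Finset.mem_product, Finset.mem_product]
    refine ⟨mF o A ho hA hP, ?_, ?_, Finset.mem_univ _⟩
    · show (X.J1 (o, A)).1 ∈ SL
      rw [hJ, h1]
      exact mL o ho hP
    · show (X.J1 (o, A)).2.1 ∈ Finset.range X.S0
      rw [hJ, h2, Finset.mem_range]
      exact H.cut.goodC.ncls A

/-- **L-RQC-P**  the values of `P_f` over one value `f = (c, κ_V, κ_X)` of `F_T`.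
PROOF.  `hI.listP f.1 (cellC (ε^(u-h)) f.2.1) (cellC σ_r f.2.2) ρ` with `ρ = (2 Lg + 4) ε^(-θ) ≥ 1`.   For `(o, A)` with `F1 (o, A) = f` : `C_s = f.1`,
`‖V_s - cellC ..‖ ≤ ‖V_s - V_A‖ + ‖V_A - cellC (cell V_A)‖ ≤ 2 Lg ε^u + ε^(u-h) ≤ ρ ε^(u-h)` (`rqb_cand_V`, `rqb_cell_norm`),
`‖X_s - cellC ..‖ ≤ 3 ε^(-θ) σ_r + σ_r ≤ ρ σ_r` (`rqb_cand_X`, `rqb_cell_norm`), `σ_r = ε^(t + u - h)` (`rqb_sr`).   `ρ^4 = (2 Lg + 4)^4 ε^(-(4θ))`. -/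
theorem rqc_Pf_list (H : X.Ok Kn Kc η k kf αf) (hI : Incoming X.E X.T X.h Kc X.el Pf Wf nf)
    (f : ℝ × (ℤ × ℤ) × (ℤ × ℤ)) :
    ∃ S : Finset α, (S.card : ℝ) ≤ rqcCP X.Lg Kc * X.E.ε ^ (-(4 * X.θ)) ∧
      ∀ (o : X.T.Ω) (A : X.At.𝔸), 0 < X.T.P.p o → A ∈ X.Cand (X.T.O o) → X.F1 (o, A) = f → Pf o ∈ S := by
  have hLg := H.Lg1
  have hθ := rqb_one_le_pow H H.θ0.le
  have hρ : 1 ≤ (2 * X.Lg + 4) * X.E.ε ^ (-X.θ) := by nlinarith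
  obtain ⟨S, hS, hm⟩ := hI.listP f.1 (cellC (X.E.ε ^ (X.u - X.h)) f.2.1) (cellC X.sr f.2.2)
    ((2 * X.Lg + 4) * X.E.ε ^ (-X.θ)) hρ
  have e1 : X.E.ε ^ (-(4 * X.θ)) = (X.E.ε ^ (-X.θ)) ^ 4 := by
    rw [← Real.rpow_natCast, ← Real.rpow_mul (rqb_eps0 H).le]
    congr 1
    push_cast
    ring
  refine ⟨S, ?_, fun o A ho hA hF => ?_⟩
  · rw [e1]
    refine hS.trans (le_of_eq ?_)
    unfold rqcCP
    ring
  · have hw := rqb_pow_pos H (X.u - X.h)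
    have hsr := rqb_sr_pos H
    have f1 : (X.T.site (X.T.O o)).C = f.1 := by rw [← hF]; rfl
    have f2 : cell (X.E.ε ^ (X.u - X.h)) (X.At.asite A).V = f.2.1 := by rw [← hF]; rfl
    have f3 : cell X.sr (X.line A (X.T.site (X.T.O o)).C) = f.2.2 := by rw [← hF]; rfl
    have esr : X.E.ε ^ (X.T.t + X.E.u X.T.t - X.h) = X.sr := by
      rw [rqb_sr]
      congr 1
      show X.T.t + X.u - X.h = X.u - X.h + X.T.t
      ring
    refine hm o ho f1 ?_ ?_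
    · show ‖(X.T.site (X.T.O o)).V - cellC (X.E.ε ^ (X.u - X.h)) f.2.1‖
        ≤ (2 * X.Lg + 4) * X.E.ε ^ (-X.θ) * X.E.ε ^ (X.u - X.h)
      rw [← f2]
      have h1 := rqb_cand_V H hA
      have h2 := rqb_cell_norm hw (X.At.asite A).V
      have h3 : X.E.ε ^ X.u ≤ X.E.ε ^ (X.u - X.h) := rqb_pow_le H (by linarith [H.h0])
      have h4 : ‖(X.T.site (X.T.O o)).V - cellC (X.E.ε ^ (X.u - X.h)) (cell (X.E.ε ^ (X.u - X.h)) (X.At.asite A).V)‖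
          ≤ ‖(X.At.asite A).V - (X.T.site (X.T.O o)).V‖
            + ‖(X.At.asite A).V - cellC (X.E.ε ^ (X.u - X.h)) (cell (X.E.ε ^ (X.u - X.h)) (X.At.asite A).V)‖ := by
        rw [← norm_neg ((X.At.asite A).V - (X.T.site (X.T.O o)).V)]
        refine le_trans (le_of_eq ?_) (norm_add_le _ _)
        congr 1
        abel
      have h5 : 2 * X.Lg * X.E.ε ^ X.u ≤ 2 * X.Lg * X.E.ε ^ (X.u - X.h) :=
        mul_le_mul_of_nonneg_left h3 (by linarith)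
      have h6 : (2 * X.Lg + 4) * 1 * X.E.ε ^ (X.u - X.h)
          ≤ (2 * X.Lg + 4) * X.E.ε ^ (-X.θ) * X.E.ε ^ (X.u - X.h) :=
        mul_le_mul_of_nonneg_right (mul_le_mul_of_nonneg_left hθ (by linarith)) hw.le
      nlinarith
    · rw [esr]
      show ‖(X.T.site (X.T.O o)).X - cellC X.sr f.2.2‖ ≤ (2 * X.Lg + 4) * X.E.ε ^ (-X.θ) * X.sr
      rw [← f3]
      have h1 := rqb_cand_X H hA
      have h2 := rqb_cell_norm hsr (X.line A (X.T.site (X.T.O o)).C)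
      have h4 : ‖(X.T.site (X.T.O o)).X - cellC X.sr (cell X.sr (X.line A (X.T.site (X.T.O o)).C))‖
          ≤ ‖X.line A (X.T.site (X.T.O o)).C - (X.T.site (X.T.O o)).X‖
            + ‖X.line A (X.T.site (X.T.O o)).C - cellC X.sr (cell X.sr (X.line A (X.T.site (X.T.O o)).C))‖ := by
        rw [← norm_neg (X.line A (X.T.site (X.T.O o)).C - (X.T.site (X.T.O o)).X)]
        refine le_trans (le_of_eq ?_) (norm_add_le _ _)
        congr 1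
        abel
      have h6 : 1 * X.sr ≤ X.E.ε ^ (-X.θ) * X.sr := mul_le_mul_of_nonneg_right hθ hsr.le
      have h7 : 0 ≤ (2 * X.Lg) * (X.E.ε ^ (-X.θ) * X.sr) := by positivity
      nlinarith

theorem rqc_w8_nrm_sub (th δ : ℝ) : nrm (th - δ) = Real.cos δ • nrm th + Real.sin δ • tang th := by
  unfold nrm tang
  rw [Real.sin_sub, Real.cos_sub]
  refine Prod.ext ?_ ?_
  · simp only [Prod.smul_mk, Prod.mk_add_mk, smul_eq_mul]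
    ring
  · simp only [Prod.smul_mk, Prod.mk_add_mk, smul_eq_mul]
    ring

theorem rqc_w8_ident (v v₁ c N T : ℝ × ℝ) (a b : ℝ) :
    ip v (a • N + b • T) - (ip v₁ (a • N + b • T) + a * ip (c - v₁) N) = a * ip (v - c) N + b * ip (v - v₁) T := by
  unfold ip
  simp only [Prod.fst_add, Prod.snd_add, Prod.smul_fst, Prod.smul_snd, smul_eq_mul, Prod.fst_sub, Prod.snd_sub]
  ring

/-- **L-RQC-W8-EL**  elongated case: `(P_f, D) = (p, g)` determine `W_f` up to `Kc (Ke + Kc² + 1) ε^(-η)` values.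
PROOF.  If no charged sample has `(Pf, D) = (p, g)` take `S = ∅`.  Otherwise fix one, `o₁`, `v₁ = toP V_{s₁}`.   `G = geo g`, `δ = G.th - nf p`, `|sin δ| ≤ Kc ε^h` (`hI.align` at `o₁`).
`nrm (nf p) = cos δ • nrm G.th + sin δ • tang G.th` (expand `nrm`, `tang`, `Real.sin_sub`, `Real.cos_sub` with `nf p = G.th - δ`).   For a charged `o` with `(Pf, D) = (p, g)`, `v = toP V_s` :
`ip v (nrm (nf p)) - y = cos δ * ip (v - G.vc) (nrm G.th) + sin δ * ip (v - v₁) (tang G.th)`  with  `y = ip v₁ (nrm (nf p)) + cos δ * ip (G.vc - v₁) (nrm G.th)`.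
`|ip (v - G.vc) (nrm G.th)| ≤ Ke ε^a ≤ Ke ε^(-η) ε^u` (`rqb_geo`, `H.shA`),  `|ip (v - v₁) (tang ..)| ≤ ‖V_s - V_{s₁}‖ ≤ Kc ε^(u-h)` (`rpa_ip_le_norm`, `hI.locV`), `ε^h ε^(u-h) = ε^u`.
So `|ip v (nrm (nf p)) - y| ≤ ρ ε^u`, `ρ = (Ke + Kc² + 1) ε^(-η) ≥ 1`;  `hI.listW1 hel p y ρ`. -/
theorem rqc_W8_el (H : X.Ok Kn Kc η k kf αf) (hI : Incoming X.E X.T X.h Kc X.el Pf Wf nf) (hel : X.el = true)
    (p : α) (g : X.T.Γ) :
    ∃ S : Finset β, (S.card : ℝ) ≤ Kc * ((X.B.Ke + Kc ^ 2 + 1) * X.E.ε ^ (-η)) ∧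
      ∀ o : X.T.Ω, 0 < X.T.P.p o → Pf o = p → X.T.D o = g → Wf o ∈ S := by
  have hK := rqc_Kc H hI
  have hKe := rqb_Ke H
  have h1 := rqb_one_le_pow H H.η0
  have hpu := rqb_pow_pos H X.u
  by_cases hex : ∃ o₁, 0 < X.T.P.p o₁ ∧ Pf o₁ = p ∧ X.T.D o₁ = g
  · obtain ⟨o₁, ho₁, hp₁, hg₁⟩ := hex
    obtain ⟨δ, hδ⟩ : ∃ δ : ℝ, δ = (X.T.geo g).th - nf p := ⟨_, rfl⟩
    have hsin : |Real.sin δ| ≤ Kc * X.E.ε ^ X.h := by
      have := hI.align hel o₁ ho₁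
      rwa [hg₁, hp₁, ← hδ] at this
    have hnrm : nrm (nf p) = Real.cos δ • nrm (X.T.geo g).th + Real.sin δ • tang (X.T.geo g).th := by
      rw [← rqc_w8_nrm_sub, hδ]
      congr 1
      ring
    have hρ : 1 ≤ (X.B.Ke + Kc ^ 2 + 1) * X.E.ε ^ (-η) := by
      have : 1 ≤ X.B.Ke + Kc ^ 2 + 1 := by nlinarith [sq_nonneg Kc]
      nlinarith
    obtain ⟨S, hS, hm⟩ := hI.listW1 hel p
      (ip (toP (X.T.sat o₁).V) (nrm (nf p)) + Real.cos δ * ip ((X.T.geo g).vc - toP (X.T.sat o₁).V) (nrm (X.T.geo g).th))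
      ((X.B.Ke + Kc ^ 2 + 1) * X.E.ε ^ (-η)) hρ
    refine ⟨S, hS, fun o ho hp hg => hm o ho hp ?_⟩
    rw [hnrm, rqc_w8_ident]
    have b1 : |ip (toP (X.T.sat o).V - (X.T.geo g).vc) (nrm (X.T.geo g).th)| ≤ X.B.Ke * (X.E.ε ^ (-η) * X.E.ε ^ X.u) := by
      have a1 := (rqb_geo H o ho).2.2.2.2.2.1.2
      rw [hg] at a1
      have a2 := H.shA o ho
      rw [hg] at a2
      have a3 := rqb_pow_le H a2
      have a4 : X.E.ε ^ (X.u - η) = X.E.ε ^ (-η) * X.E.ε ^ X.u := by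
        rw [← Real.rpow_add (rqb_eps0 H)]
        congr 1
        ring
      rw [a4] at a3
      exact a1.trans (mul_le_mul_of_nonneg_left a3 hKe)
    have b2 : |ip (toP (X.T.sat o).V - toP (X.T.sat o₁).V) (tang (X.T.geo g).th)| ≤ Kc * X.E.ε ^ (X.u - X.h) := by
      have a1 := (rpa_ip_le_norm (X.T.geo g).th ((X.T.sat o).V - (X.T.sat o₁).V)).1
      rw [rpa_toP_sub] at a1
      exact a1.trans (hI.locV o o₁ ho ho₁ (hp.trans hp₁.symm))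
    have b3 := Real.abs_cos_le_one δ
    have e1 : X.E.ε ^ X.h * X.E.ε ^ (X.u - X.h) = X.E.ε ^ X.u := by
      rw [← Real.rpow_add (rqb_eps0 H)]
      congr 1
      ring
    have c1 : |Real.cos δ * ip (toP (X.T.sat o).V - (X.T.geo g).vc) (nrm (X.T.geo g).th)|
        ≤ X.B.Ke * (X.E.ε ^ (-η) * X.E.ε ^ X.u) := by
      rw [abs_mul]
      calc |Real.cos δ| * |ip (toP (X.T.sat o).V - (X.T.geo g).vc) (nrm (X.T.geo g).th)|
          ≤ 1 * (X.B.Ke * (X.E.ε ^ (-η) * X.E.ε ^ X.u)) := mul_le_mul b3 b1 (abs_nonneg _) zero_le_one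
        _ = _ := one_mul _
    have c2 : |Real.sin δ * ip (toP (X.T.sat o).V - toP (X.T.sat o₁).V) (tang (X.T.geo g).th)|
        ≤ Kc ^ 2 * X.E.ε ^ X.u := by
      rw [abs_mul]
      calc |Real.sin δ| * |ip (toP (X.T.sat o).V - toP (X.T.sat o₁).V) (tang (X.T.geo g).th)|
          ≤ (Kc * X.E.ε ^ X.h) * (Kc * X.E.ε ^ (X.u - X.h)) :=
            mul_le_mul hsin b2 (abs_nonneg _) (mul_nonneg (by linarith) (rqb_pow_pos H _).le)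
        _ = Kc ^ 2 * (X.E.ε ^ X.h * X.E.ε ^ (X.u - X.h)) := by ring
        _ = _ := by rw [e1]
    have c3 : Kc ^ 2 * X.E.ε ^ X.u ≤ (Kc ^ 2 + 1) * (X.E.ε ^ (-η) * X.E.ε ^ X.u) := by
      have : X.E.ε ^ X.u ≤ X.E.ε ^ (-η) * X.E.ε ^ X.u := le_mul_of_one_le_left hpu.le h1
      nlinarith [sq_nonneg Kc]
    show _ ≤ (X.B.Ke + Kc ^ 2 + 1) * X.E.ε ^ (-η) * X.E.ε ^ X.u
    refine (abs_add_le _ _).trans ?_
    nlinarith
  · refine ⟨∅, ?_, fun o ho hp hg => absurd ⟨o, ho, hp, hg⟩ hex⟩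
    rw [Finset.card_empty, Nat.cast_zero]
    have : 0 ≤ X.B.Ke + Kc ^ 2 + 1 := by nlinarith [sq_nonneg Kc]
    have h2 : 0 ≤ X.E.ε ^ (-η) := by linarith
    exact mul_nonneg (by linarith) (mul_nonneg this h2)

/-- **L-RQC-W8-ISO**  isotropic case: `(P_f, D) = (p, g)` determine `W_f` up to `Kc ((4 Ke + 1) ε^(-η))²` values.
PROOF.  `G = geo g`, `v₀ = !₂[G.vc.1, G.vc.2]` (`toP v₀ = G.vc`).   `InRect Ke ε b a th (toP V_s - G.vc)` with `u - η ≤ b, a` (`rqb_geo`, `H.shB'`, `H.shA`): both frame components `≤ Ke ε^(u-η)`,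
both coordinates `≤ 2 Ke ε^(u-η)` (`rpa_coord_le`), `‖V_s - v₀‖ ≤ 4 Ke ε^(-η) ε^u` (`rpb_norm_le`);  `hI.listW2 hel p v₀ ρ` with `ρ = (4 Ke + 1) ε^(-η) ≥ 1`. -/
theorem rqc_W8_iso (H : X.Ok Kn Kc η k kf αf) (hI : Incoming X.E X.T X.h Kc X.el Pf Wf nf) (hel : X.el = false)
    (p : α) (g : X.T.Γ) :
    ∃ S : Finset β, (S.card : ℝ) ≤ Kc * ((4 * X.B.Ke + 1) * X.E.ε ^ (-η)) ^ 2 ∧
      ∀ o : X.T.Ω, 0 < X.T.P.p o → Pf o = p → X.T.D o = g → Wf o ∈ S := by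
  have hKe := rqb_Ke H
  have hη1 := rqb_one_le_pow H H.η0
  have hη0 : 0 < X.E.ε ^ (-η) := rqb_pow_pos H _
  have hu0 : 0 < X.E.ε ^ X.u := rqb_pow_pos H _
  obtain ⟨G, hG⟩ : ∃ G : Geo, G = X.T.geo g := ⟨_, rfl⟩
  have hρ : 1 ≤ (4 * X.B.Ke + 1) * X.E.ε ^ (-η) := by nlinarith
  obtain ⟨S, hS, hm⟩ := hI.listW2 hel p (!₂[G.vc.1, G.vc.2]) ((4 * X.B.Ke + 1) * X.E.ε ^ (-η)) hρ
  refine ⟨S, hS, fun o ho hp hD => hm o ho hp ?_⟩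
  have hgeo := rqb_geo H o ho
  rw [hD, ← hG] at hgeo
  obtain ⟨-, -, -, -, -, ⟨hv1, hv2⟩, -⟩ := hgeo
  have hsa := H.shA o ho
  have hsb := H.shB' hel o ho
  rw [hD, ← hG] at hsa hsb
  have epw : X.E.ε ^ (X.u - η) = X.E.ε ^ (-η) * X.E.ε ^ X.u := by
    rw [← Real.rpow_add (rqb_eps0 H)]
    congr 1
    ring
  have b1 : |ip (toP (X.T.site (X.T.O o)).V - G.vc) (tang G.th)| ≤ X.B.Ke * (X.E.ε ^ (-η) * X.E.ε ^ X.u) := by
    rw [← epw]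
    exact hv1.trans (mul_le_mul_of_nonneg_left (rqb_pow_le H hsb) hKe)
  have b2 : |ip (toP (X.T.site (X.T.O o)).V - G.vc) (nrm G.th)| ≤ X.B.Ke * (X.E.ε ^ (-η) * X.E.ε ^ X.u) := by
    rw [← epw]
    exact hv2.trans (mul_le_mul_of_nonneg_left (rqb_pow_le H hsa) hKe)
  obtain ⟨c1, c2⟩ := rpa_coord_le G.th (toP (X.T.site (X.T.O o)).V - G.vc)
  have hn := rpb_norm_le ((X.T.sat o).V - !₂[G.vc.1, G.vc.2])
  have e0 : ((X.T.sat o).V - !₂[G.vc.1, G.vc.2]) 0 = (toP (X.T.site (X.T.O o)).V - G.vc).1 := rfl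
  have e1 : ((X.T.sat o).V - !₂[G.vc.1, G.vc.2]) 1 = (toP (X.T.site (X.T.O o)).V - G.vc).2 := rfl
  rw [e0, e1] at hn
  have hpos : 0 ≤ X.E.ε ^ (-η) * X.E.ε ^ X.u := by positivity
  have hfin : (4 * X.B.Ke + 1) * X.E.ε ^ (-η) * X.E.ε ^ (X.E.u X.T.t)
      = 4 * (X.B.Ke * (X.E.ε ^ (-η) * X.E.ε ^ X.u)) + X.E.ε ^ (-η) * X.E.ε ^ X.u := by
    show (4 * X.B.Ke + 1) * X.E.ε ^ (-η) * X.E.ε ^ X.u = _
    ring
  rw [hfin]
  linarith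

/-- **(h8), geometric form** -/
theorem rqc_W8 (H : X.Ok Kn Kc η k kf αf) (hI : Incoming X.E X.T X.h Kc X.el Pf Wf nf) (p : α) (g : X.T.Γ) :
    ∃ S : Finset β, (S.card : ℝ) ≤ rqcC8 X.B.Ke Kc * X.E.ε ^ (-(2 * η)) ∧
      ∀ o : X.T.Ω, 0 < X.T.P.p o → Pf o = p → X.T.D o = g → Wf o ∈ S := by
  have hK := rqc_Kc H hI
  have hKe := rqb_Ke H
  have e1 : X.E.ε ^ (-(2 * η)) = (X.E.ε ^ (-η)) ^ 2 := by
    rw [← Real.rpow_natCast, ← Real.rpow_mul (rqb_eps0 H).le]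
    congr 1
    push_cast
    ring
  have h1 := rqb_one_le_pow H H.η0
  by_cases hel : X.el = true
  · obtain ⟨S, hS, hm⟩ := rqc_W8_el H hI hel p g
    refine ⟨S, hS.trans ?_, hm⟩
    unfold rqcC8
    rw [e1, mul_assoc]
    refine mul_le_mul_of_nonneg_left ?_ (by linarith)
    have a1 : X.B.Ke + Kc ^ 2 + 1 ≤ (4 * X.B.Ke + Kc ^ 2 + 1) ^ 2 := by nlinarith [sq_nonneg Kc]
    have a2 : X.E.ε ^ (-η) ≤ (X.E.ε ^ (-η)) ^ 2 := by nlinarith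
    exact mul_le_mul a1 a2 (by linarith) (by positivity)
  · obtain ⟨S, hS, hm⟩ := rqc_W8_iso H hI (by simpa using hel) p g
    refine ⟨S, hS.trans ?_, hm⟩
    unfold rqcC8
    rw [e1, mul_assoc, mul_pow]
    refine mul_le_mul_of_nonneg_left ?_ (by linarith)
    refine mul_le_mul_of_nonneg_right ?_ (by positivity)
    exact pow_le_pow_left₀ (by linarith) (by nlinarith [sq_nonneg Kc]) 2

/-- **L-RQC-W9**  `(P_f, A) = (p, A)` determine `W_f` up to `Kc (2 Lg + 1)²` values.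
PROOF.  `‖V_s - V_A‖ ≤ 2 Lg ε^u` (`rqb_cand_V`, `norm_sub_rev`).   `el = true` : `|ip (toP V_s) (nrm (nf p)) - ip (toP V_A) (nrm (nf p))| ≤ ‖V_s - V_A‖` (`rpa_ip_sub`, `rpa_toP_sub`, `rpa_ip_le_norm`),
`hI.listW1 hel p (ip (toP V_A) (nrm (nf p))) (2 Lg + 1)`, `Kc (2 Lg + 1) ≤ Kc (2 Lg + 1)²`;   `el = false` : `hI.listW2 hel p V_A (2 Lg + 1)`. -/
theorem rqc_W9 (H : X.Ok Kn Kc η k kf αf) (hI : Incoming X.E X.T X.h Kc X.el Pf Wf nf) (p : α) (A : X.At.𝔸) :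
    ∃ S : Finset β, (S.card : ℝ) ≤ rqcC9 X.Lg Kc ∧
      ∀ o : X.T.Ω, 0 < X.T.P.p o → A ∈ X.Cand (X.T.O o) → Pf o = p → Wf o ∈ S := by
  have hK := rqc_Kc H hI
  have hL := H.Lg1
  have hρ : (1 : ℝ) ≤ 2 * X.Lg + 1 := by linarith
  have hpos := rqb_pow_pos H X.u
  have hV : ∀ o : X.T.Ω, A ∈ X.Cand (X.T.O o) →
      ‖(X.T.sat o).V - (X.At.asite A).V‖ ≤ (2 * X.Lg + 1) * X.E.ε ^ (X.E.u X.T.t) := by
    intro o hA
    have h1 := rqb_cand_V H hA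
    rw [norm_sub_rev] at h1
    have h2 : (2 * X.Lg) * X.E.ε ^ X.u ≤ (2 * X.Lg + 1) * X.E.ε ^ X.u :=
      mul_le_mul_of_nonneg_right (by linarith) hpos.le
    exact h1.trans h2
  by_cases hel : X.el = true
  · obtain ⟨S, hS, hm⟩ := hI.listW1 hel p (ip (toP (X.At.asite A).V) (nrm (nf p))) (2 * X.Lg + 1) hρ
    refine ⟨S, hS.trans ?_, fun o ho hA hp => hm o ho hp ?_⟩
    · unfold rqcC9
      refine mul_le_mul_of_nonneg_left ?_ (by linarith)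
      nlinarith
    · rw [← rpa_ip_sub, ← rpa_toP_sub]
      exact (rpa_ip_le_norm _ _).2.trans (hV o hA)
  · obtain ⟨S, hS, hm⟩ := hI.listW2 (by simpa using hel) p (X.At.asite A).V (2 * X.Lg + 1) hρ
    exact ⟨S, hS, fun o ho hA hp => hm o ho hp (hV o hA)⟩

theorem rqc_lists_eqns_cite : True := by
  have := @rqcC7.eq_1
  have := @rqcCP.eq_1
  have := @rqcC8.eq_1
  have := @rqcC9.eq_1
  trivial

end Claimed.Agent.R255
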