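-- KEEP
import Claimed.Agent.R255.Rep.RqcLists

/-!
# Row 255 (BR paper), Sec. 11, stage S6 REPAY, PART C, file 2: (11.credit-information) on the concrete labels `RqD`      (architect helper46; prefix `rqc_`)

NATURAL units, `ℓ = lg ε`.   `X : RqD`, `H : X.Ok Kn Kc η k kf αf`, `hne : X.Ne`, `hI : Incoming ..`.
* `rqc_hk` : `(k_f - α_f) ℓ ≤ H(W_f | P_f)`                                       (the endpoint marginal of the candidate law is the endpoint law)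
* `rqc_h7` : `H(F_T, J | P_f) ≤ 2 θ ℓ + log C7`
* `rqc_h8` : `H(W_f | D, F_T, J) ≤ (4 θ + 2 η) ℓ + log (CP C8)`
* `rqc_h9` : `H(W_f | A, F_T, J) ≤ 4 θ ℓ + log (CP C9)`
* `rqc_info` : `(k_f - α_f - 10 θ - 2 η) ℓ - log C ≤ I(A ; D | F_T, J)`
* `rqc_main` = the statement of `rq_C`.
-/

set_option autoImplicit false

namespace Claimed.Agent.R255

open scoped BigOperators
open Classical
open FLaw Pkt Osc

/-- a constant is small against `ℓ` -/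
theorem rqc_small (C ν : ℝ) (hν : 0 < ν) : ∃ ε₀ : ℝ, 0 < ε₀ ∧ ∀ ε : ℝ, 0 < ε → ε < ε₀ → C ≤ ν * lg ε := by
  refine ⟨Real.exp (-(|C| / ν)), Real.exp_pos _, fun ε h0 h1 => ?_⟩
  have h2 : Real.log ε < -(|C| / ν) := by
    rw [← Real.log_exp (-(|C| / ν))]
    exact Real.log_lt_log h0 h1
  have h3 : lg ε = - Real.log ε := by
    unfold lg
    rw [one_div, Real.log_inv]
  have h4 : |C| / ν < lg ε := by rw [h3]; linarith
  have h5 : |C| < ν * lg ε := by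
    rw [div_lt_iff₀ hν] at h4
    linarith
  linarith [le_abs_self C]

/-- a list of constant size -/
theorem rqc_entC_list {Ω α β : Type} [Fintype Ω] (P : FLaw Ω) (U : Ω → α) (V : Ω → β) (N : ℝ)
    (h : ∀ ω₀, P.p ω₀ ≠ 0 → ∃ S : Finset α, (S.card : ℝ) ≤ N ∧ ∀ ω, P.p ω ≠ 0 → V ω = V ω₀ → U ω ∈ S) :
    P.entC U V ≤ Real.log N := by
  have := rep_entC_le_ev_log P U V (fun _ => N) h
  rwa [ent_ev_const] at this

variable {X : RqD} {Kn Kc η k kf αf : ℝ} {α β : Type} {Pf : X.T.Ω → α} {Wf : X.T.Ω → β} {nf : α → ℝ}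

/-- `log (C ε^(-x)) = x ℓ + log C` -/
theorem rqc_log (H : X.Ok Kn Kc η k kf αf) {C : ℝ} (hC : 0 < C) (x : ℝ) :
    Real.log (C * X.E.ε ^ (-x)) = x * lg X.E.ε + Real.log C := by
  rw [Real.log_mul hC.ne' (rqb_pow_pos H _).ne', rqb_log_pow H]
  ring

theorem rqc_hk (H : X.Ok Kn Kc η k kf αf) (hc : Credit X.T.P Pf Wf (X.E.ε ^ (kf - αf))) :
    (kf - αf) * lg X.E.ε ≤ X.R1.entC (fun x => Wf x.1) (fun x => Pf x.1) := by
  rw [rq_transfer X Wf Pf]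
  have h1 := rep_credit_entC (rqb_pow_pos H (kf - αf)) hc
  rw [one_div, Real.log_inv, rqb_log_pow H] at h1
  linarith

theorem rqc_C7_pos (H : X.Ok Kn Kc η k kf αf) (hI : Incoming X.E X.T X.h Kc X.el Pf Wf nf) (hne : X.Ne) (St : ℕ)
    (hSt : Fintype.card X.τ ≤ St) : 0 < rqcC7 X.Lg Kc X.S0 St := by
  have hK := rqc_Kc H hI
  have hLg := H.Lg1
  obtain ⟨o, ho⟩ := ent_exists_supp X.T.P
  obtain ⟨A, -⟩ := hne o ho
  have h1 : 0 < X.S0 := lt_of_le_of_lt (Nat.zero_le _) (H.cut.goodC.ncls A)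
  have h2 : 0 < St := lt_of_lt_of_le (Fintype.card_pos_iff.2 ⟨X.tag A⟩) hSt
  have h1' : (0 : ℝ) < (X.S0 : ℝ) := by exact_mod_cast h1
  have h2' : (0 : ℝ) < (St : ℝ) := by exact_mod_cast h2
  unfold rqcC7
  have a1 : 0 < 4 * X.Lg + 2 * Kc + 2 := by linarith
  have a2 : 0 < 2 * Kc + 8 := by linarith
  have a3 : 0 < 2 * Kc + 2 := by linarith
  have a4 : 0 < 4 * Kc + 2 := by linarith
  positivity

theorem rqc_h7 (H : X.Ok Kn Kc η k kf αf) (hI : Incoming X.E X.T X.h Kc X.el Pf Wf nf) (hne : X.Ne) (St : ℕ)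
    (hSt : Fintype.card X.τ ≤ St) :
    X.R1.entC (pair X.F1 X.J1) (fun x => Pf x.1) ≤ 2 * X.θ * lg X.E.ε + Real.log (rqcC7 X.Lg Kc X.S0 St) := by
  rw [← rqc_log H (rqc_C7_pos H hI hne St hSt)]
  refine rqc_entC_list _ _ _ _ fun x₀ hx₀ => ?_
  obtain ⟨h1, -⟩ := (rqb_supp1 hne x₀).1 hx₀
  obtain ⟨S, hS, hm⟩ := rqc_FJ_list H hI St hSt x₀.1 (rqb_pos_of_ne _ h1)
  refine ⟨S, hS, fun x hx hP => ?_⟩
  obtain ⟨h2, h3⟩ := (rqb_supp1 hne x).1 hx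
  exact hm x.1 x.2 (rqb_pos_of_ne _ h2) h3 hP

theorem rqc_CP_pos (H : X.Ok Kn Kc η k kf αf) (hI : Incoming X.E X.T X.h Kc X.el Pf Wf nf) :
    0 < rqcCP X.Lg Kc := by
  have hK := rqc_Kc H hI
  have hLg := H.Lg1
  unfold rqcCP
  have a1 : 0 < 2 * X.Lg + 4 := by linarith
  positivity

theorem rqc_C8_pos (H : X.Ok Kn Kc η k kf αf) (hI : Incoming X.E X.T X.h Kc X.el Pf Wf nf) :
    0 < rqcC8 X.B.Ke Kc := by
  have hK := rqc_Kc H hI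
  have hKe := rqb_Ke H
  unfold rqcC8
  have a1 : 0 < 4 * X.B.Ke + Kc ^ 2 + 1 := by positivity
  positivity

theorem rqc_C9_pos (H : X.Ok Kn Kc η k kf αf) (hI : Incoming X.E X.T X.h Kc X.el Pf Wf nf) :
    0 < rqcC9 X.Lg Kc := by
  have hK := rqc_Kc H hI
  have hLg := H.Lg1
  unfold rqcC9
  have a1 : 0 < 2 * X.Lg + 1 := by linarith
  positivity

theorem rqc_h8 (H : X.Ok Kn Kc η k kf αf) (hI : Incoming X.E X.T X.h Kc X.el Pf Wf nf) (hne : X.Ne) :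
    X.R1.entC (fun x => Wf x.1) (pair X.D1 (pair X.F1 X.J1))
      ≤ (4 * X.θ + 2 * η) * lg X.E.ε + Real.log (rqcCP X.Lg Kc * rqcC8 X.B.Ke Kc) := by
  have c1 := rqc_CP_pos H hI
  have c2 := rqc_C8_pos H hI
  rw [← rqc_log H (mul_pos c1 c2)]
  refine rqc_entC_list _ _ _ _ fun x₀ _ => ?_
  obtain ⟨SP, hSP, mP⟩ := rqc_Pf_list H hI (X.F1 x₀)
  choose SW hSW mW using fun p => rqc_W8 H hI p (X.D1 x₀)
  refine ⟨SP.biUnion SW, ?_, fun x hx hc => ?_⟩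
  · refine (rqc_bind SP _ _ hSP (mul_pos c2 (rqb_pow_pos H _)).le SW hSW).trans (le_of_eq ?_)
    rw [show -(4 * X.θ + 2 * η) = -(4 * X.θ) + -(2 * η) by ring, Real.rpow_add (rqb_eps0 H)]
    ring
  · obtain ⟨h2, h3⟩ := (rqb_supp1 hne x).1 hx
    have hD : X.D1 x = X.D1 x₀ := congrArg Prod.fst hc
    have hF : X.F1 x = X.F1 x₀ := congrArg (fun q => q.2.1) hc
    rw [Finset.mem_biUnion]
    exact ⟨Pf x.1, mP x.1 x.2 (rqb_pos_of_ne _ h2) h3 hF, mW (Pf x.1) x.1 (rqb_pos_of_ne _ h2) rfl hD⟩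

theorem rqc_h9 (H : X.Ok Kn Kc η k kf αf) (hI : Incoming X.E X.T X.h Kc X.el Pf Wf nf) (hne : X.Ne) :
    X.R1.entC (fun x => Wf x.1) (pair X.A1 (pair X.F1 X.J1))
      ≤ 4 * X.θ * lg X.E.ε + Real.log (rqcCP X.Lg Kc * rqcC9 X.Lg Kc) := by
  have c1 := rqc_CP_pos H hI
  have c2 := rqc_C9_pos H hI
  rw [← rqc_log H (mul_pos c1 c2)]
  refine rqc_entC_list _ _ _ _ fun x₀ _ => ?_
  obtain ⟨SP, hSP, mP⟩ := rqc_Pf_list H hI (X.F1 x₀)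
  choose SW hSW mW using fun p => rqc_W9 H hI p (X.A1 x₀)
  refine ⟨SP.biUnion SW, ?_, fun x hx hc => ?_⟩
  · refine (rqc_bind SP _ _ hSP c2.le SW hSW).trans (le_of_eq ?_)
    ring
  · obtain ⟨h2, h3⟩ := (rqb_supp1 hne x).1 hx
    have hA : X.A1 x = X.A1 x₀ := congrArg Prod.fst hc
    have hF : X.F1 x = X.F1 x₀ := congrArg (fun q => q.2.1) hc
    have h3' : X.A1 x₀ ∈ X.Cand (X.T.O x.1) := by rw [← hA]; exact h3
    rw [Finset.mem_biUnion]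
    exact ⟨Pf x.1, mP x.1 x.2 (rqb_pos_of_ne _ h2) h3 hF, mW (Pf x.1) x.1 (rqb_pos_of_ne _ h2) h3' rfl⟩

/-- the total constant -/
noncomputable def rqcCt (Lg Kc Ke : ℝ) (S0 St : ℕ) : ℝ :=
  Real.log (rqcC7 Lg Kc S0 St) + Real.log (rqcCP Lg Kc * rqcC8 Ke Kc) + Real.log (rqcCP Lg Kc * rqcC9 Lg Kc)

/-- **(11.credit-information)** with an explicit constant -/
theorem rqc_info (H : X.Ok Kn Kc η k kf αf) (hne : X.Ne) (St : ℕ) (hSt : Fintype.card X.τ ≤ St) {ν : ℝ} (hν : 0 ≤ ν)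
    (hC : rqcCt X.Lg Kc X.B.Ke X.S0 St ≤ ν * lg X.E.ε) :
    (kf - αf - (10 * X.θ + 2 * η + ν)) * lg X.E.ε ≤ X.R1.miC X.A1 X.D1 (pair X.F1 X.J1) := by
  have hl := rqb_l_pos H
  rcases H.credit with h0 | ⟨α, β, Pf, Wf, nf, hc, hI⟩
  · have h1 := ent_miC_nonneg X.R1 X.A1 X.D1 (pair X.F1 X.J1)
    have h2 : 0 ≤ (αf + (10 * X.θ + 2 * η + ν)) * lg X.E.ε :=
      mul_nonneg (by linarith [H.θ0, H.η0, H.α0]) hl.le
    rw [h0]
    linarith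
  · have key := rep_credit_info X.R1 X.J1 X.A1 X.D1 X.F1 (fun x => Pf x.1) (fun x => Wf x.1)
      ((kf - αf) * lg X.E.ε) _ _ _ (rqc_hk H hc) (rqc_h7 H hI hne St hSt) (rqc_h8 H hI hne) (rqc_h9 H hI hne)
    unfold rqcCt at hC
    linarith

/-- the statement of `rq_C` -/
theorem rqc_main (c : RqK) (ν : ℝ) (hν : 0 < ν) : ∃ ε₀ : ℝ, 0 < ε₀ ∧ ∀ (X : RqD) (η k kf αf : ℝ),
    X.Fits c → X.E.ε < ε₀ → X.Ok c.Kn c.Kc η k kf αf → (∀ o, X.T.P.p o ≠ 0 → (X.Cand (X.T.O o)).Nonempty) →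
    (kf - αf - (10 * X.θ + 2 * η + ν)) * lg X.E.ε ≤ X.R1.miC X.A1 X.D1 (pair X.F1 X.J1) := by
  obtain ⟨ε₀, h0, hs⟩ := rqc_small (rqcCt c.Lg c.Kc c.B.Ke c.S0 c.Stag) ν hν
  refine ⟨ε₀, h0, fun X η k kf αf hF hε H hne => ?_⟩
  refine rqc_info H hne c.Stag hF.Stag hν.le ?_
  rw [hF.Lg, hF.B, hF.S0]
  exact hs _ (rqb_eps0 H) hε

theorem rqc_main_eqns_cite : True := by
  have := @rqcCt.eq_1
  trivial

end Claimed.Agent.R255
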