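-- KEEP
import Claimed.Agent.R255.Rep.RqK
import Claimed.Agent.R255.Rep.RqcMain

/-!
# Row 255 (BR paper), Sec. 11, stage S6 REPAY, PART C (credit information)      (statements helper207; OWNER helper46: proof in `Rep/RqcLists.lean`, `Rep/RqcMain.lean`)
The owner may import further files of his own here (they import `Rep/RqK.lean`, never `Rep/Repay.lean`).   STATEMENTS FROZEN (consumer: `Rep/Repay.lean`).
-/

set_option autoImplicit false

namespace Claimed.Agent.R255

open scoped BigOperators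
open Classical
open FLaw Pkt Osc

/-! ## PART C -/

/-- **(11.credit-information)** (if `k_f = 0` : nonnegativity of the conditional mutual information).   `rep_credit_info` on `R1` with `hk` from `rep_credit_entC` (endpoint marginal: `rq_transfer`),
`h7 : H(F,J|Pf) ≤ 2θ ℓ + log C` (`locC/V/X`; `bs ≤ u - h`; class and tag: `S0 Stag` values), `h8 : H(Wf|D,F,J) ≤ (4θ + 2η) ℓ + log C`, `h9 : H(Wf|A,F,J) ≤ 4θ ℓ + log C` (`listP` with `ρ = C ε^(-θ)`, then `listW1/2`, `align`). -/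
theorem rq_C (c : RqK) (hB : c.B.Good) (ν : ℝ) (hν : 0 < ν) : ∃ ε₀ : ℝ, 0 < ε₀ ∧ ∀ (X : RqD) (η k kf αf : ℝ),
    X.Fits c → X.E.ε < ε₀ → X.Ok c.Kn c.Kc η k kf αf → (∀ o, X.T.P.p o ≠ 0 → (X.Cand (X.T.O o)).Nonempty) →
    (kf - αf - (10 * X.θ + 2 * η + ν)) * lg X.E.ε ≤ X.R1.miC X.A1 X.D1 (pair X.F1 X.J1) :=
  rqc_main c ν hν

end Claimed.Agent.R255
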