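-- KEEP
import Claimed.Agent.R255.Rep.RqA
import Claimed.Agent.R255.Rep.RqB
import Claimed.Agent.R255.Rep.RqC

/-!
# Row 255 (BR paper), Sec. 11, stage S6 REPAY = Proposition 11.4, the inequality `P_t ≤ B_r + γ h + (k - k_f)/2 + C_* η`      (architect helper207; prefix `rq_`)

EXIT:  `rq_repay`.   GLUE PROVED HERE from `rep_repay_core` and the EXPORTS of the three parts (statements below; `ℓ = lg ε`, natural units):
* PART A (helper171)  `rq_A1` (11.repayment-candidate-expression) + candidates exist;   `rq_A2` = `r3`, `r4` ((11.finite-coherence) + log-sum);   `rq_A3` = `h1`, `h2`, `r9` (the candidate law)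
* PART B (helper69)   `rq_B1` = `r1`, `r2` (candidate proximity lists);   `rq_B2` = (11.faithful-classical-bound-averaged) + (11.information-before-credit), `G` eliminated
* PART C (helper196)  `rq_C` = (11.credit-information)
* `rq_W` = the weight change (elementary).
CONSTANTS: `RqK`;  every `ε₀` depends only on `(c : RqK, ν)`.
-/

set_option autoImplicit false

namespace Claimed.Agent.R255

open scoped BigOperators
open Classical
open FLaw Pkt Osc

/-! ## the weight change -/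

/-- `w_loc(D) - w(G) ≤ d h + 2 η`.   Elongated: `(1+γ)(b - bs) + (1-γ)(a - u + h) ≤ 2 η + h` (`a ≤ u` from `GeoOK`);  isotropic: `w(D) ≤ 2 u`. -/
theorem rq_W (X : RqD) (Kn Kc η k kf αf : ℝ) (h0 : 0 < X.γ) (h1 : X.γ < 1) (H : X.Ok Kn Kc η k kf αf) :
    X.EwD - (X.wG - 2 * X.bs) ≤ X.d * X.h + 2 * η := by
  have key : X.EwD ≤ X.d * X.h + 2 * η + (X.wG - 2 * X.bs) := by
    unfold RqD.EwD
    rw [← ent_ev_const X.T.P (X.d * X.h + 2 * η + (X.wG - 2 * X.bs))]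
    refine ent_ev_mono X.T.P fun o ho => ?_
    have hp : 0 < X.T.P.p o := lt_of_le_of_ne (X.T.P.nonneg o) (Ne.symm ho)
    obtain ⟨-, hba, -, hau, -⟩ := H.cut.obT.geo o hp
    have hau' : (X.T.geo (X.T.D o)).a ≤ X.u := hau
    have hη := H.η0
    have hh := H.h0
    unfold wt RqD.wG RqD.bG RqD.d
    by_cases hel : X.el = true
    · have hb := H.shB hel o hp
      rw [if_pos hel, if_pos hel]
      nlinarith
    · rw [if_neg hel, if_neg hel]
      nlinarith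
  linarith

/-- **PROPOSITION 11.4** (the repayment inequality) -/
theorem rq_repay (c : RqK) (h0 : 0 < c.γ) (h1 : c.γ < 1) (hcl : UnivBound c.γ c.γ) (hB : c.B.Good) (ν : ℝ)
    (hν : 0 < ν) : ∃ ε₀ : ℝ, 0 < ε₀ ∧ ∀ (X : RqD) (η k kf αf : ℝ),
    X.Fits c → X.E.ε < ε₀ → X.Ok c.Kn c.Kc η k kf αf →
    score X.γ X.E X.T ≤ X.T.P.ent X.Jo / lg X.E.ε + X.bs + X.T.P.ev (fun o => X.Cl.AJ X.E X.tag (X.Jo o))
      + X.γ * X.h + (k - kf) / 2 + (20 * (X.θ + X.ξ + η) + αf / 2 + ν) := by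
  obtain ⟨εa, ea0, HA1⟩ := rq_A1 c hB (ν / 10) (by positivity)
  obtain ⟨εb, eb0, HA2⟩ := rq_A2 c hB (ν / 10) (by positivity)
  obtain ⟨εc, ec0, HB1⟩ := rq_B1 c hB (ν / 10) (by positivity)
  obtain ⟨εd, ed0, HB2⟩ := rq_B2 c h0 h1 hcl hB (ν / 10) (by positivity)
  obtain ⟨εe, ee0, HC⟩ := rq_C c hB (ν / 10) (by positivity)
  refine ⟨min (min εa εb) (min (min εc εd) εe), by positivity, ?_⟩
  intro X η k kf αf hF hε H
  have ha : X.E.ε < εa := lt_of_lt_of_le hε ((min_le_left _ _).trans (min_le_left _ _))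
  have hb : X.E.ε < εb := lt_of_lt_of_le hε ((min_le_left _ _).trans (min_le_right _ _))
  have hc : X.E.ε < εc := lt_of_lt_of_le hε ((min_le_right _ _).trans ((min_le_left _ _).trans (min_le_left _ _)))
  have hd : X.E.ε < εd := lt_of_lt_of_le hε ((min_le_right _ _).trans ((min_le_left _ _).trans (min_le_right _ _)))
  have he : X.E.ε < εe := lt_of_lt_of_le hε ((min_le_right _ _).trans (min_le_right _ _))
  have hl : 0 < lg X.E.ε := p9_lg_pos H.cut.obE.ε0 H.cut.obE.ε1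
  obtain ⟨hne, a1⟩ := HA1 X η k kf αf hF ha H
  obtain ⟨a2, a3⟩ := HA2 X η k kf αf hF hb H
  obtain ⟨a4, a5, a6⟩ := rq_A3 X hne
  obtain ⟨b1, b2⟩ := HB1 X η k kf αf hF hc H hne
  have b3 := HB2 X η k kf αf hF hd H hne
  have c1 := HC X η k kf αf hF he H hne
  have w1 := rq_W X c.Kn c.Kc η k kf αf (by rw [hF.γ]; exact h0) (by rw [hF.γ]; exact h1) H
  have t1 : X.R1.entC X.Z1 X.J1 = X.T.P.entC X.Zo X.Jo := rq_transfer X X.Zo X.Jo
  have t2 : X.R1.entC X.Z1 (pair X.D1 X.J1) = X.T.P.entC X.Zo (pair X.T.D X.Jo) :=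
    rq_transfer X X.Zo (pair X.T.D X.Jo)
  have t3 : X.R1.entC X.Z1 (pair X.Q1 X.J1) = X.T.P.entC X.Zo (pair X.Qo X.Jo) :=
    rq_transfer X X.Zo (pair X.Qo X.Jo)
  have core := rq_core X.R1 X.J1 X.A1 X.D1 X.C1 X.Z1 X.Q1
    (by
      intro x x' _ _ hx
      have : X.Z1 x = X.Z1 x' := congrArg Prod.fst hx
      exact congrArg Prod.fst this)
    (by
      intro x x' _ _ hx
      have : X.Q1 x = X.Q1 x' := congrArg Prod.fst hx
      exact congrArg (fun q => q.2.1) this)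
    X.B1 X.Lm X.LZ (lg X.E.ε * X.EwD) (lg X.E.ε * (X.wG - 2 * X.bs)) X.LN (lg X.E.ε * X.Eg)
    ((k - X.d * X.h) * lg X.E.ε) (X.γ * X.h * lg X.E.ε) (X.d * X.h * lg X.E.ε)
    ((kf - αf - (10 * X.θ + 2 * η + ν / 10)) * lg X.E.ε)
    ((2 * X.θ + ν / 10) * lg X.E.ε) ((2 * X.θ + 2 * η + ν / 10) * lg X.E.ε) ((X.ξ + ν / 10) * lg X.E.ε)
    ((2 * X.ξ + ν / 10) * lg X.E.ε) ((2 * X.θ + ν / 10) * lg X.E.ε) (2 * η * lg X.E.ε)
    a4 a5 b1 b2 (by rw [t3]; exact a2) a3 (by linarith)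
    (by
      have := mul_le_mul_of_nonneg_left w1 hl.le
      nlinarith)
    a6
  rw [t1, t2] at core
  have hAJ := rq_AJ X hl
  have hθ := H.θ0
  have hξ := H.ξ0
  have hη := H.η0
  -- everything in units of `ℓ`
  have fin : lg X.E.ε * score X.γ X.E X.T ≤ lg X.E.ε * (X.T.P.ent X.Jo / lg X.E.ε + X.bs
      + X.T.P.ev (fun o => X.Cl.AJ X.E X.tag (X.Jo o))
      + X.γ * X.h + (k - kf) / 2 + (20 * (X.θ + X.ξ + η) + αf / 2 + ν)) := by
    have e1 : lg X.E.ε * (X.T.P.ent X.Jo / lg X.E.ε) = X.T.P.ent X.Jo := by field_simp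
    have p1 : 0 ≤ lg X.E.ε * X.θ := by positivity
    have p2 : 0 ≤ lg X.E.ε * X.ξ := by positivity
    have p3 : 0 ≤ lg X.E.ε * η := by positivity
    have p4 : 0 ≤ lg X.E.ε * ν := by positivity
    nlinarith
  exact le_of_mul_le_mul_left fin hl

end Claimed.Agent.R255
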