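-- KEEP
import Claimed.Agent.R255.Rep.IsoTag
import Claimed.Agent.R255.Rep.MassBuf
import Claimed.Agent.R255.Rep.Repay

/-!
# Row 255 (BR paper), Sec. 11, isotropic chain `step_iso`, file 2: THE S6 INSTANCE      (chief helper220, OWNER helper78; prefix `rsj_`)

`rsj_repay` = Proposition 11.4 (`rq_repay` of `Rep/Repay.lean`) for the isotropic prepared cut `bs = 0`, `el = false`, on raw `CutOK` data: build `X : RqD`
(`ntab := 0`, `W := rsiWa`, `Vb := cellC (ε^(u_r))`, `yb := 0`), prove `X.Fits c`, `X.Ok 0 Kc 0 k kf αf`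
[`share` : `rm_near_atom` (`Rep/MassBuf.lean`) with `η := θ ≤ h`;  `wb2` : `pk_cell_near`;  `wcnt` : an active site is charged;  `bsu` : `0 ≤ u - h`],
apply `rq_repay`, and rewrite `H(J)/ℓ + 0 + E A_J = pcKstar …` (`ct_AJ_eq`; `X.Jo = ctJ` by `rfl`).
-/

set_option autoImplicit false

namespace Claimed.Agent.R255

open scoped BigOperators
open Classical
open FLaw Pkt Osc

/-- the isotropic prepared cut as data of S6 -/
noncomputable def rsjX (γ : ℝ) (E : PEnv) (B : PBd) (T : PTest) (h : ℝ) (p : Atoms.Par) (ξ : ℝ) (S0 : ℕ) (A0 : ℝ)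
    (At : Atoms) [ne : Nonempty At.𝔸] (Cl : Classes At) (τ : Type) [fin : Fintype τ] (tag : At.𝔸 → τ)
    (win : T.ι → ℕ × τ) (Lg : ℝ) (τV τX : E2) (θ : ℝ) : RqD where
  γ := γ
  E := E
  B := B
  T := T
  h := h
  bs := 0
  p := p
  ξ := ξ
  S0 := S0
  A0 := A0
  At := At
  ne := ne
  Cl := Cl
  τ := τ
  finτ := fin
  tag := tag
  win := win
  el := false
  Lg := Lg
  τV := τV
  τX := τX
  ntab := fun _ => 0
  θ := θ
  β := ℤ × ℤ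
  W := fun A => rpoW false (E.ε ^ E.u (T.t - 2 * h)) 0 (At.asite A)
  yb := fun _ => 0
  Vb := cellC (E.ε ^ E.u (T.t - 2 * h))

theorem rsj_defs_eqns_cite : True := by
  have := @rsjX.eq_1
  trivial

/-- the standing hypotheses of the repayment estimate for the isotropic prepared cut -/
theorem rsj_ok {γ : ℝ} {E : PEnv} {B : PBd} {T : PTest} {h : ℝ} {p : Atoms.Par} {ξ : ℝ} {S0 : ℕ} {A0 : ℝ}
    {At : Atoms} [Nonempty At.𝔸] {Cl : Classes At} {τ : Type} [Fintype τ] {tag : At.𝔸 → τ}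
    {win : T.ι → ℕ × τ} {Lg : ℝ} {τV τX : E2} {θ Kc k kf αf : ℝ}
    (hA : A0 / 2 < p.A) (hLg : 1 ≤ Lg) (hh : 0 < h) (hθ : 0 < θ) (hθh : θ ≤ h / 10) (hξ : 0 < ξ) (hα : 0 ≤ αf)
    (hu : h < E.u T.t)
    (hcut : CutOK γ E B T (T.t - 2 * h) 0 p ξ S0 A0 At Cl tag win)
    (hbuf : ∀ o, 0 < T.P.p o →
      Buffered E.ε (T.t - 2 * h) (E.u T.t) Lg (2 * max (B.Ra + p.Ra) 1) τV τX (T.sat o))
    (hsh : ∀ o, 0 < T.P.p o → (T.geo (T.D o)).b = E.u T.t ∧ (T.geo (T.D o)).a = E.u T.t)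
    (hcnt : ∀ o, 0 < T.P.p o → ∀ q : Loc0,
      ((((Cl.clsOf tag (ctJ E (T.t - 2 * h) 0 T win o)).filter
        (fun A => bufP E.ε (T.t - 2 * h) (E.u T.t) Lg τV τX (At.asite A) = q)).image
        (fun A => rpoW false (E.ε ^ E.u (T.t - 2 * h)) 0 (At.asite A))).card : ℝ) ≤ E.ε ^ (-(k + ξ)))
    (hcr : kf = 0 ∨ ∃ (α β' : Type) (Pf : T.Ω → α) (Wf : T.Ω → β') (nf : α → ℝ),
      Credit T.P Pf Wf (E.ε ^ (kf - αf)) ∧ Incoming E T h Kc false Pf Wf nf) :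
    (rsjX γ E B T h p ξ S0 A0 At Cl τ tag win Lg τV τX θ).Ok 0 Kc 0 k kf αf := by
  refine ⟨hcut, hA, hh, hθ, hθh, le_rfl, hh.le, hξ, hα, ?_, hLg, ?_, ?_, ?_, ?_, ?_, ?_, ?_, ?_, hcr⟩
  · -- bsu
    show (0 : ℝ) ≤ E.u T.t - h
    linarith
  · -- share
    rintro i ⟨o, ho, rfl⟩ A hloc hn
    exact rm_near_atom hcut.obE hcut.goodA (show θ ≤ (T.t - (T.t - 2 * h)) / 2 by linarith) hloc (hbuf o ho) hn
  · intro hel
    exact absurd hel (by simp [rsjX])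
  · intro o ho
    show E.u T.t - 0 ≤ (T.geo (T.D o)).a
    rw [(hsh o ho).2]
    linarith
  · intro hel
    exact absurd hel (by simp [rsjX])
  · intro _ o ho
    show E.u T.t - 0 ≤ (T.geo (T.D o)).b
    rw [(hsh o ho).1]
    linarith
  · intro hel
    exact absurd hel (by simp [rsjX])
  · intro _ A
    show ‖(At.asite A).V - cellC (E.ε ^ E.u (T.t - 2 * h)) (rpoW false (E.ε ^ E.u (T.t - 2 * h)) 0 (At.asite A))‖
      ≤ E.ε ^ E.u (T.t - 2 * h)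
    have e : rpoW false (E.ε ^ E.u (T.t - 2 * h)) 0 (At.asite A) = cell (E.ε ^ E.u (T.t - 2 * h)) (At.asite A).V := by
      simp [rpoW]
    rw [e]
    exact pk_cell_near (Real.rpow_pos_of_pos hcut.obE.ε0 _) _
  · rintro i ⟨o, ho, rfl⟩ q
    have e : ∀ (d1 d2 : DecidableEq (ℤ × ℤ)) (f : At.𝔸 → ℤ × ℤ) (s : Finset At.𝔸),
        @Finset.image _ _ d1 f s = @Finset.image _ _ d2 f s := by
      intro d1 d2 f s
      rw [Subsingleton.elim d1 d2]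
    have key := hcnt o ho q
    rw [e _ (fun a b => propDecidable (a = b))] at key
    exact key

/-- **Proposition 11.4, isotropic case, on raw cut data** -/
theorem rsj_repay (γ : ℝ) (h0 : 0 < γ) (h1 : γ < 1) (hcl : UnivBound γ γ) (B : PBd) (hB : B.Good) (p : Atoms.Par)
    (S0 Stag : ℕ) (A0 Lg Kc h θ ν : ℝ) (hA : A0 / 2 < p.A) (hLg : 1 ≤ Lg) (hh : 0 < h) (hθ : 0 < θ)
    (hθh : θ ≤ h / 10) (hν : 0 < ν) :
    ∃ ε₀ : ℝ, 0 < ε₀ ∧ ∀ (E : PEnv) (T : PTest) (ξ : ℝ) (At : Atoms) (_ : Nonempty At.𝔸) (Cl : Classes At) (τ : Type)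
      [Fintype τ] (tag : At.𝔸 → τ) (win : T.ι → ℕ × τ) (τV τX : E2) (k kf αf : ℝ),
      E.ε < ε₀ → Fintype.card τ ≤ Stag → 0 < ξ → 0 ≤ αf → h < E.u T.t →
      CutOK γ E B T (T.t - 2 * h) 0 p ξ S0 A0 At Cl tag win →
      (∀ o, 0 < T.P.p o →
        Buffered E.ε (T.t - 2 * h) (E.u T.t) Lg (2 * max (B.Ra + p.Ra) 1) τV τX (T.sat o)) →
      (∀ o, 0 < T.P.p o → (T.geo (T.D o)).b = E.u T.t ∧ (T.geo (T.D o)).a = E.u T.t) →
      (∀ o, 0 < T.P.p o → ∀ q : Loc0, ((((Cl.clsOf tag (ctJ E (T.t - 2 * h) 0 T win o)).filter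
          (fun A => rsiPa E T.t h Lg τV τX At A = q)).image (rsiWa E T.t h At)).card : ℝ) ≤ E.ε ^ (-(k + ξ))) →
      (kf = 0 ∨ ∃ (α β' : Type) (Pf : T.Ω → α) (Wf : T.Ω → β') (nf : α → ℝ),
        Credit T.P Pf Wf (E.ε ^ (kf - αf)) ∧ Incoming E T h Kc false Pf Wf nf) →
      score γ E T ≤ pcKstar (lg E.ε) T.P (ctJ E (T.t - 2 * h) 0 T win) 0 (Cl.LN E tag) (Cl.Lm E) Cl.gJ
        + γ * h + (k - kf) / 2 + (20 * (θ + ξ) + αf / 2 + ν) := by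
  obtain ⟨ε₀, e0, H⟩ := rq_repay ⟨γ, B, p, S0, Stag, A0, Lg, 0, Kc, h, θ⟩ h0 h1 hcl hB ν hν
  refine ⟨ε₀, e0, ?_⟩
  intro E T ξ At _ Cl τ _ tag win τV τX k kf αf hε hcard hξ hα hu hcut hbuf hsh hcnt hcr
  have key := H (rsjX γ E B T h p ξ S0 A0 At Cl τ tag win Lg τV τX θ) 0 k kf αf
    ⟨rfl, rfl, rfl, rfl, hcard, rfl, rfl, rfl, rfl⟩ hε
    (rsj_ok hA hLg hh hθ hθh hξ hα hu hcut hbuf hsh hcnt hcr)
  have e : pcKstar (lg E.ε) T.P (ctJ E (T.t - 2 * h) 0 T win) 0 (Cl.LN E tag) (Cl.Lm E) Cl.gJ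
      = T.P.ent (ctJ E (T.t - 2 * h) 0 T win) / lg E.ε + 0
        + T.P.ev (fun o => Cl.AJ E tag (ctJ E (T.t - 2 * h) 0 T win o)) := by
    unfold pcKstar
    congr 1
    congr 1
    funext o
    exact (ct_AJ_eq E Cl tag _).symm
  rw [e]
  have key' : score γ E T ≤ T.P.ent (ctJ E (T.t - 2 * h) 0 T win) / lg E.ε + 0
      + T.P.ev (fun o => Cl.AJ E tag (ctJ E (T.t - 2 * h) 0 T win o))
      + γ * h + (k - kf) / 2 + (20 * (θ + ξ + 0) + αf / 2 + ν) := key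
  linarith

end Claimed.Agent.R255
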