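-- KEEP
import Claimed.Agent.R255.Comp.CutMain
import Claimed.Agent.R255.Comp.Floor
import Claimed.Agent.R255.Rep.Credit

/-!
# Row 255 (BR paper), Secs. 10.2 + 11.3, stage S5 SELECT, file 1: THE SELECTION ENGINE      (architect helper264; prefix `rsel_`)

LABEL-AGNOSTIC.  A CURRENT LAW is a law `Q` on `T.Ω` with `pcxSub T Q` (support in the support of `T.P`); its test is `T.withLaw Q`, its deficit `pcxDef γ β B.M E (T.withLaw Q)`.
* `rsel_univ`      every current law has deficit `≥ - e`                                                   [PRate]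
* `rsel_restrict`  `Q(A) · deficit(Q | A) ≤ deficit(Q) + e`   for EVERY event `A`                           [score split, Sec. 10.2]
* `rsel_cnd_def`   `deficit(Q | A) ≤ (deficit(Q) + e) / p`   if `Q(A) ≥ p > 0`
* `rsel_tag`       WEIGHTED TAG RULE: label `Bt` with `≤ S` values, `Bt`-measurable event `U` of mass `≥ p` : a value in `U` of mass `≥ p / 4S` and deficit `≤ 4 (deficit(Q) + e) / p`
* `rsel_trim`      RETENTION TRIM (L11.1 + exceptional-fibre score split)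
* `rsel_final`     ONE tag selection + ONE trim: from the incoming law (credit `κ`), a preparation event `Apre` and a label `Bt` to the final law `π`
* `rsel_earlier_def`   the earlier retained test of a current law has deficit `≤ (3/2) deficit + 7 R`           [(10.10), P10.1]
* `rsel_bad`       a `J`-measurable event on which the earlier retained test has deficit `≥ c` has mass `≤ (3/2)(deficit + e) / (c - 7R)`
-/

set_option autoImplicit false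

namespace Claimed.Agent.R255

open scoped BigOperators
open Classical
open FLaw Pkt

theorem rsel_sub_pos {T : PTest} {Q : FLaw T.Ω} (h : pcxSub T Q) : ∀ o, 0 < Q.p o → 0 < T.P.p o :=
  fun o ho => h o ho.ne'

/-- conditioning keeps the support -/
theorem rsel_sub_cnd {T : PTest} {Q : FLaw T.Ω} (h : pcxSub T Q) (A : T.Ω → Prop) : pcxSub T (Q.cnd A) := by
  intro o ho
  by_cases hA : 0 < Q.pr A
  · exact h o ((ent_cnd_supp Q A hA).1 ho).2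
  · unfold FLaw.cnd at ho
    rw [dif_neg hA] at ho
    exact h o ho

theorem rsel_obeys {B : PBd} {E : PEnv} {T : PTest} (hT : T.Obeys B E) {Q : FLaw T.Ω} (h : pcxSub T Q) :
    (T.withLaw Q).Obeys B E := ct_obeys_withLaw hT Q (rsel_sub_pos h)

/-- the deficit of a current law as an abstract score -/
theorem rsel_def_eq (γ β : ℝ) (M : ℕ) (E : PEnv) (T : PTest) (Q : FLaw T.Ω) :
    pcxDef γ β M E (T.withLaw Q)
      = K0 γ M E + β * T.t - pscore (lg E.ε) Q T.O T.D (ctLm E T) (ctW γ T) := rfl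

/-- elementary: division by a lower bound of the mass -/
theorem rsel_div {q x y q₀ : ℝ} (h : q * x ≤ y) (hy : 0 ≤ y) (hq₀ : 0 < q₀) (hq : q₀ ≤ q) : x ≤ y / q₀ := by
  rw [le_div_iff₀ hq₀]
  by_cases hx : 0 ≤ x
  · calc x * q₀ ≤ x * q := mul_le_mul_of_nonneg_left hq hx
      _ = q * x := mul_comm _ _
      _ ≤ y := h
  · push Not at hx
    nlinarith

/-- **the universal modulus for all current laws** -/
theorem rsel_univ (γ β : ℝ) (hrate : PRate γ β) (B : PBd) (hB : B.Good) (e : ℝ) (he : 0 < e) :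
    ∃ ε₀ : ℝ, 0 < ε₀ ∧ ∀ (E : PEnv) (T : PTest), E.ε < ε₀ → E.Obeys B → T.Obeys B E →
      ∀ Q : FLaw T.Ω, pcxSub T Q → -e ≤ pcxDef γ β B.M E (T.withLaw Q) := by
  obtain ⟨ε₀, h0, -, H⟩ := hrate B hB e he
  refine ⟨ε₀, h0, fun E T hε hE hT Q hQ => ?_⟩
  have := H E (T.withLaw Q) hε hE (rsel_obeys hT hQ)
  unfold pcxDef
  linarith

/-- **the restriction rule** (every removal is a score split) -/
theorem rsel_restrict (γ β : ℝ) (hrate : PRate γ β) (B : PBd) (hB : B.Good) (e : ℝ) (he : 0 < e) :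
    ∃ ε₀ : ℝ, 0 < ε₀ ∧ ∀ (E : PEnv) (T : PTest), E.ε < ε₀ → E.Obeys B → T.Obeys B E →
      ∀ Q : FLaw T.Ω, pcxSub T Q → (-e ≤ pcxDef γ β B.M E (T.withLaw Q)) ∧ ∀ A : T.Ω → Prop,
        Q.pr A * pcxDef γ β B.M E (T.withLaw (Q.cnd A)) ≤ pcxDef γ β B.M E (T.withLaw Q) + e := by
  obtain ⟨ε₁, h1, H1⟩ := rsel_univ γ β hrate B hB (e / 2) (by positivity)
  obtain ⟨ε₂, h2, H2⟩ := ct_small (3 / 2 * Real.log 2) (e / 2) (by positivity)
  refine ⟨min ε₁ ε₂, lt_min h1 h2, fun E T hε hE hT Q hQ => ⟨?_, fun A => ?_⟩⟩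
  · have := H1 E T (lt_of_lt_of_le hε (min_le_left _ _)) hE hT Q hQ
    linarith
  have hl := p9_lg_pos hE.ε0 hE.ε1
  have a1 := H1 E T (lt_of_lt_of_le hε (min_le_left _ _)) hE hT (Q.cnd fun o => ¬ A o) (rsel_sub_cnd hQ _)
  have a2 := H2 E.ε hE.ε0 (lt_of_lt_of_le hε (min_le_right _ _))
  rw [rsel_def_eq] at a1
  have a3 := pc_restrict hl Q T.O T.D (ctLm E T) (ctW γ T) A (𝒦 := K0 γ B.M E + β * T.t) (ω₀ := e / 2)
    (fun _ => by linarith)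
  rw [rsel_def_eq, rsel_def_eq]
  have a4 : (1 - Q.pr A) * (e / 2) ≤ e / 2 := by
    have := ent_pr_nonneg Q A
    nlinarith
  linarith

/-- the deficit of a conditioned law -/
theorem rsel_cnd_def (γ β : ℝ) (hrate : PRate γ β) (B : PBd) (hB : B.Good) (e : ℝ) (he : 0 < e) :
    ∃ ε₀ : ℝ, 0 < ε₀ ∧ ∀ (E : PEnv) (T : PTest), E.ε < ε₀ → E.Obeys B → T.Obeys B E →
      ∀ Q : FLaw T.Ω, pcxSub T Q → ∀ (A : T.Ω → Prop) (p : ℝ), 0 < p → p ≤ Q.pr A →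
        pcxDef γ β B.M E (T.withLaw (Q.cnd A)) ≤ (pcxDef γ β B.M E (T.withLaw Q) + e) / p := by
  obtain ⟨ε₀, h0, H⟩ := rsel_restrict γ β hrate B hB e he
  refine ⟨ε₀, h0, fun E T hε hE hT Q hQ A p hp hpA => ?_⟩
  obtain ⟨a1, a2⟩ := H E T hε hE hT Q hQ
  exact rsel_div (a2 A) (by linarith) hp hpA

/-- **the weighted tag rule** (end of Sec. 10.2) for current laws -/
theorem rsel_tag (γ β : ℝ) (hrate : PRate γ β) (B : PBd) (hB : B.Good) (S : ℕ) (e : ℝ) (he : 0 < e) :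
    ∃ ε₀ : ℝ, 0 < ε₀ ∧ ∀ (E : PEnv) (T : PTest), E.ε < ε₀ → E.Obeys B → T.Obeys B E →
      ∀ Q : FLaw T.Ω, pcxSub T Q → ∀ (κ : Type) (Bt : T.Ω → κ) (F : Finset κ), F.card ≤ S →
      (∀ o, Q.p o ≠ 0 → Bt o ∈ F) → ∀ (U : T.Ω → Prop) (p : ℝ), 0 < p → p ≤ Q.pr U →
      ∃ o₀, Q.p o₀ ≠ 0 ∧ U o₀ ∧ p / (4 * S) ≤ Q.pr (fun o => Bt o = Bt o₀ ∧ U o) ∧
        pcxDef γ β B.M E (T.withLaw (Q.cnd (fun o => Bt o = Bt o₀)))
          ≤ 4 * (pcxDef γ β B.M E (T.withLaw Q) + e) / p := by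
  obtain ⟨ε₁, h1, H1⟩ := rsel_univ γ β hrate B hB (e / 2) (by positivity)
  obtain ⟨ε₂, h2, H2⟩ := ct_small (3 / 2 * Real.log S) (e / 2) (by positivity)
  refine ⟨min ε₁ ε₂, lt_min h1 h2, fun E T hε hE hT Q hQ κ Bt F hF hmem U p hp hpU => ?_⟩
  have hl := p9_lg_pos hE.ε0 hE.ε1
  have hε1 := lt_of_lt_of_le hε (min_le_left ε₁ ε₂)
  have a2 := H2 E.ε hE.ε0 (lt_of_lt_of_le hε (min_le_right _ _))
  obtain ⟨o₁, ho₁⟩ := ent_exists_supp Q
  have hFpos : 0 < F.card := Finset.card_pos.2 ⟨_, hmem o₁ ho₁⟩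
  have hFS : (F.card : ℝ) ≤ (S : ℝ) := by exact_mod_cast hF
  have hF0 : (0 : ℝ) < (F.card : ℝ) := by exact_mod_cast hFpos
  set 𝒦 : ℝ := K0 γ B.M E + β * T.t with h𝒦
  set d : T.Ω → ℝ := fun o => 𝒦 - pscore (lg E.ε) (Q.cfib Bt o) T.O T.D (ctLm E T) (ctW γ T) + e / 2 with hd
  have hd0 : ∀ o, Q.p o ≠ 0 → 0 ≤ d o := by
    intro o _
    have := H1 E T hε1 hE hT (Q.cfib Bt o) (rsel_sub_cnd hQ _)
    rw [rsel_def_eq] at this
    simp only [hd]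
    linarith
  have hent : 3 / 2 * Q.ent Bt / lg E.ε ≤ e / 2 := by
    refine le_trans (div_le_div_of_nonneg_right ?_ hl.le) a2
    have b1 := ent_le_log_card Q Bt F hmem
    have b2 : Real.log (F.card : ℝ) ≤ Real.log (S : ℝ) := Real.log_le_log hF0 hFS
    linarith
  have hR : Q.ev d ≤ pcxDef γ β B.M E (T.withLaw Q) + e := by
    have b := pc_split_deficit hl Q T.O T.D (ctLm E T) (ctW γ T) Bt 𝒦
    simp only [hd]
    rw [ent_ev_add, ent_ev_const, rsel_def_eq]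
    linarith
  obtain ⟨o₀, c1, c2, c3, c4⟩ := pc_tag_rule Q Bt U d hd0 hR hp hpU F (fun o ho _ => hmem o ho)
  refine ⟨o₀, c1, c2, le_trans ?_ c3, ?_⟩
  · exact div_le_div_of_nonneg_left hp.le (by positivity) (by linarith)
  · rw [rsel_def_eq]
    simp only [hd] at c4
    have : Q.cfib Bt o₀ = Q.cnd (fun o => Bt o = Bt o₀) := rfl
    rw [this] at c4
    linarith

/-- **the retention trim** : L11.1 together with the score split which removes the exceptional fibres -/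
theorem rsel_trim (γ β : ℝ) (hrate : PRate γ β) (B : PBd) (hB : B.Good) (e : ℝ) (he : 0 < e) :
    ∃ ε₀ : ℝ, 0 < ε₀ ∧ ∀ (E : PEnv) (T : PTest), E.ε < ε₀ → E.Obeys B → T.Obeys B E →
      ∀ Q : FLaw T.Ω, pcxSub T Q → ∀ (α' β' : Type) (Pf : T.Ω → α') (Wf : T.Ω → β') (κ : ℝ), Credit Q Pf Wf κ →
      ∀ (A : T.Ω → Prop) (z : ℝ), 0 < Q.pr A → 0 < z → z ≤ 1 / 2 →
        0 < Q.pr (fun o => A o ∧ ¬ rep_exc Q A Pf z o) ∧
        Credit (Q.cnd (fun o => A o ∧ ¬ rep_exc Q A Pf z o)) Pf Wf (κ / (Q.pr A * z)) ∧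
        pcxDef γ β B.M E (T.withLaw (Q.cnd (fun o => A o ∧ ¬ rep_exc Q A Pf z o)))
          ≤ 2 * (pcxDef γ β B.M E (T.withLaw (Q.cnd A)) + e) := by
  obtain ⟨ε₀, h0, H⟩ := rsel_restrict γ β hrate B hB e he
  refine ⟨ε₀, h0, fun E T hε hE hT Q hQ α' β' Pf Wf κ hcr A z hA hz hz1 => ?_⟩
  have hpos : 0 < Q.pr (fun o => A o ∧ ¬ rep_exc Q A Pf z o) :=
    (mul_pos (by linarith : (0 : ℝ) < 1 - z) hA).trans_le (rep_exc_compl_pr Q A Pf hA hz.le)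
  refine ⟨hpos, rep_retention hcr A hA hz (by linarith), ?_⟩
  obtain ⟨a1, a2⟩ := H E T hε hE hT (Q.cnd A) (rsel_sub_cnd hQ A)
  have a3 := a2 (fun o => ¬ rep_exc Q A Pf z o)
  rw [ent_cnd_cnd Q A _ hpos] at a3
  have a4 : 1 / 2 ≤ (Q.cnd A).pr (fun o => ¬ rep_exc Q A Pf z o) := by
    rw [ent_pr_not]
    have := rep_exc_pr Q A Pf hA hz.le
    linarith
  have a5 := rsel_div a3 (by linarith) (by norm_num : (0 : ℝ) < 1 / 2) a4
  linarith

/-- **ONE tag selection + ONE retention trim.**   `P₀` = incoming current law with the credit `κ`;  `Apre` = preparation event, `P₀(Apre) ≥ p₀`;  `Bt` = label with `≤ S` values;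
`U` = `Bt`-measurable event of good values, of mass `≥ 1/2` under `P₀(· | Apre)`.   The final law is `π = P₀(· | Apre, Bt = Bt o₀, not exceptional)`. -/
theorem rsel_final (γ β : ℝ) (hrate : PRate γ β) (B : PBd) (hB : B.Good) (S : ℕ) (e : ℝ) (he : 0 < e) :
    ∃ ε₀ : ℝ, 0 < ε₀ ∧ ∀ (E : PEnv) (T : PTest), E.ε < ε₀ → E.Obeys B → T.Obeys B E →
      ∀ P₀ : FLaw T.Ω, pcxSub T P₀ → ∀ (α' β' : Type) (Pf : T.Ω → α') (Wf : T.Ω → β') (κ : ℝ), Credit P₀ Pf Wf κ →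
      ∀ (Apre : T.Ω → Prop) (p₀ : ℝ), 0 < p₀ → p₀ ≤ P₀.pr Apre →
      ∀ (κt : Type) (Bt : T.Ω → κt) (F : Finset κt), F.card ≤ S → (∀ o, P₀.p o ≠ 0 → Apre o → Bt o ∈ F) →
      ∀ U : T.Ω → Prop, (∀ o o', Bt o = Bt o' → U o → U o') → 1 / 2 ≤ (P₀.cnd Apre).pr U →
      ∀ z : ℝ, 0 < z → z ≤ 1 / 2 →
      ∃ (o₀ : T.Ω) (π : FLaw T.Ω), P₀.p o₀ ≠ 0 ∧ Apre o₀ ∧ U o₀ ∧ pcxSub T π ∧
        (∀ o, π.p o ≠ 0 → P₀.p o ≠ 0 ∧ Apre o ∧ Bt o = Bt o₀ ∧ U o) ∧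
        Credit π Pf Wf (κ * (8 * S / (p₀ * z))) ∧
        pcxDef γ β B.M E (T.withLaw π) ≤ 16 * pcxDef γ β B.M E (T.withLaw (P₀.cnd Apre)) + 18 * e := by
  obtain ⟨ε₁, h1, H1⟩ := rsel_tag γ β hrate B hB S e he
  obtain ⟨ε₂, h2, H2⟩ := rsel_trim γ β hrate B hB e he
  refine ⟨min ε₁ ε₂, lt_min h1 h2, ?_⟩
  intro E T hε hE hT P₀ hP₀ α' β' Pf Wf κ hcr Apre p₀ hp₀ hpA κt Bt F hF hmem U hU hUpr z hz hz1
  have hApos : 0 < P₀.pr Apre := lt_of_lt_of_le hp₀ hpA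
  have hsub1 := rsel_sub_cnd hP₀ Apre
  obtain ⟨o₀, c1, c2, c3, c4⟩ := H1 E T (lt_of_lt_of_le hε (min_le_left _ _)) hE hT (P₀.cnd Apre) hsub1 κt Bt F hF
    (fun o ho => hmem o ((ent_cnd_supp P₀ Apre hApos).1 ho).2 ((ent_cnd_supp P₀ Apre hApos).1 ho).1)
    U (1 / 2) (by norm_num) hUpr
  obtain ⟨d1, d2⟩ := (ent_cnd_supp P₀ Apre hApos).1 c1
  have hS0 : 0 < S := by
    have : 0 < F.card := Finset.card_pos.2 ⟨_, hmem o₀ d2 d1⟩
    omega
  have hS0' : (0 : ℝ) < (S : ℝ) := by exact_mod_cast hS0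
  -- the event `A = Apre ∧ Bt = Bt o₀`
  set A : T.Ω → Prop := fun o => Apre o ∧ Bt o = Bt o₀ with hAdef
  have hprA : p₀ / (8 * S) ≤ P₀.pr A := by
    have e1 : (P₀.cnd Apre).pr (fun o => Bt o = Bt o₀ ∧ U o) ≤ P₀.pr A / P₀.pr Apre := by
      rw [ent_cnd_pr P₀ Apre hApos]
      exact div_le_div_of_nonneg_right (ent_pr_mono P₀ fun o _ h => ⟨h.1, h.2.1⟩) hApos.le
    have e2 : 1 / 2 / (4 * (S : ℝ)) ≤ P₀.pr A / P₀.pr Apre := c3.trans e1
    rw [le_div_iff₀ hApos] at e2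
    have e3 : 1 / 2 / (4 * (S : ℝ)) * p₀ ≤ 1 / 2 / (4 * (S : ℝ)) * P₀.pr Apre :=
      mul_le_mul_of_nonneg_left hpA (by positivity)
    have e4 : p₀ / (8 * S) = 1 / 2 / (4 * (S : ℝ)) * p₀ := by field_simp; ring
    rw [e4]
    exact e3.trans e2
  have hApos' : 0 < P₀.pr A := lt_of_lt_of_le (by positivity) hprA
  obtain ⟨f1, f2, f3⟩ := H2 E T (lt_of_lt_of_le hε (min_le_right _ _)) hE hT P₀ hP₀ α' β' Pf Wf κ hcr A z hApos' hz hz1
  have hcc : (P₀.cnd Apre).cnd (fun o => Bt o = Bt o₀) = P₀.cnd A := ent_cnd_cnd P₀ Apre _ hApos'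
  rw [hcc] at c4
  refine ⟨o₀, P₀.cnd (fun o => A o ∧ ¬ rep_exc P₀ A Pf z o), d2, d1, c2, rsel_sub_cnd hP₀ _, ?_, ?_, ?_⟩
  · intro o ho
    obtain ⟨g1, g2⟩ := (ent_cnd_supp P₀ _ f1).1 ho
    exact ⟨g2, g1.1.1, g1.1.2, hU o₀ o g1.1.2.symm c2⟩
  · refine rep_credit_mono f2 ?_
    have hκ := rep_credit_pos hcr
    rw [div_eq_mul_inv]
    refine mul_le_mul_of_nonneg_left ?_ hκ.le
    rw [← one_div, div_le_div_iff₀ (by positivity) (by positivity)]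
    have : p₀ / (8 * S) * z ≤ P₀.pr A * z := mul_le_mul_of_nonneg_right hprA hz.le
    have e5 : p₀ / (8 * S) * z * (8 * S) = p₀ * z := by field_simp
    nlinarith
  · have : 4 * (pcxDef γ β B.M E (T.withLaw (P₀.cnd Apre)) + e) / (1 / 2)
        = 8 * (pcxDef γ β B.M E (T.withLaw (P₀.cnd Apre)) + e) := by ring
    rw [this] at c4
    linarith

end Claimed.Agent.R255
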