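-- KEEP
import Claimed.Agent.R255.Rep.IsoRq
import Claimed.Agent.R255.Rep.Select
import Claimed.Agent.R255.Comp.Unforced

/-!
# Row 255 (BR paper), Sec. 11, isotropic chain, file 3: ONE PREPARED CUT, ISOTROPIC CASE = S8-iso glue      (chief helper220; prefix `rsi_`)

`rsi_step_iso` = the statement of `step_iso` (`Rep/State.lean`), proved from the stage exits:
S0 `pcx_floor_sat`, S1 `rpb_buffer`, P10.1 `cut_main`, tags `rsi_tag_ok`, winner `ct_win_exists`, (X3) `pcu_excess`, S5 `rsel_cnd_def`, `rsel_final`, S6 `rsj_repay`, S7 `rpo_out_iso`.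
-/

set_option autoImplicit false

namespace Claimed.Agent.R255

open scoped BigOperators
open Classical
open FLaw Pkt Osc

/-- `C ≤ ε^(-δ)` as soon as `log C / ℓ ≤ δ` -/
theorem rsi_pow_ge {ε δ C : ℝ} (h0 : 0 < ε) (h1 : ε < 1) (hC : 0 < C) (h : Real.log C / lg ε ≤ δ) : C ≤ ε ^ (-δ) := by
  have hl := p9_lg_pos h0 h1
  rw [div_le_iff₀ hl] at h
  have e : lg ε = - Real.log ε := by
    unfold lg
    rw [one_div, Real.log_inv]
  rw [← Real.exp_log hC, Real.rpow_def_of_pos h0]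
  apply Real.exp_le_exp.2
  rw [e] at h
  linarith

/-- the incoming labels serve every current law -/
theorem rsi_incoming_sub {E : PEnv} {T : PTest} {h Kc : ℝ} {el : Bool} {α β : Type} {Pf : T.Ω → α} {Wf : T.Ω → β}
    {nf : α → ℝ} (H : Incoming E T h Kc el Pf Wf nf) (Q : FLaw T.Ω) (hQ : pcxSub T Q) :
    Incoming E (T.withLaw Q) h Kc el Pf Wf nf := by
  have hs : ∀ o, 0 < Q.p o → 0 < T.P.p o := fun o ho => hQ o ho.ne'
  refine ⟨fun o o' ho ho' => H.locC o o' (hs o ho) (hs o' ho'), fun o o' ho ho' => H.locV o o' (hs o ho) (hs o' ho'),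
    fun o o' ho ho' => H.locX o o' (hs o ho) (hs o' ho'), ?_, ?_, ?_, fun he o ho => H.align he o (hs o ho)⟩
  · intro c v x ρ hρ
    obtain ⟨S, hS, hm⟩ := H.listP c v x ρ hρ
    exact ⟨S, hS, fun o ho => hm o (hs o ho)⟩
  · intro he p y ρ hρ
    obtain ⟨S, hS, hm⟩ := H.listW1 he p y ρ hρ
    exact ⟨S, hS, fun o ho => hm o (hs o ho)⟩
  · intro he p v ρ hρ
    obtain ⟨S, hS, hm⟩ := H.listW2 he p v ρ hρ
    exact ⟨S, hS, fun o ho => hm o (hs o ho)⟩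

/-- `cut_main` with the additional information `A0 / 2 < c.p.A` -/
theorem rsi_cut_main (γ β : ℝ) (h0 : 0 < γ) (h1 : γ < 1) (hrate : PRate γ β) (B : PBd) (hB : B.Good)
    (dmin rmin R A0 : ℝ) (hd : 0 < dmin) (hr : 0 < rmin) (hR : 0 < R) (Smax : ℕ) :
    ∃ (c : CutPar) (ε₀ : ℝ), 0 < ε₀ ∧ 0 < c.ξ ∧ c.ξ ≤ R ∧ 10 ≤ c.Mloc ∧ c.Bat.Good ∧ c.Bat.M = B.M ∧ A0 / 2 < c.p.A ∧
      (∀ E : PEnv, E.Obeys B → E.ε < ε₀ → 0 < E.nrm2 → ∀ t r bs : ℝ, 0 ≤ r → r + dmin ≤ t → 0 ≤ bs → bs ≤ E.u t →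
        bs ≤ E.L - t → ∃ (At : Atoms) (Cl : Classes At), At.Good E B t r bs c.p ∧ Cl.Good γ E r bs c.ξ c.S0) ∧
      (∀ (E : PEnv) (T : PTest) (r bs : ℝ) (At : Atoms) (Cl : Classes At) (τ : Type) [Fintype τ] (tag : At.𝔸 → τ)
        (win : T.ι → ℕ × τ), E.ε < ε₀ → Fintype.card τ ≤ Smax →
        CutOK γ E B T r bs c.p c.ξ c.S0 A0 At Cl tag win → r + dmin ≤ T.t → (r = 0 ∨ rmin ≤ r) →
        WinOK E r bs T Cl tag win ((c.S0 : ℝ) * (Fintype.card τ : ℝ)) ∧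
        CompHyp (lg E.ε) T.P T.O T.D (ctJ E r bs T win) (ctLm E T) (Cl.LmW E r bs tag T win) (ctW γ T) bs
          (Cl.LA E) (Cl.LN E tag) (Cl.Lm E) Cl.gJ (fun j => K0 γ c.Mloc (Cl.envJ E r bs tag j)) (K0 γ B.M E)
          β r T.t R) ∧
      (∀ (E : PEnv) (T : PTest) (r bs : ℝ) (At : Atoms) (Cl : Classes At) (τ : Type) (tag : At.𝔸 → τ)
        (win : T.ι → ℕ × τ) (_ : Nonempty At.𝔸) (cl : Classes.Lab τ → Finset At.𝔸) (ap : At.𝔸 → Geo),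
        CutOK γ E B T r bs c.p c.ξ c.S0 A0 At Cl tag win → rmin ≤ r → EarlyOK E r T At Cl (ctJ E r bs T win) cl ap →
        E.Obeys c.Bat ∧ (At.earlierX r T (ctJ E r bs T win) cl ap).Obeys c.Bat E) := by
  obtain ⟨c, ε₀, a1, a2, a3, a4, a5, a6, a7, a8, a9, -, a11⟩ := cut_main' γ β h0 h1 hrate B hB dmin rmin R A0 hd hr hR Smax
  exact ⟨c, ε₀, a1, a2, a3, a4, a5, a6, a11, a7, a8, a9⟩

/-- the frozen data of the prepared cut serve every current law supported in the preparation event -/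
theorem rsi_cutOK {γ : ℝ} {E : PEnv} {B : PBd} {T : PTest} {r : ℝ} {p : Atoms.Par} {ξ : ℝ} {S0 : ℕ} {A0 : ℝ}
    {At : Atoms} {Cl : Classes At} {τ : Type} {tag : At.𝔸 → τ} {win : T.ι → ℕ × τ}
    (hE : E.Obeys B) (hT : T.Obeys B E) (hr0 : 0 ≤ r) (hrt : r ≤ T.t) (hA : At.Good E B T.t r 0 p)
    (hC : Cl.Good γ E r 0 ξ S0) (hw : Cl.IsWin E T.t r 0 tag T.site win) (Q : FLaw T.Ω) (hQ : pcxSub T Q)
    (hfl : ∀ o, Q.p o ≠ 0 → pcxFl A0 E T o) :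
    CutOK γ E B (T.withLaw Q) r 0 p ξ S0 A0 At Cl tag win :=
  ⟨hE, rsel_obeys hT hQ, pcx_nrm2_pos hE hT, hr0, hrt, le_rfl, hA, hC, hw, fun o ho => hfl o ho.ne',
    fun o ho => (hT.geo o (hQ o ho.ne')).1⟩

/-- **one prepared cut, isotropic case** -/
theorem rsi_step_iso (γ β : ℝ) (h0 : 0 < γ) (h1 : γ < 1) (hβ : γ / 2 < β) (hβ1 : β ≤ 1) (hrate : PRate γ β)
    (hcl : UnivBound γ γ) (hNF : ∀ ν κ : ℝ, 0 < ν → 0 < κ → ¬ Forced γ β ν κ) (h : ℝ) (hh : 0 < h) :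
    ∀ acc' : ℝ, 0 < acc' → ∃ acc : ℝ, 0 < acc ∧ ∀ (B : PBd) (Kc : ℝ), B.Good →
      ∃ (B' : PBd) (Kc' ε₀ : ℝ), B'.Good ∧ B'.M = B.M ∧ 0 < ε₀ ∧
        ∀ (E : PEnv) (T : PTest) (kf : ℝ), E.ε < ε₀ → 0 ≤ kf → kf ≤ 3 →
          RState γ β false B Kc h 0 acc kf E T → 3 * h ≤ T.t → h < E.u T.t →
          ∃ (T' : PTest) (k : ℝ), T'.t = T.t - 2 * h ∧ RState γ β false B' Kc' h 0 acc' k E T' ∧
            kf + (4 * β - 2 * γ) * h - acc' ≤ k ∧ 0 ≤ k ∧ k ≤ 2 * h + acc' := by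
  intro acc' hacc'
  have hβ0 : 0 ≤ β := by linarith
  -- the package-free constants
  obtain ⟨ζ, hζdef⟩ : ∃ ζ : ℝ, ζ = acc' / 4 := ⟨_, rfl⟩
  have hζ : 0 < ζ := by rw [hζdef]; positivity
  obtain ⟨c₁, hc₁, Hexc⟩ := pcu_excess γ β h0 h1 ζ (2 * h) (2 * h) hζ (by positivity) (by positivity)
    (hNF _ _ (by positivity) (by positivity))
  obtain ⟨δ, hδdef⟩ : ∃ δ : ℝ, δ = min (min acc' c₁) 1 / 1000 := ⟨_, rfl⟩
  have hm0 : 0 < min (min acc' c₁) 1 := lt_min (lt_min hacc' hc₁) one_pos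
  have hδ : 0 < δ := by rw [hδdef]; positivity
  have hδa : 1000 * δ ≤ acc' := by
    rw [hδdef]; linarith [min_le_left (min acc' c₁) 1, min_le_left acc' c₁]
  have hδc : 1000 * δ ≤ c₁ := by
    rw [hδdef]; linarith [min_le_left (min acc' c₁) 1, min_le_right acc' c₁]
  have hδ1 : 1000 * δ ≤ 1 := by
    rw [hδdef]; linarith [min_le_right (min acc' c₁) 1]
  obtain ⟨θ, hθdef⟩ : ∃ θ : ℝ, θ = min δ (h / 10) := ⟨_, rfl⟩
  have hθ : 0 < θ := by rw [hθdef]; exact lt_min hδ (by positivity)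
  have hθδ : θ ≤ δ := by rw [hθdef]; exact min_le_left _ _
  have hθh : θ ≤ h / 10 := by rw [hθdef]; exact min_le_right _ _
  refine ⟨δ, hδ, ?_⟩
  intro B Kc hB
  -- the constants of the package
  obtain ⟨n, hn⟩ : ∃ n : ℕ, 2 * B.Hmax + 1 ≤ δ * ((n : ℝ) + 1) := by
    obtain ⟨n, hn⟩ := exists_nat_ge ((2 * B.Hmax + 1) / δ)
    refine ⟨n, ?_⟩
    rw [div_le_iff₀ hδ] at hn
    nlinarith
  obtain ⟨A0, εf, hA0, hεf, Hfl⟩ := pcx_floor_sat γ β h0 h1 hβ0 hrate B hB δ hδ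
  obtain ⟨c, εc, hεc, hξ0, hξR, hMloc, hBat, hBatM, hAp, HA, HB, HC⟩ :=
    rsi_cut_main γ β h0 h1 hrate B hB (2 * h) h δ A0 (by positivity) hh hδ ((n + 1) * (n + 1))
  obtain ⟨Kd, hKddef⟩ : ∃ Kd : ℝ, Kd = 2 * max (B.Ra + c.p.Ra) 1 := ⟨_, rfl⟩
  have hKd : 0 ≤ Kd := by
    rw [hKddef]; linarith [le_max_right (B.Ra + c.p.Ra) 1]
  obtain ⟨Lg, hLgdef⟩ : ∃ Lg : ℝ, Lg = 64 * (Kd + 1) := ⟨_, rfl⟩
  have hLg : 1 ≤ Lg := by rw [hLgdef]; linarith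
  obtain ⟨εx, hεx, Hexc'⟩ := Hexc B hB c.p c.Mloc hMloc
  obtain ⟨εs, hεs, Hcnd⟩ := rsel_cnd_def γ β hrate B hB δ hδ
  obtain ⟨εt, hεt, Hfin⟩ := rsel_final γ β hrate B hB ((n + 1) * 2) δ hδ
  obtain ⟨εg, hεg, Htag⟩ := rsi_tag_ok B c.p h δ Lg hh hδ hLg n hn
  obtain ⟨εr, hεr, Hrep⟩ := rsj_repay γ h0 h1 hcl B hB c.p c.S0 ((n + 1) * (n + 1)) A0 Lg Kc h θ δ hAp hLg hh hθ
    hθh hδ
  obtain ⟨ε1, hε1, -, Hs1⟩ := pcx_div_lg_le (Real.log 2) hδ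
  obtain ⟨ε2, hε2, -, Hs2⟩ := pcx_div_lg_le (Real.log (8 * (((n + 1) * 2 : ℕ) : ℝ) / (3 / 8))) hδ
  obtain ⟨ε3, hε3, -, Hs3⟩ := pcx_div_lg_le (2 * Real.log (6 * Lg)) hδ
  refine ⟨c.Bat, max (max (2 * Lg) 256) 0,
    min (min (min εf εc) (min εx εs)) (min (min εt εg) (min (min εr ε1) (min ε2 ε3))), hBat, hBatM, by positivity, ?_⟩
  intro E T kf hε hkf0 hkf3 hS ht hu
  simp only [lt_min_iff] at hε
  obtain ⟨⟨⟨lf, lc⟩, lx, ls⟩, ⟨lt', lg'⟩, ⟨lr, l1⟩, l2, l3⟩ := hε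
  have hE := hS.obE
  have hT := hS.obT
  have hε0 := hE.ε0
  have hε1' := hE.ε1
  have hl := p9_lg_pos hε0 hε1'
  have hn2 := pcx_nrm2_pos hE hT
  obtain ⟨-, -, -, -, -, hiso⟩ := hS.shape
  have hiso' := hiso rfl
  obtain ⟨o₁, ho₁⟩ := ct_exists_supp T.P
  have hg₁ := hT.geo o₁ ho₁
  have huL : E.u T.t ≤ E.L - T.t := by rw [← (hiso' o₁ ho₁).2]; exact hg₁.2.2.1
  have hr0 : h ≤ T.t - 2 * h := by linarith
  have hur : E.u (T.t - 2 * h) = E.u T.t + h := rsi_u_r E T.t h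
  obtain ⟨At, Cl, hAt, hCl⟩ := HA E hE lc hn2 T.t (T.t - 2 * h) 0 (by linarith) (by linarith) le_rfl (by linarith)
    (by linarith)
  -- the floor
  have hdef0 : pcxDef γ β B.M E T ≤ δ := hS.defi
  obtain ⟨hfl, -⟩ := Hfl E T lf hE hT (by linarith)
  -- the buffer
  obtain ⟨τV, τX, hbuf⟩ := rpb_buffer Kd hKd (r := T.t - 2 * h) (u := E.u T.t) hε0 (T.P.cnd (pcxFl A0 E T))
    (fun o => T.sat o)
  rw [← hLgdef] at hbuf
  obtain ⟨Apre, hApre⟩ : ∃ Apre : T.Ω → Prop, Apre = fun o => pcxFl A0 E T o ∧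
    Buffered E.ε (T.t - 2 * h) (E.u T.t) Lg Kd τV τX (T.sat o) := ⟨_, rfl⟩
  have hflpos : 0 < T.P.pr (pcxFl A0 E T) := by linarith
  have hpA : 3 / 8 ≤ T.P.pr Apre := by
    rw [ent_cnd_pr T.P _ hflpos, le_div_iff₀ hflpos] at hbuf
    rw [hApre]
    nlinarith
  -- tags and winner
  obtain ⟨tag, htag⟩ : ∃ tag : At.𝔸 → RsiT n, tag = rsiTg E T.t h Lg δ n τV τX Cl := ⟨_, rfl⟩
  obtain ⟨win, hwin⟩ := ct_win_exists E T.t (T.t - 2 * h) 0 c.ξ c.S0 Cl hCl tag T.site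
  have hcard : Fintype.card (RsiT n) ≤ (n + 1) * (n + 1) := (rsi_card_T n).le
  have hcut : ∀ Q : FLaw T.Ω, pcxSub T Q → (∀ o, Q.p o ≠ 0 → Apre o) →
      CutOK γ E B (T.withLaw Q) (T.t - 2 * h) 0 c.p c.ξ c.S0 A0 At Cl tag win := fun Q hQ hQA =>
    rsi_cutOK hE hT (by linarith) (by linarith) hAt hCl hwin Q hQ (fun o ho => by
      have := hQA o ho
      rw [hApre] at this
      exact this.1)
  -- the prepared law
  have hApos : 0 < T.P.pr Apre := by linarith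
  have hsub2 : pcxSub T (T.P.cnd Apre) := pcx_sub_cnd T T.P (pcx_sub_self T) Apre
  have hsupp2 : ∀ o, (T.P.cnd Apre).p o ≠ 0 → Apre o := fun o ho => ((ent_cnd_supp T.P Apre hApos).1 ho).1
  have H2 := hcut _ hsub2 hsupp2
  have hgap : T.t - 2 * h + 2 * h ≤ T.t := by linarith
  obtain ⟨hW2, hC2⟩ := HB E (T.withLaw (T.P.cnd Apre)) (T.t - 2 * h) 0 At Cl (RsiT n) tag win lc hcard H2 hgap
    (Or.inr hr0)
  have hΔ2 : pcxDef γ β B.M E (T.withLaw (T.P.cnd Apre)) ≤ 6 * δ := by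
    have := Hcnd E T ls hE hT T.P (pcx_sub_self T) Apre (3 / 8) (by norm_num) hpA
    have e : pcxDef γ β B.M E (T.withLaw T.P) = pcxDef γ β B.M E T := rfl
    rw [e] at this
    refine this.trans ?_
    rw [div_le_iff₀ (by norm_num)]
    linarith
  have hexc := Hexc' E (T.withLaw (T.P.cnd Apre)) (T.t - 2 * h) 0 c.ξ c.S0 A0 At Cl (RsiT n) tag win _ δ lx H2 hW2
    hgap (by show T.t - (T.t - 2 * h) ≤ 2 * h; linarith) hξ0 (by rw [hζdef]; linarith) hδ.le hC2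
  obtain ⟨Bad, hBad⟩ : ∃ Bad : T.Ω → Prop, Bad = fun o => 2 * (E.u (T.t - 2 * h) - 0) + ζ
    ≤ Cl.gJ (ctJ E (T.t - 2 * h) 0 T win o) := ⟨_, rfl⟩
  have hbad : (T.P.cnd Apre).pr Bad ≤ 1 / 2 := by
    have e1 : c₁ * (T.P.cnd Apre).pr Bad ≤ pcxDef γ β B.M E (T.withLaw (T.P.cnd Apre)) + 5 * δ := by
      rw [hBad]
      exact hexc
    have e2 : c₁ * (T.P.cnd Apre).pr Bad ≤ c₁ * (1 / 2) := by linarith
    exact le_of_mul_le_mul_left e2 hc₁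
  have hU : 1 / 2 ≤ (T.P.cnd Apre).pr (fun o => ¬ Bad o) := by
    rw [ent_pr_not]
    linarith
  obtain ⟨Bt, hBt⟩ : ∃ Bt : T.Ω → Fin (n + 1) × Bool, Bt = fun o =>
    ((ctJ E (T.t - 2 * h) 0 T win o).2.2.2.2, decide (¬ Bad o)) := ⟨_, rfl⟩
  have hmeas : ∀ o o', Bt o = Bt o' → ¬ Bad o → ¬ Bad o' := by
    intro o o' hb ho
    rw [hBt] at hb
    have h2 : decide (¬ Bad o) = decide (¬ Bad o') := congrArg Prod.snd hb
    exact (decide_eq_decide.1 h2).1 ho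
  -- the retention parameter
  have hz0 : 0 < E.ε ^ δ := Real.rpow_pos_of_pos hε0 _
  have hz12 : E.ε ^ δ ≤ 1 / 2 := by
    have := rsi_pow_ge hε0 hε1' (by norm_num : (0 : ℝ) < 2) (Hs1 E.ε hε0 l1)
    rw [Real.rpow_neg hε0.le] at this
    rw [one_div]
    exact (le_inv_comm₀ (by norm_num) hz0).1 this
  have hSz : 8 * (((n + 1) * 2 : ℕ) : ℝ) / (3 / 8) ≤ E.ε ^ (-δ) :=
    rsi_pow_ge hε0 hε1' (by positivity) (Hs2 E.ε hε0 l2)
  -- the rest of the argument for any credit labels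
  have main : ∀ (α' β' : Type) (Pf : T.Ω → α') (Wf : T.Ω → β') (κ : ℝ), Credit T.P Pf Wf κ →
      (∀ π : FLaw T.Ω, pcxSub T π → Credit π Pf Wf (κ * (8 * (((n + 1) * 2 : ℕ) : ℝ) / (3 / 8 * E.ε ^ δ))) →
        (kf = 0 ∨ ∃ (α β' : Type) (Pf : T.Ω → α) (Wf : T.Ω → β') (nf : α → ℝ),
          Credit π Pf Wf (E.ε ^ (kf - 3 * δ)) ∧ Incoming E (T.withLaw π) h Kc false Pf Wf nf)) →
      ∃ (T' : PTest) (k : ℝ), T'.t = T.t - 2 * h ∧
        RState γ β false c.Bat (max (max (2 * Lg) 256) 0) h 0 acc' k E T' ∧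
        kf + (4 * β - 2 * γ) * h - acc' ≤ k ∧ 0 ≤ k ∧ k ≤ 2 * h + acc' := by
    intro α' β' Pf Wf κ hcr hcred
    obtain ⟨o₀, π, ho₀, hA₀, hU₀, hsubπ, hsuppπ, hcrπ, hΔπ⟩ := Hfin E T lt' hE hT T.P (pcx_sub_self T) α' β' Pf Wf κ
      hcr Apre (3 / 8) (by norm_num) hpA (Fin (n + 1) × Bool) Bt Finset.univ
      (by simp [Finset.card_univ, Fintype.card_prod]) (fun _ _ _ => Finset.mem_univ _) (fun o => ¬ Bad o) hmeas hU
      (E.ε ^ δ) hz0 hz12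
    have hpos : ∀ o, 0 < π.p o → π.p o ≠ 0 := fun o ho => ho.ne'
    have Hπ := hcut π hsubπ (fun o ho => (hsuppπ o ho).2.1)
    obtain ⟨hWπ, hCπ⟩ := HB E (T.withLaw π) (T.t - 2 * h) 0 At Cl (RsiT n) tag win lc hcard Hπ hgap (Or.inr hr0)
    obtain ⟨o₂, ho₂⟩ := ct_exists_supp π
    have hne : Nonempty At.𝔸 := ⟨(ct_cls_nonempty Hπ hWπ o₂ ho₂.ne').choose⟩
    have hEO := rpo_early_iso Hπ hWπ (by rw [hur]; linarith) (by rw [hur]; linarith)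
    have hOb := HC E (T.withLaw π) (T.t - 2 * h) 0 At Cl (RsiT n) tag win hne (Cl.clsOf tag)
      (At.isoAp E (T.t - 2 * h)) Hπ hr0 hEO
    obtain ⟨k0, hk0⟩ : ∃ k0 : ℕ, k0 = ((ctJ E (T.t - 2 * h) 0 T win o₀).2.2.2.2 : ℕ) := ⟨_, rfl⟩
    have hkJ : ∀ o, 0 < π.p o → ((ctJ E (T.t - 2 * h) 0 T win o).2.2.2.2 : ℕ) = k0 := by
      intro o ho
      have hb := (hsuppπ o (hpos o ho)).2.2.1
      rw [hBt] at hb
      have h2 : (ctJ E (T.t - 2 * h) 0 T win o).2.2.2.2 = (ctJ E (T.t - 2 * h) 0 T win o₀).2.2.2.2 :=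
        congrArg Prod.fst hb
      rw [hk0, h2]
    have htg := fun o (ho : 0 < π.p o) => Htag E T.t At Cl τV τX hE lg' (by linarith) (by rw [hur]; linarith) hAt
      (ctJ E (T.t - 2 * h) 0 T win o) (by rw [← htag]; exact ct_cls_nonempty Hπ hWπ o ho.ne')
    have hΔπ' : pcxDef γ β B.M E (T.withLaw π) ≤ 114 * δ := by linarith
    have hg : ∀ o, 0 < π.p o → Cl.gJ (ctJ E (T.t - 2 * h) 0 T win o) ≤ 2 * E.u (T.t - 2 * h) + ζ := by
      intro o ho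
      have hb := (hsuppπ o (hpos o ho)).2.2.2
      rw [hBad] at hb
      push Not at hb
      linarith
    -- the returned state
    have hst := rpo_out_iso Hπ hWπ hCπ hBatM hOb h acc' (δ * (k0 : ℝ)) Lg (E.u T.t) ζ hLg (by rw [hur]; ring) τV τX
      hacc'.le hg (by rw [hζdef]; linarith)
      (by
        intro o ho
        have h3 := (htg o ho).1
        rw [hkJ o ho, ← htag] at h3
        refine rpo_reg_mono h3 ?_
        exact Real.rpow_le_rpow_of_exponent_ge hε0 hε1'.le (by linarith))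
    -- the repayment inequality
    have hrep := Hrep E (T.withLaw π) c.ξ At hne Cl (RsiT n) tag win τV τX (δ * ((k0 : ℝ) + 1) - c.ξ) kf (3 * δ) lr
      hcard hξ0 (by positivity) hu Hπ
      (by
        intro o ho
        have h3 := (hsuppπ o (hpos o ho)).2.1
        rw [hApre, hKddef] at h3
        exact h3.2)
      (fun o ho => hiso' o (hsubπ o (hpos o ho)))
      (by
        intro o ho q
        have h3 := (htg o ho).2.1 q
        rw [hkJ o ho, ← htag] at h3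
        have e : δ * ((k0 : ℝ) + 1) - c.ξ + c.ξ = δ * ((k0 : ℝ) + 1) := by ring
        rw [e]
        exact h3)
      (hcred π hsubπ hcrπ)
    have hbr := pc_bench_bridge hCπ
    have hcap := (htg o₂ ho₂).2.2
    rw [hkJ o₂ ho₂] at hcap
    have hs3 := Hs3 E.ε hε0 l3
    refine ⟨_, δ * (k0 : ℝ), rfl, hst, ?_, by positivity, by linarith⟩
    obtain ⟨Sc, hSc⟩ : ∃ Sc : ℝ, Sc = pscore (lg E.ε) π T.O T.D (ctLm E T) (ctW γ T) := ⟨_, rfl⟩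
    obtain ⟨Br, hBr⟩ : ∃ Br : ℝ, Br = pcKstar (lg E.ε) π (ctJ E (T.t - 2 * h) 0 T win) 0 (Cl.LN E tag) (Cl.Lm E)
      Cl.gJ := ⟨_, rfl⟩
    have hrep' : Sc ≤ Br + γ * h + (δ * ((k0 : ℝ) + 1) - c.ξ - kf) / 2 + (20 * (θ + c.ξ) + 3 * δ / 2 + δ) := by
      rw [hSc, hBr]
      exact hrep
    have hbr' : Br + β * (T.t - (T.t - 2 * h)) - Sc ≤ (K0 γ B.M E + β * T.t - Sc) + 2 * δ := by
      rw [hSc, hBr]
      exact hbr
    have hΔ : K0 γ B.M E + β * T.t - Sc ≤ 114 * δ := by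
      rw [hSc]
      exact hΔπ'
    linarith
  rcases hS.credit with hk | ⟨α', β', Pf, Wf, nf, hcr, hinc⟩
  · exact main Unit Unit (fun _ => ()) (fun _ => ()) 1 (rep_credit_one _ _ _) (fun _ _ _ => Or.inl hk)
  · refine main α' β' Pf Wf _ hcr (fun π hπ hcrπ => Or.inr ⟨α', β', Pf, Wf, nf, rep_credit_mono hcrπ ?_,
      rsi_incoming_sub hinc π hπ⟩)
    have e1 : 8 * (((n + 1) * 2 : ℕ) : ℝ) / (3 / 8 * E.ε ^ δ)
        = 8 * (((n + 1) * 2 : ℕ) : ℝ) / (3 / 8) * E.ε ^ (-δ) := by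
      rw [Real.rpow_neg hε0.le]
      field_simp
    have e2 : E.ε ^ (kf - 3 * δ) = E.ε ^ (kf - δ) * (E.ε ^ (-δ) * E.ε ^ (-δ)) := by
      rw [← Real.rpow_add hε0, ← Real.rpow_add hε0]
      congr 1
      ring
    rw [e1, e2]
    have hp1 : 0 < E.ε ^ (kf - δ) := Real.rpow_pos_of_pos hε0 _
    have hp2 : 0 < E.ε ^ (-δ) := Real.rpow_pos_of_pos hε0 _
    exact mul_le_mul_of_nonneg_left (mul_le_mul_of_nonneg_right hSz hp2.le) hp1.le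

end Claimed.Agent.R255
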