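-- KEEP
import Claimed.Agent.R255.Rep.Kit

/-!
# Row 255 (BR paper), Sec. 11, file 4: prediction of a normal, abstract form of Lemma 11.2      (architect helper128)

PAPER-FREE entropy algebra (natural units).
`O` endpoint observation, `D` its aperture, `Pc` the buffered coarse label (a function of `O`), `Bp` the coarsening of `Pc`,
`Da`, `Db` the two isotropic replacement apertures.
* `rep_repl_lower`  (11.prediction-lower)    from the replacement of `D` by `Da`
* `rep_repl_upper`  (11.prediction-upper)    from the replacement of `D` by `Db`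
* `rep_two_sep`     the two-copy contradiction : `x1 - x3 - x4 ≤ x2 + log 4`   (`2 γ e ≤ 28 h + C η`)
* `rep_predict`     the table `n(P)`.
-/

set_option autoImplicit false

namespace Claimed.Agent.R255

open scoped BigOperators
open Classical
open FLaw

variable {Ω : Type} [Fintype Ω] {α β γ δ τ : Type}

/-- (11.prediction-lower).  `hrep` is the replacement inequality `½[H(O|Da) + w(Da)] - ½[H(O|D) + w(D)] ≤ loss` with `dw = w(Da) - w(D)`
(all multiplied by `ℓ`) ; `x6` bounds `H(O|Pc)`. -/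
theorem rep_repl_lower (P : FLaw Ω) (O : Ω → α) (D : Ω → δ) {δ' : Type} (Da : Ω → δ') (Pc : Ω → β)
    (hPc : ∀ ω ω', P.p ω ≠ 0 → P.p ω' ≠ 0 → O ω = O ω' → Pc ω = Pc ω')
    (dw loss x6 : ℝ)
    (hrep : (P.entC O Da + dw) / 2 - P.entC O D / 2 ≤ loss)
    (h6 : P.entC O Pc ≤ x6) :
    dw - 2 * loss - x6 ≤ P.entC Pc D := by
  have h0 := ent_entC_nonneg P O Da
  unfold FLaw.entC at *
  -- H(O,D) = H(O,Pc,D) ≤ H(O,Pc) + H(Pc,D) - H(Pc)
  have sm := ent_submod P O D Pc
  have k1 : P.ent (pair (pair O D) Pc) = P.ent (pair O D) := by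
    apply ent_congr_ker
    intro ω ω' hω hω'
    constructor
    · intro h'
      simp only [pair, Prod.mk.injEq] at h' ⊢
      tauto
    · intro h'
      simp only [pair, Prod.mk.injEq] at h' ⊢
      have := hPc ω ω' hω hω' h'.1
      tauto
  have k2 : P.ent (pair D Pc) = P.ent (pair Pc D) := ent_pair_comm P _ _
  linarith

/-- (11.prediction-upper).  `hrep` is the replacement inequality for `Db`, `dw = w(D) - w(Db)`; `x6` bounds `H(Db|Bp)`, `x5` bounds
`H(Db, Bp | D)`. -/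
theorem rep_repl_upper (P : FLaw Ω) (O : Ω → α) (D : Ω → δ) {δ' : Type} (Db : Ω → δ') (Pc : Ω → β)
    (Bp : Ω → γ)
    (hPc : ∀ ω ω', P.p ω ≠ 0 → P.p ω' ≠ 0 → O ω = O ω' → Pc ω = Pc ω')
    (dw loss x5 x6 : ℝ)
    (hrep : P.entC O Db / 2 - (P.entC O D + dw) / 2 ≤ loss)
    (h6 : P.entC Db Bp ≤ x6)
    (h5 : P.entC (pair Db Bp) D ≤ x5) :
    P.miC Pc D Bp ≤ dw + 2 * loss + x6 + x5 := by
  -- I(Pc;D|Bp) ≤ I(O;D|Bp)
  have d1 : P.miC Pc D Bp ≤ P.miC O D Bp := by
    rw [ent_miC_comm P Pc D Bp, ent_miC_comm P O D Bp]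
    exact ent_miC_mono P D O Pc Bp (fun ω ω' h h' hO _ => hPc ω ω' h h' hO)
  unfold FLaw.miC FLaw.entC at *
  -- I(O;D|Bp) = H(O,Bp)+H(D,Bp)-H(O,D,Bp)-H(Bp)
  -- H(O,Bp) ≤ H(O,Db,Bp) ≤ H(O,Db) + H(Db,Bp) - H(Db)
  have sm1 := ent_submod P O Bp Db
  have m1 : P.ent (pair O Bp) ≤ P.ent (pair (pair O Bp) Db) := ent_le_pair_left P _ _
  have k1 : P.ent (pair Bp Db) = P.ent (pair Db Bp) := ent_pair_comm P _ _
  -- H(D,Bp) ≤ H(Db,Bp,D)
  have m2 : P.ent (pair D Bp) ≤ P.ent (pair (pair Db Bp) D) := by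
    apply ent_mono_ker
    intro ω ω' _ _ h
    simp only [pair, Prod.mk.injEq] at h ⊢
    tauto
  -- H(O,D,Bp) ≥ H(O,D)
  have m3 : P.ent (pair O D) ≤ P.ent (pair (pair O D) Bp) := ent_le_pair_left P _ _
  linarith

/-- the two-copy argument of Lemma 11.2 -/
theorem rep_two_sep (P : FLaw Ω) (Pc : Ω → α) (D : Ω → δ) (Bp : Ω → β)
    (hB : ∀ ω ω', Pc ω = Pc ω' → Bp ω = Bp ω')
    (sep : Ω × Ω → Prop) (hsep : 1 / 4 ≤ (rep_two P Pc).pr sep)
    (x1 x2 x3 x4 : ℝ)
    (h1 : x1 ≤ (((rep_two P Pc).cnd sep).map Prod.fst).entC Pc D)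
    (h2 : (((rep_two P Pc).cnd sep).map Prod.snd).miC Pc D Bp ≤ x2)
    (h3 : (((rep_two P Pc).cnd sep).map Prod.fst).entC Bp D ≤ x3)
    (h4 : ((rep_two P Pc).cnd sep).entC (fun x => Pc x.1) (pair (fun x => D x.1) (fun x => D x.2)) ≤ x4) :
    x1 - x3 - x4 ≤ x2 + Real.log 4 := by
  have hpos : 0 < (rep_two P Pc).pr sep := by linarith
  set ρ := (rep_two P Pc).cnd sep with hρ
  have hd : ρ.Dom 4 (rep_two P Pc) := by
    refine ent_dom_mono (ent_cnd_dom _ sep hpos) ?_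
    rw [div_le_iff₀ hpos]; linarith
  have hsupp : ∀ x, ρ.p x ≠ 0 → Pc x.1 = Pc x.2 := by
    intro x hx
    exact ((rep_two_supp P Pc x).1 (ent_dom_supp hd hx)).2.2
  have hci := rep_two_dom P Pc ρ hd D D
  rw [ent_map_entC] at h1 h3
  rw [ent_map_miC] at h2
  -- replace second-copy labels by first-copy labels
  have e2 : ρ.miC (fun x => Pc x.2) (fun x => D x.2) (fun x => Bp x.2)
      = ρ.miC (fun x => Pc x.1) (fun x => D x.2) (fun x => Bp x.1) := by
    unfold FLaw.miC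
    have a1 : ρ.ent (pair (fun x : Ω × Ω => Pc x.2) (fun x => Bp x.2)) = ρ.ent (pair (fun x : Ω × Ω => Pc x.1) (fun x => Bp x.1)) := by
      apply ent_congr_ker
      intro x y hx hy
      simp only [pair, Prod.mk.injEq]
      rw [← hsupp x hx, ← hsupp y hy, ← hB _ _ (hsupp x hx), ← hB _ _ (hsupp y hy)]
    have a2 : ρ.ent (pair (fun x : Ω × Ω => D x.2) (fun x => Bp x.2)) = ρ.ent (pair (fun x : Ω × Ω => D x.2) (fun x => Bp x.1)) := by
      apply ent_congr_ker
      intro x y hx hy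
      simp only [pair, Prod.mk.injEq]
      rw [← hB _ _ (hsupp x hx), ← hB _ _ (hsupp y hy)]
    have a3 : ρ.ent (pair (pair (fun x : Ω × Ω => Pc x.2) (fun x => D x.2)) (fun x => Bp x.2))
        = ρ.ent (pair (pair (fun x : Ω × Ω => Pc x.1) (fun x => D x.2)) (fun x => Bp x.1)) := by
      apply ent_congr_ker
      intro x y hx hy
      simp only [pair, Prod.mk.injEq]
      rw [← hsupp x hx, ← hsupp y hy, ← hB _ _ (hsupp x hx), ← hB _ _ (hsupp y hy)]
    have a4 : ρ.ent (fun x : Ω × Ω => Bp x.2) = ρ.ent (fun x : Ω × Ω => Bp x.1) := by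
      apply ent_congr_ker
      intro x y hx hy
      rw [← hB _ _ (hsupp x hx), ← hB _ _ (hsupp y hy)]
    rw [a1, a2, a3, a4]
  rw [e2] at h2
  -- notation
  set P1 : Ω × Ω → α := fun x => Pc x.1
  set D1 : Ω × Ω → δ := fun x => D x.1
  set D2 : Ω × Ω → δ := fun x => D x.2
  set B : Ω × Ω → β := fun x => Bp x.1
  unfold FLaw.miC FLaw.entC at *
  -- B is a function of P1
  have b1 : ρ.ent (pair P1 B) = ρ.ent P1 := by
    apply ent_pair_of_ker
    intro x y _ _ h
    exact hB _ _ h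
  have b2 : ρ.ent (pair (pair P1 D2) B) = ρ.ent (pair D2 P1) := by
    apply ent_congr_ker
    intro x y _ _
    simp only [pair, Prod.mk.injEq]
    constructor
    · intro h; tauto
    · intro h; exact ⟨⟨h.2, h.1⟩, hB _ _ h.2⟩
  -- H(D1,D2,B) ≤ ... we need I(D1;D2|B) ≥ 0 : submod
  have sm := ent_submod ρ D1 D2 B
  -- H(P1,D1,D2) vs entropies
  have k1 : ρ.ent (pair P1 (pair D1 D2)) = ρ.ent (pair (pair D1 D2) P1) := ent_pair_comm ρ _ _
  have m1 : ρ.ent (pair D1 D2) ≤ ρ.ent (pair (pair D1 D2) B) := ent_le_pair_left ρ _ _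
  have k2 : ρ.ent (pair P1 D1) = ρ.ent (pair D1 P1) := ent_pair_comm ρ _ _
  have k3 : ρ.ent (pair B D1) = ρ.ent (pair D1 B) := ent_pair_comm ρ _ _
  linarith

/-- the marginals of the conditioned two-copy law are dominated by `4 P` -/
theorem rep_two_sep_dom (P : FLaw Ω) (Pc : Ω → α) (sep : Ω × Ω → Prop)
    (hsep : 1 / 4 ≤ (rep_two P Pc).pr sep) :
    (((rep_two P Pc).cnd sep).map Prod.fst).Dom 4 P ∧ (((rep_two P Pc).cnd sep).map Prod.snd).Dom 4 P := by
  have hpos : 0 < (rep_two P Pc).pr sep := by linarith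
  have hd : ((rep_two P Pc).cnd sep).Dom 4 (rep_two P Pc) := by
    refine ent_dom_mono (ent_cnd_dom _ sep hpos) ?_
    rw [div_le_iff₀ hpos]; linarith
  constructor
  · have := ent_map_dom hd Prod.fst
    rwa [rep_two_map_fst] at this
  · have := ent_map_dom hd Prod.snd
    rwa [rep_two_map_snd] at this

/-- Lemma 11.2, conclusion: if the separated event has mass `< 1/4` there is a table predicting the normal on a part of mass `≥ 3/4` -/
theorem rep_predict (P : FLaw Ω) (Pc : Ω → α) (N : Ω → β) (rel : β → β → Prop)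
    (h : (rep_two P Pc).pr (fun x => ¬ rel (N x.1) (N x.2)) < 1 / 4) :
    ∃ tab : α → β, 3 / 4 ≤ P.pr (fun ω => rel (N ω) (tab (Pc ω))) := by
  apply rep_two_table P Pc N rel
  have := ent_pr_not (rep_two P Pc) (fun x => rel (N x.1) (N x.2))
  linarith

end Claimed.Agent.R255
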