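-- KEEP
import Claimed.Agent.R255.Rep.Buffer
import Claimed.Agent.R255.Rep.State
import Claimed.Agent.R255.Rep.Two
import Claimed.Agent.R255.Comp.Floor

/-!
# Row 255 (BR paper), Sec. 11.2, stage S2 PREDICT (Lemma 11.2), file 1: DEFINITIONS      (architect helper18)

Vocabulary of `Pkt/Base.lean`, `Rep/Buffer.lean` (`Site.back`), `Rep/State.lean` (`PTest.sat`).   Prefix `rpd`.
* `PredLab E T r Kp Pc`  : the geometric meaning of the (buffered) coarse label `P = (C_r, V_{u_t}, (X + (C_r - C_t) V)_{r + u_t})` on the ENDPOINT samples of the test `T`: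
    - `fn`   : `Pc` is a function of the observed site (on the support);
    - `locC/locV/locY` : equal labels => same time cell of depth `r`, velocities within `Kp ε^u`, root-referred positions within `Kp ε^r ε^u`   (`u = u_t`);
    - `list` : the samples of one time cell within `ρ` units of a point carry at most `Kp ρ^4` labels   (`ρ ≥ 1` arbitrary).
  Instance: `bufP` of `Rep/Buffer.lean` (`rpb_close`, `rpb_list`).
* `rpdDa g s`            : the isotropic replacement aperture of width `a` (centred at the site itself).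
* `rpdDb ε t bq s`, `rpdDbGeo ε t bq` : the isotropic replacement aperture of width `bq` at time `t` : exact anchor, velocity cell of side `ε^bq`, position cell of side `ε^(bq+t)`.
* the coarsening `B_P` of `P` is `loc0 ε r bq (T.sat (R o))`, `R o` = a fixed representative sample of the label `Pc o`.
-/

set_option autoImplicit false

namespace Claimed.Agent.R255

open scoped BigOperators
open Classical
open FLaw Pkt Osc

/-- the geometric meaning of the coarse label on the endpoint samples -/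
structure PredLab (E : PEnv) (T : PTest) (r Kp : ℝ) {α : Type} (Pc : T.Ω → α) : Prop where
  fn : ∀ o o', 0 < T.P.p o → 0 < T.P.p o' → T.O o = T.O o' → Pc o = Pc o'
  locC : ∀ o o', 0 < T.P.p o → 0 < T.P.p o' → Pc o = Pc o' →
    ⌊(T.sat o).C / E.ε ^ r⌋ = ⌊(T.sat o').C / E.ε ^ r⌋
  locV : ∀ o o', 0 < T.P.p o → 0 < T.P.p o' → Pc o = Pc o' →
    ‖(T.sat o).V - (T.sat o').V‖ ≤ Kp * E.ε ^ (E.u T.t)
  locY : ∀ o o', 0 < T.P.p o → 0 < T.P.p o' → Pc o = Pc o' →
    ‖(T.sat o).back E.ε r - (T.sat o').back E.ε r‖ ≤ Kp * (E.ε ^ r * E.ε ^ (E.u T.t))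
  list : ∀ (k : ℤ) (v y : E2) (ρ : ℝ), 1 ≤ ρ → ∃ S : Finset α, (S.card : ℝ) ≤ Kp * ρ ^ 4 ∧
    ∀ o, 0 < T.P.p o → ⌊(T.sat o).C / E.ε ^ r⌋ = k → ‖(T.sat o).V - v‖ ≤ ρ * E.ε ^ (E.u T.t) →
      ‖(T.sat o).back E.ε r - y‖ ≤ ρ * (E.ε ^ r * E.ε ^ (E.u T.t)) → Pc o ∈ S

/-- the isotropic replacement aperture of width `a = g.a`, centred at the site -/
def rpdDa (g : Geo) (s : Site) : Geo := ⟨g.a, g.a, s.C, 0, toP s.V, toP s.X⟩

/-- label type of the isotropic replacement aperture of width `bq` -/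
abbrev RpdDb : Type := ℝ × (ℤ × ℤ) × (ℤ × ℤ)

/-- the isotropic replacement aperture of width `bq` at time `t` -/
noncomputable def rpdDb (ε t bq : ℝ) (s : Site) : RpdDb := (s.C, cell (ε ^ bq) s.V, cell (ε ^ (bq + t)) s.X)

/-- its read-out -/
noncomputable def rpdDbGeo (ε t bq : ℝ) (d : RpdDb) : Geo :=
  ⟨bq, bq, d.1, 0, toP (cellC (ε ^ bq) d.2.1), toP (cellC (ε ^ (bq + t)) d.2.2)⟩

/-- a choice of representative samples of the labels -/
def RpdRep (T : PTest) {α : Type} (Pc : T.Ω → α) (R : T.Ω → T.Ω) : Prop :=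
  (∀ o, 0 < T.P.p o → 0 < T.P.p (R o) ∧ Pc (R o) = Pc o) ∧ ∀ o o', Pc o = Pc o' → R o = R o'

/-- the same sites and observation with another law and another aperture label -/
def Pkt.PTest.relab (T : PTest) (Q : FLaw T.Ω) {Γ' : Type} (D' : T.Ω → Γ') (geo' : Γ' → Geo) : PTest :=
  { T with P := Q, Γ := Γ', D := D', geo := geo' }

theorem rpd_defs_eqns_cite : True := by
  have := @rpdDa.eq_1
  have := @rpdDb.eq_1
  have := @rpdDbGeo.eq_1
  have := @RpdRep.eq_1
  have := @Pkt.PTest.relab.eq_1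
  trivial

end Claimed.Agent.R255
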