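-- KEEP
import Claimed.Agent.R255.Rep.PredDefs

/-!
# Row 255 (BR paper), Sec. 11.2, stage S2 PREDICT (Lemma 11.2), file 3: THE TEST KIT      (architect helper18)

Usable in every stage of Sec. 11 (prefix `rpd_`):
* `rpd_obeys_relab`   : `T.relab Q D' geo'` (new law supported in the old support, new aperture label) obeys `{B with Ke := Ke'}`.
* `rpd_score_relab`   : its score is a `pscore` (by `rfl`).
* `rpd_pscore_map`    : the score of an image law.
* `rpd_lift_deficit`  : for ANY lift `R` of the law (`R.map φ` = current law) and any event `A` of `R`-probability `≥ 1/4` the marginal `(R.cnd A).map φ` has deficit `≤ 4 (Δ + (3/2) log 2 / ℓ + ω₀)`.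
* `rpd_replace`       : replacement loss (natural units) = current deficit + rate error.
* `rpd_geoOK_Da`, `rpd_geoOK_Db` : the two isotropic replacement apertures are admissible with enlargement constant `1`.
-/

set_option autoImplicit false

namespace Claimed.Agent.R255

open scoped BigOperators
open Classical
open FLaw Pkt Osc

theorem rpd_act_relab (T : PTest) (Q : FLaw T.Ω) (hQ : pcxSub T Q) {Γ' : Type} (D' : T.Ω → Γ') (geo' : Γ' → Geo)
    (i : T.ι) (h : (T.relab Q D' geo').act i) : T.act i := by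
  obtain ⟨o, ho, hi⟩ := h
  exact ⟨o, hQ o (ne_of_gt ho), hi⟩

theorem rpd_obeys_relab {B : PBd} {E : PEnv} {T : PTest} (hT : T.Obeys B E) (Q : FLaw T.Ω) (hQ : pcxSub T Q)
    {Γ' : Type} (D' : T.Ω → Γ') (geo' : Γ' → Geo) (Ke' : ℝ)
    (hg : ∀ o, 0 < Q.p o → GeoOK (geo' (D' o)) Ke' E.ε T.t E.L (E.u T.t) (T.site (T.O o))) :
    (T.relab Q D' geo').Obeys { B with Ke := Ke' } E := by
  have ha : ∀ i, (T.relab Q D' geo').act i → T.act i := fun i h => rpd_act_relab T Q hQ D' geo' i h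
  refine ⟨hT.t0, fun i hi => hT.amp i (ha i hi), fun i hi => hT.time i (ha i hi), fun i hi => hT.vel i (ha i hi),
    fun i hi => hT.pos i (ha i hi), ?_, ?_, fun o ho => hT.mpos o (hQ o (ne_of_gt ho)), hg⟩
  · intro i hi
    exact le_trans (pcx_card_image_le _ _ _ _ _ ha) (hT.multT i (ha i hi))
  · intro i hi
    exact le_trans (pcx_card_filter_le _ _ _ (fun j hj => ⟨ha j hj.1, hj.2⟩)) (hT.multS i (ha i hi))

theorem rpd_obeysE_Ke {B : PBd} {E : PEnv} (hE : E.Obeys B) (Ke' : ℝ) : E.Obeys { B with Ke := Ke' } :=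
  ⟨hE.ε0, hE.ε1, hE.H0, hE.H1, hE.L1, hE.phase, hE.mem, hE.supp⟩

theorem rpd_good_Ke {B : PBd} (hB : B.Good) (Ke' : ℝ) : PBd.Good { B with Ke := Ke' } :=
  ⟨hB.a0, hB.tmin, hB.M⟩

/-- normalised log mass at a sample -/
noncomputable def rpdLm (E : PEnv) (T : PTest) (o : T.Ω) : ℝ := Real.log (E.m T.t (T.site (T.O o))) / lg E.ε

theorem rpd_score_relab (γ : ℝ) (E : PEnv) (T : PTest) (Q : FLaw T.Ω) {Γ' : Type} (D' : T.Ω → Γ') (geo' : Γ' → Geo) :
    score γ E (T.relab Q D' geo') = pscore (lg E.ε) Q T.O D' (rpdLm E T) (fun o => wt γ (geo' (D' o))) := rfl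

theorem rpd_score_withLaw (γ : ℝ) (E : PEnv) (T : PTest) (Q : FLaw T.Ω) :
    score γ E (T.withLaw Q) = pscore (lg E.ε) Q T.O T.D (rpdLm E T) (fun o => wt γ (T.geo (T.D o))) := rfl

theorem rpd_score_self (γ : ℝ) (E : PEnv) (T : PTest) :
    score γ E T = pscore (lg E.ε) T.P T.O T.D (rpdLm E T) (fun o => wt γ (T.geo (T.D o))) := rfl

section abstract

variable {Ω : Type} [Fintype Ω] {α β : Type}

theorem rpd_pscore_map {Ω₂ : Type} [Fintype Ω₂] (l : ℝ) (R : FLaw Ω₂) (φ : Ω₂ → Ω) (O : Ω → α) (D : Ω → β)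
    (lm w : Ω → ℝ) :
    pscore l (R.map φ) O D lm w
      = pscore l R (fun x => O (φ x)) (fun x => D (φ x)) (fun x => lm (φ x)) (fun x => w (φ x)) := by
  unfold pscore
  rw [ent_map_ent, ent_map_entC, ent_map_ev, ent_map_ev]

/-- **deficit of the marginal of a conditioned lift** -/
theorem rpd_lift_deficit {Ω₂ : Type} [Fintype Ω₂] {l : ℝ} (hl : 0 < l) (R : FLaw Ω₂) (φ : Ω₂ → Ω) (O : Ω → α)
    (D : Ω → β) (lm w : Ω → ℝ) (A : Ω₂ → Prop) {𝒦 ω₀ : ℝ} (hω : 0 ≤ ω₀) (hA : 1 / 4 ≤ R.pr A)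
    (h1 : pscore l (R.map φ) O D lm w ≤ 𝒦 + ω₀)
    (h2 : pscore l ((R.cnd (fun x => ¬ A x)).map φ) O D lm w ≤ 𝒦 + ω₀) :
    𝒦 - pscore l ((R.cnd A).map φ) O D lm w
      ≤ 4 * ((𝒦 - pscore l (R.map φ) O D lm w) + 3 / 2 * Real.log 2 / l + ω₀) := by
  rw [rpd_pscore_map] at h1 h2 ⊢
  rw [rpd_pscore_map]
  have h := pc_restrict hl R (fun x => O (φ x)) (fun x => D (φ x)) (fun x => lm (φ x)) (fun x => w (φ x)) A
    (𝒦 := 𝒦) (ω₀ := ω₀) (fun _ => h2)
  have hp1 := ent_pr_le_one R A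
  have hlog : 0 ≤ 3 / 2 * Real.log 2 / l := by
    have := Real.log_nonneg (by norm_num : (1 : ℝ) ≤ 2)
    positivity
  set s := pscore l R (fun x => O (φ x)) (fun x => D (φ x)) (fun x => lm (φ x)) (fun x => w (φ x)) with hs
  set sA := pscore l (R.cnd A) (fun x => O (φ x)) (fun x => D (φ x)) (fun x => lm (φ x)) (fun x => w (φ x)) with hsA
  set e := 3 / 2 * Real.log 2 / l with he
  set p := R.pr A with hp
  -- `p (𝒦 - sA) ≤ (𝒦 - s) + e + (1-p) ω₀`
  have hX : 0 ≤ (𝒦 - s) + e + ω₀ := by linarith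
  by_cases hneg : 𝒦 - sA ≤ 0
  · linarith
  · push Not at hneg
    have h3 : (1 - p) * ω₀ ≤ ω₀ := by nlinarith
    nlinarith

end abstract

/-- **replacement loss** (natural units): changing the aperture at fixed masses costs at most the current deficit plus the rate error -/
theorem rpd_replace (γ β : ℝ) (M : ℕ) (E : PEnv) (T : PTest) (Q : FLaw T.Ω) {Γ' : Type} (D' : T.Ω → Γ')
    (geo' : Γ' → Geo) {ν Δ : ℝ} (hl : 0 < lg E.ε)
    (h1 : score γ E (T.relab Q D' geo') ≤ K0 γ M E + β * T.t + ν)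
    (h2 : pcxDef γ β M E (T.withLaw Q) ≤ Δ) :
    (Q.entC T.O D' + lg E.ε * Q.ev (fun o => wt γ (geo' (D' o)) - wt γ (T.geo (T.D o)))) / 2 - Q.entC T.O T.D / 2
      ≤ lg E.ε * (Δ + ν) := by
  have h3 : K0 γ M E + β * T.t - score γ E (T.withLaw Q) ≤ Δ := h2
  rw [rpd_score_relab] at h1
  rw [rpd_score_withLaw] at h3
  unfold pscore at h1 h3
  rw [ent_ev_sub]
  set l := lg E.ε with hldef
  have h4 : (Q.entC T.O D' - Q.entC T.O T.D) / 2 / l
      + 1 / 2 * (Q.ev (fun o => wt γ (geo' (D' o))) - Q.ev (fun o => wt γ (T.geo (T.D o)))) ≤ Δ + ν := by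
    have e1 : (Q.ent T.O + Q.entC T.O D' / 2) / l - (Q.ent T.O + Q.entC T.O T.D / 2) / l
        = (Q.entC T.O D' - Q.entC T.O T.D) / 2 / l := by
      field_simp
      ring
    linarith
  have h5 := mul_le_mul_of_nonneg_left h4 hl.le
  have e2 : l * ((Q.entC T.O D' - Q.entC T.O T.D) / 2 / l
      + 1 / 2 * (Q.ev (fun o => wt γ (geo' (D' o))) - Q.ev (fun o => wt γ (T.geo (T.D o)))))
      = (Q.entC T.O D' + l * (Q.ev (fun o => wt γ (geo' (D' o))) - Q.ev (fun o => wt γ (T.geo (T.D o))))) / 2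
        - Q.entC T.O T.D / 2 := by
    field_simp
    ring
  rw [e2] at h5
  exact h5

theorem rpd_cell_coord {w : ℝ} (hw : 0 < w) (x : ℝ) : |x - w * ((⌊x / w⌋ : ℝ) + 1 / 2)| ≤ w := by
  have h1 : (⌊x / w⌋ : ℝ) ≤ x / w := Int.floor_le _
  have h2 : x / w < (⌊x / w⌋ : ℝ) + 1 := Int.lt_floor_add_one _
  rw [le_div_iff₀ hw] at h1
  rw [div_lt_iff₀ hw] at h2
  rw [abs_le]
  constructor <;> nlinarith

theorem rpd_inRect_cell {ε c : ℝ} (hε : 0 < ε) (x : E2) :
    InRect 1 ε c c 0 (toP x - toP (cellC (ε ^ c) (cell (ε ^ c) x))) := by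
  have hw : 0 < ε ^ c := Real.rpow_pos_of_pos hε c
  unfold InRect ip tang nrm toP cellC cell
  simp only [Real.cos_zero, Real.sin_zero, Prod.fst_sub, Prod.snd_sub, mul_one, mul_zero, add_zero, neg_zero,
    zero_add, one_mul]
  constructor
  · simpa using rpd_cell_coord hw (x 0)
  · simpa using rpd_cell_coord hw (x 1)

theorem rpd_geoOK_Da {g : Geo} {K ε t L u : ℝ} {s : Site} (hε : 0 < ε) (h : GeoOK g K ε t L u s) :
    GeoOK (rpdDa g s) 1 ε t L u s := by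
  obtain ⟨h1, h2, h3, h4, -, -, -⟩ := h
  refine ⟨h1.trans h2, le_refl _, h3, h4, rfl, ?_, ?_⟩
  · have hw : 0 < ε ^ g.a := Real.rpow_pos_of_pos hε _
    unfold InRect ip rpdDa
    simp only [sub_self, Prod.fst_zero, Prod.snd_zero, zero_mul, add_zero, abs_zero, one_mul]
    exact ⟨hw.le, hw.le⟩
  · have hw : 0 < ε ^ (g.a + t) := Real.rpow_pos_of_pos hε _
    unfold InRect ip rpdDa
    simp only [sub_self, Prod.fst_zero, Prod.snd_zero, zero_mul, add_zero, abs_zero, one_mul]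
    exact ⟨hw.le, hw.le⟩

theorem rpd_geoOK_Db {ε t L u bq : ℝ} (s : Site) (hε : 0 < ε) (h0 : 0 ≤ bq) (h1 : bq ≤ L - t) (h2 : bq ≤ u) :
    GeoOK (rpdDbGeo ε t bq (rpdDb ε t bq s)) 1 ε t L u s :=
  ⟨h0, le_refl _, h1, h2, rfl, rpd_inRect_cell hε s.V, rpd_inRect_cell hε s.X⟩

theorem rpd_kit_eqns_cite : True := by
  have := @rpdLm.eq_1
  trivial

end Claimed.Agent.R255
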