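-- KEEP
import Claimed.Agent.R255.Rep.PredKit

/-!
# Row 255 (BR paper), Sec. 11.2, stage S2 PREDICT (Lemma 11.2), file 4: THE ENTROPY INEQUALITIES      (architect helper18)

For a law `Q` supported in the support of the test (natural units, `ℓ = lg ε`):
* `rpd_marg`    : the marginals of a conditioned lift: support and deficit.
* `rpd_lower`   (11.prediction-lower)   `ℓ (1+γ) e' - 2 ℓ (Δ+ν) - (log C₁ + 6 h ℓ) ≤ H_Q(P | D)`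
* `rpd_upper`   (11.prediction-upper)   `I_Q(P ; D | B_P) ≤ ℓ e'' + 2 ℓ (Δ+ν) + (log C₂ + 6 h ℓ) + log C₃`
* `rpd_coarse`  `H_Q(B_P | D) ≤ log C₃`
* `rpd_inter`   (11.prediction-intersection)   `H(P | D, D') ≤ log C₄ + (16 h + 8 η) ℓ` on the separated two-copy law.
-/

set_option autoImplicit false

namespace Claimed.Agent.R255

open scoped BigOperators
open Classical
open FLaw Pkt Osc

theorem rpd_log_pow {ε C : ℝ} (hε : 0 < ε) (hC : 0 < C) (x : ℝ) :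
    Real.log (C * ε ^ (-x)) = Real.log C + x * lg ε := by
  rw [Real.log_mul hC.ne' (Real.rpow_pos_of_pos hε _).ne', Real.log_rpow hε]
  unfold lg
  rw [one_div, Real.log_inv]
  ring

section abstract

variable {Ω : Type} [Fintype Ω] {α β : Type}

theorem rpd_map_supp {Ω₂ : Type} [Fintype Ω₂] (R : FLaw Ω₂) (φ : Ω₂ → Ω) {o : Ω} (h : (R.map φ).p o ≠ 0) :
    ∃ x, φ x = o ∧ R.p x ≠ 0 := by
  have h1 : 0 < R.pr (fun x => φ x = o) := lt_of_le_of_ne (ent_pr_nonneg R _) (Ne.symm h)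
  exact (ent_pr_pos_iff R _).1 h1

theorem rpd_cnd_supp (P : FLaw Ω) (A : Ω → Prop) {o : Ω} (h : (P.cnd A).p o ≠ 0) : P.p o ≠ 0 := by
  by_cases hA : 0 < P.pr A
  · exact ((ent_cnd_supp P A hA).1 h).2
  · have e : P.cnd A = P := by
      unfold FLaw.cnd
      rw [dif_neg hA]
    rwa [e] at h

/-- constant list bound on the support -/
theorem rpd_entC_le_log (P : FLaw Ω) (X : Ω → α) (Y : Ω → β) (c : ℝ)
    (h : ∀ ω₀, P.p ω₀ ≠ 0 → ∃ S : Finset α, (S.card : ℝ) ≤ c ∧ ∀ ω, P.p ω ≠ 0 → Y ω = Y ω₀ → X ω ∈ S) :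
    P.entC X Y ≤ Real.log c := by
  have := rep_entC_le_ev_log P X Y (fun _ => c) h
  rwa [ent_ev_const] at this

end abstract

/-- the marginals of a conditioned lift of the law of a test -/
theorem rpd_marg (γ β : ℝ) (M : ℕ) (E : PEnv) (T : PTest) (hl : 0 < lg E.ε) {Ω₂ : Type} [Fintype Ω₂] (R : FLaw Ω₂)
    (φ : Ω₂ → T.Ω) (hφ : R.map φ = T.P) (A : Ω₂ → Prop) (hA : 1 / 4 ≤ R.pr A) {ν : ℝ} (hν : 0 ≤ ν)
    (hr : ∀ Q : FLaw T.Ω, pcxSub T Q → score γ E (T.withLaw Q) ≤ K0 γ M E + β * T.t + ν) :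
    pcxSub T ((R.cnd A).map φ) ∧
      pcxDef γ β M E (T.withLaw ((R.cnd A).map φ)) ≤ 4 * (pcxDef γ β M E T + 3 / 2 * Real.log 2 / lg E.ε + ν) := by
  have hsub : ∀ A' : Ω₂ → Prop, pcxSub T ((R.cnd A').map φ) := by
    intro A' o ho
    obtain ⟨x, hx, hp⟩ := rpd_map_supp _ φ ho
    have h1 := ent_map_supp R φ (rpd_cnd_supp R A' hp)
    rw [hφ, hx] at h1
    exact lt_of_le_of_ne (T.P.nonneg o) (Ne.symm h1)
  refine ⟨hsub A, ?_⟩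
  have h1 := hr T.P (pcx_sub_self T)
  have h2 := hr _ (hsub (fun x => ¬ A x))
  rw [rpd_score_withLaw] at h1 h2
  have h3 := rpd_lift_deficit hl R φ T.O T.D (rpdLm E T) (fun o => wt γ (T.geo (T.D o))) A hν hA
    (𝒦 := K0 γ M E + β * T.t) (by rw [hφ]; exact h1) h2
  rw [hφ] at h3
  exact h3

/-- (11.prediction-lower) -/
theorem rpd_lower (γ β : ℝ) (M : ℕ) (E : PEnv) (T : PTest) (hε : 0 < E.ε) (hl : 0 < lg E.ε) (Q : FLaw T.Ω)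
    (hQ : pcxSub T Q) {α : Type} (Pc : T.Ω → α)
    (hfn : ∀ o o', 0 < T.P.p o → 0 < T.P.p o' → T.O o = T.O o' → Pc o = Pc o') (h C₁ : ℝ) (hC₁ : 0 < C₁)
    (hg1 : ∀ o₀, 0 < T.P.p o₀ → ∃ S : Finset T.ι, (S.card : ℝ) ≤ C₁ * E.ε ^ (-(6 * h)) ∧
      ∀ o, 0 < T.P.p o → Pc o = Pc o₀ → T.O o ∈ S)
    {ν Δ e' : ℝ} (hγ : 0 ≤ 1 + γ)
    (hr : score γ E (T.relab Q (fun o => rpdDa (T.geo (T.D o)) (T.sat o)) id) ≤ K0 γ M E + β * T.t + ν)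
    (hΔ : pcxDef γ β M E (T.withLaw Q) ≤ Δ)
    (he : ∀ o, 0 < T.P.p o → e' ≤ (T.geo (T.D o)).a - (T.geo (T.D o)).b) :
    lg E.ε * ((1 + γ) * e') - 2 * (lg E.ε * (Δ + ν)) - (Real.log C₁ + 6 * h * lg E.ε) ≤ Q.entC Pc T.D := by
  have hrep := rpd_replace γ β M E T Q _ _ hl hr hΔ
  have h6 : Q.entC T.O Pc ≤ Real.log C₁ + 6 * h * lg E.ε := by
    rw [← rpd_log_pow hε hC₁]
    refine rpd_entC_le_log Q T.O Pc _ fun o₀ ho₀ => ?_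
    obtain ⟨S, hS, hm⟩ := hg1 o₀ (hQ o₀ ho₀)
    exact ⟨S, hS, fun o ho hP => hm o (hQ o ho) hP⟩
  have hmain := rep_repl_lower Q T.O T.D _ Pc (fun o o' ho ho' hO => hfn o o' (hQ o ho) (hQ o' ho') hO) _ _ _ hrep h6
  have hdw : (1 + γ) * e' ≤ Q.ev (fun o => wt γ (id (rpdDa (T.geo (T.D o)) (T.sat o))) - wt γ (T.geo (T.D o))) := by
    rw [← ent_ev_const Q ((1 + γ) * e')]
    refine ent_ev_mono Q fun o ho => ?_
    have h1 := he o (hQ o ho)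
    have e1 : wt γ (id (rpdDa (T.geo (T.D o)) (T.sat o))) - wt γ (T.geo (T.D o))
        = (1 + γ) * ((T.geo (T.D o)).a - (T.geo (T.D o)).b) := by
      unfold wt rpdDa
      simp only [id]
      ring
    rw [e1]
    exact mul_le_mul_of_nonneg_left h1 hγ
  have := mul_le_mul_of_nonneg_left hdw hl.le
  linarith

/-- (11.prediction-upper) -/
theorem rpd_upper (γ β : ℝ) (M : ℕ) (E : PEnv) (T : PTest) (hε : 0 < E.ε) (hl : 0 < lg E.ε) (Q : FLaw T.Ω)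
    (hQ : pcxSub T Q) {α : Type} (Pc : T.Ω → α)
    (hfn : ∀ o o', 0 < T.P.p o → 0 < T.P.p o' → T.O o = T.O o' → Pc o = Pc o') (h bq C₂ C₃ : ℝ) (hC₂ : 0 < C₂)
    (Bp : T.Ω → Loc0)
    (hg2 : ∀ o₀, 0 < T.P.p o₀ → ∃ S : Finset RpdDb, (S.card : ℝ) ≤ C₂ * E.ε ^ (-(6 * h)) ∧
      ∀ o, 0 < T.P.p o → Bp o = Bp o₀ → rpdDb E.ε T.t bq (T.sat o) ∈ S)
    (hg3 : ∀ o₀, 0 < T.P.p o₀ → ∃ S : Finset (RpdDb × Loc0), (S.card : ℝ) ≤ C₃ ∧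
      ∀ o, 0 < T.P.p o → T.D o = T.D o₀ → (rpdDb E.ε T.t bq (T.sat o), Bp o) ∈ S)
    {ν Δ e'' : ℝ}
    (hr : score γ E (T.relab Q (fun o => rpdDb E.ε T.t bq (T.sat o)) (rpdDbGeo E.ε T.t bq)) ≤ K0 γ M E + β * T.t + ν)
    (hΔ : pcxDef γ β M E (T.withLaw Q) ≤ Δ)
    (he : ∀ o, 0 < T.P.p o → wt γ (T.geo (T.D o)) - 2 * bq ≤ e'') :
    Q.miC Pc T.D Bp
      ≤ lg E.ε * e'' + 2 * (lg E.ε * (Δ + ν)) + (Real.log C₂ + 6 * h * lg E.ε) + Real.log C₃ := by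
  have hrep := rpd_replace γ β M E T Q _ _ hl hr hΔ
  set Db : T.Ω → RpdDb := fun o => rpdDb E.ε T.t bq (T.sat o) with hDb
  have h6 : Q.entC Db Bp ≤ Real.log C₂ + 6 * h * lg E.ε := by
    rw [← rpd_log_pow hε hC₂]
    refine rpd_entC_le_log Q Db Bp _ fun o₀ ho₀ => ?_
    obtain ⟨S, hS, hm⟩ := hg2 o₀ (hQ o₀ ho₀)
    exact ⟨S, hS, fun o ho hP => hm o (hQ o ho) hP⟩
  have h5 : Q.entC (pair Db Bp) T.D ≤ Real.log C₃ := by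
    refine rpd_entC_le_log Q (pair Db Bp) T.D _ fun o₀ ho₀ => ?_
    obtain ⟨S, hS, hm⟩ := hg3 o₀ (hQ o₀ ho₀)
    exact ⟨S, hS, fun o ho hP => hm o (hQ o ho) hP⟩
  set dw : ℝ := lg E.ε * Q.ev (fun o => wt γ (T.geo (T.D o)) - wt γ (rpdDbGeo E.ε T.t bq (Db o))) with hdw
  have hrep' : Q.entC T.O Db / 2 - (Q.entC T.O T.D + dw) / 2 ≤ lg E.ε * (Δ + ν) := by
    have e1 : Q.ev (fun o => wt γ (rpdDbGeo E.ε T.t bq (Db o)) - wt γ (T.geo (T.D o)))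
        = - Q.ev (fun o => wt γ (T.geo (T.D o)) - wt γ (rpdDbGeo E.ε T.t bq (Db o))) := by
      rw [← ent_ev_neg]
      exact ent_ev_congr Q fun o _ => by ring
    rw [e1] at hrep
    rw [hdw]
    linarith
  have hmain := rep_repl_upper Q T.O T.D Db Pc Bp (fun o o' ho ho' hO => hfn o o' (hQ o ho) (hQ o' ho') hO) _ _ _ _
    hrep' h6 h5
  have hdw2 : Q.ev (fun o => wt γ (T.geo (T.D o)) - wt γ (rpdDbGeo E.ε T.t bq (Db o))) ≤ e'' := by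
    rw [← ent_ev_const Q e'']
    refine ent_ev_mono Q fun o ho => ?_
    have h1 := he o (hQ o ho)
    have e1 : wt γ (rpdDbGeo E.ε T.t bq (Db o)) = 2 * bq := by
      unfold wt rpdDbGeo
      ring
    rw [e1]
    exact h1
  have := mul_le_mul_of_nonneg_left hdw2 hl.le
  linarith

/-- `H(B_P | D) ≤ log C₃` -/
theorem rpd_coarse (E : PEnv) (T : PTest) (Q : FLaw T.Ω) (hQ : pcxSub T Q) (bq C₃ : ℝ) (Bp : T.Ω → Loc0)
    (hg3 : ∀ o₀, 0 < T.P.p o₀ → ∃ S : Finset (RpdDb × Loc0), (S.card : ℝ) ≤ C₃ ∧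
      ∀ o, 0 < T.P.p o → T.D o = T.D o₀ → (rpdDb E.ε T.t bq (T.sat o), Bp o) ∈ S) :
    Q.entC Bp T.D ≤ Real.log C₃ := by
  refine rpd_entC_le_log Q _ T.D _ fun o₀ ho₀ => ?_
  obtain ⟨S, hS, hm⟩ := hg3 o₀ (hQ o₀ ho₀)
  refine ⟨S.image Prod.snd, le_trans ?_ hS, fun o ho hP => ?_⟩
  · exact_mod_cast Finset.card_image_le
  · exact Finset.mem_image.2 ⟨_, hm o (hQ o ho) hP, rfl⟩

/-- (11.prediction-intersection) -/
theorem rpd_inter (E : PEnv) (T : PTest) (hε : 0 < E.ε) {α : Type} (Pc : T.Ω → α) (h η C₄ : ℝ) (hC₄ : 0 < C₄)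
    (hg4 : ∀ o₀ o₀', 0 < T.P.p o₀ → 0 < T.P.p o₀' → ∃ S : Finset α, (S.card : ℝ) ≤ C₄ * E.ε ^ (-(16 * h + 8 * η)) ∧
      ∀ o o', 0 < T.P.p o → 0 < T.P.p o' → Pc o = Pc o' →
        E.ε ^ (4 * h) ≤ |Real.sin ((T.geo (T.D o)).th - (T.geo (T.D o')).th)| →
        T.D o = T.D o₀ → T.D o' = T.D o₀' → Pc o ∈ S)
    (ρ : FLaw (T.Ω × T.Ω))
    (hρ : ∀ x, ρ.p x ≠ 0 → 0 < T.P.p x.1 ∧ 0 < T.P.p x.2 ∧ Pc x.1 = Pc x.2 ∧
      E.ε ^ (4 * h) ≤ |Real.sin ((T.geo (T.D x.1)).th - (T.geo (T.D x.2)).th)|) :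
    ρ.entC (fun x => Pc x.1) (pair (fun x => T.D x.1) (fun x => T.D x.2))
      ≤ Real.log C₄ + (16 * h + 8 * η) * lg E.ε := by
  rw [← rpd_log_pow hε hC₄]
  refine rpd_entC_le_log ρ _ _ _ fun x₀ hx₀ => ?_
  obtain ⟨a1, a2, -, -⟩ := hρ x₀ hx₀
  obtain ⟨S, hS, hm⟩ := hg4 x₀.1 x₀.2 a1 a2
  refine ⟨S, hS, fun x hx hD => ?_⟩
  obtain ⟨b1, b2, b3, b4⟩ := hρ x hx
  simp only [pair, Prod.mk.injEq] at hD
  exact hm x.1 x.2 b1 b2 b3 b4 hD.1 hD.2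

end Claimed.Agent.R255
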