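-- KEEP
import Claimed.Agent.R255.Rep.PredDefs

/-!
# Row 255 (BR paper), Sec. 11.2, stage S2 PREDICT (Lemma 11.2) : DEFINITIONS, second file      (helper186; restored by helper243 after the two `PredDefs.lean` overwrote each other)

* `PredLab E T r Kp Pc` : see `Rep/PredDefs.lean` (helper18's version, with floors).
* `rp2Bp`   : the isotropic coarsening `B_P` of `P` to width `b'` = exact localizer `loc0 ε r b'` of a REPRESENTATIVE sample of the value of `P`  (a function of `P`).
* `rp2Db`, `rp2GeoB` : the isotropic replacement aperture of width `b'` at the endpoint time  (exact time, grid cells of side `ε^b'`, `ε^(b'+t)`), and its read-out.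
* `rp2GeoA` : the exact isotropic replacement aperture of width `a_o` centred at the site (label = the sample itself).
* `rp2Sep`  : the separation event on two copies.
-/

set_option autoImplicit false

namespace Claimed.Agent.R255

open scoped BigOperators
open Classical
open FLaw Pkt Osc

/-- the isotropic coarsening `B_P` of the coarse label to width `b'`, as a FUNCTION OF THE VALUE of the coarse label -/
noncomputable def rp2Bp (E : PEnv) (T : PTest) (r b' : ℝ) {α : Type} (Pc : T.Ω → α) (p : α) : Loc0 :=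
  if h : ∃ o, 0 < T.P.p o ∧ Pc o = p then loc0 E.ε r b' (T.site (T.O (Classical.choose h))) else (0, (0, 0), (0, 0))

/-- the type of the labels of the isotropic apertures of width `b'` -/
abbrev Rp2B : Type := ℝ × (ℤ × ℤ) × (ℤ × ℤ)

/-- the isotropic aperture label of width `b'` at the endpoint time: exact time, velocity cell of side `ε^b'`, position cell of side `ε^(b'+t)` -/
noncomputable def rp2Db (E : PEnv) (T : PTest) (b' : ℝ) (o : T.Ω) : Rp2B :=
  ((T.site (T.O o)).C, cell (E.ε ^ b') (T.site (T.O o)).V, cell (E.ε ^ (b' + T.t)) (T.site (T.O o)).X)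

/-- the read-out of `rp2Db` -/
noncomputable def rp2GeoB (ε t b' : ℝ) (d : Rp2B) : Geo where
  b := b'
  a := b'
  tc := d.1
  th := 0
  vc := toP (cellC (ε ^ b') d.2.1)
  xc := toP (cellC (ε ^ (b' + t)) d.2.2)

/-- the exact isotropic aperture of width `a_o` centred at the site of the sample `o` (label = the sample) -/
noncomputable def rp2GeoA (T : PTest) (o : T.Ω) : Geo where
  b := (T.geo (T.D o)).a
  a := (T.geo (T.D o)).a
  tc := (T.site (T.O o)).C
  th := 0
  vc := toP (T.site (T.O o)).V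
  xc := toP (T.site (T.O o)).X

/-- the two normals are separated by `s` -/
def rp2Sep (T : PTest) (s : ℝ) (x : T.Ω × T.Ω) : Prop :=
  s ≤ |Real.sin ((T.geo (T.D x.1)).th - (T.geo (T.D x.2)).th)|

theorem rp2_defs_eqns_cite : True := by
  have := @rp2Bp.eq_1
  have := @rp2Db.eq_1
  have := @rp2GeoB.eq_1
  have := @rp2GeoA.eq_1
  have := @rp2Sep.eq_1
  trivial

/-- the constant of a coarse label is nonnegative -/
theorem PredLab.Kp_nonneg {E : PEnv} {T : PTest} {r Kp : ℝ} {α : Type} {Pc : T.Ω → α} (hε : 0 < E.ε)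
    (h : PredLab E T r Kp Pc) : 0 ≤ Kp := by
  obtain ⟨o, ho⟩ : ∃ o, T.P.p o ≠ 0 := by
    by_contra hcon
    push Not at hcon
    have := T.P.sum_one
    simp [hcon] at this
  have ho' : 0 < T.P.p o := lt_of_le_of_ne (T.P.nonneg o) (Ne.symm ho)
  have h1 := h.locV o o ho' ho' rfl
  rw [sub_self, norm_zero] at h1
  have h2 : 0 < E.ε ^ (E.u T.t) := Real.rpow_pos_of_pos hε _
  by_contra hneg
  push Not at hneg
  nlinarith

/-- `B_P` at the value of a charged sample is the localizer of a charged sample with the same coarse label -/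
theorem rp2_Bp_spec (E : PEnv) (T : PTest) (r b' : ℝ) {α : Type} (Pc : T.Ω → α) (o : T.Ω) (ho : 0 < T.P.p o) :
    ∃ o', 0 < T.P.p o' ∧ Pc o' = Pc o ∧ rp2Bp E T r b' Pc (Pc o) = loc0 E.ε r b' (T.site (T.O o')) := by
  have h : ∃ o', 0 < T.P.p o' ∧ Pc o' = Pc o := ⟨o, ho, rfl⟩
  refine ⟨Classical.choose h, (Classical.choose_spec h).1, (Classical.choose_spec h).2, ?_⟩
  unfold rp2Bp
  rw [dif_pos h]

theorem rp2_wt_geoA (γ : ℝ) (T : PTest) (o : T.Ω) : wt γ (rp2GeoA T o) = 2 * (T.geo (T.D o)).a := by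
  unfold wt rp2GeoA
  ring

theorem rp2_wt_geoB (γ ε t b' : ℝ) (d : Rp2B) : wt γ (rp2GeoB ε t b' d) = 2 * b' := by
  unfold wt rp2GeoB
  ring

/-- the exact isotropic aperture of width `a_o` is admissible -/
theorem rp2_geoA_ok {T : PTest} {o : T.Ω} {K ε t L u : ℝ} (hK : 0 ≤ K) (hε : 0 < ε)
    (h : GeoOK (T.geo (T.D o)) K ε t L u (T.site (T.O o))) : GeoOK (rp2GeoA T o) K ε t L u (T.site (T.O o)) := by
  obtain ⟨h0, h1, h2, h3, -, -, -⟩ := h
  have z : ∀ c d : ℝ, InRect K ε c d 0 ((0 : ℝ × ℝ)) := by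
    intro c d
    unfold InRect ip
    simp only [Prod.fst_zero, Prod.snd_zero, zero_mul, add_zero, abs_zero]
    exact ⟨mul_nonneg hK (Real.rpow_pos_of_pos hε _).le, mul_nonneg hK (Real.rpow_pos_of_pos hε _).le⟩
  refine ⟨h0.trans h1, le_refl _, h2, h3, rfl, ?_, ?_⟩
  · simp only [rp2GeoA, sub_self]; exact z _ _
  · simp only [rp2GeoA, sub_self]; exact z _ _

/-- a point is within half a side of the centre of its cell -/
theorem rp2_cell_centre {w : ℝ} (hw : 0 < w) (x : E2) :
    |x 0 - cellC w (cell w x) 0| ≤ w / 2 ∧ |x 1 - cellC w (cell w x) 1| ≤ w / 2 := by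
  have key : ∀ y : ℝ, |y - w * ((⌊y / w⌋ : ℝ) + 1 / 2)| ≤ w / 2 := by
    intro y
    have h1 : (⌊y / w⌋ : ℝ) ≤ y / w := Int.floor_le _
    have h2 : y / w < (⌊y / w⌋ : ℝ) + 1 := Int.lt_floor_add_one _
    rw [le_div_iff₀ hw] at h1
    rw [div_lt_iff₀ hw] at h2
    rw [abs_le]
    constructor <;> nlinarith
  unfold cellC cell
  constructor
  · simpa using key (x 0)
  · simpa using key (x 1)

/-- the isotropic aperture of width `b'` is admissible -/
theorem rp2_geoB_ok (E : PEnv) (T : PTest) (o : T.Ω) {K L u b' : ℝ} (hK : 1 / 2 ≤ K) (hε : 0 < E.ε)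
    (h0 : 0 ≤ b') (h1 : b' ≤ L - T.t) (h2 : b' ≤ u) :
    GeoOK (rp2GeoB E.ε T.t b' (rp2Db E T b' o)) K E.ε T.t L u (T.site (T.O o)) := by
  have key : ∀ (c : ℝ) (x : E2), InRect K E.ε c c 0 (toP x - toP (cellC (E.ε ^ c) (cell (E.ε ^ c) x))) := by
    intro c x
    have hw : 0 < E.ε ^ c := Real.rpow_pos_of_pos hε c
    obtain ⟨a0, a1⟩ := rp2_cell_centre hw x
    have hb : E.ε ^ c / 2 ≤ K * E.ε ^ c := by nlinarith
    unfold InRect ip tang nrm toP
    simp only [Real.cos_zero, Real.sin_zero, Prod.fst_sub, Prod.snd_sub, mul_one, mul_zero, add_zero, neg_zero, zero_add]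
    exact ⟨a0.trans hb, a1.trans hb⟩
  refine ⟨h0, le_refl _, h1, h2, rfl, ?_, ?_⟩
  · exact key b' _
  · exact key (b' + T.t) _

end Claimed.Agent.R255
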