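-- KEEP
import Claimed.Agent.R255.Rep.PredDefsB
import Claimed.Agent.R255.Pk9.Classes

/-!
# Row 255 (BR paper), Sec. 11.2, stage S2 PREDICT (Lemma 11.2) : GEOMETRIC TOOLS      (architect helper186)

PAPER-FREE elementary geometry of cells, strips, rectangles and site families.  Prefix `rp2_`.   Consumers: `Rep/PredList.lean`.
Existing tools: `rpb_floor_mem`, `rpb_Icc_card`, `rpb_floor_close`, `rpb_coord_le`, `rpb_norm_le`, `rpb_tanchor_le`, `rpb_floor_tanchor` (Rep/Buffer), `p9_pack` (Pk9/Classes),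
`pcx_count_time` (Comp/Floor; model for `rp2_times`).
-/

set_option autoImplicit false

namespace Claimed.Agent.R255

open scoped BigOperators
open Classical
open FLaw Pkt Osc

/-! ## LEAF L-S2-G1 : cells and times -/

/-- the cells of side `w` met by a ball of radius `R w` : take `Icc × Icc` (`rpb_floor_mem`, `rpb_Icc_card` with `Lg = 1`, `rpb_coord_le`) -/
theorem rp2_cells {w : ℝ} (hw : 0 < w) (x₀ : E2) {R : ℝ} (hR : 0 ≤ R) :
    ∃ S : Finset (ℤ × ℤ), (S.card : ℝ) ≤ (2 * R + 2) ^ 2 ∧ ∀ x : E2, ‖x - x₀‖ ≤ R * w → cell w x ∈ S := by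
  refine ⟨Finset.Icc ⌊(x₀ 0 - R * w) / w⌋ ⌊(x₀ 0 + R * w) / w⌋ ×ˢ Finset.Icc ⌊(x₀ 1 - R * w) / w⌋ ⌊(x₀ 1 + R * w) / w⌋, ?_, ?_⟩
  · rw [Finset.card_product]
    push_cast
    have h0 := rpb_Icc_card (x₀ := x₀ 0) (Lg := 1) hw hR le_rfl
    have h1 := rpb_Icc_card (x₀ := x₀ 1) (Lg := 1) hw hR le_rfl
    rw [one_mul] at h0 h1
    rw [sq]
    exact mul_le_mul h0 h1 (Nat.cast_nonneg _) (by positivity)
  · intro x hx
    have h0 : |x 0 - x₀ 0| ≤ R * w := (rpb_coord_le (x - x₀) 0).trans hx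
    have h1 : |x 1 - x₀ 1| ≤ R * w := (rpb_coord_le (x - x₀) 1).trans hx
    rw [Finset.mem_product]
    exact ⟨rpb_floor_mem hw h0, rpb_floor_mem hw h1⟩

/-- two points of one cell (`rpb_floor_close`, `rpb_norm_le`) -/
theorem rp2_cell_close {w : ℝ} (hw : 0 < w) {x y : E2} (h : cell w x = cell w y) : ‖x - y‖ ≤ 2 * w := by
  have h0 : ⌊x 0 / w⌋ = ⌊y 0 / w⌋ := congrArg Prod.fst h
  have h1 : ⌊x 1 / w⌋ = ⌊y 1 / w⌋ := congrArg Prod.snd h
  have a0 : |(x - y) 0| ≤ w := rpb_floor_close hw h0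
  have a1 : |(x - y) 1| ≤ w := rpb_floor_close hw h1
  linarith [rpb_norm_le (x - y)]

/-- a set of points of `[c₀, c₀ + Δ)` with at most `Mu` points in each window of radius `δ` centred at one of them (copy the proof of `pcx_count_time`:
`c ↦ ⌊c/δ⌋` has fibres `≤ Mu` and its image lies in `Icc ⌊c₀/δ⌋ ⌊(c₀+Δ)/δ⌋`) -/
theorem rp2_times (𝒞 : Finset ℝ) {δ Δ c₀ : ℝ} (hδ : 0 < δ) (hΔ : 0 ≤ Δ) (Mu : ℕ) (hin : ∀ c ∈ 𝒞, c₀ ≤ c ∧ c < c₀ + Δ)
    {dP : ∀ c₁ : ℝ, DecidablePred fun c : ℝ => |c - c₁| < δ}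
    (hm : ∀ c₁ ∈ 𝒞, (@Finset.filter ℝ (fun c => |c - c₁| < δ) (dP c₁) 𝒞).card ≤ Mu) :
    (𝒞.card : ℝ) ≤ Mu * (Δ / δ + 2) := by
  have h1 : 𝒞.card ≤ Mu * (𝒞.image (fun c => ⌊c / δ⌋)).card := by
    refine Finset.card_le_mul_card_image 𝒞 Mu ?_
    intro a ha
    obtain ⟨c₁, hc₁, rfl⟩ := Finset.mem_image.1 ha
    refine le_trans (Finset.card_le_card ?_) (hm c₁ hc₁)
    intro c hc
    rw [Finset.mem_filter] at hc ⊢
    refine ⟨hc.1, ?_⟩
    have h2 := Int.abs_sub_lt_one_of_floor_eq_floor hc.2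
    rw [← sub_div, abs_div, abs_of_pos hδ, div_lt_one hδ] at h2
    exact h2
  have h2 : (𝒞.image (fun c => ⌊c / δ⌋)) ⊆ Finset.Icc ⌊c₀ / δ⌋ ⌊(c₀ + Δ) / δ⌋ := by
    intro a ha
    obtain ⟨c, hc, rfl⟩ := Finset.mem_image.1 ha
    rw [Finset.mem_Icc]
    exact ⟨Int.floor_le_floor (div_le_div_of_nonneg_right (hin c hc).1 hδ.le),
      Int.floor_le_floor (div_le_div_of_nonneg_right (hin c hc).2.le hδ.le)⟩
  have h3 : ((𝒞.image (fun c => ⌊c / δ⌋)).card : ℝ) ≤ Δ / δ + 2 := by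
    have h4 := Finset.card_le_card h2
    rw [Int.card_Icc] at h4
    have h5 : ⌊c₀ / δ⌋ ≤ ⌊(c₀ + Δ) / δ⌋ := Int.floor_le_floor (div_le_div_of_nonneg_right (by linarith) hδ.le)
    have h6 : (((⌊(c₀ + Δ) / δ⌋ + 1 - ⌊c₀ / δ⌋).toNat : ℕ) : ℝ) = (⌊(c₀ + Δ) / δ⌋ : ℝ) + 1 - (⌊c₀ / δ⌋ : ℝ) := by
      have h7 : (((⌊(c₀ + Δ) / δ⌋ + 1 - ⌊c₀ / δ⌋).toNat : ℕ) : ℤ) = ⌊(c₀ + Δ) / δ⌋ + 1 - ⌊c₀ / δ⌋ := by
        rw [Int.toNat_of_nonneg (by omega)]
      have h8 : ((((⌊(c₀ + Δ) / δ⌋ + 1 - ⌊c₀ / δ⌋).toNat : ℕ) : ℤ) : ℝ) = ((⌊(c₀ + Δ) / δ⌋ + 1 - ⌊c₀ / δ⌋ : ℤ) : ℝ) := by rw [h7]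
      push_cast at h8
      exact h8
    have h9 : ((𝒞.image (fun c => ⌊c / δ⌋)).card : ℝ) ≤ (((⌊(c₀ + Δ) / δ⌋ + 1 - ⌊c₀ / δ⌋).toNat : ℕ) : ℝ) := by exact_mod_cast h4
    rw [h6] at h9
    have e : (c₀ + Δ) / δ = c₀ / δ + Δ / δ := by ring
    linarith [Int.floor_le ((c₀ + Δ) / δ), Int.lt_floor_add_one (c₀ / δ)]
  have h4 : (𝒞.card : ℝ) ≤ (Mu : ℝ) * ((𝒞.image (fun c => ⌊c / δ⌋)).card : ℝ) := by exact_mod_cast h1
  exact h4.trans (mul_le_mul_of_nonneg_left h3 (Nat.cast_nonneg _))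

/-- equal anchors = equal time cells -/
theorem rp2_tanchor_iff {ε r : ℝ} (hε : 0 < ε) (c c' : ℝ) : tanchor ε r c = tanchor ε r c' ↔ ⌊c / ε ^ r⌋ = ⌊c' / ε ^ r⌋ := by
  constructor
  · intro h
    rw [← rpb_floor_tanchor hε c, ← rpb_floor_tanchor hε c', h]
  · intro h
    unfold tanchor
    rw [h]

/-! ## LEAF L-S2-G2 : site families -/

/-- the time anchors of the active sites in one time cell of depth `t - 2h` : `S` = the anchors of the active sites with that time cell; `rp2_times` with `δ = ε^t`, `Δ = ε^(t-2h)`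
(`rpb_tanchor_le`, `hT.multT`; a filter of a subset is smaller), `Δ/δ = ε^(-2h) ≥ 1` -/
theorem rp2_anchors {B : PBd} {E : PEnv} {T : PTest} (hE : E.Obeys B) (hT : T.Obeys B E) {h : ℝ} (hh : 0 ≤ h) (c₀ : ℝ) :
    ∃ S : Finset ℝ, (S.card : ℝ) ≤ 3 * B.Mu * E.ε ^ (-(2 * h)) ∧
      ∀ i, T.act i → tanchor E.ε (T.t - 2 * h) (T.site i).C = c₀ → (T.site i).C ∈ S := by
  have hε0 := hE.ε0
  have hε1 := hE.ε1
  have hδ : 0 < E.ε ^ T.t := Real.rpow_pos_of_pos hε0 _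
  have hΔ : 0 < E.ε ^ (T.t - 2 * h) := Real.rpow_pos_of_pos hε0 _
  refine ⟨((Finset.univ.filter T.act).image (fun j => (T.site j).C)).filter (fun c => tanchor E.ε (T.t - 2 * h) c = c₀), ?_, ?_⟩
  · have hC := rp2_times (((Finset.univ.filter T.act).image (fun j => (T.site j).C)).filter (fun c => tanchor E.ε (T.t - 2 * h) c = c₀))
      (c₀ := c₀) (dP := fun _ => Classical.decPred _) hδ hΔ.le B.Mu
      (fun c hc => by
        have h1 := (Finset.mem_filter.1 hc).2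
        have h2 := rpb_tanchor_le (r := T.t - 2 * h) hε0 c
        rw [h1] at h2
        exact h2)
      (fun c₁ hc₁ => by
        obtain ⟨j, hj, rfl⟩ := Finset.mem_image.1 (Finset.mem_filter.1 hc₁).1
        refine le_trans (Finset.card_le_card ?_) (hT.multT j (Finset.mem_filter.1 hj).2)
        intro c hc
        rw [Finset.mem_filter] at hc ⊢
        exact ⟨(Finset.mem_filter.1 hc.1).1, hc.2⟩)
    have e : E.ε ^ (T.t - 2 * h) / E.ε ^ T.t = E.ε ^ (-(2 * h)) := by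
      rw [← Real.rpow_sub hε0]
      congr 1
      ring
    rw [e] at hC
    have h1 : 1 ≤ E.ε ^ (-(2 * h)) := Real.one_le_rpow_of_pos_of_le_one_of_nonpos hε0 hε1.le (by linarith)
    refine hC.trans ?_
    have hMu : (0 : ℝ) ≤ B.Mu := Nat.cast_nonneg _
    nlinarith
  · intro i hi hc
    rw [Finset.mem_filter]
    exact ⟨Finset.mem_image.2 ⟨i, Finset.mem_filter.2 ⟨Finset.mem_univ _, hi⟩, rfl⟩, hc⟩

/-- the active sites at one anchor in a box (`p9_pack`, `hT.multS`; see the use of `p9_pack` in `pcx_site_count`) -/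
theorem rp2_box {B : PBd} {E : PEnv} {T : PTest} (hE : E.Obeys B) (hT : T.Obeys B E) (c : ℝ) (v x : E2) {R₁ R₂ : ℝ}
    (h1 : 0 ≤ R₁) (h2 : 0 ≤ R₂) :
    ∃ S : Finset T.ι, (S.card : ℝ) ≤ B.Mu * ((4 * R₁ + 2) ^ 2 * (4 * R₂ + 2) ^ 2) ∧
      ∀ i, T.act i → (T.site i).C = c → ‖(T.site i).V - v‖ ≤ R₁ * E.rho T.t → ‖(T.site i).X - x‖ ≤ R₂ * E.sig T.t → i ∈ S := by
  have hρ : 0 < E.rho T.t := Real.rpow_pos_of_pos hE.ε0 _
  have hσ : 0 < E.sig T.t := Real.rpow_pos_of_pos hE.ε0 _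
  refine ⟨Finset.univ.filter (fun i => T.act i ∧ (T.site i).C = c ∧ ‖(T.site i).V - v‖ ≤ R₁ * E.rho T.t ∧ ‖(T.site i).X - x‖ ≤ R₂ * E.sig T.t), ?_, ?_⟩
  · refine p9_pack _ (fun j => (T.site j).V) (fun j => (T.site j).X) v x (E.rho T.t) (E.sig T.t) R₁ R₂ B.Mu hρ hσ h1 h2 ?_ ?_ ?_
    · intro i hi
      exact (Finset.mem_filter.1 hi).2.2.2.1
    · intro i hi
      exact (Finset.mem_filter.1 hi).2.2.2.2
    · intro i hi
      have hi1 := (Finset.mem_filter.1 hi).2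
      refine le_trans (Finset.card_le_card ?_) (hT.multS i hi1.1)
      intro j hj
      rw [Finset.mem_filter] at hj ⊢
      have hj1 := (Finset.mem_filter.1 hj.1).2
      exact ⟨Finset.mem_univ _, hj1.1, hj1.2.1.trans hi1.2.1.symm, hj.2⟩
  · intro i hi hc hv hx
    exact Finset.mem_filter.2 ⟨Finset.mem_univ _, hi, hc, hv, hx⟩

/-- the endpoint position from the root-referred position: `X = back + (C - C_r) V`, `0 ≤ C - C_r < ε^r` -/
theorem rp2_X_ref {ε r : ℝ} (hε : 0 < ε) (s : Site) (y v : E2) :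
    ‖s.X - (y + (s.C - tanchor ε r s.C) • v)‖ ≤ ‖s.back ε r - y‖ + ε ^ r * ‖s.V - v‖ := by
  have h := rpb_tanchor_le (r := r) hε s.C
  have e : s.X - (y + (s.C - tanchor ε r s.C) • v) = (s.back ε r - y) + (s.C - tanchor ε r s.C) • (s.V - v) := by
    unfold Pkt.Site.back
    rw [smul_sub]
    abel
  rw [e]
  refine (norm_add_le _ _).trans ?_
  rw [norm_smul, Real.norm_eq_abs, abs_of_nonneg (by linarith [h.1])]
  have : (s.C - tanchor ε r s.C) * ‖s.V - v‖ ≤ ε ^ r * ‖s.V - v‖ :=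
    mul_le_mul_of_nonneg_right (by linarith [h.2]) (norm_nonneg _)
  linarith

/-- the enlargement constant of a test is nonnegative -/
theorem rp2_Ke_nonneg {B : PBd} {E : PEnv} {T : PTest} (hE : E.Obeys B) (hT : T.Obeys B E) : 0 ≤ B.Ke := by
  obtain ⟨o₀, ho₀⟩ := ent_exists_supp T.P
  obtain ⟨_, _, _, _, _, hr, _⟩ := hT.geo o₀ (lt_of_le_of_ne (T.P.nonneg o₀) (Ne.symm ho₀))
  have h1 : 0 ≤ B.Ke * E.ε ^ (T.geo (T.D o₀)).b := (abs_nonneg _).trans hr.1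
  have h2 : 0 < E.ε ^ (T.geo (T.D o₀)).b := Real.rpow_pos_of_pos hE.ε0 _
  exact nonneg_of_mul_nonneg_left h1 h2

/-! ## LEAF L-S2-G3 : strips and rectangles -/

/-- Pythagoras in the frame of angle `th` -/
theorem rp2_g3_pyth (z : E2) (th : ℝ) : ‖z‖ ^ 2 = ip (toP z) (tang th) ^ 2 + ip (toP z) (nrm th) ^ 2 := by
  have h := EuclideanSpace.norm_sq_eq z
  rw [Fin.sum_univ_two, Real.norm_eq_abs, Real.norm_eq_abs, sq_abs, sq_abs] at h
  have e1 : ip (toP z) (tang th) = z 0 * Real.cos th + z 1 * Real.sin th := rfl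
  have e2 : ip (toP z) (nrm th) = z 0 * (-Real.sin th) + z 1 * Real.cos th := rfl
  rw [h, e1, e2]
  have := Real.sin_sq_add_cos_sq th
  calc z 0 ^ 2 + z 1 ^ 2 = (z 0 ^ 2 + z 1 ^ 2) * (Real.sin th ^ 2 + Real.cos th ^ 2) := by rw [this, mul_one]
    _ = _ := by ring

/-- `|⟨z, n(th)⟩| ≤ ‖z‖`   (`(−z₀ sin + z₁ cos)² ≤ z₀² + z₁²`, `EuclideanSpace.norm_eq`, `Fin.sum_univ_two`) -/
theorem rp2_ip_le (z : E2) (th : ℝ) : |ip (toP z) (nrm th)| ≤ ‖z‖ := by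
  refine abs_le_of_sq_le_sq ?_ (norm_nonneg z)
  rw [rp2_g3_pyth z th]
  nlinarith [sq_nonneg (ip (toP z) (tang th))]

theorem rp2_toP_sub (x y : E2) : toP (x - y) = toP x - toP y := by
  rfl

theorem rp2_ip_sub (x y n : ℝ × ℝ) : ip (x - y) n = ip x n - ip y n := by
  show (x.1 - y.1) * n.1 + (x.2 - y.2) * n.2 = (x.1 * n.1 + x.2 * n.2) - (y.1 * n.1 + y.2 * n.2)
  ring

theorem rp2_toP_smul (c : ℝ) (x : E2) : toP (c • x) = c • toP x := by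
  rfl

theorem rp2_ip_smul (c : ℝ) (x n : ℝ × ℝ) : ip (c • x) n = c * ip x n := by
  show (c * x.1) * n.1 + (c * x.2) * n.2 = c * (x.1 * n.1 + x.2 * n.2)
  ring

/-- **two transversal strips** : with `A = ⟨z,n⟩`, `A' = ⟨z,n'⟩` :  `A cos th' - A' cos th = - z₀ sin(th - th')`, `A sin th' - A' sin th = - z₁ sin(th - th')`;
so `|z_k| ≤ (w + w')/s`;  `rpb_norm_le` -/
theorem rp2_strips {z : E2} {th th' w w' s : ℝ} (hs : 0 < s) (hsep : s ≤ |Real.sin (th - th')|)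
    (h1 : |ip (toP z) (nrm th)| ≤ w) (h2 : |ip (toP z) (nrm th')| ≤ w') : ‖z‖ ≤ 2 * (w + w') / s := by
  have eA : ip (toP z) (nrm th) = z 0 * (-Real.sin th) + z 1 * Real.cos th := rfl
  have eA' : ip (toP z) (nrm th') = z 0 * (-Real.sin th') + z 1 * Real.cos th' := rfl
  have k0 : z 0 * Real.sin (th - th')
      = -(ip (toP z) (nrm th) * Real.cos th' - ip (toP z) (nrm th') * Real.cos th) := by
    rw [Real.sin_sub, eA, eA']
    ring
  have k1 : z 1 * Real.sin (th - th')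
      = -(ip (toP z) (nrm th) * Real.sin th' - ip (toP z) (nrm th') * Real.sin th) := by
    rw [Real.sin_sub, eA, eA']
    ring
  have b : ∀ (x c c' : ℝ), |c| ≤ 1 → |c'| ≤ 1 →
      x * Real.sin (th - th') = -(ip (toP z) (nrm th) * c - ip (toP z) (nrm th') * c') → |x| ≤ (w + w') / s := by
    intro x c c' hc hc' hx
    rw [le_div_iff₀ hs]
    have h3 : |x| * |Real.sin (th - th')| ≤ w + w' := by
      rw [← abs_mul, hx, abs_neg]
      have t1 : |ip (toP z) (nrm th) * c| ≤ w := by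
        rw [abs_mul]
        calc |ip (toP z) (nrm th)| * |c| ≤ |ip (toP z) (nrm th)| * 1 := mul_le_mul_of_nonneg_left hc (abs_nonneg _)
          _ ≤ w := by rw [mul_one]; exact h1
      have t2 : |ip (toP z) (nrm th') * c'| ≤ w' := by
        rw [abs_mul]
        calc |ip (toP z) (nrm th')| * |c'| ≤ |ip (toP z) (nrm th')| * 1 := mul_le_mul_of_nonneg_left hc' (abs_nonneg _)
          _ ≤ w' := by rw [mul_one]; exact h2
      rw [abs_le] at t1 t2 ⊢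
      constructor <;> linarith [t1.1, t1.2, t2.1, t2.2]
    calc |x| * s ≤ |x| * |Real.sin (th - th')| := mul_le_mul_of_nonneg_left hsep (abs_nonneg x)
      _ ≤ _ := h3
  have h0 := b (z 0) _ _ (Real.abs_cos_le_one th') (Real.abs_cos_le_one th) k0
  have h1' := b (z 1) _ _ (Real.abs_sin_le_one th') (Real.abs_sin_le_one th) k1
  have h3 := rpb_norm_le z
  have e : 2 * (w + w') / s = (w + w') / s + (w + w') / s := by ring
  linarith

/-- a rectangle lies in the ball of its long side: `z₀ = ⟨z,τ⟩ cos - ⟨z,n⟩ sin`, `z₁ = ⟨z,τ⟩ sin + ⟨z,n⟩ cos`, `‖z‖² = ⟨z,τ⟩² + ⟨z,n⟩²` -/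
theorem rp2_rect_norm {K ε b a th : ℝ} {z : E2} (hε0 : 0 < ε) (hε1 : ε < 1) (hK : 0 ≤ K) (hba : b ≤ a)
    (h : InRect K ε b a th (toP z)) : ‖z‖ ≤ 2 * K * ε ^ b := by
  obtain ⟨h1, h2⟩ := h
  have hp : 0 < ε ^ b := Real.rpow_pos_of_pos hε0 b
  have h2' : |ip (toP z) (nrm th)| ≤ K * ε ^ b :=
    h2.trans (mul_le_mul_of_nonneg_left (Real.rpow_le_rpow_of_exponent_ge hε0 hε1.le hba) hK)
  have hM : 0 ≤ K * ε ^ b := mul_nonneg hK hp.le
  have s1 : ip (toP z) (tang th) ^ 2 ≤ (K * ε ^ b) ^ 2 := sq_le_sq' (abs_le.1 h1).1 (abs_le.1 h1).2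
  have s2 : ip (toP z) (nrm th) ^ 2 ≤ (K * ε ^ b) ^ 2 := sq_le_sq' (abs_le.1 h2').1 (abs_le.1 h2').2
  have h3 : |‖z‖| ≤ 2 * K * ε ^ b := by
    refine abs_le_of_sq_le_sq ?_ (by nlinarith)
    rw [rp2_g3_pyth z th]
    nlinarith
  exact (le_abs_self _).trans h3

/-- two points of one rectangle -/
theorem rp2_g3_rect_sub {K ε b a th : ℝ} {p p' q : ℝ × ℝ} (h : InRect K ε b a th (p - q))
    (h' : InRect K ε b a th (p' - q)) : InRect (2 * K) ε b a th (p - p') := by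
  obtain ⟨h1, h2⟩ := h
  obtain ⟨h1', h2'⟩ := h'
  have e : ∀ n : ℝ × ℝ, ip (p - p') n = ip (p - q) n - ip (p' - q) n := by
    intro n
    rw [rp2_ip_sub, rp2_ip_sub, rp2_ip_sub]
    ring
  show |ip (p - p') (tang th)| ≤ 2 * K * ε ^ b ∧ |ip (p - p') (nrm th)| ≤ 2 * K * ε ^ a
  rw [e, e]
  rw [abs_le] at h1 h2 h1' h2'
  constructor
  · rw [abs_le]
    constructor <;> linarith [h1.1, h1.2, h1'.1, h1'.2]
  · rw [abs_le]
    constructor <;> linarith [h2.1, h2.2, h2'.1, h2'.2]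

/-- **two sites under the same aperture** -/
theorem rp2_same_geo {g : Geo} {K ε t L u r : ℝ} {s s' : Site} (hε0 : 0 < ε) (hε1 : ε < 1) (hK : 0 ≤ K) (hr : r ≤ t)
    (h : GeoOK g K ε t L u s) (h' : GeoOK g K ε t L u s') :
    s.C = s'.C ∧ ‖s.V - s'.V‖ ≤ 4 * K * ε ^ g.b ∧ ‖s.X - s'.X‖ ≤ 4 * K * ε ^ (g.b + t) ∧
      ‖s.back ε r - s'.back ε r‖ ≤ 8 * K * (ε ^ r * ε ^ g.b) ∧
      |ip (toP (s.V - s'.V)) (nrm g.th)| ≤ 2 * K * ε ^ g.a ∧
      |ip (toP (s.back ε r - s'.back ε r)) (nrm g.th)| ≤ 4 * K * (ε ^ r * ε ^ g.a) := by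
  obtain ⟨g0, gba, -, -, gC, gV, gX⟩ := h
  obtain ⟨-, -, -, -, gC', gV', gX'⟩ := h'
  have hC : s.C = s'.C := gC.symm.trans gC'
  have rV : InRect (2 * K) ε g.b g.a g.th (toP (s.V - s'.V)) := rp2_g3_rect_sub gV gV'
  have rX : InRect (2 * K) ε (g.b + t) (g.a + t) g.th (toP (s.X - s'.X)) := rp2_g3_rect_sub gX gX'
  have h2K : 0 ≤ 2 * K := by linarith
  have nV := rp2_rect_norm hε0 hε1 h2K gba rV
  have nX := rp2_rect_norm hε0 hε1 h2K (by linarith : g.b + t ≤ g.a + t) rX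
  obtain ⟨τ0, τ1⟩ := rpb_tanchor_le (r := r) hε0 s.C
  have hτ : |s.C - tanchor ε r s.C| ≤ ε ^ r := by
    rw [abs_le]
    constructor <;> linarith [Real.rpow_pos_of_pos hε0 r]
  have eB : s.back ε r - s'.back ε r = (s.X - s'.X) - (s.C - tanchor ε r s.C) • (s.V - s'.V) := by
    show (s.X - (s.C - tanchor ε r s.C) • s.V) - (s'.X - (s'.C - tanchor ε r s'.C) • s'.V) = _
    rw [← hC, smul_sub]
    abel
  have hpr : 0 < ε ^ r := Real.rpow_pos_of_pos hε0 r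
  have hrt : ε ^ t ≤ ε ^ r := Real.rpow_le_rpow_of_exponent_ge hε0 hε1.le hr
  have hsh : ∀ x : ℝ, ε ^ (x + t) ≤ ε ^ r * ε ^ x := by
    intro x
    rw [Real.rpow_add hε0, mul_comm]
    exact mul_le_mul_of_nonneg_right hrt (Real.rpow_pos_of_pos hε0 x).le
  refine ⟨hC, by linarith, by linarith, ?_, rV.2, ?_⟩
  · rw [eB]
    have hpb : 0 < ε ^ g.b := Real.rpow_pos_of_pos hε0 g.b
    calc ‖(s.X - s'.X) - (s.C - tanchor ε r s.C) • (s.V - s'.V)‖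
        ≤ ‖s.X - s'.X‖ + ‖(s.C - tanchor ε r s.C) • (s.V - s'.V)‖ := norm_sub_le _ _
      _ = ‖s.X - s'.X‖ + |s.C - tanchor ε r s.C| * ‖s.V - s'.V‖ := by rw [norm_smul, Real.norm_eq_abs]
      _ ≤ 2 * (2 * K) * (ε ^ r * ε ^ g.b) + ε ^ r * (2 * (2 * K) * ε ^ g.b) := by
          refine add_le_add (nX.trans (mul_le_mul_of_nonneg_left (hsh g.b) (by linarith))) ?_
          exact mul_le_mul hτ nV (norm_nonneg _) hpr.le
      _ = 8 * K * (ε ^ r * ε ^ g.b) := by ring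
  · rw [eB, rp2_toP_sub, rp2_ip_sub, rp2_toP_smul, rp2_ip_smul]
    have a1 : |ip (toP (s.X - s'.X)) (nrm g.th)| ≤ 2 * K * (ε ^ r * ε ^ g.a) :=
      rX.2.trans (mul_le_mul_of_nonneg_left (hsh g.a) h2K)
    have a2 : |(s.C - tanchor ε r s.C) * ip (toP (s.V - s'.V)) (nrm g.th)| ≤ ε ^ r * (2 * K * ε ^ g.a) := by
      rw [abs_mul]
      exact mul_le_mul hτ rV.2 (abs_nonneg _) hpr.le
    rw [abs_le] at a1 a2 ⊢
    constructor <;> linarith [a1.1, a1.2, a2.1, a2.2]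

end Claimed.Agent.R255
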