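-- KEEP
import Claimed.Agent.R255.Rep.PredGeo

/-!
# Row 255 (BR paper), Sec. 11.2, stage S2 PREDICT (Lemma 11.2) : THE GEOMETRIC LISTS      (contract helper18, architect helper186)

VOCABULARY = helper18's `Rep/PredDefs.lean` (`PredLab` with floors, `T.sat`, `rpdDb`, `RpdRep`).   `r = t - 2h`.  `C = C(B, Kp) > 0` is chosen BEFORE the environment and the test.
COUNTING FORMS `rpd_g1 .. rpd_g4` (statements VERBATIM helper18's contract; leaves), ENTROPY FORMS `rpd_e1 .. rpd_e5` (proved glue; natural units, `ℓ = lg ε`) :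
* (e1) `H(O | P) ≤ log C + 6h ℓ`                                  (11.prediction-missing-data)
* (e2) `H(D_b | B_P) ≤ log C + 6h ℓ`                              ("at most 6h + C η information beyond B_P")
* (e3) `H(D_b, B_P | D) ≤ log C`                                  ("bounded ambiguity given either aperture")
* (e4) `H(B_P | D) ≤ log C`
* (e5) `H(P | D, D') ≤ log C + (16h + 8η) ℓ` on separated pairs   (11.prediction-intersection)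
METHOD for all lists: the reference sample is `o₀`; list the values of the observation among the samples whose data are close to those of `o₀`.
TOOLS: `Rep/PredGeo.lean` (`rp2_*`), cite them as black boxes.  `T.sat o = T.site (T.O o)` (unfold `Pkt.PTest.sat`), `T.act (T.O o)` for a charged `o` is `⟨o, ho, rfl⟩`.
-/

set_option autoImplicit false

namespace Claimed.Agent.R255

open scoped BigOperators
open Classical
open FLaw Pkt Osc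

/-! ## glue: from a list to a conditional entropy -/

theorem rp2_log_list {C ε κ : ℝ} (hC : 0 < C) (hε : 0 < ε) : Real.log (C * ε ^ (-κ)) = Real.log C + κ * lg ε := by
  have h1 : 0 < ε ^ (-κ) := Real.rpow_pos_of_pos hε _
  rw [Real.log_mul hC.ne' h1.ne', Real.log_rpow hε]
  unfold lg
  rw [one_div, Real.log_inv]
  ring

theorem rp2_entC_of_list {Ω : Type} [Fintype Ω] (Q : FLaw Ω) {α β : Type} (X : Ω → β) (Y : Ω → α) (sp : Ω → Prop)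
    (hQ : ∀ ω, Q.p ω ≠ 0 → sp ω) {C ε κ : ℝ} (hC : 0 < C) (hε : 0 < ε)
    (hl : ∀ ω₀, sp ω₀ → ∃ S : Finset β, (S.card : ℝ) ≤ C * ε ^ (-κ) ∧ ∀ ω, sp ω → Y ω = Y ω₀ → X ω ∈ S) :
    Q.entC X Y ≤ Real.log C + κ * lg ε := by
  rw [← rp2_log_list hC hε]
  refine ent_entC_le_log_nval Q X Y ?_
  intro ω₀
  by_cases h : ∃ ω₁, sp ω₁ ∧ Y ω₁ = Y ω₀
  · obtain ⟨ω₁, h1, h2⟩ := h
    obtain ⟨S, hS, hmem⟩ := hl ω₁ h1
    exact ⟨S, hS, fun ω hω _ hY => hmem ω (hQ ω hω) (hY.trans h2.symm)⟩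
  · refine ⟨∅, ?_, fun ω hω _ hY => absurd ⟨ω, hQ ω hω, hY⟩ h⟩
    rw [Finset.card_empty, Nat.cast_zero]
    exact (mul_pos hC (Real.rpow_pos_of_pos hε _)).le

/-! ## LEAF L-S2-L1
`c_r` := anchor of depth `r` of `o₀` (`rp2_tanchor_iff` turns `locC` into equality of anchors).  `S_C` = `rp2_anchors`.  For `c ∈ S_C` : `rp2_box` with `v = V₀`, `x = back₀ + (c - c_r) • V₀`, `R₁ = Kp`,
`R₂ = 2 Kp ε^(-2h)` (`rp2_X_ref`, `locV`, `locY`; `ε^r ρ_t = ε^(-2h) σ_t`).  `S = S_C.biUnion`, `Finset.card_biUnion_le`.   `C = 3 Mu² (4Kp+2)² (8Kp+2)² + 1`.  (`0 ≤ Kp` : `locV o₀ o₀`.) -/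
theorem rpd_g1 (B : PBd) (Kp : ℝ) : ∃ C : ℝ, 0 < C ∧ ∀ (E : PEnv) (T : PTest) (h : ℝ) (α : Type) (Pc : T.Ω → α),
    E.Obeys B → T.Obeys B E → 0 ≤ h → PredLab E T (T.t - 2 * h) Kp Pc →
    ∀ o₀, 0 < T.P.p o₀ → ∃ S : Finset T.ι, (S.card : ℝ) ≤ C * E.ε ^ (-(6 * h)) ∧
      ∀ o, 0 < T.P.p o → Pc o = Pc o₀ → T.O o ∈ S := by
  have hC0 : 0 ≤ 3 * (B.Mu : ℝ) ^ 2 * (4 * Kp + 2) ^ 2 * (8 * Kp + 2) ^ 2 := by positivity
  refine ⟨3 * (B.Mu : ℝ) ^ 2 * (4 * Kp + 2) ^ 2 * (8 * Kp + 2) ^ 2 + 1, by linarith, ?_⟩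
  intro E T h α Pc hE hT hh hP o₁ ho₁
  have hε := hE.ε0
  have hKp : 0 ≤ Kp := by
    have h1 := hP.locV o₁ o₁ ho₁ ho₁ rfl
    rw [sub_self, norm_zero] at h1
    exact nonneg_of_mul_nonneg_left h1 (Real.rpow_pos_of_pos hε _)
  obtain ⟨SC, hSC, hmC⟩ := rp2_anchors hE hT hh (tanchor E.ε (T.t - 2 * h) (T.sat o₁).C)
  have hp3 : E.ε ^ (-(6 * h)) = (E.ε ^ (-(2 * h))) ^ 3 := by
    rw [← Real.rpow_natCast, ← Real.rpow_mul hε.le]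
    congr 1
    push_cast
    ring
  have hps : E.ε ^ (T.t - 2 * h) * E.ε ^ (E.u T.t) = E.ε ^ (-(2 * h)) * E.sig T.t := by
    show _ = E.ε ^ (-(2 * h)) * E.ε ^ (E.u T.t + T.t)
    rw [← Real.rpow_add hε, ← Real.rpow_add hε]
    congr 1
    ring
  have hp1 : 1 ≤ E.ε ^ (-(2 * h)) := Real.one_le_rpow_of_pos_of_le_one_of_nonpos hε hE.ε1.le (by linarith)
  rw [hp3]
  generalize E.ε ^ (-(2 * h)) = p at hSC hps hp1 ⊢
  have hp0 : 0 ≤ p := by linarith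
  choose f hf hfm using fun c : ℝ => rp2_box hE hT c (T.sat o₁).V
    ((T.sat o₁).back E.ε (T.t - 2 * h) + (c - tanchor E.ε (T.t - 2 * h) (T.sat o₁).C) • (T.sat o₁).V) hKp
    (by positivity : 0 ≤ 2 * Kp * p)
  refine ⟨SC.biUnion f, ?_, fun o ho hPP => ?_⟩
  · have hM : ∀ c ∈ SC, ((f c).card : ℝ) ≤ B.Mu * ((4 * Kp + 2) ^ 2 * ((8 * Kp + 2) * p) ^ 2) := by
      intro c _
      refine (hf c).trans ?_
      have h1 : 4 * (2 * Kp * p) + 2 ≤ (8 * Kp + 2) * p := by nlinarith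
      have h2 : (4 * (2 * Kp * p) + 2) ^ 2 ≤ ((8 * Kp + 2) * p) ^ 2 := pow_le_pow_left₀ (by positivity) h1 2
      exact mul_le_mul_of_nonneg_left (mul_le_mul_of_nonneg_left h2 (by positivity)) (by positivity)
    have h3 : ((SC.biUnion f).card : ℝ) ≤ (SC.card : ℝ) * (B.Mu * ((4 * Kp + 2) ^ 2 * ((8 * Kp + 2) * p) ^ 2)) := by
      calc ((SC.biUnion f).card : ℝ) ≤ ((∑ c ∈ SC, (f c).card : ℕ) : ℝ) := by exact_mod_cast Finset.card_biUnion_le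
        _ = ∑ c ∈ SC, ((f c).card : ℝ) := by push_cast; rfl
        _ ≤ SC.card • (B.Mu * ((4 * Kp + 2) ^ 2 * ((8 * Kp + 2) * p) ^ 2)) := Finset.sum_le_card_nsmul _ _ _ hM
        _ = _ := by rw [nsmul_eq_mul]
    calc ((SC.biUnion f).card : ℝ) ≤ _ := h3
      _ ≤ (3 * B.Mu * p) * (B.Mu * ((4 * Kp + 2) ^ 2 * ((8 * Kp + 2) * p) ^ 2)) :=
          mul_le_mul_of_nonneg_right hSC (by positivity)
      _ = 3 * (B.Mu : ℝ) ^ 2 * (4 * Kp + 2) ^ 2 * (8 * Kp + 2) ^ 2 * p ^ 3 := by ring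
      _ ≤ (3 * (B.Mu : ℝ) ^ 2 * (4 * Kp + 2) ^ 2 * (8 * Kp + 2) ^ 2 + 1) * p ^ 3 :=
          mul_le_mul_of_nonneg_right (by linarith) (by positivity)
  · have hta : tanchor E.ε (T.t - 2 * h) (T.sat o).C = tanchor E.ε (T.t - 2 * h) (T.sat o₁).C :=
      congrArg (fun k : ℤ => E.ε ^ (T.t - 2 * h) * (k : ℝ)) (hP.locC o o₁ ho ho₁ hPP)
    have hact : T.act (T.O o) := ⟨o, ho, rfl⟩
    have hV := hP.locV o o₁ ho ho₁ hPP
    have hY := hP.locY o o₁ ho ho₁ hPP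
    have hX := rp2_X_ref (r := T.t - 2 * h) hε (T.sat o) ((T.sat o₁).back E.ε (T.t - 2 * h)) (T.sat o₁).V
    rw [hta] at hX
    refine Finset.mem_biUnion.2 ⟨(T.sat o).C, hmC _ hact hta, hfm _ (T.O o) hact rfl hV (hX.trans ?_)⟩
    have hr0 : 0 < E.ε ^ (T.t - 2 * h) := Real.rpow_pos_of_pos hε _
    calc ‖(T.sat o).back E.ε (T.t - 2 * h) - (T.sat o₁).back E.ε (T.t - 2 * h)‖
          + E.ε ^ (T.t - 2 * h) * ‖(T.sat o).V - (T.sat o₁).V‖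
        ≤ Kp * (E.ε ^ (T.t - 2 * h) * E.ε ^ (E.u T.t)) + E.ε ^ (T.t - 2 * h) * (Kp * E.ε ^ (E.u T.t)) :=
          add_le_add hY (mul_le_mul_of_nonneg_left hV hr0.le)
      _ = 2 * Kp * (E.ε ^ (T.t - 2 * h) * E.ε ^ (E.u T.t)) := by ring
      _ = 2 * Kp * p * E.sig T.t := by rw [hps]; ring

/-- a chain of three steps -/
theorem rpd_g2_tri {a a' b' b : E2} {x y : ℝ} (h1 : ‖a - a'‖ ≤ x) (h2 : ‖a' - b'‖ ≤ y) (h3 : ‖b' - b‖ ≤ x) :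
    ‖a - b‖ ≤ 2 * x + y := by
  have e : a - b = (a - a') + (a' - b') + (b' - b) := by abel
  rw [e]
  have := norm_add₃_le (a := a - a') (b := a' - b') (c := b' - b)
  linarith

/-! ## LEAF L-S2-L2
If `loc0 (R o) = loc0 (R o₀)` : (`rp2_cell_close`, `locC/V/Y` for the pairs `(o, R o)`, `(o₀, R o₀)`, `ε^(u_t) ≤ ε^bq`) same time cell of depth `r`, `‖V - V₀‖ ≤ (2Kp+2) ε^bq`,
`‖back - back₀‖ ≤ (2Kp+2) ε^r ε^bq`.   `C ∈ S_C` (`rp2_anchors`), velocity cell: `rp2_cells` (`R = 2Kp+2`), position cell given `C = c` : `rp2_X_ref` + `rp2_cells` around `back₀ + (c - c_r) • V₀`,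
`R = (4Kp+4) ε^(-2h)`  (`ε^r ε^bq = ε^(-2h) ε^(bq+t)`).   `S = S_C.biUnion fun c => {c} ×ˢ (S_V ×ˢ S_X c)`. -/
theorem rpd_g2 (B : PBd) (Kp : ℝ) : ∃ C : ℝ, 0 < C ∧ ∀ (E : PEnv) (T : PTest) (h bq : ℝ) (α : Type) (Pc : T.Ω → α)
    (R : T.Ω → T.Ω), E.Obeys B → T.Obeys B E → 0 ≤ h → PredLab E T (T.t - 2 * h) Kp Pc → RpdRep T Pc R →
    bq ≤ E.u T.t →
    ∀ o₀, 0 < T.P.p o₀ → ∃ S : Finset RpdDb, (S.card : ℝ) ≤ C * E.ε ^ (-(6 * h)) ∧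
      ∀ o, 0 < T.P.p o → loc0 E.ε (T.t - 2 * h) bq (T.sat (R o)) = loc0 E.ε (T.t - 2 * h) bq (T.sat (R o₀)) →
        rpdDb E.ε T.t bq (T.sat o) ∈ S := by
  have hC0 : 0 ≤ 3 * (B.Mu : ℝ) * (4 * Kp + 6) ^ 2 * (8 * Kp + 10) ^ 2 := by positivity
  refine ⟨3 * (B.Mu : ℝ) * (4 * Kp + 6) ^ 2 * (8 * Kp + 10) ^ 2 + 1, by linarith, ?_⟩
  intro E T h bq α Pc R hE hT hh hP hR hbq o₀ ho₀
  have hε := hE.ε0
  have hKp : 0 ≤ Kp := by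
    have h1 := hP.locV o₀ o₀ ho₀ ho₀ rfl
    rw [sub_self, norm_zero] at h1
    exact nonneg_of_mul_nonneg_left h1 (Real.rpow_pos_of_pos hε _)
  obtain ⟨SC, hSC, hmC⟩ := rp2_anchors hE hT hh (tanchor E.ε (T.t - 2 * h) (T.sat o₀).C)
  have hp3 : E.ε ^ (-(6 * h)) = (E.ε ^ (-(2 * h))) ^ 3 := by
    rw [← Real.rpow_natCast, ← Real.rpow_mul hε.le]
    congr 1
    push_cast
    ring
  have hps : E.ε ^ (T.t - 2 * h) * E.ε ^ bq = E.ε ^ (-(2 * h)) * E.ε ^ (bq + T.t) := by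
    rw [← Real.rpow_add hε, ← Real.rpow_add hε]
    congr 1
    ring
  have hp1 : 1 ≤ E.ε ^ (-(2 * h)) := Real.one_le_rpow_of_pos_of_le_one_of_nonpos hε hE.ε1.le (by linarith)
  rw [hp3]
  generalize E.ε ^ (-(2 * h)) = p at hSC hps hp1 ⊢
  have hp0 : 0 ≤ p := by linarith
  have hw : 0 < E.ε ^ bq := Real.rpow_pos_of_pos hε _
  have hw' : 0 < E.ε ^ (bq + T.t) := Real.rpow_pos_of_pos hε _
  have hr0 : 0 < E.ε ^ (T.t - 2 * h) := Real.rpow_pos_of_pos hε _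
  have huw : E.ε ^ (E.u T.t) ≤ E.ε ^ bq := Real.rpow_le_rpow_of_exponent_ge hε hE.ε1.le hbq
  obtain ⟨SV, hSV, hmV⟩ := rp2_cells hw (T.sat o₀).V (by positivity : 0 ≤ 2 * Kp + 2)
  choose f hf hfm using fun c : ℝ => rp2_cells hw'
    ((T.sat o₀).back E.ε (T.t - 2 * h) + (c - tanchor E.ε (T.t - 2 * h) (T.sat o₀).C) • (T.sat o₀).V)
    (by positivity : 0 ≤ (4 * Kp + 4) * p)
  refine ⟨SC.biUnion fun c => ({c} : Finset ℝ) ×ˢ (SV ×ˢ f c), ?_, fun o ho hloc => ?_⟩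
  · have hM : ∀ c ∈ SC, (((({c} : Finset ℝ) ×ˢ (SV ×ˢ f c)).card : ℕ) : ℝ)
        ≤ (4 * Kp + 6) ^ 2 * ((8 * Kp + 10) * p) ^ 2 := by
      intro c _
      rw [Finset.card_product, Finset.card_product, Finset.card_singleton, one_mul]
      push_cast
      have h1 : 2 * ((4 * Kp + 4) * p) + 2 ≤ (8 * Kp + 10) * p := by nlinarith
      have h2 : (2 * ((4 * Kp + 4) * p) + 2) ^ 2 ≤ ((8 * Kp + 10) * p) ^ 2 := pow_le_pow_left₀ (by positivity) h1 2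
      have h3 : (SV.card : ℝ) ≤ (4 * Kp + 6) ^ 2 := hSV.trans (le_of_eq (by ring))
      exact mul_le_mul h3 ((hf c).trans h2) (by positivity) (by positivity)
    have h3 : (((SC.biUnion fun c => ({c} : Finset ℝ) ×ˢ (SV ×ˢ f c)).card : ℕ) : ℝ)
        ≤ (SC.card : ℝ) * ((4 * Kp + 6) ^ 2 * ((8 * Kp + 10) * p) ^ 2) := by
      calc (((SC.biUnion fun c => ({c} : Finset ℝ) ×ˢ (SV ×ˢ f c)).card : ℕ) : ℝ)
          ≤ ((∑ c ∈ SC, (({c} : Finset ℝ) ×ˢ (SV ×ˢ f c)).card : ℕ) : ℝ) := by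
            exact_mod_cast Finset.card_biUnion_le
        _ = ∑ c ∈ SC, (((({c} : Finset ℝ) ×ˢ (SV ×ˢ f c)).card : ℕ) : ℝ) := by push_cast; rfl
        _ ≤ SC.card • ((4 * Kp + 6) ^ 2 * ((8 * Kp + 10) * p) ^ 2) := Finset.sum_le_card_nsmul _ _ _ hM
        _ = _ := by rw [nsmul_eq_mul]
    calc (((SC.biUnion fun c => ({c} : Finset ℝ) ×ˢ (SV ×ˢ f c)).card : ℕ) : ℝ) ≤ _ := h3
      _ ≤ (3 * B.Mu * p) * ((4 * Kp + 6) ^ 2 * ((8 * Kp + 10) * p) ^ 2) :=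
          mul_le_mul_of_nonneg_right hSC (by positivity)
      _ = 3 * (B.Mu : ℝ) * (4 * Kp + 6) ^ 2 * (8 * Kp + 10) ^ 2 * p ^ 3 := by ring
      _ ≤ (3 * (B.Mu : ℝ) * (4 * Kp + 6) ^ 2 * (8 * Kp + 10) ^ 2 + 1) * p ^ 3 :=
          mul_le_mul_of_nonneg_right (by linarith) (by positivity)
  · obtain ⟨hRo, hRP⟩ := hR.1 o ho
    obtain ⟨hRo₀, hRP₀⟩ := hR.1 o₀ ho₀
    have l1 : ⌊(T.sat (R o)).C / E.ε ^ (T.t - 2 * h)⌋ = ⌊(T.sat (R o₀)).C / E.ε ^ (T.t - 2 * h)⌋ :=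
      congrArg Prod.fst hloc
    have l2 : cell (E.ε ^ bq) (T.sat (R o)).V = cell (E.ε ^ bq) (T.sat (R o₀)).V := congrArg (fun x => x.2.1) hloc
    have l3 : cell (E.ε ^ (T.t - 2 * h) * E.ε ^ bq) ((T.sat (R o)).back E.ε (T.t - 2 * h))
        = cell (E.ε ^ (T.t - 2 * h) * E.ε ^ bq) ((T.sat (R o₀)).back E.ε (T.t - 2 * h)) :=
      congrArg (fun x => x.2.2) hloc
    have hfl : ⌊(T.sat o).C / E.ε ^ (T.t - 2 * h)⌋ = ⌊(T.sat o₀).C / E.ε ^ (T.t - 2 * h)⌋ :=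
      ((hP.locC o (R o) ho hRo hRP.symm).trans l1).trans (hP.locC (R o₀) o₀ hRo₀ ho₀ hRP₀)
    have hta : tanchor E.ε (T.t - 2 * h) (T.sat o).C = tanchor E.ε (T.t - 2 * h) (T.sat o₀).C :=
      congrArg (fun k : ℤ => E.ε ^ (T.t - 2 * h) * (k : ℝ)) hfl
    have hact : T.act (T.O o) := ⟨o, ho, rfl⟩
    have hV : ‖(T.sat o).V - (T.sat o₀).V‖ ≤ (2 * Kp + 2) * E.ε ^ bq := by
      have t1 := (hP.locV o (R o) ho hRo hRP.symm).trans (mul_le_mul_of_nonneg_left huw hKp)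
      have t3 := (hP.locV (R o₀) o₀ hRo₀ ho₀ hRP₀).trans (mul_le_mul_of_nonneg_left huw hKp)
      refine (rpd_g2_tri t1 (rp2_cell_close hw l2) t3).trans (le_of_eq ?_)
      ring
    have hY : ‖(T.sat o).back E.ε (T.t - 2 * h) - (T.sat o₀).back E.ε (T.t - 2 * h)‖
        ≤ (2 * Kp + 2) * (E.ε ^ (T.t - 2 * h) * E.ε ^ bq) := by
      have hm : Kp * (E.ε ^ (T.t - 2 * h) * E.ε ^ (E.u T.t)) ≤ Kp * (E.ε ^ (T.t - 2 * h) * E.ε ^ bq) :=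
        mul_le_mul_of_nonneg_left (mul_le_mul_of_nonneg_left huw hr0.le) hKp
      have t1 := (hP.locY o (R o) ho hRo hRP.symm).trans hm
      have t3 := (hP.locY (R o₀) o₀ hRo₀ ho₀ hRP₀).trans hm
      refine (rpd_g2_tri t1 (rp2_cell_close (mul_pos hr0 hw) l3) t3).trans (le_of_eq ?_)
      ring
    have hX := rp2_X_ref (r := T.t - 2 * h) hε (T.sat o) ((T.sat o₀).back E.ε (T.t - 2 * h)) (T.sat o₀).V
    rw [hta] at hX
    refine Finset.mem_biUnion.2 ⟨(T.sat o).C, hmC _ hact hta, Finset.mem_product.2 ⟨Finset.mem_singleton.2 rfl,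
      Finset.mem_product.2 ⟨hmV _ hV, hfm _ _ (hX.trans ?_)⟩⟩⟩
    calc ‖(T.sat o).back E.ε (T.t - 2 * h) - (T.sat o₀).back E.ε (T.t - 2 * h)‖
          + E.ε ^ (T.t - 2 * h) * ‖(T.sat o).V - (T.sat o₀).V‖
        ≤ (2 * Kp + 2) * (E.ε ^ (T.t - 2 * h) * E.ε ^ bq) + E.ε ^ (T.t - 2 * h) * ((2 * Kp + 2) * E.ε ^ bq) :=
          add_le_add hY (mul_le_mul_of_nonneg_left hV hr0.le)
      _ = (4 * Kp + 4) * (E.ε ^ (T.t - 2 * h) * E.ε ^ bq) := by ring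
      _ = (4 * Kp + 4) * p * E.ε ^ (bq + T.t) := by rw [hps]; ring

/-! ## LEAF L-S2-L3
`rp2_same_geo` (`K = Ke`, `rp2_Ke_nonneg`, `hT.geo`, same `D`) : `C = C₀`, `‖V - V₀‖ ≤ 4Ke ε^(b_o) ≤ 4Ke ε^bq`, `‖X - X₀‖ ≤ 4Ke ε^(bq+t)`, `‖back - back₀‖ ≤ 8Ke ε^r ε^bq`.
`D_b ∈ {C₀} × cells × cells`;  `B_P = loc0` of `R o` : same time cell as `o₀`, `‖V(R o) - V₀‖ ≤ (Kp + 4Ke) ε^bq`, `‖back(R o) - back₀‖ ≤ (Kp + 8Ke) ε^r ε^bq`  (`bq ≤ b_o ≤ a_o ≤ u_t` by `GeoOK`).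
Four applications of `rp2_cells`. -/
theorem rpd_g3 (B : PBd) (Kp : ℝ) : ∃ C : ℝ, 0 < C ∧ ∀ (E : PEnv) (T : PTest) (h bq : ℝ) (α : Type) (Pc : T.Ω → α)
    (R : T.Ω → T.Ω), E.Obeys B → T.Obeys B E → 0 ≤ h → PredLab E T (T.t - 2 * h) Kp Pc → RpdRep T Pc R →
    (∀ o, 0 < T.P.p o → bq ≤ (T.geo (T.D o)).b) →
    ∀ o₀, 0 < T.P.p o₀ → ∃ S : Finset (RpdDb × Loc0), (S.card : ℝ) ≤ C ∧
      ∀ o, 0 < T.P.p o → T.D o = T.D o₀ →
        (rpdDb E.ε T.t bq (T.sat o), loc0 E.ε (T.t - 2 * h) bq (T.sat (R o))) ∈ S := by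
  refine ⟨(2 * (4 * |B.Ke|) + 2) ^ 2 * (2 * (4 * |B.Ke|) + 2) ^ 2 * ((2 * (|Kp| + 4 * |B.Ke|) + 2) ^ 2 * (2 * (|Kp| + 8 * |B.Ke|) + 2) ^ 2),
    by positivity, ?_⟩
  intro E T h bq α Pc R hE hT hh hP hR hb o₀ ho₀
  have hε0 := hE.ε0
  have hε1 := hE.ε1
  have hpos : ∀ c : ℝ, 0 < E.ε ^ c := fun c => Real.rpow_pos_of_pos hε0 c
  have hKe : 0 ≤ B.Ke := rp2_Ke_nonneg hE hT
  have hKp : 0 ≤ Kp := by
    have h1 := hP.locV o₀ o₀ ho₀ ho₀ rfl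
    rw [sub_self, norm_zero] at h1
    have h2 := hpos (E.u T.t)
    by_contra hneg
    push Not at hneg
    nlinarith
  rw [abs_of_nonneg hKe, abs_of_nonneg hKp]
  set r := T.t - 2 * h with hr
  set u := E.u T.t with hu
  set s₀ := T.site (T.O o₀) with hs₀
  obtain ⟨SV, cV, mV⟩ := rp2_cells (hpos bq) s₀.V (R := 4 * B.Ke) (by positivity)
  obtain ⟨SX, cX, mX⟩ := rp2_cells (hpos (bq + T.t)) s₀.X (R := 4 * B.Ke) (by positivity)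
  obtain ⟨SV', cV', mV'⟩ := rp2_cells (hpos bq) s₀.V (R := Kp + 4 * B.Ke) (by positivity)
  obtain ⟨SY, cY, mY⟩ := rp2_cells (mul_pos (hpos r) (hpos bq)) (s₀.back E.ε r) (R := Kp + 8 * B.Ke) (by positivity)
  refine ⟨(({s₀.C} : Finset ℝ) ×ˢ (SV ×ˢ SX)) ×ˢ (({⌊s₀.C / E.ε ^ r⌋} : Finset ℤ) ×ˢ (SV' ×ˢ SY)), ?_, ?_⟩
  · rw [Finset.card_product, Finset.card_product, Finset.card_product, Finset.card_product, Finset.card_product,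
      Finset.card_singleton, Finset.card_singleton, one_mul, one_mul]
    push_cast
    gcongr
  · intro o ho hD
    have g1 := hT.geo o ho
    have g0 := hT.geo o₀ ho₀
    rw [← hD] at g0
    have hrt : r ≤ T.t := by rw [hr]; linarith
    obtain ⟨sC, sV, sX, sY, -, -⟩ := rp2_same_geo (r := r) hε0 hε1 hKe hrt g1 g0
    have hbo := hb o ho
    have hbu : bq ≤ u := hbo.trans (g1.2.1.trans g1.2.2.2.1)
    have w1 : E.ε ^ (T.geo (T.D o)).b ≤ E.ε ^ bq := Real.rpow_le_rpow_of_exponent_ge hε0 hε1.le hbo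
    have w2 : E.ε ^ ((T.geo (T.D o)).b + T.t) ≤ E.ε ^ (bq + T.t) := Real.rpow_le_rpow_of_exponent_ge hε0 hε1.le (by linarith)
    have w3 : E.ε ^ u ≤ E.ε ^ bq := Real.rpow_le_rpow_of_exponent_ge hε0 hε1.le hbu
    obtain ⟨hRo, hRl⟩ := hR.1 o ho
    have lC := hP.locC (R o) o hRo ho hRl
    have lV := hP.locV (R o) o hRo ho hRl
    have lY := hP.locY (R o) o hRo ho hRl
    set s := T.site (T.O o) with hs
    set s' := T.site (T.O (R o)) with hs'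
    have lC' : ⌊s'.C / E.ε ^ r⌋ = ⌊s.C / E.ε ^ r⌋ := lC
    have lV' : ‖s'.V - s.V‖ ≤ Kp * E.ε ^ u := lV
    have lY' : ‖s'.back E.ε r - s.back E.ε r‖ ≤ Kp * (E.ε ^ r * E.ε ^ u) := lY
    have h4K : 0 ≤ 4 * B.Ke := by positivity
    have h8K : 0 ≤ 8 * B.Ke := by positivity
    have a1 : ‖s.V - s₀.V‖ ≤ 4 * B.Ke * E.ε ^ bq := sV.trans (mul_le_mul_of_nonneg_left w1 h4K)
    have a2 : ‖s.X - s₀.X‖ ≤ 4 * B.Ke * E.ε ^ (bq + T.t) := sX.trans (mul_le_mul_of_nonneg_left w2 h4K)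
    have a3 : ‖s.back E.ε r - s₀.back E.ε r‖ ≤ 8 * B.Ke * (E.ε ^ r * E.ε ^ bq) :=
      sY.trans (mul_le_mul_of_nonneg_left (mul_le_mul_of_nonneg_left w1 (hpos r).le) h8K)
    have a4 : ‖s'.V - s₀.V‖ ≤ (Kp + 4 * B.Ke) * E.ε ^ bq := by
      have e : s'.V - s₀.V = (s'.V - s.V) + (s.V - s₀.V) := by abel
      rw [e]
      refine (norm_add_le _ _).trans ?_
      have := mul_le_mul_of_nonneg_left w3 hKp
      linarith
    have a5 : ‖s'.back E.ε r - s₀.back E.ε r‖ ≤ (Kp + 8 * B.Ke) * (E.ε ^ r * E.ε ^ bq) := by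
      have e : s'.back E.ε r - s₀.back E.ε r = (s'.back E.ε r - s.back E.ε r) + (s.back E.ε r - s₀.back E.ε r) := by abel
      rw [e]
      refine (norm_add_le _ _).trans ?_
      have := mul_le_mul_of_nonneg_left (mul_le_mul_of_nonneg_left w3 (hpos r).le) hKp
      linarith
    rw [Finset.mem_product]
    constructor
    · show (s.C, cell (E.ε ^ bq) s.V, cell (E.ε ^ (bq + T.t)) s.X) ∈ _
      rw [Finset.mem_product, Finset.mem_product, Finset.mem_singleton]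
      exact ⟨sC, mV _ a1, mX _ a2⟩
    · show (⌊s'.C / E.ε ^ r⌋, cell (E.ε ^ bq) s'.V, cell (E.ε ^ r * E.ε ^ bq) (s'.back E.ε r)) ∈ _
      rw [Finset.mem_product, Finset.mem_product, Finset.mem_singleton]
      refine ⟨?_, mV' _ a4, mY _ a5⟩
      show ⌊s'.C / E.ε ^ r⌋ = ⌊s₀.C / E.ε ^ r⌋
      rw [lC', sC]

/-! ## LEAF L-S2-L5
If no pair `(o, o')` satisfies all the conditions take `S = ∅`; otherwise fix one, `(o₁, o₁')`.  For another such pair put `z = V(o) - V(o₁)`.  `rp2_same_geo` for the first copies: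
`|⟨z, n⟩| ≤ 2Ke ε^(a) ≤ 2Ke ε^(-2η) ρ_t`;  for the second copies + `locV` twice + `rp2_ip_le` : `|⟨z, n'⟩| ≤ (2Ke + 2Kp) ε^(-2η) ρ_t`;  `rp2_strips` with `s = ε^(4h)` :
`‖z‖ ≤ (8Ke + 4Kp) ε^(-2η-4h) ρ_t`.   The same for `back` : `≤ (16Ke + 4Kp) ε^(-2η-4h) ε^r ρ_t`.  The times agree (`C = tc`).  `PredLab.list` with `ρ = (16Ke + 4Kp + 1) ε^(-2η-4h) ≥ 1`. -/
/-- `Kp ≥ 0` as soon as one sample is charged -/
private theorem rpd_g4_Kp {E : PEnv} {T : PTest} {r Kp : ℝ} {α : Type} {Pc : T.Ω → α} (hε : 0 < E.ε)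
    (hP : PredLab E T r Kp Pc) {o : T.Ω} (ho : 0 < T.P.p o) : 0 ≤ Kp := by
  have h1 := hP.locV o o ho ho rfl
  rw [sub_self, norm_zero] at h1
  have h2 : 0 < E.ε ^ (E.u T.t) := Real.rpow_pos_of_pos hε _
  by_contra hneg
  push Not at hneg
  nlinarith

/-- the vector step of (L5): two strips, the second one seen through two comparisons of size `κ` -/
private theorem rpd_g4_vec {a a' a₁ a₁' : E2} {th th' w κ s : ℝ} (hs : 0 < s) (hsep : s ≤ |Real.sin (th - th')|)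
    (h1 : |ip (toP (a - a₁)) (nrm th)| ≤ w) (h2 : |ip (toP (a' - a₁')) (nrm th')| ≤ w)
    (h3 : ‖a - a'‖ ≤ κ) (h4 : ‖a₁ - a₁'‖ ≤ κ) : ‖a - a₁‖ ≤ 2 * (2 * w + 2 * κ) / s := by
  have e : ip (toP (a - a₁)) (nrm th') = ip (toP (a - a')) (nrm th') + ip (toP (a' - a₁')) (nrm th') - ip (toP (a₁ - a₁')) (nrm th') := by
    unfold ip toP
    simp only [PiLp.sub_apply]
    ring
  have b1 := rp2_ip_le (a - a') th'
  have b2 := rp2_ip_le (a₁ - a₁') th'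
  have h5 : |ip (toP (a - a₁)) (nrm th')| ≤ w + 2 * κ := by
    rw [e]
    have t1 := abs_sub (ip (toP (a - a')) (nrm th') + ip (toP (a' - a₁')) (nrm th')) (ip (toP (a₁ - a₁')) (nrm th'))
    have t2 := abs_add_le (ip (toP (a - a')) (nrm th')) (ip (toP (a' - a₁')) (nrm th'))
    linarith
  have h6 := rp2_strips hs hsep h1 h5
  have e2 : 2 * (w + (w + 2 * κ)) / s = 2 * (2 * w + 2 * κ) / s := by ring
  rw [e2] at h6
  exact h6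

/-- the vector step with its constants -/
private theorem rpd_g4_step {a a' a₁ a₁' : E2} {th th' Ke Kp c e s U w w' : ℝ} (hs : 0 < s) (hsep : s ≤ |Real.sin (th - th')|)
    (hKe : 0 ≤ Ke) (hKp : 0 ≤ Kp) (hc0 : 0 ≤ c) (hc : c ≤ 4) (he : 1 ≤ e) (hU : 0 < U)
    (h1 : |ip (toP (a - a₁)) (nrm th)| ≤ c * Ke * w) (hw : w ≤ e * U)
    (h2 : |ip (toP (a' - a₁')) (nrm th')| ≤ c * Ke * w') (hw' : w' ≤ e * U)
    (h3 : ‖a - a'‖ ≤ Kp * U) (h4 : ‖a₁ - a₁'‖ ≤ Kp * U) : ‖a - a₁‖ ≤ (16 * Ke + 4 * Kp + 1) * (e / s) * U := by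
  have hcK : 0 ≤ c * Ke := mul_nonneg hc0 hKe
  have heU : 0 < e * U := by positivity
  have hUe : U ≤ e * U := by nlinarith
  have v1 : |ip (toP (a - a₁)) (nrm th)| ≤ 4 * Ke * (e * U) :=
    h1.trans ((mul_le_mul_of_nonneg_left hw hcK).trans (mul_le_mul_of_nonneg_right (mul_le_mul_of_nonneg_right hc hKe) heU.le))
  have v2 : |ip (toP (a' - a₁')) (nrm th')| ≤ 4 * Ke * (e * U) :=
    h2.trans ((mul_le_mul_of_nonneg_left hw' hcK).trans (mul_le_mul_of_nonneg_right (mul_le_mul_of_nonneg_right hc hKe) heU.le))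
  have v3 : ‖a - a'‖ ≤ Kp * (e * U) := h3.trans (mul_le_mul_of_nonneg_left hUe hKp)
  have v4 : ‖a₁ - a₁'‖ ≤ Kp * (e * U) := h4.trans (mul_le_mul_of_nonneg_left hUe hKp)
  refine (rpd_g4_vec hs hsep v1 v2 v3 v4).trans ?_
  rw [div_le_iff₀ hs]
  have e1 : (16 * Ke + 4 * Kp + 1) * (e / s) * U * s = (16 * Ke + 4 * Kp + 1) * (e * U) := by
    field_simp
  rw [e1]
  nlinarith

theorem rpd_g4 (B : PBd) (Kp : ℝ) : ∃ C : ℝ, 0 < C ∧ ∀ (E : PEnv) (T : PTest) (h η : ℝ) (α : Type) (Pc : T.Ω → α),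
    E.Obeys B → T.Obeys B E → 0 ≤ h → 0 ≤ η → PredLab E T (T.t - 2 * h) Kp Pc →
    (∀ o, 0 < T.P.p o → E.u T.t - 2 * η ≤ (T.geo (T.D o)).a) →
    ∀ o₀ o₀', 0 < T.P.p o₀ → 0 < T.P.p o₀' → ∃ S : Finset α, (S.card : ℝ) ≤ C * E.ε ^ (-(16 * h + 8 * η)) ∧
      ∀ o o', 0 < T.P.p o → 0 < T.P.p o' → Pc o = Pc o' →
        E.ε ^ (4 * h) ≤ |Real.sin ((T.geo (T.D o)).th - (T.geo (T.D o')).th)| →
        T.D o = T.D o₀ → T.D o' = T.D o₀' → Pc o ∈ S := by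
  refine ⟨|Kp| * (16 * |B.Ke| + 4 * |Kp| + 1) ^ 4 + 1, by have : 0 ≤ |Kp| * (16 * |B.Ke| + 4 * |Kp| + 1) ^ 4 := by positivity
                                                          linarith, ?_⟩
  intro E T h η α Pc hE hT hh hη hP ha o₀ o₀' _ _
  have hε0 := hE.ε0
  have hε1 := hE.ε1
  have hpos : ∀ c : ℝ, 0 < E.ε ^ c := fun c => Real.rpow_pos_of_pos hε0 c
  by_cases hex : ∃ o₁ o₁' : T.Ω, 0 < T.P.p o₁ ∧ 0 < T.P.p o₁' ∧ Pc o₁ = Pc o₁' ∧ T.D o₁ = T.D o₀ ∧ T.D o₁' = T.D o₀'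
  swap
  · refine ⟨∅, ?_, fun o o' h1 h2 h3 _ h5 h6 => absurd ⟨o, o', h1, h2, h3, h5, h6⟩ hex⟩
    have := hpos (-(16 * h + 8 * η))
    simp only [Finset.card_empty, Nat.cast_zero]
    positivity
  obtain ⟨o₁, o₁', hc1, hc1', hl1, hD1, hD1'⟩ := hex
  have hKe : 0 ≤ B.Ke := rp2_Ke_nonneg hE hT
  have hKp : 0 ≤ Kp := rpd_g4_Kp hε0 hP hc1
  rw [abs_of_nonneg hKe, abs_of_nonneg hKp]
  set r := T.t - 2 * h with hr
  set u := E.u T.t with hu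
  set K0 := 16 * B.Ke + 4 * Kp + 1 with hK0
  have hK01 : 1 ≤ K0 := by rw [hK0]; linarith
  have hη1 : 1 ≤ E.ε ^ (-(2 * η)) := Real.one_le_rpow_of_pos_of_le_one_of_nonpos hε0 hε1.le (by linarith)
  have hs0 : 0 < E.ε ^ (4 * h) := hpos _
  have esplit : E.ε ^ (-(2 * η)) / E.ε ^ (4 * h) = E.ε ^ (-(2 * η) - 4 * h) := by
    rw [Real.rpow_sub hε0]
  set ρ := K0 * (E.ε ^ (-(2 * η)) / E.ε ^ (4 * h)) with hρ
  have hone : 1 ≤ E.ε ^ (-(2 * η) - 4 * h) := Real.one_le_rpow_of_pos_of_le_one_of_nonpos hε0 hε1.le (by linarith)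
  have hρ1 : 1 ≤ ρ := by rw [hρ, esplit]; nlinarith
  obtain ⟨S, hS, hmem⟩ := hP.list ⌊(T.sat o₁).C / E.ε ^ r⌋ (T.sat o₁).V ((T.sat o₁).back E.ε r) ρ hρ1
  refine ⟨S, ?_, ?_⟩
  · have e : ρ ^ 4 = K0 ^ 4 * E.ε ^ (-(16 * h + 8 * η)) := by
      rw [hρ, esplit, mul_pow, ← Real.rpow_natCast (E.ε ^ (-(2 * η) - 4 * h)) 4, ← Real.rpow_mul hε0.le]
      congr 2
      push_cast
      ring
    rw [e] at hS
    have := hpos (-(16 * h + 8 * η))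
    nlinarith
  · intro o o' hx1 hx2 hxl hsep hDx hDx'
    have g1 := hT.geo o hx1
    have g2 := hT.geo o' hx2
    have g1' := hT.geo o₁ hc1
    have g2' := hT.geo o₁' hc1'
    rw [hD1, ← hDx] at g1'
    rw [hD1', ← hDx'] at g2'
    have hrt : r ≤ T.t := by rw [hr]; linarith
    obtain ⟨sC, -, -, -, sV, sY⟩ := rp2_same_geo (r := r) hε0 hε1 hKe hrt g1 g1'
    obtain ⟨-, -, -, -, sV', sY'⟩ := rp2_same_geo (r := r) hε0 hε1 hKe hrt g2 g2'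
    have wa : ∀ o, 0 < T.P.p o → E.ε ^ (T.geo (T.D o)).a ≤ E.ε ^ (-(2 * η)) * E.ε ^ u := by
      intro o ho
      rw [← Real.rpow_add hε0]
      exact Real.rpow_le_rpow_of_exponent_ge hε0 hε1.le (by have := ha o ho; linarith)
    have wb : ∀ o, 0 < T.P.p o → E.ε ^ r * E.ε ^ (T.geo (T.D o)).a ≤ E.ε ^ (-(2 * η)) * (E.ε ^ r * E.ε ^ u) := by
      intro o ho
      calc E.ε ^ r * E.ε ^ (T.geo (T.D o)).a ≤ E.ε ^ r * (E.ε ^ (-(2 * η)) * E.ε ^ u) := mul_le_mul_of_nonneg_left (wa o ho) (hpos r).le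
        _ = _ := by ring
    refine hmem o hx1 ?_ ?_ ?_
    · show ⌊(T.site (T.O o)).C / E.ε ^ r⌋ = ⌊(T.site (T.O o₁)).C / E.ε ^ r⌋
      rw [sC]
    · exact rpd_g4_step hs0 hsep hKe hKp (by norm_num) (by norm_num) hη1 (hpos u) sV (wa o hx1) sV' (wa o' hx2)
        (hP.locV o o' hx1 hx2 hxl) (hP.locV o₁ o₁' hc1 hc1' hl1)
    · exact rpd_g4_step hs0 hsep hKe hKp (by norm_num) (by norm_num) hη1 (mul_pos (hpos r) (hpos u)) sY (wb o hx1) sY' (wb o' hx2)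
        (hP.locY o o' hx1 hx2 hxl) (hP.locY o₁ o₁' hc1 hc1' hl1)

/-! ## the entropy forms (PROVED) -/

/-- (e1) -/
theorem rpd_e1 (B : PBd) (Kp : ℝ) : ∃ C : ℝ, 0 < C ∧ ∀ (E : PEnv) (T : PTest) (h : ℝ) (α : Type) (Pc : T.Ω → α),
    E.Obeys B → T.Obeys B E → 0 ≤ h → PredLab E T (T.t - 2 * h) Kp Pc →
    ∀ Q : FLaw T.Ω, pcxSub T Q → Q.entC T.O Pc ≤ Real.log C + 6 * h * lg E.ε := by
  obtain ⟨C, hC, H⟩ := rpd_g1 B Kp
  refine ⟨C, hC, fun E T h α Pc hE hT hh hP Q hQ => ?_⟩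
  exact rp2_entC_of_list Q T.O Pc (fun o => 0 < T.P.p o) hQ hC hE.ε0 (H E T h α Pc hE hT hh hP)

/-- (e2) -/
theorem rpd_e2 (B : PBd) (Kp : ℝ) : ∃ C : ℝ, 0 < C ∧ ∀ (E : PEnv) (T : PTest) (h bq : ℝ) (α : Type) (Pc : T.Ω → α)
    (R : T.Ω → T.Ω), E.Obeys B → T.Obeys B E → 0 ≤ h → PredLab E T (T.t - 2 * h) Kp Pc → RpdRep T Pc R →
    bq ≤ E.u T.t →
    ∀ Q : FLaw T.Ω, pcxSub T Q →
      Q.entC (fun o => rpdDb E.ε T.t bq (T.sat o)) (fun o => loc0 E.ε (T.t - 2 * h) bq (T.sat (R o)))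
        ≤ Real.log C + 6 * h * lg E.ε := by
  obtain ⟨C, hC, H⟩ := rpd_g2 B Kp
  refine ⟨C, hC, fun E T h bq α Pc R hE hT hh hP hR hb Q hQ => ?_⟩
  exact rp2_entC_of_list Q _ _ (fun o => 0 < T.P.p o) hQ hC hE.ε0 (H E T h bq α Pc R hE hT hh hP hR hb)

/-- (e3) -/
theorem rpd_e3 (B : PBd) (Kp : ℝ) : ∃ C : ℝ, 0 < C ∧ ∀ (E : PEnv) (T : PTest) (h bq : ℝ) (α : Type) (Pc : T.Ω → α)
    (R : T.Ω → T.Ω), E.Obeys B → T.Obeys B E → 0 ≤ h → PredLab E T (T.t - 2 * h) Kp Pc → RpdRep T Pc R →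
    (∀ o, 0 < T.P.p o → bq ≤ (T.geo (T.D o)).b) →
    ∀ Q : FLaw T.Ω, pcxSub T Q →
      Q.entC (pair (fun o => rpdDb E.ε T.t bq (T.sat o)) (fun o => loc0 E.ε (T.t - 2 * h) bq (T.sat (R o)))) T.D
        ≤ Real.log C := by
  obtain ⟨C, hC, H⟩ := rpd_g3 B Kp
  refine ⟨C, hC, fun E T h bq α Pc R hE hT hh hP hR hb Q hQ => ?_⟩
  have := rp2_entC_of_list Q (pair (fun o => rpdDb E.ε T.t bq (T.sat o)) (fun o => loc0 E.ε (T.t - 2 * h) bq (T.sat (R o))))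
    T.D (fun o => 0 < T.P.p o) hQ hC hE.ε0 (κ := 0) (by
      intro o₀ ho₀
      obtain ⟨S, hS, hm⟩ := H E T h bq α Pc R hE hT hh hP hR hb o₀ ho₀
      exact ⟨S, by simpa using hS, hm⟩)
  simpa using this

/-- (e4) -/
theorem rpd_e4 (B : PBd) (Kp : ℝ) : ∃ C : ℝ, 0 < C ∧ ∀ (E : PEnv) (T : PTest) (h bq : ℝ) (α : Type) (Pc : T.Ω → α)
    (R : T.Ω → T.Ω), E.Obeys B → T.Obeys B E → 0 ≤ h → PredLab E T (T.t - 2 * h) Kp Pc → RpdRep T Pc R →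
    (∀ o, 0 < T.P.p o → bq ≤ (T.geo (T.D o)).b) →
    ∀ Q : FLaw T.Ω, pcxSub T Q →
      Q.entC (fun o => loc0 E.ε (T.t - 2 * h) bq (T.sat (R o))) T.D ≤ Real.log C := by
  obtain ⟨C, hC, H⟩ := rpd_g3 B Kp
  refine ⟨C, hC, fun E T h bq α Pc R hE hT hh hP hR hb Q hQ => ?_⟩
  have := rp2_entC_of_list Q (fun o => loc0 E.ε (T.t - 2 * h) bq (T.sat (R o)))
    T.D (fun o => 0 < T.P.p o) hQ hC hE.ε0 (κ := 0) (by
      intro o₀ ho₀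
      obtain ⟨S, hS, hm⟩ := H E T h bq α Pc R hE hT hh hP hR hb o₀ ho₀
      refine ⟨S.image Prod.snd, le_trans ?_ (by simpa using hS), fun o ho hD => ?_⟩
      · exact_mod_cast Finset.card_image_le
      · exact Finset.mem_image.2 ⟨_, hm o ho hD, rfl⟩)
  simpa using this

/-- (e5) -/
theorem rpd_e5 (B : PBd) (Kp : ℝ) : ∃ C : ℝ, 0 < C ∧ ∀ (E : PEnv) (T : PTest) (h η : ℝ) (α : Type) (Pc : T.Ω → α),
    E.Obeys B → T.Obeys B E → 0 ≤ h → 0 ≤ η → PredLab E T (T.t - 2 * h) Kp Pc →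
    (∀ o, 0 < T.P.p o → E.u T.t - 2 * η ≤ (T.geo (T.D o)).a) →
    ∀ Rr : FLaw (T.Ω × T.Ω),
      (∀ x, Rr.p x ≠ 0 → 0 < T.P.p x.1 ∧ 0 < T.P.p x.2 ∧ Pc x.1 = Pc x.2 ∧
        E.ε ^ (4 * h) ≤ |Real.sin ((T.geo (T.D x.1)).th - (T.geo (T.D x.2)).th)|) →
      Rr.entC (fun x => Pc x.1) (pair (fun x => T.D x.1) (fun x => T.D x.2)) ≤ Real.log C + (16 * h + 8 * η) * lg E.ε := by
  obtain ⟨C, hC, H⟩ := rpd_g4 B Kp
  refine ⟨C, hC, fun E T h η α Pc hE hT hh hη hP ha Rr hR => ?_⟩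
  refine rp2_entC_of_list Rr _ _ _ hR hC hE.ε0 ?_
  intro x₀ hx₀
  obtain ⟨S, hS, hmem⟩ := H E T h η α Pc hE hT hh hη hP ha x₀.1 x₀.2 hx₀.1 hx₀.2.1
  refine ⟨S, hS, fun x hx hD => ?_⟩
  simp only [pair, Prod.mk.injEq] at hD
  exact hmem x.1 x.2 hx.1 hx.2.1 hx.2.2.1 hx.2.2.2 hD.1 hD.2

end Claimed.Agent.R255
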