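-- KEEP
import Claimed.Agent.R255.Rep.PredEnt
import Claimed.Agent.R255.Rep.PredList

/-!
# Row 255 (BR paper), Sec. 11.2, stage S2 PREDICT = Lemma 11.2 (prediction of a normal from isotropic replacements)      (architect helper18)

EXIT: `rpd_predict`.   For ANY current test `T` (e.g. `T.withLaw π_buf`) of deficit `≤ h/10`, common elongated shape up to `h/10`, `a ≥ u_t - h/10`, `a - b ≥ e0`, `20 h < γ e0`,
and ANY coarse label `Pc` with the geometric meaning `PredLab E T (t - 2h) Kp Pc` there is a table `n : α → ℝ` (defined on ALL of `α`) with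
`|sin(th(D) - n(Pc))| < ε^(4h)` on a part of probability `≥ 3/4`.
GEOMETRY = the four lists `rpd_g1..g4` of `Rep/PredList.lean` (helper186).
Only `PRate` is used (no Sec. 9/10 input): a replacement loss is `PRate` for the relabelled test minus the current deficit; the two marginals of the separated two-copy law are score splits of a lift.
NUMERICS: `2 γ e ≤ 28 h + 32 η + 20 ν + C/ℓ` with `η = h/10`, `ν = h/100`, `C/ℓ ≤ h`.
-/

set_option autoImplicit false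

namespace Claimed.Agent.R255

open scoped BigOperators
open Classical
open FLaw Pkt Osc

/-- the numeric end of Lemma 11.2 -/
theorem rpd_num {γ h e0 a b l L₁ L₂ L₃ L₄ Δ x1 x2 x3 x4 : ℝ} (h0 : 0 < γ) (h1 : γ < 1) (hh : 0 < h)
    (hecc : 20 * h < γ * e0) (hab : e0 ≤ a - b) (hl : 0 < l)
    (hΔ : Δ = 4 * (h / 10 + 3 / 2 * Real.log 2 / l + h / 100))
    (e1 : x1 = l * ((1 + γ) * (a - b - 2 * (h / 10))) - 2 * (l * (Δ + h / 100)) - (L₁ + 6 * h * l))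
    (e2 : x2 = l * ((1 - γ) * (a - b) + 4 * (h / 10)) + 2 * (l * (Δ + h / 100)) + (L₂ + 6 * h * l) + L₃)
    (e3 : x3 = L₃) (e4 : x4 = L₄ + (16 * h + 8 * (h / 10)) * l)
    (hnum : (L₁ + L₂ + 2 * L₃ + L₄ + Real.log 4 + 24 * Real.log 2) / l ≤ h)
    (hmain : x1 - x3 - x4 ≤ x2 + Real.log 4) : False := by
  rw [div_le_iff₀ hl] at hnum
  have hΔl : l * Δ = 4 * (h / 10 * l + 3 / 2 * Real.log 2 + h / 100 * l) := by
    rw [hΔ]
    field_simp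
  have h7 : 20 * h < γ * (a - b) := lt_of_lt_of_le hecc (mul_le_mul_of_nonneg_left hab h0.le)
  have h8 := mul_lt_mul_of_pos_left h7 hl
  have hhl : 0 < h * l := mul_pos hh hl
  have h9 : γ * (h * l) ≤ h * l := by nlinarith
  subst e1 e2 e3 e4
  nlinarith

/-- **the separated event has probability `< 1/4`** -/
theorem rpd_sep_small (γ β : ℝ) (h0 : 0 < γ) (h1 : γ < 1) (h e0 : ℝ) (hh : 0 < h) (hecc : 20 * h < γ * e0)
    (B : PBd) (Kp C₁ C₂ C₃ C₄ : ℝ) (hC₁ : 0 < C₁) (hC₂ : 0 < C₂) (hC₄ : 0 < C₄)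
    (E : PEnv) (T : PTest) (α : Type) (Pc : T.Ω → α) (hE : E.Obeys B) (hT : T.Obeys B E)
    (hr1 : ∀ Q : FLaw T.Ω, pcxSub T Q → score γ E (T.withLaw Q) ≤ K0 γ B.M E + β * T.t + h / 100)
    (hr2 : ∀ (Q : FLaw T.Ω) (Γ' : Type) (D' : T.Ω → Γ') (geo' : Γ' → Geo), pcxSub T Q →
      (∀ o, 0 < Q.p o → GeoOK (geo' (D' o)) 1 E.ε T.t E.L (E.u T.t) (T.site (T.O o))) →
      score γ E (T.relab Q D' geo') ≤ K0 γ B.M E + β * T.t + h / 100)
    (hdef : pcxDef γ β B.M E T ≤ h / 10) (b a : ℝ)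
    (hshape : ∀ o, 0 < T.P.p o → |(T.geo (T.D o)).b - b| ≤ h / 10 ∧ |(T.geo (T.D o)).a - a| ≤ h / 10)
    (hab : e0 ≤ a - b)
    (hL : PredLab E T (T.t - 2 * h) Kp Pc)
    (hg1 : ∀ o₀, 0 < T.P.p o₀ → ∃ S : Finset T.ι, (S.card : ℝ) ≤ C₁ * E.ε ^ (-(6 * h)) ∧
      ∀ o, 0 < T.P.p o → Pc o = Pc o₀ → T.O o ∈ S)
    (hg2 : ∀ (bq : ℝ) (R : T.Ω → T.Ω), RpdRep T Pc R → bq ≤ E.u T.t →
      ∀ o₀, 0 < T.P.p o₀ → ∃ S : Finset RpdDb, (S.card : ℝ) ≤ C₂ * E.ε ^ (-(6 * h)) ∧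
      ∀ o, 0 < T.P.p o → loc0 E.ε (T.t - 2 * h) bq (T.sat (R o)) = loc0 E.ε (T.t - 2 * h) bq (T.sat (R o₀)) →
        rpdDb E.ε T.t bq (T.sat o) ∈ S)
    (hg3 : ∀ (bq : ℝ) (R : T.Ω → T.Ω), RpdRep T Pc R → (∀ o, 0 < T.P.p o → bq ≤ (T.geo (T.D o)).b) →
      ∀ o₀, 0 < T.P.p o₀ → ∃ S : Finset (RpdDb × Loc0), (S.card : ℝ) ≤ C₃ ∧
      ∀ o, 0 < T.P.p o → T.D o = T.D o₀ →
        (rpdDb E.ε T.t bq (T.sat o), loc0 E.ε (T.t - 2 * h) bq (T.sat (R o))) ∈ S)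
    (hg4 : ∀ o₀ o₀', 0 < T.P.p o₀ → 0 < T.P.p o₀' → ∃ S : Finset α,
      (S.card : ℝ) ≤ C₄ * E.ε ^ (-(16 * h + 8 * (h / 10))) ∧
      ∀ o o', 0 < T.P.p o → 0 < T.P.p o' → Pc o = Pc o' →
        E.ε ^ (4 * h) ≤ |Real.sin ((T.geo (T.D o)).th - (T.geo (T.D o')).th)| →
        T.D o = T.D o₀ → T.D o' = T.D o₀' → Pc o ∈ S)
    (hnum : (Real.log C₁ + Real.log C₂ + 2 * Real.log C₃ + Real.log C₄ + Real.log 4 + 24 * Real.log 2) / lg E.ε ≤ h) :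
    (rep_two T.P Pc).pr (fun x => ¬ |Real.sin ((T.geo (T.D x.1)).th - (T.geo (T.D x.2)).th)| < E.ε ^ (4 * h))
      < 1 / 4 := by
  by_contra hcon
  replace hcon := not_lt.1 hcon
  have hε := hE.ε0
  have hl : 0 < lg E.ε := p9_lg_pos hE.ε0 hE.ε1
  set sep : T.Ω × T.Ω → Prop :=
    fun x => ¬ |Real.sin ((T.geo (T.D x.1)).th - (T.geo (T.D x.2)).th)| < E.ε ^ (4 * h) with hsepdef
  have hν : (0 : ℝ) ≤ h / 100 := by positivity
  -- representatives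
  obtain ⟨oo, hoo⟩ := ent_exists_supp T.P
  have hoo' : 0 < T.P.p oo := lt_of_le_of_ne (T.P.nonneg oo) (Ne.symm hoo)
  have : Nonempty T.Ω := ⟨oo⟩
  set R : T.Ω → T.Ω := fun o => Classical.epsilon (fun o' => 0 < T.P.p o' ∧ Pc o' = Pc o) with hRdef
  have hR : RpdRep T Pc R := by
    refine ⟨fun o ho => ?_, fun o o' hoo => ?_⟩
    · exact Classical.epsilon_spec (p := fun o' => 0 < T.P.p o' ∧ Pc o' = Pc o) ⟨o, ho, rfl⟩
    · simp only [hRdef, hoo]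
  -- the width of the second replacement aperture
  set bq : ℝ := max (b - h / 10) 0 with hbq
  have hbq0 : 0 ≤ bq := le_max_right _ _
  have hbqb : b - h / 10 ≤ bq := le_max_left _ _
  have hbqle : ∀ o, 0 < T.P.p o → bq ≤ (T.geo (T.D o)).b := by
    intro o ho
    have g := hT.geo o ho
    have s := (abs_le.1 (hshape o ho).1).1
    exact max_le (by linarith) g.1
  have hbqL : bq ≤ E.L - T.t := by
    have g := hT.geo oo hoo'
    linarith [hbqle oo hoo', g.2.1, g.2.2.1]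
  have hbqu : bq ≤ E.u T.t := by
    have g := hT.geo oo hoo'
    linarith [hbqle oo hoo', g.2.1, g.2.2.2.1]
  -- the two marginals
  obtain ⟨hs1, hd1⟩ := rpd_marg γ β B.M E T hl (rep_two T.P Pc) Prod.fst (rep_two_map_fst T.P Pc) sep hcon hν hr1
  obtain ⟨hs2, hd2⟩ := rpd_marg γ β B.M E T hl (rep_two T.P Pc) Prod.snd (rep_two_map_snd T.P Pc) sep hcon hν hr1
  set ρ := (rep_two T.P Pc).cnd sep with hρ
  set Q1 := ρ.map Prod.fst with hQ1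
  set Q2 := ρ.map Prod.snd with hQ2
  set Δ : ℝ := 4 * (h / 10 + 3 / 2 * Real.log 2 / lg E.ε + h / 100) with hΔ
  have hd1' : pcxDef γ β B.M E (T.withLaw Q1) ≤ Δ := by
    refine hd1.trans ?_
    rw [hΔ]
    linarith
  have hd2' : pcxDef γ β B.M E (T.withLaw Q2) ≤ Δ := by
    refine hd2.trans ?_
    rw [hΔ]
    linarith
  -- the replaced tests
  have hra := hr2 Q1 Geo (fun o => rpdDa (T.geo (T.D o)) (T.sat o)) id hs1
    (fun o ho => rpd_geoOK_Da hε (hT.geo o (hs1 o (ne_of_gt ho))))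
  have hrb := hr2 Q2 RpdDb (fun o => rpdDb E.ε T.t bq (T.sat o)) (rpdDbGeo E.ε T.t bq) hs2
    (fun o _ => rpd_geoOK_Db (T.sat o) hε hbq0 hbqL hbqu)
  -- the four entropy inequalities
  have i1 := rpd_lower γ β B.M E T hε hl Q1 hs1 Pc hL.fn h C₁ hC₁ hg1 (by linarith) hra hd1'
    (e' := a - b - 2 * (h / 10)) (fun o ho => by
      have s1 := abs_le.1 (hshape o ho).1
      have s2 := abs_le.1 (hshape o ho).2
      linarith [s1.2, s2.1])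
  have i2 := rpd_upper γ β B.M E T hε hl Q2 hs2 Pc hL.fn h bq C₂ C₃ hC₂
    (fun o => loc0 E.ε (T.t - 2 * h) bq (T.sat (R o))) (hg2 bq R hR hbqu) (hg3 bq R hR hbqle)
    hrb hd2' (e'' := (1 - γ) * (a - b) + 4 * (h / 10)) (fun o ho => by
      have s1 := abs_le.1 (hshape o ho).1
      have s2 := abs_le.1 (hshape o ho).2
      unfold wt
      nlinarith [s1.2, s2.2])
  have i3 := rpd_coarse E T Q1 hs1 bq C₃ (fun o => loc0 E.ε (T.t - 2 * h) bq (T.sat (R o))) (hg3 bq R hR hbqle)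
  have hpos : 0 < (rep_two T.P Pc).pr sep := by linarith
  have i4 := rpd_inter E T hε Pc h (h / 10) C₄ hC₄ hg4 ρ (fun x hx => by
    obtain ⟨a1, a2⟩ := (ent_cnd_supp (rep_two T.P Pc) sep hpos).1 hx
    obtain ⟨b1, b2, b3⟩ := (rep_two_supp T.P Pc x).1 a2
    exact ⟨lt_of_le_of_ne (T.P.nonneg _) (Ne.symm b1), lt_of_le_of_ne (T.P.nonneg _) (Ne.symm b2), b3, not_lt.1 a1⟩)
  have hmain := rep_two_sep T.P Pc T.D (fun o => loc0 E.ε (T.t - 2 * h) bq (T.sat (R o)))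
    (fun o o' hP => by simp only [hR.2 o o' hP]) sep hcon _ _ _ _ i1 i2 i3 i4
  exact rpd_num h0 h1 hh hecc hab hl hΔ rfl rfl rfl rfl hnum hmain

/-- **Lemma 11.2 (S2 PREDICT)** -/
theorem rpd_predict (γ β : ℝ) (h0 : 0 < γ) (h1 : γ < 1) (hrate : PRate γ β) (h e0 : ℝ) (hh : 0 < h)
    (hecc : 20 * h < γ * e0) (B : PBd) (hB : B.Good) (Kp : ℝ) :
    ∃ ε₀ : ℝ, 0 < ε₀ ∧ ∀ (E : PEnv) (T : PTest) (α : Type) (Pc : T.Ω → α), E.ε < ε₀ → E.Obeys B → T.Obeys B E →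
      pcxDef γ β B.M E T ≤ h / 10 →
      (∃ b a : ℝ, (∀ o, 0 < T.P.p o → |(T.geo (T.D o)).b - b| ≤ h / 10 ∧ |(T.geo (T.D o)).a - a| ≤ h / 10) ∧
        E.u T.t - h / 10 ≤ a ∧ e0 ≤ a - b) →
      PredLab E T (T.t - 2 * h) Kp Pc →
      ∃ n : α → ℝ, 3 / 4 ≤ T.P.pr (fun o => |Real.sin ((T.geo (T.D o)).th - n (Pc o))| < E.ε ^ (4 * h)) := by
  obtain ⟨C₁, hC₁, G1⟩ := rpd_g1 B Kp
  obtain ⟨C₂, hC₂, G2⟩ := rpd_g2 B Kp
  obtain ⟨C₃, hC₃, G3⟩ := rpd_g3 B Kp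
  obtain ⟨C₄, hC₄, G4⟩ := rpd_g4 B Kp
  have hν : (0 : ℝ) < h / 100 := by positivity
  obtain ⟨ε₁, hε₁, -, H1⟩ := hrate B hB (h / 100) hν
  obtain ⟨ε₂, hε₂, -, H2⟩ := hrate { B with Ke := 1 } (rpd_good_Ke hB 1) (h / 100) hν
  obtain ⟨ε₃, hε₃, -, H3⟩ := pcx_div_lg_le
    (Real.log C₁ + Real.log C₂ + 2 * Real.log C₃ + Real.log C₄ + Real.log 4 + 24 * Real.log 2) hh
  refine ⟨min ε₁ (min ε₂ ε₃), lt_min hε₁ (lt_min hε₂ hε₃), ?_⟩
  intro E T α Pc hε hE hT hdef hshape hL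
  obtain ⟨b, a, hsh, hua, hab⟩ := hshape
  have hεa : E.ε < ε₁ := lt_of_lt_of_le hε (min_le_left _ _)
  have hεb : E.ε < ε₂ := lt_of_lt_of_le hε ((min_le_right _ _).trans (min_le_left _ _))
  have hεc : E.ε < ε₃ := lt_of_lt_of_le hε ((min_le_right _ _).trans (min_le_right _ _))
  have hsmall := rpd_sep_small γ β h0 h1 h e0 hh hecc B Kp C₁ C₂ C₃ C₄ hC₁ hC₂ hC₄ E T α Pc hE hT
    (fun Q hQ => H1 E (T.withLaw Q) hεa hE (pcx_obeys_withLaw hT Q hQ))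
    (fun Q Γ' D' geo' hQ hg => H2 E (T.relab Q D' geo') hεb (rpd_obeysE_Ke hE 1) (rpd_obeys_relab hT Q hQ D' geo' 1 hg))
    hdef b a hsh hab hL
    (G1 E T h α Pc hE hT hh.le hL)
    (fun bq R hR hbq => G2 E T h bq α Pc R hE hT hh.le hL hR hbq)
    (fun bq R hR hbq => G3 E T h bq α Pc R hE hT hh.le hL hR hbq)
    (G4 E T h (h / 10) α Pc hE hT hh.le (by positivity) hL (fun o ho => by
      have s2 := abs_le.1 (hsh o ho).2
      linarith [s2.1]))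
    (H3 E.ε hE.ε0 hεc)
  exact rep_predict T.P Pc (fun o => (T.geo (T.D o)).th) (fun x y => |Real.sin (x - y)| < E.ε ^ (4 * h)) hsmall

end Claimed.Agent.R255
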