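-- KEEP
import Claimed.Agent.R255.Rep.AlnLists

/-!
# Row 255 (BR paper), Sec. 11, STAGE S4 = ALIGN (Lemma 11.3), file 3: EXIT      (architect helper46)

* `rpa_core`  : for ANY law `Q` supported in `A` (all of whose winners are misaligned):
     `2 γ e1 ≤ E_Q [d_1(J) + 3 (A_J - P_J(Q))] + 9 h + 25 (η + ξ) + Klog / ℓ`.
* `rpa_align` : (11.alignment-misaligned-mass) for a current law `ν` and a `J`-measurable event `Bm` of misaligned winners: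
     `ν(B) (2 γ e1 - 9 h - 25 (η + ξ) - Klog / ℓ) ≤ E_ν [1_B (d_1 + 3 (A_J - P_J(ν)))]`.
  (`A_J - P_J = d_2 + d_3 - β (t - r) - 2 R ≤ d_2 + d_3` in the notation of `Comp/Main.lean`.)
-/

set_option autoImplicit false

namespace Claimed.Agent.R255

open scoped BigOperators
open Classical
open FLaw Pkt

theorem rpa_core_ne {X : RpaData} {c : RpaC} {A : X.T.Ω → Prop} [Nonempty X.At.𝔸] (H : X.Good c A) (Q : FLaw X.T.Ω)
    (hQ : ∀ o, Q.p o ≠ 0 → A o) :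
    2 * X.γ * c.e1 ≤ Q.ev (fun o => X.Cl.d1 X.E X.tag (X.J o) + 3 * (X.Cl.AJ X.E X.tag (X.J o) - X.PJ Q o))
      + 9 * X.h + 25 * (c.η + c.ξ) + c.Klog / X.l := by
  have hl := rpa_l_pos H
  have core := rep_align_core (X.R Q) X.xJ X.xT X.xD X.xE X.xM' X.xY X.xC
    (fun ω ω' _ _ h => by
      have : ω.2 = ω'.2 := congrArg Prod.fst h
      show X.Cl.acap ω.2 = X.Cl.acap ω'.2
      rw [this])
    (fun ω ω' _ _ h => by
      have : ω.2 = ω'.2 := congrArg Prod.fst h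
      show X.Mc ω.2 = X.Mc ω'.2
      rw [this])
    X.γ ((X.a - X.bs) * X.l) (Q.ev X.jJ * X.l) (Q.ev X.lJ * X.l) (X.h * X.l) (X.LN Q) (X.LA Q) (X.GG Q) (X.Dl Q)
    _ _ _ _ _ _ _ _
    (rpa_a1 H Q hQ) (rpa_a2 H Q hQ) (rpa_a3 H Q hQ) (rpa_a4 H Q hQ) (rpa_a5 H Q hQ) (rpa_a6 H Q hQ) (rpa_a7 H Q hQ)
    (rpa_a8 H Q hQ) (rpa_a9 H Q hQ)
  have hlb := rpa_lbar H Q hQ
  -- `e1 ≤ e - j̄`
  have hj : c.e1 ≤ (X.a - X.bs) - Q.ev X.jJ := by
    have h1 : Q.ev X.jJ ≤ Q.ev (fun _ => X.a - X.bs - c.e1) :=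
      ent_ev_mono Q fun o ho => by linarith [H.shj o (hQ o ho)]
    rw [ent_ev_const] at h1
    linarith
  -- the expectation
  have hev : Q.ev (fun o => X.Cl.d1 X.E X.tag (X.J o) + 3 * (X.Cl.AJ X.E X.tag (X.J o) - X.PJ Q o)) * X.l
      = (X.LA Q - X.LN Q) + 3 * X.Dl Q := by
    rw [ent_ev_add, ent_ev_mul_left]
    have h1 : Q.ev (fun o => X.Cl.d1 X.E X.tag (X.J o)) * X.l = X.LA Q - X.LN Q := by
      unfold RpaData.LA RpaData.LN
      rw [← ent_ev_sub, mul_comm, ← ent_ev_mul_left]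
      refine ent_ev_congr Q fun o _ => ?_
      unfold Classes.d1
      show X.l * (_ / X.l) = _
      field_simp
    unfold RpaData.Dl
    linarith
  have hγ0 := H.γ0
  have hγ1 := H.γ1
  have hη := H.η0
  have hξ := H.ξ0
  have hh := H.h0
  -- divide by ℓ
  have key : 2 * X.γ * c.e1 * X.l ≤ (Q.ev (fun o => X.Cl.d1 X.E X.tag (X.J o)
      + 3 * (X.Cl.AJ X.E X.tag (X.J o) - X.PJ Q o)) + 9 * X.h + 25 * (c.η + c.ξ) + c.Klog / X.l) * X.l := by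
    have e1 : c.Klog / X.l * X.l = c.Klog := by field_simp
    have e2 : 2 * X.γ * c.e1 * X.l ≤ 2 * X.γ * ((X.a - X.bs) * X.l - Q.ev X.jJ * X.l) := by
      have : c.e1 * X.l ≤ ((X.a - X.bs) - Q.ev X.jJ) * X.l := mul_le_mul_of_nonneg_right hj hl.le
      nlinarith
    have e3 : (1 - X.γ) * (Q.ev X.lJ * X.l - (X.a - X.bs) * X.l) ≤ (X.h + c.η + c.ξ) * X.l := by
      have h1 : (Q.ev X.lJ - (X.a - X.bs)) * X.l ≤ (X.h + c.η + c.ξ) * X.l := mul_le_mul_of_nonneg_right hlb hl.le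
      have h2 : 0 ≤ (X.h + c.η + c.ξ) * X.l := by positivity
      by_cases h3 : 0 ≤ (Q.ev X.lJ - (X.a - X.bs)) * X.l
      · nlinarith
      · push Not at h3
        nlinarith
    have hηl : 0 ≤ c.η * X.l := by positivity
    have hξl : 0 ≤ c.ξ * X.l := by positivity
    have e4 : (Q.ev (fun o => X.Cl.d1 X.E X.tag (X.J o)
        + 3 * (X.Cl.AJ X.E X.tag (X.J o) - X.PJ Q o)) + 9 * X.h + 25 * (c.η + c.ξ) + c.Klog / X.l) * X.l
        = (X.LA Q - X.LN Q) + 3 * X.Dl Q + 9 * (X.h * X.l) + 25 * (c.η * X.l + c.ξ * X.l) + c.Klog := by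
      rw [← hev, add_mul, e1]
      ring
    rw [e4]
    unfold RpaC.Klog
    linarith
  exact le_of_mul_le_mul_right key hl

/-- **Lemma 11.3, core form** : any law all of whose winners are misaligned -/
theorem rpa_core {X : RpaData} {c : RpaC} {A : X.T.Ω → Prop} (H : X.Good c A) (Q : FLaw X.T.Ω)
    (hQ : ∀ o, Q.p o ≠ 0 → A o) :
    2 * X.γ * c.e1 ≤ Q.ev (fun o => X.Cl.d1 X.E X.tag (X.J o) + 3 * (X.Cl.AJ X.E X.tag (X.J o) - X.PJ Q o))
      + 9 * X.h + 25 * (c.η + c.ξ) + c.Klog / X.l := by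
  obtain ⟨o, ho⟩ := ent_exists_supp Q
  obtain ⟨T', _⟩ := rpa_cand_ne H o (hQ o ho)
  haveI : Nonempty X.At.𝔸 := ⟨T'⟩
  exact rpa_core_ne H Q hQ

/-- conditioning on a `J`-measurable event does not change `P_J` -/
theorem rpa_PJ_cnd (X : RpaData) (ν : FLaw X.T.Ω) (Bm : Classes.Lab X.τ → Prop) (o : X.T.Ω) (ho : ν.p o ≠ 0)
    (hB : Bm (X.J o)) : X.PJ (ν.cnd (fun o' => Bm (X.J o'))) o = X.PJ ν o := by
  have h1 : 0 < ν.pr (fun ω => Bm (X.J ω) ∧ X.J ω = X.J o) := (ent_pr_pos_iff ν _).2 ⟨o, ⟨hB, rfl⟩, ho⟩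
  have h2 : (ν.cnd (fun o' => Bm (X.J o'))).cfib X.J o = ν.cfib X.J o := by
    unfold FLaw.cfib
    rw [ent_cnd_cnd ν _ _ h1]
    refine ent_cnd_congr ν fun ω _ => ⟨fun h => h.2, fun h => ⟨by rw [h]; exact hB, h⟩⟩
  unfold RpaData.PJ pcPJ
  rw [h2]

/-- **Lemma 11.3** (11.alignment-misaligned-mass) -/
theorem rpa_align {X : RpaData} {c : RpaC} (ν : FLaw X.T.Ω) (Bm : Classes.Lab X.τ → Prop)
    (H : X.Good c (fun o => ν.p o ≠ 0 ∧ Bm (X.J o))) :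
    ν.pr (fun o => Bm (X.J o)) * (2 * X.γ * c.e1 - 9 * X.h - 25 * (c.η + c.ξ) - c.Klog / X.l)
      ≤ ν.ev (fun o => if Bm (X.J o) then
          X.Cl.d1 X.E X.tag (X.J o) + 3 * (X.Cl.AJ X.E X.tag (X.J o) - X.PJ ν o) else 0) := by
  by_cases hp : 0 < ν.pr (fun o => Bm (X.J o))
  · have hs : ∀ o, (ν.cnd (fun o' => Bm (X.J o'))).p o ≠ 0 → ν.p o ≠ 0 ∧ Bm (X.J o) := fun o ho =>
      ((ent_cnd_supp ν _ hp).1 ho).symm
    have core := rpa_core H (ν.cnd (fun o' => Bm (X.J o'))) hs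
    have e1 : (ν.cnd (fun o' => Bm (X.J o'))).ev (fun o => X.Cl.d1 X.E X.tag (X.J o)
          + 3 * (X.Cl.AJ X.E X.tag (X.J o) - X.PJ (ν.cnd (fun o' => Bm (X.J o'))) o))
        = (ν.cnd (fun o' => Bm (X.J o'))).ev (fun o => X.Cl.d1 X.E X.tag (X.J o)
          + 3 * (X.Cl.AJ X.E X.tag (X.J o) - X.PJ ν o)) :=
      ent_ev_congr _ fun o ho => by rw [rpa_PJ_cnd X ν Bm o (hs o ho).1 (hs o ho).2]
    rw [e1, ent_cnd_ev ν _ hp] at core
    have h2 : 2 * X.γ * c.e1 - 9 * X.h - 25 * (c.η + c.ξ) - c.Klog / X.l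
        ≤ ν.ev (fun o => if Bm (X.J o) then
          X.Cl.d1 X.E X.tag (X.J o) + 3 * (X.Cl.AJ X.E X.tag (X.J o) - X.PJ ν o) else 0)
          / ν.pr (fun o => Bm (X.J o)) := by linarith
    rw [le_div_iff₀ hp] at h2
    linarith
  · have h0 : ν.pr (fun o => Bm (X.J o)) = 0 := le_antisymm (not_lt.1 hp) (ent_pr_nonneg ν _)
    rw [h0, zero_mul]
    refine ent_ev_nonneg ν fun o ho => ?_
    by_cases hB : Bm (X.J o)
    · exact absurd ((ent_pr_pos_iff ν _).2 ⟨o, hB, ho⟩) hp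
    · rw [if_neg hB]

/-- how the hypothesis `ang` follows from prediction (`|sin (th D - n(P))| ≤ Kp ε^(4h)`) and the misaligned mark (`Km ε^h ≤ |sin (th E - n(P))|`) -/
theorem rpa_angle_of_pred {ε h Kp Km thD thE n : ℝ} (h0 : 0 < ε) (h1 : ε < 1) (hh : 0 < h)
    (hsmall : Kp * ε ^ (3 * h) ≤ Km / 2) (hp : |Real.sin (thD - n)| ≤ Kp * ε ^ (4 * h))
    (hm : Km * ε ^ h ≤ |Real.sin (thE - n)|) : Km / 2 * ε ^ h ≤ |Real.sin (thE - thD)| := by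
  have e : thE - n = (thE - thD) + (thD - n) := by ring
  have h2 : |Real.sin (thE - n)| ≤ |Real.sin (thE - thD)| + |Real.sin (thD - n)| := by
    rw [e, Real.sin_add]
    refine (abs_add_le _ _).trans (add_le_add ?_ ?_)
    · rw [abs_mul]
      exact mul_le_of_le_one_right (abs_nonneg _) (Real.abs_cos_le_one _)
    · rw [abs_mul]
      exact mul_le_of_le_one_left (abs_nonneg _) (Real.abs_cos_le_one _)
  have h3 : ε ^ (4 * h) = ε ^ (3 * h) * ε ^ h := by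
    rw [← Real.rpow_add h0]
    congr 1
    ring
  have h4 : 0 < ε ^ h := Real.rpow_pos_of_pos h0 h
  have h5 : Kp * ε ^ (4 * h) ≤ Km / 2 * ε ^ h := by
    rw [h3, ← mul_assoc]
    exact mul_le_mul_of_nonneg_right hsmall h4.le
  linarith

end Claimed.Agent.R255
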