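-- KEEP
import Claimed.Agent.R255.Rep.AlnMain
import Claimed.Agent.R255.Rep.MassBuf
import Claimed.Agent.R255.Comp.CutMain

/-!
# Row 255 (BR paper), Sec. 11, STAGE S4 = ALIGN (Lemma 11.3), file 4: THE CONCRETE INSTANCE      (architect helper46)

On the cut data `CutOK` of `Comp/CutDefs.lean` (current law `= T.P`, use `T.withLaw`), the buffered labels `bufP` / `Buffered` of `Rep/Buffer.lean` and the collapse `rm_collapse_buf` of `Rep/MassBuf.lean`.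
* `rpaX`            the `RpaData` of a cut with buffered labels
* `rpa_anchor_list` at most `(3 Mu + 1) ε^(-2h)` endpoint anchors over one time cell of depth `r = t - 2h`
* `rpa_good_cut`    `RpaData.Good` on any event `Ev` of charged samples
* `rpa_align_cut`   Lemma 11.3 in the vocabulary of `Comp/Main.lean`
* `rpa_misaligned_le`  with `CompHyp` : the right side of `rpa_align_cut` is `≤ 3 (Δ_t + 5 R)`   (11.alignment-misaligned-mass)
-/

set_option autoImplicit false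

namespace Claimed.Agent.R255

open scoped BigOperators
open Classical
open FLaw Pkt Osc

/-- the data of the alignment stage on a cut with buffered labels -/
noncomputable def rpaX (γ : ℝ) (E : PEnv) (T : PTest) (r h bs a : ℝ) (At : Atoms) (Cl : Classes At) {τ : Type}
    (tag : At.𝔸 → τ) (win : T.ι → ℕ × τ) (Lg : ℝ) (τV τX : E2) : RpaData where
  γ := γ
  E := E
  T := T
  r := r
  h := h
  bs := bs
  a := a
  At := At
  Cl := Cl
  τ := τ
  tag := tag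
  win := win
  Pt := Loc0
  PA := fun A => bufP E.ε r (E.u T.t) Lg τV τX (At.asite A)
  PO := fun i => bufP E.ε r (E.u T.t) Lg τV τX (T.site i)

/-- anchors of the endpoint sites over one time cell of depth `r = t - 2h` -/
theorem rpa_anchor_list {B : PBd} {E : PEnv} {T : PTest} (hE : E.Obeys B) (hT : T.Obeys B E) (r h : ℝ)
    (hr : r = T.t - 2 * h) (hh : 0 ≤ h) (k : ℤ) :
    ∃ S : Finset ℝ, (S.card : ℝ) ≤ (3 * (B.Mu : ℝ) + 1) * E.ε ^ (-(2 * h)) ∧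
      ∀ o, 0 < T.P.p o → ⌊(T.site (T.O o)).C / E.ε ^ r⌋ = k → (T.site (T.O o)).C ∈ S := by
  have hε := hE.ε0
  have ht : 0 < E.ε ^ T.t := Real.rpow_pos_of_pos hε _
  have hrp : 0 < E.ε ^ r := Real.rpow_pos_of_pos hε _
  obtain ⟨ρ, hρ⟩ : ∃ ρ : ℝ, ρ = E.ε ^ (-(2 * h)) := ⟨_, rfl⟩
  have hρ1 : 1 ≤ ρ := by
    rw [hρ]
    exact Real.one_le_rpow_of_pos_of_le_one_of_nonpos hε hE.ε1.le (by linarith)
  have hrel : E.ε ^ r = ρ * E.ε ^ T.t := by
    rw [hρ, ← Real.rpow_add hε, hr]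
    congr 1
    ring
  obtain ⟨S, hS⟩ : ∃ S : Finset ℝ, S = ((Finset.univ.filter T.act).image (fun j => (T.site j).C)).filter
      (fun c => ⌊c / E.ε ^ r⌋ = k) := ⟨_, rfl⟩
  obtain ⟨F, hF, hFm⟩ := rpa_floor_list (((k : ℝ) + 1 / 2) * E.ε ^ r) (ρ / 2) (E.ε ^ T.t) ht (by positivity)
  have himg : S.image (fun c => ⌊c / E.ε ^ T.t⌋) ⊆ F := by
    intro m hm
    obtain ⟨c, hc, rfl⟩ := Finset.mem_image.1 hm
    rw [hS, Finset.mem_filter] at hc
    refine hFm c ?_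
    have h1 := Int.floor_le (c / E.ε ^ r)
    have h2 := Int.lt_floor_add_one (c / E.ε ^ r)
    rw [hc.2] at h1 h2
    rw [le_div_iff₀ hrp] at h1
    rw [div_lt_iff₀ hrp] at h2
    rw [abs_le]
    constructor <;> nlinarith
  have hfib : ∀ m ∈ S.image (fun c => ⌊c / E.ε ^ T.t⌋),
      (S.filter (fun c => ⌊c / E.ε ^ T.t⌋ = m)).card ≤ B.Mu := by
    intro m hm
    obtain ⟨c₀, hc₀, rfl⟩ := Finset.mem_image.1 hm
    rw [hS, Finset.mem_filter, Finset.mem_image] at hc₀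
    obtain ⟨⟨i, hi, rfl⟩, -⟩ := hc₀
    have hact : T.act i := (Finset.mem_filter.1 hi).2
    refine le_trans (Finset.card_le_card ?_) (hT.multT i hact)
    intro c hc
    rw [Finset.mem_filter] at hc
    rw [hS, Finset.mem_filter] at hc
    rw [Finset.mem_filter]
    refine ⟨hc.1.1, ?_⟩
    have h1 := Int.abs_sub_lt_one_of_floor_eq_floor hc.2
    have e : c / E.ε ^ T.t - (T.site i).C / E.ε ^ T.t = (c - (T.site i).C) / E.ε ^ T.t := by ring
    rw [e, abs_div, abs_of_pos ht, div_lt_one ht] at h1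
    exact h1
  have hcard := Finset.card_le_mul_card_image S B.Mu hfib
  have hcard2 : (S.image (fun c => ⌊c / E.ε ^ T.t⌋)).card ≤ F.card := Finset.card_le_card himg
  refine ⟨S, ?_, fun o ho hk => ?_⟩
  · have h1 : (S.card : ℝ) ≤ (B.Mu : ℝ) * (F.card : ℝ) := by
      have : S.card ≤ B.Mu * F.card := hcard.trans (Nat.mul_le_mul_left _ hcard2)
      exact_mod_cast this
    have hMu : (0 : ℝ) ≤ (B.Mu : ℝ) := Nat.cast_nonneg _
    rw [← hρ]
    have h2 : (B.Mu : ℝ) * (F.card : ℝ) ≤ (B.Mu : ℝ) * (2 * (ρ / 2) + 2) := mul_le_mul_of_nonneg_left hF hMu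
    nlinarith
  · rw [hS, Finset.mem_filter, Finset.mem_image]
    exact ⟨⟨T.O o, Finset.mem_filter.2 ⟨Finset.mem_univ _, ⟨o, ho, rfl⟩⟩, rfl⟩, hk⟩

theorem rpa_mem_cand_iff {X : RpaData} {o : X.T.Ω} {T' : X.At.𝔸} :
    T' ∈ X.cand o ↔ X.Cl.lab X.tag T' = X.J o ∧ X.PA T' = X.PO (X.T.O o) := by
  unfold RpaData.cand
  rw [Finset.mem_filter]
  exact ⟨fun h => h.2, fun h => ⟨Finset.mem_univ _, h⟩⟩

/-- smallness of a positive power -/
theorem rpa_small_pow (δ q : ℝ) (hδ : 0 < δ) (hq : 0 < q) : ∃ ε₁ : ℝ, 0 < ε₁ ∧ ∀ ε : ℝ, 0 < ε → ε < ε₁ → ε ^ δ ≤ q := by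
  refine ⟨q ^ (1 / δ), Real.rpow_pos_of_pos hq _, fun ε h0 h1 => ?_⟩
  have h2 : ε ^ δ ≤ (q ^ (1 / δ)) ^ δ := Real.rpow_le_rpow h0.le h1.le hδ.le
  rwa [← Real.rpow_mul hq.le, one_div, inv_mul_cancel₀ hδ.ne', Real.rpow_one] at h2

theorem rpa_good_cut (γ : ℝ) (h0 : 0 < γ) (h1 : γ < 1) (B : PBd) (hB : B.Good) (p : Atoms.Par) (S0 Smax : ℕ)
    (A0 Lg Ka h η : ℝ) (hA0 : A0 / 2 < p.A) (hLg : 0 < Lg) (hKa : 0 < Ka) (hh : 0 < h) (hη : 0 < η) (hηh : η ≤ h) :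
    ∃ (Kc ε₀ : ℝ), 0 < Kc ∧ 0 < ε₀ ∧ ∀ (E : PEnv) (T : PTest) (r bs ξ : ℝ) (At : Atoms) (Cl : Classes At) (τ : Type)
      [Fintype τ] (tag : At.𝔸 → τ) (win : T.ι → ℕ × τ), E.ε < ε₀ → Fintype.card τ ≤ Smax → 0 ≤ ξ → ξ ≤ η →
      CutOK γ E B T r bs p ξ S0 A0 At Cl tag win → r = T.t - 2 * h →
      ∀ (τV τX : E2) (a e1 : ℝ) (Ev : T.Ω → Prop), E.u T.t - η ≤ a → h + η ≤ a - bs → 0 ≤ e1 →
      (∀ o, Ev o → 0 < T.P.p o) →
      (∀ o, Ev o → Buffered E.ε r (E.u T.t) Lg (2 * max (B.Ra + p.Ra) 1) τV τX (T.site (T.O o))) →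
      (∀ o, Ev o → |(T.geo (T.D o)).b - bs| ≤ η ∧ |(T.geo (T.D o)).a - a| ≤ η) →
      (∀ o, Ev o → e1 ≤ a - bs - Cl.jB (ctJ E r bs T win o).1 (ctJ E r bs T win o).2.1) →
      (∀ o, Ev o → a - bs - η ≤ Cl.lB (ctJ E r bs T win o).1 (ctJ E r bs T win o).2.1) →
      (∀ o, Ev o → ∀ A, Cl.lab tag A = ctJ E r bs T win o →
        bufP E.ε r (E.u T.t) Lg τV τX (At.asite A) = bufP E.ε r (E.u T.t) Lg τV τX (T.site (T.O o)) →
        Ka * E.ε ^ h ≤ |Real.sin ((Cl.acap A).th - (T.geo (T.D o)).th)|) →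
      (rpaX γ E T r h bs a At Cl tag win Lg τV τX).Good ⟨B.Ke, 2 * Lg, Ka, 3 * B.Mu + 1, Kc, η, ξ, e1, S0⟩ Ev := by
  obtain ⟨C, hC, hcol⟩ := rm_collapse_buf B hB p.Ra p.Bb
  obtain ⟨εa, hεa, hcol⟩ := hcol p.Mu p.Ca h (|A0| / 2 + 1) hh (by positivity)
  obtain ⟨εb, hεb, hsb⟩ := rpa_small_pow (p.A - A0 / 2) (1 / 2) (by linarith) (by norm_num)
  refine ⟨C * B.Mu * p.Mu + 1, min (min εa εb) (min 1 (1 / (8 * ((S0 : ℝ) * Smax) + 1))), by positivity,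
    by positivity, ?_⟩
  intro E T r bs ξ At Cl τ _ tag win hε hcard hξ0 hξη H hr τV τX a e1 Ev hbd he he1 hEv hBuf hsh hj hl hang
  have hE := H.obE
  have hT := H.obT
  have e0 := hE.ε0
  have hεa' : E.ε < εa := lt_of_lt_of_le hε ((min_le_left _ _).trans (min_le_left _ _))
  have hεb' : E.ε < εb := lt_of_lt_of_le hε ((min_le_left _ _).trans (min_le_right _ _))
  have hεc' : E.ε < 1 / (8 * ((S0 : ℝ) * Smax) + 1) := lt_of_lt_of_le hε ((min_le_right _ _).trans (min_le_right _ _))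
  have hq1 : E.ε ^ (p.A - A0 / 2) ≤ 1 / 2 := hsb E.ε e0 hεb'
  have hq2 : 8 * ((S0 : ℝ) * Fintype.card τ) * E.ε ^ (|A0| / 2 + 1 - A0 / 2) ≤ 1 := by
    have h2 : E.ε ^ (|A0| / 2 + 1 - A0 / 2) ≤ E.ε := by
      have := Real.rpow_le_rpow_of_exponent_ge e0 hE.ε1.le (show (1 : ℝ) ≤ |A0| / 2 + 1 - A0 / 2 by
        linarith [le_abs_self A0])
      rwa [Real.rpow_one] at this
    have h3 : (Fintype.card τ : ℝ) ≤ Smax := by exact_mod_cast hcard
    have h4 : (0 : ℝ) ≤ (S0 : ℝ) := Nat.cast_nonneg _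
    have h5 : (0 : ℝ) ≤ (Fintype.card τ : ℝ) := Nat.cast_nonneg _
    have h6 : 8 * ((S0 : ℝ) * Fintype.card τ) ≤ 8 * ((S0 : ℝ) * Smax) := by nlinarith
    have h7 : 0 < 8 * ((S0 : ℝ) * Smax) + 1 := by positivity
    rw [lt_div_iff₀ h7] at hεc'
    have h8 : 0 ≤ 8 * ((S0 : ℝ) * Fintype.card τ) := by positivity
    calc 8 * ((S0 : ℝ) * Fintype.card τ) * E.ε ^ (|A0| / 2 + 1 - A0 / 2)
        ≤ 8 * ((S0 : ℝ) * Fintype.card τ) * E.ε := mul_le_mul_of_nonneg_left h2 h8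
      _ ≤ 8 * ((S0 : ℝ) * Smax) * E.ε := mul_le_mul_of_nonneg_right h6 e0.le
      _ ≤ 1 := by nlinarith
  have hKe : 0 ≤ B.Ke := by
    obtain ⟨o, ho⟩ := ct_exists_supp T.P
    have hg := (hT.geo o ho).2.2.2.2.2.1.1
    have h2 := (abs_nonneg _).trans hg
    have h3 : 0 < E.ε ^ (T.geo (T.D o)).b := Real.rpow_pos_of_pos e0 _
    by_contra hcon
    push Not at hcon
    nlinarith
  have hrt : r ≤ T.t := H.rt
  have hact : ∀ o, Ev o → T.act (T.O o) := fun o ho => ⟨o, hEv o ho, rfl⟩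
  refine
    { ε0 := e0, ε1 := hE.ε1, γ0 := h0, γ1 := h1, Ke0 := hKe, Kg0 := by positivity, Ka0 := hKa,
      Kt0 := by positivity, Kc0 := by positivity, η0 := hη.le, ξ0 := hξ0, e10 := he1, h0 := hh, ηh := hηh, hr := hr,
      he := he, cls := H.goodC, geo := fun o ho => hT.geo o (hEv o ho), shape := hsh, bdry := hbd, shj := hj,
      shl := hl, cellV := ?_, cellX := ?_, ang := ?_, anch := ?_, mpos := ?_, collapse := ?_ }
  · intro o ho T' hT'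
    exact (rpb_close e0 hLg (rpa_mem_cand hT').2).2.1
  · intro o ho T' hT'
    have h2 := (rpb_close e0 hLg (rpa_mem_cand hT').2).2.2
    have h3 := (rpb_back_anchor (r := r) e0 (At.asite T') (At.loc T').1 (H.goodA.time T')).1
    rw [h3] at h2
    have h4 : E.ε ^ (r + E.u T.t) = E.ε ^ r * E.ε ^ (E.u T.t) := Real.rpow_add e0 _ _
    show ‖(At.asite T').X - _‖ ≤ 2 * Lg * E.ε ^ (r + E.u T.t)
    rw [h4]
    exact h2
  · intro o ho T' hT'
    exact hang o ho T' (rpa_mem_cand hT').1 (rpa_mem_cand hT').2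
  · intro o₀ ho₀
    obtain ⟨S, hS, hm⟩ := rpa_anchor_list hE hT r h hr hh.le (ctJ E r bs T win o₀).1.1
    exact ⟨S, hS, fun o ho hk => hm o (hEv o ho) hk⟩
  · intro o ho
    have h2 := rm_winner γ ξ S0 Cl tag T.site win hE H.goodA H.goodC H.win A0 hq1 (T.O o)
      (rm_siteOK hT _ (hact o ho)) (H.floor o (hEv o ho))
    have h3 := hT.mpos o (hEv o ho)
    have h4 := h3.trans_le h2
    by_contra hcon
    push Not at hcon
    have h5 : mass E.lam (E.rho T.t) E.Φ (Cl.hJ E r tag (Classes.Jof E r bs T.site win (T.O o))) (T.site (T.O o)) ≤ 0 :=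
      hcon
    have h6 : 0 ≤ 4 * ((S0 : ℝ) * Fintype.card τ) ^ 2 := by positivity
    nlinarith
  · intro (o₀ : T.Ω) ho₀ (S : Finset T.Ω) hS hinj
    have hinj' : ∀ o ∈ S, ∀ o' ∈ S, T.O o = T.O o' → o = o' := hinj
    have key := (hcol E T r bs p At rfl rfl rfl rfl hE hT hεa' H.r0 hrt H.bs0 (ct_bs_le H).1 H.goodA
      (by rw [hr]; linarith) γ ξ S0 Cl τ tag win H.goodC H.win A0 hq1 hq2 Lg τV τX (ctJ E r bs T win o₀)
      (bufP E.ε r (E.u T.t) Lg τV τX (T.site (T.O o₀))) (T.site (T.O o₀)).C (S.image T.O) (by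
        intro i hi
        obtain ⟨o, ho, rfl⟩ := Finset.mem_image.1 hi
        obtain ⟨hA, hZ, hJ⟩ := hS o ho
        exact ⟨hact o hA, congrArg Prod.snd hZ, hJ, H.floor o (hEv o hA), hBuf o hA, congrArg Prod.fst hZ⟩)).1
    rw [Finset.sum_image hinj'] at key
    have es : ∑ o ∈ S, (rpaX γ E T r h bs a At Cl tag win Lg τV τX).mW o
        = ∑ o ∈ S, mass E.lam (E.rho T.t) E.Φ (Cl.hJ E r tag (ctJ E r bs T win o₀)) (T.site (T.O o)) := by
      refine Finset.sum_congr rfl fun o ho => ?_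
      have hJ : ctJ E r bs T win o = ctJ E r bs T win o₀ := (hS o ho).2.2
      rw [← hJ]
      rfl
    have hc : ∀ (inst : DecidablePred (fun A => Cl.lab tag A = ctJ E r bs T win o₀ ∧
        bufP E.ε r (E.u T.t) Lg τV τX (At.asite A) = bufP E.ε r (E.u T.t) Lg τV τX (T.site (T.O o₀)))),
        @Finset.filter _ (fun A => Cl.lab tag A = ctJ E r bs T win o₀ ∧
          bufP E.ε r (E.u T.t) Lg τV τX (At.asite A) = bufP E.ε r (E.u T.t) Lg τV τX (T.site (T.O o₀))) inst Finset.univ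
          = (rpaX γ E T r h bs a At Cl tag win Lg τV τX).cand o₀ := by
      intro inst
      ext A
      rw [Finset.mem_filter]
      exact ⟨fun h => rpa_mem_cand_iff.2 h.2, fun h => ⟨Finset.mem_univ _, rpa_mem_cand_iff.1 h⟩⟩
    rw [hc] at key
    refine (le_of_eq es).trans (key.trans ?_)
    show C * B.Mu * p.Mu * (((rpaX γ E T r h bs a At Cl tag win Lg τV τX).cand o₀).card : ℝ)
        * (Cl.mB (ctJ E r bs T win o₀).1 (ctJ E r bs T win o₀).2.1 * E.ε ^ (-ξ))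
      ≤ (C * B.Mu * p.Mu + 1) * E.ε ^ (-η) * Cl.mB (ctJ E r bs T win o₀).1 (ctJ E r bs T win o₀).2.1
        * (((rpaX γ E T r h bs a At Cl tag win Lg τV τX).cand o₀).card : ℝ)
    rcases Finset.eq_empty_or_nonempty ((rpaX γ E T r h bs a At Cl tag win Lg τV τX).cand o₀) with hN | hN
    · rw [hN]
      simp
    · obtain ⟨A, hA⟩ := hN
      have hlab : Cl.lab tag A = ctJ E r bs T win o₀ := (rpa_mem_cand hA).1
      have hx : 0 < E.ε ^ (-ξ) := Real.rpow_pos_of_pos e0 _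
      have hxy : E.ε ^ (-ξ) ≤ E.ε ^ (-η) := Real.rpow_le_rpow_of_exponent_ge e0 hE.ε1.le (by linarith)
      have hm : 0 ≤ Cl.mB (ctJ E r bs T win o₀).1 (ctJ E r bs T win o₀).2.1 := by
        have h2 := H.goodC.massHi A
        have h3 : At.loc A = (ctJ E r bs T win o₀).1 := by rw [← hlab]; rfl
        have h4 : Cl.cls A = (ctJ E r bs T win o₀).2.1 := by rw [← hlab]; rfl
        rw [h3, h4] at h2
        have h5 := (sq_nonneg _).trans h2
        by_contra hcon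
        push Not at hcon
        nlinarith
      have hN0 : (0 : ℝ) ≤ (((rpaX γ E T r h bs a At Cl tag win Lg τV τX).cand o₀).card : ℝ) := Nat.cast_nonneg _
      have hC' : 0 ≤ C * B.Mu * p.Mu := by positivity
      generalize (((rpaX γ E T r h bs a At Cl tag win Lg τV τX).cand o₀).card : ℝ) = N at hN0 ⊢
      generalize Cl.mB (ctJ E r bs T win o₀).1 (ctJ E r bs T win o₀).2.1 = m at hm ⊢
      generalize C * B.Mu * p.Mu = C' at hC' ⊢
      have h6 : 0 ≤ N * m := mul_nonneg hN0 hm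
      have h7 : N * m * E.ε ^ (-ξ) ≤ N * m * E.ε ^ (-η) := mul_le_mul_of_nonneg_left hxy h6
      have h8 : 0 ≤ N * m * E.ε ^ (-η) := le_trans (by positivity) h7
      nlinarith

/-- `d_1` in the two vocabularies -/
theorem rpa_d1_eq (E : PEnv) {At : Atoms} (Cl : Classes At) {τ : Type} (tag : At.𝔸 → τ) (j : Classes.Lab τ) :
    Cl.d1 E tag j = pcd1 (Cl.LA E) (Cl.LN E tag) j := by
  unfold Classes.d1 pcd1 Classes.LA Classes.LN pcLN Classes.Nall Classes.N Classes.clsAll Classes.clsOf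
  ring

/-- **Lemma 11.3 on cut data** -/
theorem rpa_align_cut (γ : ℝ) (h0 : 0 < γ) (h1 : γ < 1) (B : PBd) (hB : B.Good) (p : Atoms.Par) (S0 Smax : ℕ)
    (A0 Lg Ka h η : ℝ) (hA0 : A0 / 2 < p.A) (hLg : 0 < Lg) (hKa : 0 < Ka) (hh : 0 < h) (hη : 0 < η) (hηh : η ≤ h) :
    ∃ ε₀ : ℝ, 0 < ε₀ ∧ ∀ (E : PEnv) (T : PTest) (r bs ξ : ℝ) (At : Atoms) (Cl : Classes At) (τ : Type)
      [Fintype τ] (tag : At.𝔸 → τ) (win : T.ι → ℕ × τ), E.ε < ε₀ → Fintype.card τ ≤ Smax → 0 ≤ ξ → ξ ≤ η →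
      CutOK γ E B T r bs p ξ S0 A0 At Cl tag win → r = T.t - 2 * h →
      ∀ (τV τX : E2) (a e1 : ℝ) (Bm : Classes.Lab τ → Prop), E.u T.t - η ≤ a → h + η ≤ a - bs → 0 ≤ e1 →
      (∀ o, 0 < T.P.p o → Bm (ctJ E r bs T win o) →
        Buffered E.ε r (E.u T.t) Lg (2 * max (B.Ra + p.Ra) 1) τV τX (T.site (T.O o))) →
      (∀ o, 0 < T.P.p o → Bm (ctJ E r bs T win o) →
        |(T.geo (T.D o)).b - bs| ≤ η ∧ |(T.geo (T.D o)).a - a| ≤ η) →
      (∀ o, 0 < T.P.p o → Bm (ctJ E r bs T win o) →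
        e1 ≤ a - bs - Cl.jB (ctJ E r bs T win o).1 (ctJ E r bs T win o).2.1) →
      (∀ o, 0 < T.P.p o → Bm (ctJ E r bs T win o) →
        a - bs - η ≤ Cl.lB (ctJ E r bs T win o).1 (ctJ E r bs T win o).2.1) →
      (∀ o, 0 < T.P.p o → Bm (ctJ E r bs T win o) → ∀ A, Cl.lab tag A = ctJ E r bs T win o →
        bufP E.ε r (E.u T.t) Lg τV τX (At.asite A) = bufP E.ε r (E.u T.t) Lg τV τX (T.site (T.O o)) →
        Ka * E.ε ^ h ≤ |Real.sin ((Cl.acap A).th - (T.geo (T.D o)).th)|) →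
      T.P.pr (fun o => Bm (ctJ E r bs T win o)) * (2 * γ * e1 - 9 * h - 51 * η)
        ≤ T.P.ev (fun o => if Bm (ctJ E r bs T win o) then
            pcd1 (Cl.LA E) (Cl.LN E tag) (ctJ E r bs T win o)
              + 3 * (pcA (Cl.LN E tag) (Cl.Lm E) Cl.gJ (ctJ E r bs T win o)
                - pcPJ (lg E.ε) T.P T.O T.D (ctJ E r bs T win) (Cl.LmW E r bs tag T win) (ctW γ T) bs o) else 0) := by
  obtain ⟨Kc, ε₁, hKc, hε₁, hgood⟩ := rpa_good_cut γ h0 h1 B hB p S0 Smax A0 Lg Ka h η hA0 hLg hKa hh hη hηh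
  obtain ⟨ε₂, hε₂, hsm⟩ := ct_small (RpaC.Klog ⟨B.Ke, 2 * Lg, Ka, 3 * B.Mu + 1, Kc, 0, 0, 0, 0⟩) η hη
  refine ⟨min ε₁ ε₂, lt_min hε₁ hε₂, ?_⟩
  intro E T r bs ξ At Cl τ _ tag win hε hcard hξ0 hξη H hr τV τX a e1 Bm hbd he he1 hBuf hsh hj hl hang
  have hpos : ∀ o, (T.P.p o ≠ 0 ∧ Bm (ctJ E r bs T win o)) → 0 < T.P.p o := fun o ho => ct_pos_of_ne _ ho.1
  have G := hgood E T r bs ξ At Cl τ tag win (lt_of_lt_of_le hε (min_le_left _ _)) hcard hξ0 hξη H hr τV τX a e1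
    (fun o => T.P.p o ≠ 0 ∧ Bm (ctJ E r bs T win o)) hbd he he1 hpos
    (fun o ho => hBuf o (hpos o ho) ho.2) (fun o ho => hsh o (hpos o ho) ho.2) (fun o ho => hj o (hpos o ho) ho.2)
    (fun o ho => hl o (hpos o ho) ho.2) (fun o ho => hang o (hpos o ho) ho.2)
  have key := rpa_align (X := rpaX γ E T r h bs a At Cl tag win Lg τV τX) T.P Bm G
  have hK : RpaC.Klog ⟨B.Ke, 2 * Lg, Ka, 3 * B.Mu + 1, Kc, 0, 0, 0, 0⟩ / lg E.ε ≤ η :=
    hsm E.ε H.obE.ε0 (lt_of_lt_of_le hε (min_le_right _ _))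
  have key' : T.P.pr (fun o => Bm (ctJ E r bs T win o)) * (2 * γ * e1 - 9 * h - 25 * (η + ξ)
      - RpaC.Klog ⟨B.Ke, 2 * Lg, Ka, 3 * B.Mu + 1, Kc, 0, 0, 0, 0⟩ / lg E.ε)
      ≤ T.P.ev (fun o => if Bm (ctJ E r bs T win o) then
          Cl.d1 E tag (ctJ E r bs T win o) + 3 * (Cl.AJ E tag (ctJ E r bs T win o)
            - pcPJ (lg E.ε) T.P T.O T.D (ctJ E r bs T win) (Cl.LmW E r bs tag T win) (ctW γ T) bs o) else 0) := key
  have hp := ent_pr_nonneg T.P (fun o => Bm (ctJ E r bs T win o))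
  have e2 : T.P.ev (fun o => if Bm (ctJ E r bs T win o) then
          Cl.d1 E tag (ctJ E r bs T win o) + 3 * (Cl.AJ E tag (ctJ E r bs T win o)
            - pcPJ (lg E.ε) T.P T.O T.D (ctJ E r bs T win) (Cl.LmW E r bs tag T win) (ctW γ T) bs o) else 0)
      = T.P.ev (fun o => if Bm (ctJ E r bs T win o) then
            pcd1 (Cl.LA E) (Cl.LN E tag) (ctJ E r bs T win o)
              + 3 * (pcA (Cl.LN E tag) (Cl.Lm E) Cl.gJ (ctJ E r bs T win o)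
                - pcPJ (lg E.ε) T.P T.O T.D (ctJ E r bs T win) (Cl.LmW E r bs tag T win) (ctW γ T) bs o) else 0) :=
    ent_ev_congr T.P fun o _ => by rw [rpa_d1_eq, ct_AJ_eq]
  rw [← e2]
  refine le_trans (mul_le_mul_of_nonneg_left ?_ hp) key'
  linarith

/-- **(11.alignment-misaligned-mass)** : the mass of the misaligned winners is bounded by the current deficit -/
theorem rpa_misaligned_le {Ω α β 𝒥 : Type} [Fintype Ω] {l : ℝ} {P : FLaw Ω} {O : Ω → α} {D : Ω → β} {J : Ω → 𝒥}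
    {lm lmW w : Ω → ℝ} {bs : ℝ} {LA LN Lm g K : 𝒥 → ℝ} {K0 b r t R : ℝ}
    (Hc : CompHyp l P O D J lm lmW w bs LA LN Lm g K K0 b r t R) (hb : 0 ≤ b * (t - r) + 2 * R) (Bm : 𝒥 → Prop) :
    P.ev (fun o => if Bm (J o) then pcd1 LA LN (J o) + 3 * (pcA LN Lm g (J o) - pcPJ l P O D J lmW w bs o) else 0)
      ≤ 3 * ((K0 + b * t - pscore l P O D lm w) + 5 * R) := by
  have h1 : P.ev (fun o => if Bm (J o) then pcd1 LA LN (J o) + 3 * (pcA LN Lm g (J o) - pcPJ l P O D J lmW w bs o) else 0)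
      ≤ P.ev (fun o => 3 * (pcd1 LA LN (J o) + pcd2 LN Lm g K R (J o) + pcd3 l P O D J lmW w bs K b r t R o)) := by
    refine ent_ev_mono P fun o ho => ?_
    have d1 := Hc.d1_nonneg o ho
    have d2 := Hc.d2_nonneg o ho
    have d3 := Hc.d3_nonneg o ho
    by_cases hB : Bm (J o)
    · rw [if_pos hB]
      unfold pcd2 pcd3 at *
      linarith
    · rw [if_neg hB]
      linarith
  rw [ent_ev_mul_left] at h1
  have h2 := pc_comp Hc
  have h3 := Hc.d0_nonneg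
  linarith

end Claimed.Agent.R255
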