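-- KEEP
import Claimed.Agent.R255.Rep.Select
import Claimed.Agent.R255.Rep.Out
import Claimed.Agent.R255.Comp.ExpDefs

/-!
# Row 255 (BR paper), Secs. 10.4 + 11.3, stage S5 SELECT, file 2: bad earlier shapes on the frozen data of a cut      (architect helper264; prefix `rsel_`)

The current law is `T.P` (use `T.withLaw Q`).
* `RselCutB`, `RselCutC`   parts (B), (C) of `cut_main` as propositions;  `rsel_cut_main` = `cut_main` in this vocabulary.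
* `rsel_bad`       a `J`-measurable event on which EVERY test at time `r` made of assigned caps of its atoms has deficit `≥ cg` has mass `≤ (3/2)(deficit + e) / (cg - 7 R)`.
* `rsel_slack_pr`  `Bad = {l_B(J) + b_* < u_r - ϑ}`            [(X1) = L10.3]
* `rsel_forced_pr` `Bad = {u_0 - ν + ϑ < j_B(J) + b_*}`        [(X2), forced root gap]
* `rselBin`, `rsel_bin_mem`, `rsel_bin_close`   the shape bins of mesh `ϑ`.
-/

set_option autoImplicit false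

namespace Claimed.Agent.R255

open scoped BigOperators
open Classical
open FLaw Pkt

/-- part (B) of `cut_main` -/
def RselCutB (γ β : ℝ) (B : PBd) (c : CutPar) (dmin rmin R A0 : ℝ) (Smax : ℕ) (ε₀ : ℝ) : Prop :=
  ∀ (E : PEnv) (T : PTest) (r bs : ℝ) (At : Atoms) (Cl : Classes At) (τ : Type) [Fintype τ] (tag : At.𝔸 → τ)
    (win : T.ι → ℕ × τ), E.ε < ε₀ → Fintype.card τ ≤ Smax →
    CutOK γ E B T r bs c.p c.ξ c.S0 A0 At Cl tag win → r + dmin ≤ T.t → (r = 0 ∨ rmin ≤ r) →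
    WinOK E r bs T Cl tag win ((c.S0 : ℝ) * (Fintype.card τ : ℝ)) ∧
    CompHyp (lg E.ε) T.P T.O T.D (ctJ E r bs T win) (ctLm E T) (Cl.LmW E r bs tag T win) (ctW γ T) bs
      (Cl.LA E) (Cl.LN E tag) (Cl.Lm E) Cl.gJ (fun j => K0 γ c.Mloc (Cl.envJ E r bs tag j)) (K0 γ B.M E)
      β r T.t R

/-- part (C) of `cut_main` -/
def RselCutC (γ : ℝ) (B : PBd) (c : CutPar) (rmin A0 : ℝ) : Prop :=
  ∀ (E : PEnv) (T : PTest) (r bs : ℝ) (At : Atoms) (Cl : Classes At) (τ : Type) (tag : At.𝔸 → τ)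
    (win : T.ι → ℕ × τ) (_ : Nonempty At.𝔸) (cl : Classes.Lab τ → Finset At.𝔸) (ap : At.𝔸 → Geo),
    CutOK γ E B T r bs c.p c.ξ c.S0 A0 At Cl tag win → rmin ≤ r → EarlyOK E r T At Cl (ctJ E r bs T win) cl ap →
    E.Obeys c.Bat ∧ (At.earlierX r T (ctJ E r bs T win) cl ap).Obeys c.Bat E

/-- `cut_main` in this vocabulary -/
theorem rsel_cut_main (γ β : ℝ) (h0 : 0 < γ) (h1 : γ < 1) (hrate : PRate γ β) (B : PBd) (hB : B.Good)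
    (dmin rmin R A0 : ℝ) (hd : 0 < dmin) (hr : 0 < rmin) (hR : 0 < R) (Smax : ℕ) :
    ∃ (c : CutPar) (ε₀ : ℝ), 0 < ε₀ ∧ 0 < c.ξ ∧ c.ξ ≤ R ∧ 10 ≤ c.Mloc ∧ c.Bat.Good ∧ c.Bat.M = B.M ∧
      (∀ E : PEnv, E.Obeys B → E.ε < ε₀ → 0 < E.nrm2 → ∀ t r bs : ℝ, 0 ≤ r → r + dmin ≤ t → 0 ≤ bs → bs ≤ E.u t →
        bs ≤ E.L - t → ∃ (At : Atoms) (Cl : Classes At), At.Good E B t r bs c.p ∧ Cl.Good γ E r bs c.ξ c.S0) ∧
      RselCutB γ β B c dmin rmin R A0 Smax ε₀ ∧ RselCutC γ B c rmin A0 :=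
  cut_main γ β h0 h1 hrate B hB dmin rmin R A0 hd hr hR Smax

theorem rsel_cut_eqns_cite : True := by
  have := @RselCutB.eq_1
  have := @RselCutC.eq_1
  trivial

/-- **bad `J`-measurable events have small mass** -/
theorem rsel_bad (γ β : ℝ) (hrate : PRate γ β) (B : PBd) (hB : B.Good) (c : CutPar) (dmin rmin R A0 : ℝ)
    (Smax : ℕ) (ε₁ : ℝ) (hε₁ : 0 < ε₁) (hCB : RselCutB γ β B c dmin rmin R A0 Smax ε₁) (hCC : RselCutC γ B c rmin A0)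
    (hM : c.Bat.M = B.M) (hξ : c.ξ ≤ R) (e : ℝ) (he : 0 < e) :
    ∃ ε₀ : ℝ, 0 < ε₀ ∧ ∀ (E : PEnv) (T : PTest) (r bs : ℝ) (At : Atoms) (Cl : Classes At) (τ : Type) [Fintype τ]
      (tag : At.𝔸 → τ) (win : T.ι → ℕ × τ), E.ε < ε₀ → Fintype.card τ ≤ Smax →
      CutOK γ E B T r bs c.p c.ξ c.S0 A0 At Cl tag win → r + dmin ≤ T.t → rmin ≤ r →
      ∀ (Bad : Classes.Lab τ → Prop) (cg : ℝ), 7 * R < cg →
      (∀ T' : PTest, T'.t = r → E.Obeys c.Bat → T'.Obeys c.Bat E →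
        (∀ x, 0 < T'.P.p x → ∃ A, Bad (Cl.lab tag A) ∧ T'.geo (T'.D x) = Cl.acap A) →
        cg ≤ K0 γ c.Bat.M E + β * T'.t - score γ E T') →
      T.P.pr (fun o => Bad (ctJ E r bs T win o)) ≤ 3 / 2 * (pcxDef γ β B.M E T + e) / (cg - 7 * R) := by
  obtain ⟨ε₂, hε₂, H2⟩ := rsel_restrict γ β hrate B hB e he
  refine ⟨min ε₁ ε₂, lt_min hε₁ hε₂, ?_⟩
  intro E T r bs At Cl τ _ tag win hε hcard H hrt hr Bad cg hcg hgap
  obtain ⟨a1, a2⟩ := H2 E T (lt_of_lt_of_le hε (min_le_right _ _)) H.obE H.obT T.P (pcx_sub_self T)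
  have a1' : -e ≤ pcxDef γ β B.M E T := a1
  have hden : 0 < cg - 7 * R := by linarith
  by_cases hp : 0 < T.P.pr (fun o => Bad (ctJ E r bs T win o))
  · set Q : FLaw T.Ω := T.P.cnd (fun o => Bad (ctJ E r bs T win o)) with hQ
    have hsub : ∀ o, 0 < Q.p o → 0 < T.P.p o := rsel_sub_pos (rsel_sub_cnd (pcx_sub_self T) _)
    have HB : CutOK γ E B (T.withLaw Q) r bs c.p c.ξ c.S0 A0 At Cl tag win := H.withLaw Q hsub
    obtain ⟨hW, hC⟩ := hCB E (T.withLaw Q) r bs At Cl τ tag win (lt_of_lt_of_le hε (min_le_left _ _)) hcard HB hrt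
      (Or.inr hr)
    obtain ⟨o₀, ho₀⟩ := ct_exists_supp Q
    have : Nonempty At.𝔸 := ⟨(ct_cls_nonempty HB hW o₀ ho₀.ne').choose⟩
    have hEO := (ct_early_acap HB hW).2
    obtain ⟨b1, b2⟩ := hCC E (T.withLaw Q) r bs At Cl τ tag win inferInstance (Cl.clsOf tag) Cl.acap HB hr hEO
    have b3 := rpo_defi_el HB hW hC
    have b4 := hgap (At.earlierX r (T.withLaw Q) (ctJ E r bs (T.withLaw Q) win) (Cl.clsOf tag) Cl.acap) rfl b1 b2 ?_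
    · have b5 : cg ≤ K0 γ B.M E + β * r
          - score γ E (At.earlierX r (T.withLaw Q) (ctJ E r bs (T.withLaw Q) win) (Cl.clsOf tag) Cl.acap) := by
        rw [← hM]
        exact b4
      have b6 : cg - 7 * R ≤ 3 / 2 * pcxDef γ β B.M E (T.withLaw Q) := by
        have hR0 : 0 ≤ R := by
          have := HB.goodC.widthj (ct_cls_nonempty HB hW o₀ ho₀.ne').choose
          have h2 := abs_nonneg ((Cl.acap (ct_cls_nonempty HB hW o₀ ho₀.ne').choose).b - bs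
            - Cl.jB (At.loc (ct_cls_nonempty HB hW o₀ ho₀.ne').choose) (Cl.cls (ct_cls_nonempty HB hW o₀ ho₀.ne').choose))
          linarith
        linarith
      have b7 := a2 (fun o => Bad (ctJ E r bs T win o))
      rw [le_div_iff₀ hden]
      have hp0 := hp.le
      have b8 : T.P.pr (fun o => Bad (ctJ E r bs T win o)) * (cg - 7 * R)
          ≤ T.P.pr (fun o => Bad (ctJ E r bs T win o)) * (3 / 2 * pcxDef γ β B.M E (T.withLaw Q)) :=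
        mul_le_mul_of_nonneg_left b6 hp0
      have b9 : pcxDef γ β B.M E (T.withLaw T.P) = pcxDef γ β B.M E T := rfl
      rw [b9] at b7
      nlinarith
    · intro x hx
      obtain ⟨c1, c2, -⟩ := ct_eo_supp hEO x hx
      refine ⟨x.2, ?_, rfl⟩
      have c3 : Cl.lab tag x.2 = ctJ E r bs T win x.1 := (Finset.mem_filter.1 c2).2
      rw [c3]
      exact ((ent_cnd_supp T.P _ hp).1 (ne_of_gt c1)).1
  · have h0 : T.P.pr (fun o => Bad (ctJ E r bs T win o)) = 0 := le_antisymm (not_lt.1 hp) (ent_pr_nonneg _ _)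
    rw [h0]
    have : 0 ≤ pcxDef γ β B.M E T + e := by linarith
    positivity

/-- **slack shapes have small mass**   [(X1) = L10.3 for the earlier tests] -/
theorem rsel_slack_pr (γ β : ℝ) (hrate : PRate γ β) (hS : PcxSlack γ β) (ϑ : ℝ) (hϑ : 0 < ϑ) :
    ∃ c₁ : ℝ, 0 < c₁ ∧ ∀ (B : PBd), B.Good → ∀ (c : CutPar) (dmin rmin R A0 : ℝ) (Smax : ℕ) (ε₁ : ℝ), 0 < ε₁ →
      RselCutB γ β B c dmin rmin R A0 Smax ε₁ → RselCutC γ B c rmin A0 → c.Bat.Good → c.Bat.M = B.M → c.ξ ≤ R →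
      c.ξ ≤ ϑ / 2 → ϑ / 2 ≤ rmin → 7 * R < c₁ → ∀ e : ℝ, 0 < e →
      ∃ ε₀ : ℝ, 0 < ε₀ ∧ ∀ (E : PEnv) (T : PTest) (r bs : ℝ) (At : Atoms) (Cl : Classes At) (τ : Type) [Fintype τ]
        (tag : At.𝔸 → τ) (win : T.ι → ℕ × τ), E.ε < ε₀ → Fintype.card τ ≤ Smax →
        CutOK γ E B T r bs c.p c.ξ c.S0 A0 At Cl tag win → r + dmin ≤ T.t → rmin ≤ r →
        T.P.pr (fun o => Cl.lB (ctJ E r bs T win o).1 (ctJ E r bs T win o).2.1 + bs < E.u r - ϑ)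
          ≤ 3 / 2 * (pcxDef γ β B.M E T + e) / (c₁ - 7 * R) := by
  obtain ⟨c₁, hc₁, H1⟩ := hS (ϑ / 2) (by positivity)
  refine ⟨c₁, hc₁, ?_⟩
  intro B hB c dmin rmin R A0 Smax ε₁ hε₁ hCB hCC hBat hM hξ hξϑ hrm hR e he
  obtain ⟨ε₂, hε₂, H2⟩ := H1 c.Bat hBat
  obtain ⟨ε₃, hε₃, H3⟩ := rsel_bad γ β hrate B hB c dmin rmin R A0 Smax ε₁ hε₁ hCB hCC hM hξ e he
  refine ⟨min ε₂ ε₃, lt_min hε₂ hε₃, ?_⟩
  intro E T r bs At Cl τ _ tag win hε hcard H hrt hr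
  refine H3 E T r bs At Cl τ tag win (lt_of_lt_of_le hε (min_le_right _ _)) hcard H hrt hr
    (fun J => Cl.lB J.1 J.2.1 + bs < E.u r - ϑ) c₁ hR ?_
  intro T' ht' hE' hT' hx
  refine H2 E T' (lt_of_lt_of_le hε (min_le_left _ _)) hE' hT' (by rw [ht']; linarith) ?_
  intro x hxp
  obtain ⟨A, hA, hg⟩ := hx x hxp
  rw [hg, ht']
  have w := abs_le.1 (H.goodC.widthl A)
  have hA' : Cl.lB (At.loc A) (Cl.cls A) + bs < E.u r - ϑ := hA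
  linarith [w.2]

/-- **shapes violating the forced root gap have small mass**   [(X2)] -/
theorem rsel_forced_pr (γ β : ℝ) (hrate : PRate γ β) (hF : PcxForced γ β) (ν κ ϑ : ℝ) (hκ : 0 < κ) (hϑ : 0 < ϑ) :
    ∃ c₁ : ℝ, 0 < c₁ ∧ ∀ (B : PBd), B.Good → ∀ (c : CutPar) (dmin rmin R A0 : ℝ) (Smax : ℕ) (ε₁ : ℝ), 0 < ε₁ →
      RselCutB γ β B c dmin rmin R A0 Smax ε₁ → RselCutC γ B c rmin A0 → c.Bat.Good → c.Bat.M = B.M → c.ξ ≤ R →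
      c.ξ ≤ ϑ / 2 → 7 * R < c₁ → ∀ e : ℝ, 0 < e →
      ∃ ε₀ : ℝ, 0 < ε₀ ∧ ∀ (E : PEnv) (T : PTest) (r bs : ℝ) (At : Atoms) (Cl : Classes At) (τ : Type) [Fintype τ]
        (tag : At.𝔸 → τ) (win : T.ι → ℕ × τ), E.ε < ε₀ → Fintype.card τ ≤ Smax →
        CutOK γ E B T r bs c.p c.ξ c.S0 A0 At Cl tag win → r + dmin ≤ T.t → rmin ≤ r →
        K0geLe γ B.M E (E.u 0 - ν) (K0 γ B.M E - κ) →
        T.P.pr (fun o => E.u 0 - ν + ϑ < Cl.jB (ctJ E r bs T win o).1 (ctJ E r bs T win o).2.1 + bs)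
          ≤ 3 / 2 * (pcxDef γ β B.M E T + e) / (c₁ - 7 * R) := by
  obtain ⟨c₁, hc₁, H1⟩ := hF ν κ (ϑ / 2) hκ (by positivity)
  refine ⟨c₁, hc₁, ?_⟩
  intro B hB c dmin rmin R A0 Smax ε₁ hε₁ hCB hCC hBat hM hξ hξϑ hR e he
  obtain ⟨ε₂, hε₂, H2⟩ := H1 c.Bat hBat
  obtain ⟨ε₃, hε₃, H3⟩ := rsel_bad γ β hrate B hB c dmin rmin R A0 Smax ε₁ hε₁ hCB hCC hM hξ e he
  refine ⟨min ε₂ ε₃, lt_min hε₂ hε₃, ?_⟩
  intro E T r bs At Cl τ _ tag win hε hcard H hrt hr hgap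
  refine H3 E T r bs At Cl τ tag win (lt_of_lt_of_le hε (min_le_right _ _)) hcard H hrt hr
    (fun J => E.u 0 - ν + ϑ < Cl.jB J.1 J.2.1 + bs) c₁ hR ?_
  intro T' _ hE' hT' hx
  refine H2 E T' (lt_of_lt_of_le hε (min_le_left _ _)) hE' hT' (by rw [hM]; exact hgap) ?_
  intro x hxp
  obtain ⟨A, hA, hg⟩ := hx x hxp
  rw [hg]
  have w := abs_le.1 (H.goodC.widthj A)
  have hA' : E.u 0 - ν + ϑ < Cl.jB (At.loc A) (Cl.cls A) + bs := hA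
  linarith [w.1]

/-! ## the shape bins -/

/-- the shape bin (mesh `ϑ`) of a label -/
noncomputable def rselBin {At : Atoms} (Cl : Classes At) {τ : Type} (ϑ : ℝ) (J : Classes.Lab τ) : ℤ × ℤ :=
  (⌊Cl.jB J.1 J.2.1 / ϑ⌋, ⌊Cl.lB J.1 J.2.1 / ϑ⌋)

/-- the number of bins in one coordinate -/
noncomputable def rselNb (Hmax ϑ : ℝ) : ℕ := (⌊Hmax / (2 * ϑ)⌋ + 3).toNat

theorem rsel_bin_eqns_cite : True := by
  have := @rselBin.eq_1
  have := @rselNb.eq_1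
  trivial

theorem rsel_Icc_card (Hmax ϑ : ℝ) : (Finset.Icc (-1 : ℤ) (⌊Hmax / (2 * ϑ)⌋ + 1)).card = rselNb Hmax ϑ := by
  rw [Int.card_Icc]
  unfold rselNb
  congr 1
  ring

/-- one coordinate -/
theorem rsel_floor_mem {x ξ ϑ Hmax : ℝ} (hϑ : 0 < ϑ) (hξ : ξ ≤ ϑ) (h1 : -ξ ≤ x) (h2 : x ≤ Hmax / 2 + ξ) :
    ⌊x / ϑ⌋ ∈ Finset.Icc (-1 : ℤ) (⌊Hmax / (2 * ϑ)⌋ + 1) := by
  rw [Finset.mem_Icc]
  constructor
  · apply Int.le_floor.2
    push_cast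
    rw [le_div_iff₀ hϑ]
    linarith
  · have e : x / ϑ ≤ Hmax / (2 * ϑ) + 1 := by
      rw [div_le_iff₀ hϑ]
      have : (Hmax / (2 * ϑ) + 1) * ϑ = Hmax / 2 + ϑ := by field_simp
      rw [this]
      linarith
    have e2 : ⌊x / ϑ⌋ ≤ ⌊Hmax / (2 * ϑ) + 1⌋ := Int.floor_mono e
    rwa [Int.floor_add_one] at e2

/-- the bins of a label with a nonempty class -/
theorem rsel_bin_mem {γ : ℝ} {E : PEnv} {B : PBd} {r bs ξ ϑ : ℝ} {S0 : ℕ} {At : Atoms} {Cl : Classes At} {τ : Type}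
    (hE : E.Obeys B) (hr : 0 ≤ r) (hbs : 0 ≤ bs) (hG : Cl.Good γ E r bs ξ S0) (hϑ : 0 < ϑ) (hξ : ξ ≤ ϑ)
    (tag : At.𝔸 → τ) (A : At.𝔸) :
    rselBin Cl ϑ (Cl.lab tag A) ∈ Finset.Icc (-1 : ℤ) (⌊B.Hmax / (2 * ϑ)⌋ + 1) ×ˢ
      Finset.Icc (-1 : ℤ) (⌊B.Hmax / (2 * ϑ)⌋ + 1) := by
  have w1 := abs_le.1 (hG.widthj A)
  have w2 := abs_le.1 (hG.widthl A)
  have hcap := hG.capOK A
  have hb := hG.capbs A
  have hu : E.u r ≤ B.Hmax / 2 := by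
    unfold PEnv.u
    linarith [hE.H1]
  obtain ⟨g1, g2, g3, g4, -⟩ := hcap
  refine Finset.mem_product.2 ⟨rsel_floor_mem hϑ hξ ?_ ?_, rsel_floor_mem hϑ hξ ?_ ?_⟩
  · show -ξ ≤ Cl.jB (At.loc A) (Cl.cls A)
    linarith [w1.2]
  · show Cl.jB (At.loc A) (Cl.cls A) ≤ B.Hmax / 2 + ξ
    linarith [w1.1]
  · show -ξ ≤ Cl.lB (At.loc A) (Cl.cls A)
    linarith [w2.2]
  · show Cl.lB (At.loc A) (Cl.cls A) ≤ B.Hmax / 2 + ξ
    linarith [w2.1]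

/-- equal bins: close widths -/
theorem rsel_bin_close {At : Atoms} (Cl : Classes At) {τ : Type} {ϑ : ℝ} (hϑ : 0 < ϑ) {J J' : Classes.Lab τ}
    (h : rselBin Cl ϑ J' = rselBin Cl ϑ J) :
    |Cl.jB J'.1 J'.2.1 - Cl.jB J.1 J.2.1| ≤ ϑ ∧ |Cl.lB J'.1 J'.2.1 - Cl.lB J.1 J.2.1| ≤ ϑ := by
  unfold rselBin at h
  exact ⟨rpb_floor_close hϑ (congrArg Prod.fst h), rpb_floor_close hϑ (congrArg Prod.snd h)⟩

end Claimed.Agent.R255
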