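-- KEEP
import Claimed.Agent.R255.Rep.SelectCut
import Claimed.Agent.R255.Rep.AlnCut

/-!
# Row 255 (BR paper), Sec. 11.3, stage S5 SELECT, (E5): THE MISALIGNED WINNERS HAVE SMALL MASS      (architect helper17; prefix `rsel_`)

Wrapper of `rpa_align_cut`, `rpa_misaligned_le`, `rpa_angle_of_pred` (helper46, `Rep/AlnCut.lean`, `Rep/Aln*.lean`) in the shape of `rsel_slack_pr`, `rsel_forced_pr` (helper264, `Rep/SelectCut.lean`).
The current law is `T.P` (use `T.withLaw Q`).   LABEL-AGNOSTIC in the tags: `mis : Lab τ → Prop` is any set of labels all of whose atoms are marked misaligned with respect to the table `nP` of predicted normals.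
`Bm J = mis J ∧ u_r - ϑ ≤ l_B(J) + b_* ∧ j_B(J) + b_* ≤ u_0 - ν + ϑ`   (misaligned winners with a qualifying earlier shape).
-/

set_option autoImplicit false

namespace Claimed.Agent.R255

open scoped BigOperators
open Classical
open FLaw Pkt Osc

/-- **(E5)**   `T.P {misaligned winners of qualifying earlier shape} ≤ 3 (Δ_t + 5 R) / (20 h)` -/
theorem rsel_mis_pr (γ β : ℝ) (h0 : 0 < γ) (h1 : γ < 1) (hβ : 0 ≤ β) (B : PBd) (hB : B.Good) (c : CutPar)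
    (dmin rmin R A0 : ℝ) (Smax : ℕ) (ε₁ : ℝ) (hε₁ : 0 < ε₁) (hCB : RselCutB γ β B c dmin rmin R A0 Smax ε₁)
    (hA0 : A0 / 2 < c.p.A) (hR : 0 ≤ R) (Lg Km Kp h η ϑ ν e0 : ℝ) (hLg : 0 < Lg) (hKm : 0 < Km) (hh : 0 < h)
    (hη : 0 < η) (hηh : 51 * η ≤ 11 * h) (hξ0 : 0 ≤ c.ξ) (hξη : c.ξ ≤ η) (hϑ : ϑ ≤ h) (hecc : 20 * h < γ * e0)
    (he0 : e0 + η + ϑ ≤ ν / 2) :
    ∃ ε₀ : ℝ, 0 < ε₀ ∧ ∀ (E : PEnv) (T : PTest) (r bs : ℝ) (At : Atoms) (Cl : Classes At) (τ : Type) [Fintype τ]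
      (tag : At.𝔸 → τ) (win : T.ι → ℕ × τ), E.ε < ε₀ → Fintype.card τ ≤ Smax →
      CutOK γ E B T r bs c.p c.ξ c.S0 A0 At Cl tag win → r = T.t - 2 * h → r + dmin ≤ T.t → rmin ≤ r → T.t ≤ ν →
      ∀ (τV τX : E2) (a : ℝ) (nP : Loc0 → ℝ) (mis : Classes.Lab τ → Prop), E.u T.t - η ≤ a → h + η ≤ a - bs →
      (∀ o, 0 < T.P.p o → Buffered E.ε r (E.u T.t) Lg (2 * max (B.Ra + c.p.Ra) 1) τV τX (T.site (T.O o))) →
      (∀ o, 0 < T.P.p o → |(T.geo (T.D o)).b - bs| ≤ η ∧ |(T.geo (T.D o)).a - a| ≤ η) →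
      (∀ o, 0 < T.P.p o →
        |Real.sin ((T.geo (T.D o)).th - nP (bufP E.ε r (E.u T.t) Lg τV τX (T.site (T.O o))))| ≤ Kp * E.ε ^ (4 * h)) →
      (∀ j A, mis j → Cl.lab tag A = j →
        Km * E.ε ^ h ≤ |Real.sin ((Cl.acap A).th - nP (bufP E.ε r (E.u T.t) Lg τV τX (At.asite A)))|) →
      T.P.pr (fun o => mis (ctJ E r bs T win o) ∧
          E.u r - ϑ ≤ Cl.lB (ctJ E r bs T win o).1 (ctJ E r bs T win o).2.1 + bs ∧
          Cl.jB (ctJ E r bs T win o).1 (ctJ E r bs T win o).2.1 + bs ≤ E.u 0 - ν + ϑ)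
        ≤ 3 * (pcxDef γ β B.M E T + 5 * R) / (20 * h) := by
  have hηh' : η ≤ h := by linarith
  obtain ⟨ε₂, hε₂, H2⟩ := rpa_align_cut γ h0 h1 B hB c.p c.S0 Smax A0 Lg (Km / 2) h η hA0 hLg (by positivity) hh hη hηh'
  obtain ⟨ε₃, hε₃, H3⟩ := rpa_small_pow (3 * h) (Km / 2 / (|Kp| + 1)) (by positivity) (by positivity)
  refine ⟨min ε₁ (min ε₂ ε₃), lt_min hε₁ (lt_min hε₂ hε₃), ?_⟩
  intro E T r bs At Cl τ _ tag win hε hcard H hr hrt hrm htν τV τX a nP mis ha hab hBuf hsh hpred hmk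
  have hεa : E.ε < ε₁ := lt_of_lt_of_le hε (min_le_left _ _)
  have hεb : E.ε < ε₂ := lt_of_lt_of_le hε ((min_le_right _ _).trans (min_le_left _ _))
  have hεc : E.ε < ε₃ := lt_of_lt_of_le hε ((min_le_right _ _).trans (min_le_right _ _))
  have e0' := H.obE.ε0
  have e1' := H.obE.ε1
  have he0pos : 0 ≤ e0 := by
    by_contra hcon
    push Not at hcon
    nlinarith
  obtain ⟨-, hC⟩ := hCB E T r bs At Cl τ tag win hεa hcard H hrt (Or.inr hrm)
  have hsmall : Kp * E.ε ^ (3 * h) ≤ Km / 2 := by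
    have a1 := H3 E.ε e0' hεc
    have a2 : 0 < E.ε ^ (3 * h) := Real.rpow_pos_of_pos e0' _
    have a3 : Kp * E.ε ^ (3 * h) ≤ (|Kp| + 1) * E.ε ^ (3 * h) :=
      mul_le_mul_of_nonneg_right (by linarith [le_abs_self Kp]) a2.le
    have a4 : (|Kp| + 1) * E.ε ^ (3 * h) ≤ (|Kp| + 1) * (Km / 2 / (|Kp| + 1)) :=
      mul_le_mul_of_nonneg_left a1 (by positivity)
    have a5 : (|Kp| + 1) * (Km / 2 / (|Kp| + 1)) = Km / 2 := by field_simp
    linarith
  have hut : E.u T.t = (E.H - T.t) / 2 := rfl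
  have hur : E.u r = (E.H - r) / 2 := rfl
  have hu0 : E.u 0 = (E.H - 0) / 2 := rfl
  obtain ⟨Bm, hBm⟩ : ∃ Bm : Classes.Lab τ → Prop, Bm = fun j => mis j ∧ E.u r - ϑ ≤ Cl.lB j.1 j.2.1 + bs ∧
      Cl.jB j.1 j.2.1 + bs ≤ E.u 0 - ν + ϑ := ⟨_, rfl⟩
  have key := H2 E T r bs c.ξ At Cl τ tag win hεb hcard hξ0 hξη H hr τV τX a e0 Bm ha hab he0pos
    (fun o ho _ => hBuf o ho) (fun o ho _ => hsh o ho)
    (fun o _ hb => by
      rw [hBm] at hb
      have := hb.2.2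
      rw [hu0] at this
      rw [hut] at ha
      linarith)
    (fun o ho hb => by
      rw [hBm] at hb
      have b1 := hb.2.1
      have b2 := (abs_le.1 (hsh o ho).2).1
      have b3 := (H.obT.geo o ho).2.2.2.1
      rw [hur, hr] at b1
      rw [hut] at b3
      linarith)
    (fun o ho hb A hA hP => by
      rw [hBm] at hb
      have c1 := hmk _ A hb.1 hA
      have c2 := hpred o ho
      rw [hP] at c1
      exact rpa_angle_of_pred e0' e1' hh hsmall c2 c1)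
  have key2 := rpa_misaligned_le hC (by
    have : 0 ≤ β * (T.t - r) := mul_nonneg hβ (by linarith)
    linarith) Bm
  have e3 : pcxDef γ β B.M E T = K0 γ B.M E + β * T.t - pscore (lg E.ε) T.P T.O T.D (ctLm E T) (ctW γ T) := rfl
  have hfac : 20 * h ≤ 2 * γ * e0 - 9 * h - 51 * η := by linarith
  have hpr := ent_pr_nonneg T.P (fun o => Bm (ctJ E r bs T win o))
  have e4 : T.P.pr (fun o => mis (ctJ E r bs T win o) ∧
          E.u r - ϑ ≤ Cl.lB (ctJ E r bs T win o).1 (ctJ E r bs T win o).2.1 + bs ∧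
          Cl.jB (ctJ E r bs T win o).1 (ctJ E r bs T win o).2.1 + bs ≤ E.u 0 - ν + ϑ)
      = T.P.pr (fun o => Bm (ctJ E r bs T win o)) := by rw [hBm]
  rw [e4, le_div_iff₀ (by positivity), e3]
  have := mul_le_mul_of_nonneg_left hfac hpr
  linarith

end Claimed.Agent.R255
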