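-- KEEP
import Claimed.Agent.R255.Comp.CutMain
import Claimed.Agent.R255.Rep.Buffer
import Claimed.Agent.R255.Rep.Bins
import Claimed.Agent.R255.Rep.State

/-!
# Row 255 (BR paper), Secs. 11.2-11.3: THE CONCRETE PREPARED CUT      (architect helper128; prefix `rs_` / `RCut`)

FROZEN DEFINITIONS: the concrete labels on which the label-agnostic stage theorems (S1 `Buffer`, S2 `Pred`, S3 `Mass`, S4 `Aln`, S6 `Repay`, S7 `Out`) are instantiated by the glue S8.
`X : RCut` = `(E, T, h, bs, Lg, τV, τX, el, nt, Km, At, Cl, ξt, n, win)`;   `X.T` = the CURRENT endpoint test (its law `X.T.P` = the current law; `X.withLaw Q` changes only the law).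
* `X.r = t - 2h`, `X.ut = u_t`, `X.ur = u_r = u_t + h`
* `X.PS s`   the buffered coarse label `P` of a site (`bufP` of `Rep/Buffer.lean`, depth `u_t`, translated grid of side `Lg`);   `X.PA A`, `X.PO o` : atoms, samples
* `X.WS p v` the fine velocity label at depth `u_r` : `el` : component along `nrm (nt p)`;  `¬ el` : both components;   `X.WA A`
* `X.mrk A`   the alignment mark: `|sin (θ(acap A) - nt (P A))| ≤ Km ε^h`   (always `true` if `¬ el`)
* `X.base A` the marked part of the whole greedy class of `A`;   `X.bb = ε^(-ξt)` the bin ratio;   `X.tag A = (mark, size bin, k bin)` (`Rep/Bins.lean`), clamped to `Fin (n+1)`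
* `X.J o`    the winning label;   `X.kJ j = ξt * (k bin)` the numerical tag `k`
* `X.Te`     the returned earlier test (uniform on the retained classes, assigned caps);   `X.Ti` : exact isotropic boundary apertures
* `X.Pre γ B c A0 Kd η a`   the standing hypotheses of a prepared cut for the current law.
-/

set_option autoImplicit false

namespace Claimed.Agent.R255

open scoped BigOperators
open Classical
open FLaw Pkt Osc

/-- tags of the prepared subclasses: alignment mark, size bin, `k` bin -/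
abbrev RTag (n : ℕ) : Type := Bool × Fin (n + 1) × Fin (n + 1)

/-- clamping -/
def rsClamp (n i : ℕ) : Fin (n + 1) := ⟨min i n, by omega⟩

theorem rs_clamp_inj {n i i' : ℕ} (hi : i ≤ n) (hi' : i' ≤ n) (h : rsClamp n i = rsClamp n i') : i = i' := by
  have := congrArg Fin.val h
  simp only [rsClamp] at this
  omega

theorem rs_clamp_val {n i : ℕ} (hi : i ≤ n) : ((rsClamp n i : Fin (n + 1)) : ℕ) = i := by
  simp only [rsClamp]
  omega

/-- the frozen data of a prepared cut -/
structure RCut where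
  E : PEnv
  /-- the current endpoint test -/
  T : PTest
  h : ℝ
  bs : ℝ
  /-- side of the buffered grid, translations -/
  Lg : ℝ
  τV : E2
  τX : E2
  /-- elongated (`d = 1`) or isotropic (`d = 2`) -/
  el : Bool
  /-- the table of predicted normals -/
  nt : Loc0 → ℝ
  /-- constant of the alignment mark -/
  Km : ℝ
  At : Atoms
  Cl : Classes At
  /-- mesh and number of the velocity bins -/
  ξt : ℝ
  n : ℕ
  win : T.ι → ℕ × RTag n

namespace RCut

variable (X : RCut)

/-- the cut time -/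
noncomputable def r : ℝ := X.T.t - 2 * X.h
/-- `u_t` -/
noncomputable def ut : ℝ := X.E.u X.T.t
/-- `u_r` -/
noncomputable def ur : ℝ := X.E.u X.r
/-- the buffered coarse label of a site -/
noncomputable def PS (s : Site) : Loc0 := bufP X.E.ε X.r X.ut X.Lg X.τV X.τX s
/-- the buffered coarse label of an atom -/
noncomputable def PA (A : X.At.𝔸) : Loc0 := X.PS (X.At.asite A)
/-- the buffered coarse label of a sample -/
noncomputable def PO (o : X.T.Ω) : Loc0 := X.PS (X.T.sat o)
/-- the fine velocity label at depth `u_r` -/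
noncomputable def WS (p : Loc0) (v : E2) : ℤ × ℤ :=
  if X.el = true then (⌊ip (toP v) (nrm (X.nt p)) / X.E.ε ^ X.ur⌋, 0) else cell (X.E.ε ^ X.ur) v
/-- the fine velocity label of an atom -/
noncomputable def WA (A : X.At.𝔸) : ℤ × ℤ := X.WS (X.PA A) (X.At.asite A).V
/-- the alignment mark -/
noncomputable def mrk (A : X.At.𝔸) : Bool :=
  if X.el = true then decide (|Real.sin ((X.Cl.acap A).th - X.nt (X.PA A))| ≤ X.Km * X.E.ε ^ X.h) else true
/-- the marked part of the whole class of `A` -/
noncomputable def base (A : X.At.𝔸) : Finset X.At.𝔸 :=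
  Finset.univ.filter (fun A' => X.At.loc A' = X.At.loc A ∧ X.Cl.cls A' = X.Cl.cls A ∧ X.mrk A' = X.mrk A)
/-- the bin ratio -/
noncomputable def bb : ℝ := X.E.ε ^ (-X.ξt)
/-- size bin of an atom -/
noncomputable def sz (A : X.At.𝔸) : ℕ := rep_sz X.bb (X.base A) X.PA X.WA A
/-- `k` bin of an atom -/
noncomputable def kt (A : X.At.𝔸) : ℕ := rep_kt X.bb (X.base A) X.PA X.WA A
/-- the tag map -/
noncomputable def tag (A : X.At.𝔸) : RTag X.n := (X.mrk A, rsClamp X.n (X.sz A), rsClamp X.n (X.kt A))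
/-- the winning label of a sample -/
noncomputable def J (o : X.T.Ω) : Classes.Lab (RTag X.n) := ctJ X.E X.r X.bs X.T X.win o
/-- the alignment mark of a label -/
def mJ (j : Classes.Lab (RTag X.n)) : Bool := j.2.2.1
/-- the numerical tag `k` of a label -/
noncomputable def kJ (j : Classes.Lab (RTag X.n)) : ℝ := X.ξt * ((j.2.2.2.2 : ℕ) : ℝ)
/-- ABSOLUTE widths of the assigned caps of a label (bins) -/
noncomputable def bJ (j : Classes.Lab (RTag X.n)) : ℝ := X.Cl.jB j.1 j.2.1 + X.bs
noncomputable def aJ (j : Classes.Lab (RTag X.n)) : ℝ := X.Cl.lB j.1 j.2.1 + X.bs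
/-- the retained class of a label -/
noncomputable def cls (j : Classes.Lab (RTag X.n)) : Finset X.At.𝔸 := X.Cl.clsOf X.tag j

/-- the same frozen data with another current law -/
def withLaw (Q : FLaw X.T.Ω) : RCut := { X with T := X.T.withLaw Q, win := X.win }

/-- the returned earlier test, assigned caps -/
noncomputable def Te [Nonempty X.At.𝔸] : PTest := X.At.earlierX X.r X.T X.J X.cls X.Cl.acap
/-- the returned earlier test, exact isotropic boundary apertures -/
noncomputable def Ti [Nonempty X.At.𝔸] : PTest := X.At.earlierX X.r X.T X.J X.cls (X.At.isoAp X.E X.r)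

/-- the benchmark `B_r = H(J) + b_* + E A_J`   (11.19) -/
noncomputable def Br : ℝ :=
  pcKstar (lg X.E.ε) X.T.P X.J X.bs (X.Cl.LN X.E X.tag) (X.Cl.Lm X.E) X.Cl.gJ

/-- **the standing hypotheses of a prepared cut** for the current law `X.T.P`.
`c` = constants of `cut_main`, `A0` = floor exponent, `Kd` = buffer radius, `η` = accuracy of the endpoint shape `(bs, a)`. -/
structure Pre (γ : ℝ) (B : PBd) (c : CutPar) (A0 Kd η a : ℝ) : Prop where
  cut : CutOK γ X.E B X.T X.r X.bs c.p c.ξ c.S0 A0 X.At X.Cl X.tag X.win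
  wok : WinOK X.E X.r X.bs X.T X.Cl X.tag X.win ((c.S0 : ℝ) * (Fintype.card (RTag X.n) : ℝ))
  h0 : 0 < X.h
  rh : X.h ≤ X.r
  ξt0 : 0 < X.ξt
  Lg1 : 1 ≤ X.Lg
  /-- endpoint shape: `a_D = a` up to `η`, `u_t - η ≤ a`;  elongated: `b_D = b_*` up to `η`;  isotropic: `b_* = 0`, `b_D = a_D = u_t` exactly -/
  shapea : ∀ o, 0 < X.T.P.p o → |(X.T.geo (X.T.D o)).a - a| ≤ η
  bdry : X.ut - η ≤ a
  shapeb : X.el = true → ∀ o, 0 < X.T.P.p o → |(X.T.geo (X.T.D o)).b - X.bs| ≤ η
  iso : X.el = false → X.bs = 0 ∧ ∀ o, 0 < X.T.P.p o →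
    (X.T.geo (X.T.D o)).b = X.ut ∧ (X.T.geo (X.T.D o)).a = X.ut
  buf : ∀ o, 0 < X.T.P.p o → Buffered X.E.ε X.r X.ut X.Lg Kd X.τV X.τX (X.T.sat o)
  pred : X.el = true → ∀ o, 0 < X.T.P.p o →
    |Real.sin ((X.T.geo (X.T.D o)).th - X.nt (X.PO o))| < X.E.ε ^ (4 * X.h)
  noclamp : ∀ A, X.sz A ≤ X.n ∧ X.kt A ≤ X.n

end RCut

theorem rs_labels_eqns_cite : True := by
  have := @rsClamp.eq_1
  have := @RCut.r.eq_1
  have := @RCut.ut.eq_1
  have := @RCut.ur.eq_1
  have := @RCut.PS.eq_1
  have := @RCut.PA.eq_1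
  have := @RCut.PO.eq_1
  have := @RCut.WS.eq_1
  have := @RCut.WA.eq_1
  have := @RCut.mrk.eq_1
  have := @RCut.base.eq_1
  have := @RCut.bb.eq_1
  have := @RCut.sz.eq_1
  have := @RCut.kt.eq_1
  have := @RCut.tag.eq_1
  have := @RCut.J.eq_1
  have := @RCut.mJ.eq_1
  have := @RCut.kJ.eq_1
  have := @RCut.bJ.eq_1
  have := @RCut.aJ.eq_1
  have := @RCut.cls.eq_1
  have := @RCut.withLaw.eq_1
  have := @RCut.Te.eq_1
  have := @RCut.Ti.eq_1
  have := @RCut.Br.eq_1
  trivial

end Claimed.Agent.R255
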