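-- KEEP
import Claimed.Agent.R255.Rep.Labels
import Claimed.Agent.R255.Rep.Out
import Claimed.Agent.R255.Rep.OutTag

/-!
# Row 255 (BR paper), Sec. 11.3: THE TAG LAYER of the concrete prepared cut `X : RCut` of `Rep/Labels.lean`      (helper51; prefix `rst_`)

Bridge between helper128's concrete labels and the generic tag layer `Rep/OutTag.lean` (`rpot_*`) / helper50's `Rep/Out.lean` (`rpo_*`).
* `rst_tag_eq`      `X.tag = rpotTag X.Cl X.bb X.n X.mrk X.PA X.WA`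
* `rst_WA_eq`       `X.WA A = rpoW X.el (ε^(u_r)) (X.nt (X.PA A)) (asite A)`
* `rst_cls_eq`      `X.cls j = rep_sub X.bb (rpotCls ..) X.PA X.WA (size bin) (k bin)`          (no clamping)
* `rst_reg`         `rpoReg (X.cls j) X.PA X.WA (ε^(X.kJ j - ξt))`                                 (11.prepared-velocity-probability)
* `rst_cnt_le`, `rst_cnt_ge`   `ε^(-kJ) ≤ #{W | P} ≤ ε^(-(kJ + ξt))`                                (11.velocity-fiber-regularity)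
* `rst_cap`         `X.kJ j ≤ d h + 2 log (6 Lg) / ℓ`
* `rst_noclamp`     the field `noclamp` of `X.Pre` for `ε < ε₀(B, p)` as soon as `2 Hmax + 1 ≤ ξt (n + 1)`
* `rst_mark`, `rst_aligned`, `rst_misaligned`, `rst_card_tag`.
-/

set_option autoImplicit false

namespace Claimed.Agent.R255

open scoped BigOperators
open Classical
open FLaw Pkt Osc

variable (X : RCut)

theorem rst_base_eq (A : X.At.𝔸) : X.base A = rpotOwn X.Cl X.mrk A := by
  unfold RCut.base rpotOwn rpotCls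
  ext A'
  simp

theorem rst_tag_eq : X.tag = rpotTag X.Cl X.bb X.n X.mrk X.PA X.WA := by
  funext A
  unfold RCut.tag rpotTag RCut.sz RCut.kt rsClamp
  rw [rst_base_eq]

theorem rst_ok (hnc : ∀ A, X.sz A ≤ X.n ∧ X.kt A ≤ X.n) : RpotOK X.Cl X.bb X.n X.mrk X.PA X.WA := by
  intro A
  have := hnc A
  unfold RCut.sz RCut.kt at this
  rwa [rst_base_eq] at this

theorem rst_WA_eq (A : X.At.𝔸) : X.WA A = rpoW X.el (X.E.ε ^ X.ur) (X.nt (X.PA A)) (X.At.asite A) := rfl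

theorem rst_PA_eq (A : X.At.𝔸) : X.PA A = bufP X.E.ε X.r X.ut X.Lg X.τV X.τX (X.At.asite A) := rfl

theorem rst_ur : X.ur = X.ut + X.h := by
  unfold RCut.ur RCut.ut RCut.r PEnv.u
  ring

theorem rst_ut : X.ut = X.E.u X.r - X.h := by
  unfold RCut.ut RCut.r PEnv.u
  ring

theorem rst_card_tag (n : ℕ) : Fintype.card (RTag n) = 2 * ((n + 1) * (n + 1)) := by
  simp [RTag]

/-- the retained classes are the subclasses of `Rep/Bins` -/
theorem rst_cls_eq (hnc : ∀ A, X.sz A ≤ X.n ∧ X.kt A ≤ X.n) (j : Classes.Lab (RTag X.n)) :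
    X.cls j = rep_sub X.bb (rpotCls X.Cl X.mrk j.1 j.2.1 j.2.2.1) X.PA X.WA (j.2.2.2.1 : ℕ) (j.2.2.2.2 : ℕ) := by
  unfold RCut.cls
  rw [rst_tag_eq]
  exact rpot_clsOf X.Cl (rst_ok X hnc) j

theorem rst_bb_gt (h0 : 0 < X.E.ε) (h1 : X.E.ε < 1) (hξ : 0 < X.ξt) : 1 < X.bb := rpot_b_gt h0 h1 hξ

/-- (11.prepared-velocity-probability) -/
theorem rst_reg (h0 : 0 < X.E.ε) (h1 : X.E.ε < 1) (hξ : 0 < X.ξt) (hnc : ∀ A, X.sz A ≤ X.n ∧ X.kt A ≤ X.n)
    (j : Classes.Lab (RTag X.n)) : rpoReg (X.cls j) X.PA X.WA (X.E.ε ^ (X.kJ j - X.ξt)) := by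
  rw [rst_cls_eq X hnc j]
  have := rpo_reg_sub (rst_bb_gt X h0 h1 hξ) (rpotCls X.Cl X.mrk j.1 j.2.1 j.2.2.1) X.PA X.WA (j.2.2.2.1 : ℕ)
    (j.2.2.2.2 : ℕ)
  unfold RCut.bb at this ⊢
  rwa [rpo_bin_pow h0] at this

/-- (11.velocity-fiber-regularity), upper bound, for EVERY value `q` of the coarse label -/
theorem rst_cnt_le (h0 : 0 < X.E.ε) (h1 : X.E.ε < 1) (hξ : 0 < X.ξt) (hnc : ∀ A, X.sz A ≤ X.n ∧ X.kt A ≤ X.n)
    (j : Classes.Lab (RTag X.n)) (q : Loc0) :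
    ((((X.cls j).filter (fun A => X.PA A = q)).image X.WA).card : ℝ) ≤ X.E.ε ^ (-(X.kJ j + X.ξt)) := by
  rcases ((X.cls j).filter (fun A => X.PA A = q)).eq_empty_or_nonempty with he | ⟨A, hA⟩
  · rw [he]
    simp only [Finset.image_empty, Finset.card_empty, Nat.cast_zero]
    exact (Real.rpow_pos_of_pos h0 _).le
  · obtain ⟨hA1, rfl⟩ := Finset.mem_filter.1 hA
    have hA2 : A ∈ X.Cl.clsOf (rpotTag X.Cl X.bb X.n X.mrk X.PA X.WA) j := by
      rw [← rst_tag_eq]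
      exact hA1
    have h := (rpot_nw X.Cl (rst_bb_gt X h0 h1 hξ) (rst_ok X hnc) j hA2).2
    rw [← rst_tag_eq] at h
    have e : X.bb ^ ((j.2.2.2.2 : ℕ) + 1) = X.E.ε ^ (-(X.kJ j + X.ξt)) := by
      unfold RCut.bb RCut.kJ
      rw [rpot_b_pow h0]
      congr 1
      push_cast
      ring
    rw [e] at h
    refine le_of_lt ?_
    unfold RCut.cls
    convert h
    rfl

/-- (11.velocity-fiber-regularity), lower bound, for the represented values -/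
theorem rst_cnt_ge (h0 : 0 < X.E.ε) (h1 : X.E.ε < 1) (hξ : 0 < X.ξt) (hnc : ∀ A, X.sz A ≤ X.n ∧ X.kt A ≤ X.n)
    (j : Classes.Lab (RTag X.n)) {A : X.At.𝔸} (hA : A ∈ X.cls j) :
    X.E.ε ^ (-(X.kJ j)) ≤ ((((X.cls j).filter (fun A' => X.PA A' = X.PA A)).image X.WA).card : ℝ) := by
  have hA2 : A ∈ X.Cl.clsOf (rpotTag X.Cl X.bb X.n X.mrk X.PA X.WA) j := by
    rw [← rst_tag_eq]
    exact hA
  have h := (rpot_nw X.Cl (rst_bb_gt X h0 h1 hξ) (rst_ok X hnc) j hA2).1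
  rw [← rst_tag_eq] at h
  have e : X.bb ^ (j.2.2.2.2 : ℕ) = X.E.ε ^ (-(X.kJ j)) := by
    unfold RCut.bb RCut.kJ
    rw [rpot_b_pow h0]
  rw [e] at h
  unfold RCut.cls
  convert h

/-- capacity -/
theorem rst_cap (h0 : 0 < X.E.ε) (h1 : X.E.ε < 1) (hξ : 0 < X.ξt) (hh : 0 ≤ X.h) (hLg : 1 ≤ X.Lg)
    (hnc : ∀ A, X.sz A ≤ X.n ∧ X.kt A ≤ X.n) (j : Classes.Lab (RTag X.n)) (hne : (X.cls j).Nonempty) :
    X.kJ j ≤ (if X.el = true then 1 else 2) * X.h + 2 * Real.log (6 * X.Lg) / lg X.E.ε := by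
  rw [rst_cls_eq X hnc j] at hne
  have e : X.WA = fun A => rpoW X.el (X.E.ε ^ (X.ut + X.h))
      (X.nt (bufP X.E.ε X.r X.ut X.Lg X.τV X.τX (X.At.asite A))) (X.At.asite A) := by
    funext A
    rw [rst_WA_eq, rst_ur]
    rfl
  have e2 : X.PA = fun A => bufP X.E.ε X.r X.ut X.Lg X.τV X.τX (X.At.asite A) := rfl
  rw [e, e2] at hne
  exact rpo_capacity h0 h1 hh hLg hξ X.τV X.τX X.el X.nt _ X.At.asite _ _ hne

theorem rst_kJ_nonneg (hξ : 0 < X.ξt) (j : Classes.Lab (RTag X.n)) : 0 ≤ X.kJ j := by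
  unfold RCut.kJ
  positivity

/-- the field `noclamp` of `X.Pre` -/
theorem rst_noclamp (B : PBd) (p : Atoms.Par) (ξ : ℝ) (n : ℕ) (hn : 2 * B.Hmax + 1 ≤ ξ * ((n : ℝ) + 1)) :
    ∃ ε₀ : ℝ, 0 < ε₀ ∧ ∀ (X : RCut) (t : ℝ), X.ξt = ξ → X.n = n → 0 < ξ → X.E.Obeys B → X.E.ε < ε₀ → 0 ≤ X.r →
      0 ≤ X.bs → X.bs ≤ X.E.u X.r → X.At.Good X.E B t X.r X.bs p → ∀ A, X.sz A ≤ X.n ∧ X.kt A ≤ X.n := by
  obtain ⟨ε₀, h0, H⟩ := rpot_ok B p ξ n hn
  refine ⟨ε₀, h0, ?_⟩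
  intro X t hξ hn' hξ0 hE hε hr hbs hbu hA A
  have := H X.E t X.r X.bs X.At hE hε hr hbs hbu hA X.Cl _ _ _ X.mrk X.PA X.WA hξ0 A
  unfold RCut.sz RCut.kt RCut.bb
  rw [rst_base_eq, hξ, hn']
  exact this

/-- the mark is constant on a retained class -/
theorem rst_mark {j : Classes.Lab (RTag X.n)} {A : X.At.𝔸} (hA : A ∈ X.cls j) : X.mrk A = X.mJ j := by
  have hA2 : A ∈ X.Cl.clsOf (rpotTag X.Cl X.bb X.n X.mrk X.PA X.WA) j := by
    rw [← rst_tag_eq]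
    exact hA
  exact rpot_mk_of_mem X.Cl hA2

theorem rst_aligned (hel : X.el = true) {j : Classes.Lab (RTag X.n)} (hj : X.mJ j = true) {A : X.At.𝔸}
    (hA : A ∈ X.cls j) : |Real.sin ((X.Cl.acap A).th - X.nt (X.PA A))| ≤ X.Km * X.E.ε ^ X.h := by
  have h := rst_mark X hA
  rw [hj] at h
  unfold RCut.mrk at h
  rw [if_pos hel] at h
  exact of_decide_eq_true h

theorem rst_misaligned (hel : X.el = true) {j : Classes.Lab (RTag X.n)} (hj : X.mJ j = false) {A : X.At.𝔸}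
    (hA : A ∈ X.cls j) : X.Km * X.E.ε ^ X.h < |Real.sin ((X.Cl.acap A).th - X.nt (X.PA A))| := by
  have h := rst_mark X hA
  rw [hj] at h
  unfold RCut.mrk at h
  rw [if_pos hel] at h
  exact not_le.1 (of_decide_eq_false h)

theorem rst_mark_iso (hel : X.el = false) {j : Classes.Lab (RTag X.n)} {A : X.At.𝔸} (hA : A ∈ X.cls j) :
    X.mJ j = true := by
  have h := rst_mark X hA
  unfold RCut.mrk at h
  rw [if_neg (by simp [hel])] at h
  exact h.symm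

end Claimed.Agent.R255
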