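-- KEEP
import Claimed.Agent.R255.Rep.SelectCut
import Claimed.Agent.R255.Rep.PredDefs
import Claimed.Agent.R255.Rep.Tags

/-!
# Row 255 (BR paper), Secs. 11.2-11.3, stage S8-A: THE PREPARATION of a cut (first half of `step_el`)      (architect helper142; prefix `rsa_`)

From an endpoint test `T` of small deficit and common elongated shape to the FROZEN data of a prepared cut.   LABEL-AGNOSTIC: the tag map is chosen by the consumer AFTER the preparation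
(`RsaPrep.cut` : for EVERY finite tag type and EVERY tag map there is a winner map with `CutOK` for the prepared law).
* `RsaCutA`   part (A) of `cut_main` as a proposition (parts (B), (C) : `RselCutB`, `RselCutC` of `Rep/SelectCut.lean`).
* `RsaPred`   the exit of S2 PREDICT (L11.2) as a proposition (labels in `Loc0`).
* `rsaKd B c = 2 max (B.Ra + c.p.Ra) 1` the buffer radius, `rsaLg B c = 64 (Kd + 1)` the side of the buffered grid, `rsaKp B c = max (2 Lg) 256`.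
* `RsaPrep γ β B c A0 h η e0 E T Apre bs a τV τX nt At Cl` : the result of the preparation.   `r = t - 2h`.   `Apre` = floor, buffered, predicted.
* `rsa_predlab`  the instance of `PredLab` for `bufP`.
* `rsa_prep`     ORDER OF THE CONSTANTS: `η` (accuracy) `⟹ acc` (package free) `⟹ B ⟹ A0 ⟹ c, ε₁` (`cut_main` with `dmin = 2h`, this `A0`, ANY `R`, `Smax`) `⟹ ε₀`.
* `rsa_prep_state`  the same from `RState`.
* `rsa_prep_cut`    THE EXIT for `step_el` : the prepared cut as a LITERAL `RCut` of `Rep/Labels.lean` with `RCut.Pre`  (tags `RTag n`, `Km = 2`, `Kd = rsaKd B c`, `Lg = rsaLg B c`).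
-/

set_option autoImplicit false

namespace Claimed.Agent.R255

open scoped BigOperators
open Classical
open FLaw Pkt Osc

/-- part (A) of `cut_main` -/
def RsaCutA (γ : ℝ) (B : PBd) (c : CutPar) (dmin ε₀ : ℝ) : Prop :=
  ∀ E : PEnv, E.Obeys B → E.ε < ε₀ → 0 < E.nrm2 → ∀ t r bs : ℝ, 0 ≤ r → r + dmin ≤ t → 0 ≤ bs → bs ≤ E.u t →
    bs ≤ E.L - t → ∃ (At : Atoms) (Cl : Classes At), At.Good E B t r bs c.p ∧ Cl.Good γ E r bs c.ξ c.S0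

/-- the exit of S2 PREDICT (L11.2) -/
def RsaPred (γ β h e0 : ℝ) : Prop :=
  ∀ B : PBd, B.Good → ∀ Kp : ℝ, ∃ ε₀ : ℝ, 0 < ε₀ ∧ ∀ (E : PEnv) (T : PTest) (Pc : T.Ω → Loc0), E.ε < ε₀ →
    E.Obeys B → T.Obeys B E → pcxDef γ β B.M E T ≤ h / 10 →
    (∃ b a : ℝ, (∀ o, 0 < T.P.p o → |(T.geo (T.D o)).b - b| ≤ h / 10 ∧ |(T.geo (T.D o)).a - a| ≤ h / 10) ∧
      E.u T.t - h / 10 ≤ a ∧ e0 ≤ a - b) → 2 * h ≤ T.t → PredLab E T (T.t - 2 * h) Kp Pc →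
    ∃ n : Loc0 → ℝ, 3 / 4 ≤ T.P.pr (fun o => |Real.sin ((T.geo (T.D o)).th - n (Pc o))| < E.ε ^ (4 * h))

/-- the buffer radius -/
noncomputable def rsaKd (B : PBd) (c : CutPar) : ℝ := 2 * max (B.Ra + c.p.Ra) 1
/-- the side of the buffered grid -/
noncomputable def rsaLg (B : PBd) (c : CutPar) : ℝ := 64 * (rsaKd B c + 1)
/-- the constant of the coarse label -/
noncomputable def rsaKp (B : PBd) (c : CutPar) : ℝ := max (2 * rsaLg B c) 256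

/-- **the result of the preparation** -/
structure RsaPrep (γ β : ℝ) (B : PBd) (c : CutPar) (A0 h η e0 : ℝ) (E : PEnv) (T : PTest) (Apre : T.Ω → Prop)
    (bs a : ℝ) (τV τX : E2) (nt : Loc0 → ℝ) (At : Atoms) (Cl : Classes At) : Prop where
  mass : 9 / 32 ≤ T.P.pr Apre
  defi : pcxDef γ β B.M E (T.withLaw (T.P.cnd Apre)) ≤ η
  nrm : 0 < E.nrm2
  goodA : At.Good E B T.t (T.t - 2 * h) bs c.p
  goodC : Cl.Good γ E (T.t - 2 * h) bs c.ξ c.S0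
  bs0 : 0 ≤ bs
  bsu : bs ≤ E.u T.t
  bsL : bs ≤ E.L - T.t
  shapea : ∀ o, 0 < T.P.p o → |(T.geo (T.D o)).a - a| ≤ η
  shapeb : ∀ o, 0 < T.P.p o → bs ≤ (T.geo (T.D o)).b ∧ (T.geo (T.D o)).b ≤ bs + η
  bdry : E.u T.t - η ≤ a
  ecc : e0 - η ≤ a - bs
  floor : ∀ o, 0 < T.P.p o → Apre o → pcxFl A0 E T o
  buf : ∀ o, 0 < T.P.p o → Apre o →
    Buffered E.ε (T.t - 2 * h) (E.u T.t) (rsaLg B c) (rsaKd B c) τV τX (T.sat o)
  pred : ∀ o, 0 < T.P.p o → Apre o →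
    |Real.sin ((T.geo (T.D o)).th - nt (bufP E.ε (T.t - 2 * h) (E.u T.t) (rsaLg B c) τV τX (T.sat o)))|
      < E.ε ^ (4 * h)
  cut : ∀ (τ : Type) [Fintype τ] [Nonempty τ] (tag : At.𝔸 → τ), ∃ win : T.ι → ℕ × τ,
    CutOK γ E B (T.withLaw (T.P.cnd Apre)) (T.t - 2 * h) bs c.p c.ξ c.S0 A0 At Cl tag win

theorem rsa_eqns_cite : True := by
  have := @RsaCutA.eq_1
  have := @RsaPred.eq_1
  have := @rsaKd.eq_1
  have := @rsaLg.eq_1
  have := @rsaKp.eq_1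
  trivial

theorem rsa_Kd_ge (B : PBd) (c : CutPar) : 2 ≤ rsaKd B c := by
  unfold rsaKd
  have := le_max_right (B.Ra + c.p.Ra) 1
  linarith

theorem rsa_Lg_ge (B : PBd) (c : CutPar) : 1 ≤ rsaLg B c := by
  unfold rsaLg
  have := rsa_Kd_ge B c
  linarith

/-- the instance of `PredLab` for the buffered label -/
theorem rsa_predlab {E : PEnv} (T : PTest) (hε : 0 < E.ε) (r : ℝ) {Lg : ℝ} (hLg : 1 ≤ Lg) (τV τX : E2) :
    PredLab E T r (max (2 * Lg) 256) (fun o => bufP E.ε r (E.u T.t) Lg τV τX (T.sat o)) := by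
  have hLg0 : 0 < Lg := by linarith
  have hu : 0 < E.ε ^ (E.u T.t) := Real.rpow_pos_of_pos hε _
  have hr : 0 < E.ε ^ r := Real.rpow_pos_of_pos hε _
  refine ⟨?_, ?_, ?_, ?_, ?_⟩
  · intro o o' _ _ hO
    show bufP E.ε r (E.u T.t) Lg τV τX (T.site (T.O o)) = bufP E.ε r (E.u T.t) Lg τV τX (T.site (T.O o'))
    rw [hO]
  · intro o o' _ _ hP
    exact (rpb_close hε hLg0 hP).1
  · intro o o' _ _ hP
    refine (rpb_close hε hLg0 hP).2.1.trans ?_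
    exact mul_le_mul_of_nonneg_right (le_max_left _ _) hu.le
  · intro o o' _ _ hP
    refine (rpb_close hε hLg0 hP).2.2.trans ?_
    exact mul_le_mul_of_nonneg_right (le_max_left _ _) (mul_pos hr hu).le
  · intro k v y ρ hρ
    obtain ⟨S, hS, hmem⟩ := rpb_list (u := E.u T.t) hε hLg τV τX k v y (ρ := ρ) (by linarith)
    refine ⟨S, hS.trans ?_, fun o _ hk hv hy => hmem _ hk hv hy⟩
    have h1 : (2 * ρ + 2) ^ 4 ≤ (4 * ρ) ^ 4 := pow_le_pow_left₀ (by linarith) (by linarith) 4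
    have h2 : (4 * ρ) ^ 4 = 256 * ρ ^ 4 := by ring
    have h3 : 256 * ρ ^ 4 ≤ max (2 * Lg) 256 * ρ ^ 4 :=
      mul_le_mul_of_nonneg_right (le_max_right _ _) (by positivity)
    linarith

/-- three successive conditionings -/
theorem rsa_chain {Ω : Type} [Fintype Ω] (P : FLaw Ω) (A₁ A₂ A₃ : Ω → Prop) (h1 : 1 / 2 ≤ P.pr A₁)
    (h2 : 3 / 4 ≤ (P.cnd A₁).pr A₂) (h3 : 3 / 4 ≤ ((P.cnd A₁).cnd A₂).pr A₃) :
    9 / 32 ≤ P.pr (fun o => (A₁ o ∧ A₂ o) ∧ A₃ o) ∧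
      ((P.cnd A₁).cnd A₂).cnd A₃ = P.cnd (fun o => (A₁ o ∧ A₂ o) ∧ A₃ o) := by
  have p1 : 0 < P.pr A₁ := by linarith
  rw [ent_cnd_pr P A₁ p1, le_div_iff₀ p1] at h2
  have p2 : 0 < P.pr (fun o => A₁ o ∧ A₂ o) := by nlinarith
  have e2 : (P.cnd A₁).cnd A₂ = P.cnd (fun o => A₁ o ∧ A₂ o) := ent_cnd_cnd P A₁ A₂ p2
  rw [e2] at h3 ⊢
  rw [ent_cnd_pr P _ p2, le_div_iff₀ p2] at h3
  have p3 : 9 / 32 ≤ P.pr (fun o => (A₁ o ∧ A₂ o) ∧ A₃ o) := by nlinarith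
  exact ⟨p3, ent_cnd_cnd P _ A₃ (by linarith)⟩

/-- the choice of `b_*` : the largest admissible common lower bound of the smaller widths -/
theorem rsa_bs {B : PBd} {E : PEnv} {T : PTest} (hT : T.Obeys B E) {acc b a e0 : ℝ}
    (hsh : ∀ o, 0 < T.P.p o → |(T.geo (T.D o)).b - b| ≤ acc ∧ |(T.geo (T.D o)).a - a| ≤ acc) (he : e0 ≤ a - b) :
    0 ≤ max (b - acc) 0 ∧ max (b - acc) 0 ≤ E.u T.t ∧ max (b - acc) 0 ≤ E.L - T.t ∧
      (∀ o, 0 < T.P.p o → max (b - acc) 0 ≤ (T.geo (T.D o)).b ∧ (T.geo (T.D o)).b ≤ max (b - acc) 0 + 2 * acc) ∧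
      e0 - acc ≤ a - max (b - acc) 0 := by
  have key : ∀ o, 0 < T.P.p o →
      max (b - acc) 0 ≤ (T.geo (T.D o)).b ∧ (T.geo (T.D o)).b ≤ max (b - acc) 0 + 2 * acc := by
    intro o ho
    have g := hT.geo o ho
    have s1 := abs_le.1 (hsh o ho).1
    refine ⟨max_le (by linarith [s1.1]) g.1, ?_⟩
    have := le_max_left (b - acc) 0
    linarith [s1.2]
  obtain ⟨o, ho⟩ := ct_exists_supp T.P
  have g := hT.geo o ho
  have k := key o ho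
  have s1 := abs_le.1 (hsh o ho).1
  refine ⟨le_max_right _ _, by linarith [k.1, g.2.1, g.2.2.2.1], by linarith [k.1, g.2.1, g.2.2.1], key, ?_⟩
  rcases le_total (b - acc) 0 with h | h
  · rw [max_eq_right h]
    linarith [g.1, s1.2]
  · rw [max_eq_left h]
    have : 0 ≤ acc := (abs_nonneg _).trans (hsh o ho).1
    linarith

/-- **S8-A : THE PREPARATION** -/
theorem rsa_prep (γ β : ℝ) (h0 : 0 < γ) (h1 : γ < 1) (hβ : 0 ≤ β) (hrate : PRate γ β) (h e0 : ℝ) (hh : 0 < h)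
    (hP : RsaPred γ β h e0) (η : ℝ) (hη : 0 < η) :
    ∃ acc : ℝ, 0 < acc ∧ acc ≤ η ∧ ∀ B : PBd, B.Good → ∃ A0 : ℝ, 0 < A0 ∧ ∀ (c : CutPar) (ε₁ : ℝ), 0 < ε₁ →
      RsaCutA γ B c (2 * h) ε₁ → ∃ ε₀ : ℝ, 0 < ε₀ ∧ ∀ (E : PEnv) (T : PTest), E.ε < ε₀ → E.Obeys B → T.Obeys B E →
        pcxDef γ β B.M E T ≤ acc →
        (∃ b a : ℝ, (∀ o, 0 < T.P.p o → |(T.geo (T.D o)).b - b| ≤ acc ∧ |(T.geo (T.D o)).a - a| ≤ acc) ∧
          E.u T.t - acc ≤ a ∧ e0 ≤ a - b) → 2 * h ≤ T.t →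
        ∃ (Apre : T.Ω → Prop) (bs a : ℝ) (τV τX : E2) (nt : Loc0 → ℝ) (At : Atoms) (Cl : Classes At),
          RsaPrep γ β B c A0 h η e0 E T Apre bs a τV τX nt At Cl := by
  obtain ⟨acc, hacc⟩ : ∃ acc : ℝ, acc = min (min (η / 9) (h / 60)) (1 / 4) := ⟨_, rfl⟩
  have a0 : 0 < acc := by
    rw [hacc]
    exact lt_min (lt_min (by positivity) (by positivity)) (by norm_num)
  have a1 : 9 * acc ≤ η := by
    have : acc ≤ η / 9 := by rw [hacc]; exact (min_le_left _ _).trans (min_le_left _ _)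
    linarith
  have a2 : 60 * acc ≤ h := by
    have : acc ≤ h / 60 := by rw [hacc]; exact (min_le_left _ _).trans (min_le_right _ _)
    linarith
  have a3 : acc ≤ 1 / 4 := by rw [hacc]; exact min_le_right _ _
  refine ⟨acc, a0, by linarith, ?_⟩
  intro B hB
  obtain ⟨A0, ε₂, hA0, hε₂, HF⟩ := pcx_floor_sat γ β h0 h1 hβ hrate B hB acc a0
  obtain ⟨ε₃, hε₃, HD⟩ := rsel_cnd_def γ β hrate B hB acc a0
  refine ⟨A0, hA0, ?_⟩
  intro c ε₁ hε₁ hCA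
  obtain ⟨ε₄, hε₄, HP⟩ := hP B hB (rsaKp B c)
  refine ⟨min (min ε₁ ε₂) (min ε₃ ε₄), lt_min (lt_min hε₁ hε₂) (lt_min hε₃ hε₄), ?_⟩
  intro E T hε hE hT hdef hshape ht
  obtain ⟨b, a, hsh, hbd, hec⟩ := hshape
  have l1 : E.ε < ε₁ := lt_of_lt_of_le hε ((min_le_left _ _).trans (min_le_left _ _))
  have l2 : E.ε < ε₂ := lt_of_lt_of_le hε ((min_le_left _ _).trans (min_le_right _ _))
  have l3 : E.ε < ε₃ := lt_of_lt_of_le hε ((min_le_right _ _).trans (min_le_left _ _))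
  have l4 : E.ε < ε₄ := lt_of_lt_of_le hε ((min_le_right _ _).trans (min_le_right _ _))
  obtain ⟨r, hr⟩ : ∃ r : ℝ, r = T.t - 2 * h := ⟨_, rfl⟩
  -- floor
  obtain ⟨f1, f2⟩ := HF E T l2 hE hT (hdef.trans a3)
  obtain ⟨P₁, hP₁⟩ : ∃ P₁ : FLaw T.Ω, P₁ = T.P.cnd (pcxFl A0 E T) := ⟨_, rfl⟩
  have s1 : pcxSub T P₁ := by rw [hP₁]; exact pcx_sub_cnd T T.P (pcx_sub_self T) _
  -- buffer
  obtain ⟨τV, τX, g1⟩ := rpb_buffer (rsaKd B c) (by linarith [rsa_Kd_ge B c]) (r := r) (u := E.u T.t) hE.ε0 P₁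
    (fun o => T.sat o)
  obtain ⟨Bf, hBf⟩ : ∃ Bf : T.Ω → Prop,
      Bf = fun o => Buffered E.ε r (E.u T.t) (rsaLg B c) (rsaKd B c) τV τX (T.sat o) := ⟨_, rfl⟩
  have g1' : 3 / 4 ≤ P₁.pr Bf := by rw [hBf]; exact g1
  obtain ⟨P₂, hP₂⟩ : ∃ P₂ : FLaw T.Ω, P₂ = P₁.cnd Bf := ⟨_, rfl⟩
  have s2 : pcxSub T P₂ := by rw [hP₂]; exact pcx_sub_cnd T P₁ s1 _
  have d1 : pcxDef γ β B.M E (T.withLaw P₁) ≤ 3 * acc := by
    rw [hP₁]
    linarith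
  have d2 : pcxDef γ β B.M E (T.withLaw P₂) ≤ 16 / 3 * acc := by
    have := HD E T l3 hE hT P₁ s1 Bf (3 / 4) (by norm_num) g1'
    rw [← hP₂] at this
    refine this.trans ?_
    rw [div_le_iff₀ (by norm_num)]
    linarith
  -- prediction
  have hT₂ : (T.withLaw P₂).Obeys B E := pcx_obeys_withLaw hT P₂ s2
  have hsupp₂ : ∀ o, 0 < P₂.p o → 0 < T.P.p o := fun o ho => s2 o ho.ne'
  obtain ⟨nt, q1⟩ := HP E (T.withLaw P₂) (fun o => bufP E.ε r (E.u T.t) (rsaLg B c) τV τX (T.sat o)) l4 hE hT₂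
    (by linarith)
    ⟨b, a, fun o ho => ⟨((hsh o (hsupp₂ o ho)).1).trans (by linarith), ((hsh o (hsupp₂ o ho)).2).trans (by linarith)⟩,
      by
        show E.u T.t - h / 10 ≤ a
        linarith, hec⟩ ht
    (by
      have := rsa_predlab (E := E) (T.withLaw P₂) hE.ε0 r (rsa_Lg_ge B c) τV τX
      rw [hr] at this ⊢
      exact this)
  obtain ⟨Pd, hPd⟩ : ∃ Pd : T.Ω → Prop, Pd = fun o =>
      |Real.sin ((T.geo (T.D o)).th - nt (bufP E.ε r (E.u T.t) (rsaLg B c) τV τX (T.sat o)))| < E.ε ^ (4 * h) :=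
    ⟨_, rfl⟩
  have q1' : 3 / 4 ≤ P₂.pr Pd := by rw [hPd]; exact q1
  obtain ⟨m1, m2⟩ := rsa_chain T.P (pcxFl A0 E T) Bf Pd f1 (by rw [← hP₁]; exact g1')
    (by rw [← hP₁, ← hP₂]; exact q1')
  rw [← hP₁, ← hP₂] at m2
  obtain ⟨Apre, hApre⟩ : ∃ Apre : T.Ω → Prop, Apre = fun o => (pcxFl A0 E T o ∧ Bf o) ∧ Pd o := ⟨_, rfl⟩
  rw [← hApre] at m1 m2
  have d3 : pcxDef γ β B.M E (T.withLaw (T.P.cnd Apre)) ≤ η := by
    have := HD E T l3 hE hT P₂ s2 Pd (3 / 4) (by norm_num) q1'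
    rw [m2] at this
    refine this.trans ?_
    rw [div_le_iff₀ (by norm_num)]
    linarith
  -- `b_*`, atoms, classes
  obtain ⟨b0, b1, b2, b3, b4⟩ := rsa_bs hT hsh hec
  obtain ⟨bs, hbs⟩ : ∃ bs : ℝ, bs = max (b - acc) 0 := ⟨_, rfl⟩
  rw [← hbs] at b0 b1 b2 b3 b4
  have hn : 0 < E.nrm2 := pcx_nrm2_pos hE hT
  obtain ⟨At, Cl, hA, hC⟩ := hCA E hE l1 hn T.t r bs (by rw [hr]; linarith) (by rw [hr]; linarith) b0 b1 b2
  have hmpos : 0 < T.P.pr Apre := by linarith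
  have hsub : ∀ o, 0 < (T.P.cnd Apre).p o → Apre o ∧ 0 < T.P.p o := by
    intro o ho
    have := (ent_cnd_supp T.P Apre hmpos).1 ho.ne'
    exact ⟨this.1, ct_pos_of_ne _ this.2⟩
  rw [hr] at hA hC
  refine ⟨Apre, bs, a, τV, τX, nt, At, Cl, m1, d3, hn, hA, hC, b0, b1, b2,
    fun o ho => ((hsh o ho).2).trans (by linarith), fun o ho => ⟨(b3 o ho).1, by linarith [(b3 o ho).2]⟩,
    by linarith, by linarith, ?_, ?_, ?_, ?_⟩
  · intro o _ hA'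
    rw [hApre] at hA'
    exact hA'.1.1
  · intro o _ hA'
    rw [hApre, hBf, hr] at hA'
    exact hA'.1.2
  · intro o _ hA'
    rw [hApre, hPd, hr] at hA'
    exact hA'.2
  · intro τ _ _ tag
    obtain ⟨win, hwin⟩ := ct_win_exists E T.t (T.t - 2 * h) bs c.ξ c.S0 Cl hC tag T.site
    refine ⟨win, hE, pcx_obeys_withLaw hT _ (pcx_sub_cnd T T.P (pcx_sub_self T) _), hn, by linarith, ?_, b0, hA, hC,
      hwin, ?_, ?_⟩
    · show T.t - 2 * h ≤ T.t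
      linarith
    · intro o ho
      have := (hsub o ho).1
      rw [hApre] at this
      exact this.1.1
    · intro o ho
      exact (b3 o (hsub o ho).2).1

/-- the preparation, from the state of the chain -/
theorem rsa_prep_state (γ β : ℝ) (h0 : 0 < γ) (h1 : γ < 1) (hβ : 0 ≤ β) (hrate : PRate γ β) (h e0 : ℝ) (hh : 0 < h)
    (hP : RsaPred γ β h e0) (η : ℝ) (hη : 0 < η) :
    ∃ acc : ℝ, 0 < acc ∧ acc ≤ η ∧ ∀ B : PBd, B.Good → ∃ A0 : ℝ, 0 < A0 ∧ ∀ (c : CutPar) (ε₁ : ℝ), 0 < ε₁ →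
      RsaCutA γ B c (2 * h) ε₁ → ∃ ε₀ : ℝ, 0 < ε₀ ∧ ∀ (E : PEnv) (T : PTest) (Kc kf : ℝ), E.ε < ε₀ →
        RState γ β true B Kc h e0 acc kf E T → 2 * h ≤ T.t →
        ∃ (Apre : T.Ω → Prop) (bs a : ℝ) (τV τX : E2) (nt : Loc0 → ℝ) (At : Atoms) (Cl : Classes At),
          RsaPrep γ β B c A0 h η e0 E T Apre bs a τV τX nt At Cl := by
  obtain ⟨acc, a0, a1, H⟩ := rsa_prep γ β h0 h1 hβ hrate h e0 hh hP η hη
  refine ⟨acc, a0, a1, fun B hB => ?_⟩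
  obtain ⟨A0, hA0, H⟩ := H B hB
  refine ⟨A0, hA0, fun c ε₁ hε₁ hCA => ?_⟩
  obtain ⟨ε₀, hε₀, H⟩ := H c ε₁ hε₁ hCA
  refine ⟨ε₀, hε₀, fun E T Kc kf hε hS ht => ?_⟩
  obtain ⟨b, a, s1, s2, s3, -⟩ := hS.shape
  exact H E T hε hS.obE hS.obT hS.defi ⟨b, a, s1, s2, s3 rfl⟩ ht

/-- **S8-A, THE EXIT** : the prepared cut in the vocabulary of `Rep/Labels.lean`.
ORDER: `δ` (package free) `⟹ acc ≤ δ` (package free) `⟹ B ⟹ A0 ⟹ ξt, n` (`2 Hmax + 1 ≤ ξt (n+1)`) `⟹ c, R, Smax, ε₁` (`cut_main`, `dmin = 2h`, `rmin = h`) `⟹ ε₀`. -/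
theorem rsa_prep_cut (γ β : ℝ) (h0 : 0 < γ) (h1 : γ < 1) (hβ : 0 ≤ β) (hrate : PRate γ β) (h e0 : ℝ) (hh : 0 < h)
    (hP : RsaPred γ β h e0) (δ : ℝ) (hδ : 0 < δ) :
    ∃ acc : ℝ, 0 < acc ∧ acc ≤ δ ∧ ∀ B : PBd, B.Good → ∃ A0 : ℝ, 0 < A0 ∧ ∀ (ξt : ℝ) (n : ℕ), 0 < ξt →
      2 * B.Hmax + 1 ≤ ξt * ((n : ℝ) + 1) → ∀ (c : CutPar) (R : ℝ) (Smax : ℕ) (ε₁ : ℝ), 0 < ε₁ →
      Fintype.card (RTag n) ≤ Smax → RsaCutA γ B c (2 * h) ε₁ → RselCutB γ β B c (2 * h) h R A0 Smax ε₁ →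
      ∃ ε₀ : ℝ, 0 < ε₀ ∧ ∀ (E : PEnv) (T : PTest) (Kc kf : ℝ), E.ε < ε₀ →
        RState γ β true B Kc h e0 acc kf E T → 3 * h ≤ T.t →
        ∃ (Apre : T.Ω → Prop) (bs a : ℝ) (τV τX : E2) (nt : Loc0 → ℝ) (At : Atoms) (Cl : Classes At)
          (win : T.ι → ℕ × RTag n), 9 / 32 ≤ T.P.pr Apre ∧
          (⟨E, T.withLaw (T.P.cnd Apre), h, bs, rsaLg B c, τV, τX, true, nt, 2, At, Cl, ξt, n, win⟩ : RCut).Pre
            γ B c A0 (rsaKd B c) δ a ∧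
          e0 - δ ≤ a - bs ∧ pcxDef γ β B.M E (T.withLaw (T.P.cnd Apre)) ≤ δ := by
  obtain ⟨acc, a0, a1, H⟩ := rsa_prep_state γ β h0 h1 hβ hrate h e0 hh hP δ hδ
  refine ⟨acc, a0, a1, fun B hB => ?_⟩
  obtain ⟨A0, hA0, H⟩ := H B hB
  refine ⟨A0, hA0, fun ξt n hξt hn c R Smax ε₁ hε₁ hcard hCA hCB => ?_⟩
  obtain ⟨ε₂, hε₂, H⟩ := H c ε₁ hε₁ hCA
  obtain ⟨ε₃, hε₃, HN⟩ := rst_noclamp B c.p ξt n hn
  refine ⟨min ε₁ (min ε₂ ε₃), lt_min hε₁ (lt_min hε₂ hε₃), fun E T Kc kf hε hS ht => ?_⟩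
  have l1 : E.ε < ε₁ := lt_of_lt_of_le hε (min_le_left _ _)
  have l2 : E.ε < ε₂ := lt_of_lt_of_le hε ((min_le_right _ _).trans (min_le_left _ _))
  have l3 : E.ε < ε₃ := lt_of_lt_of_le hε ((min_le_right _ _).trans (min_le_right _ _))
  obtain ⟨Apre, bs, a, τV, τX, nt, At, Cl, K⟩ := H E T Kc kf l2 hS (by linarith)
  obtain ⟨win, hwin⟩ := K.cut (RTag n)
    (⟨E, T.withLaw (T.P.cnd Apre), h, bs, rsaLg B c, τV, τX, true, nt, 2, At, Cl, ξt, n,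
      fun _ => (0, default)⟩ : RCut).tag
  have hmpos : 0 < T.P.pr Apre := by linarith [K.mass]
  have hsub : ∀ o, 0 < (T.P.cnd Apre).p o → Apre o ∧ 0 < T.P.p o := by
    intro o ho
    have := (ent_cnd_supp T.P Apre hmpos).1 ho.ne'
    exact ⟨this.1, ct_pos_of_ne _ this.2⟩
  have hW := (hCB E (T.withLaw (T.P.cnd Apre)) (T.t - 2 * h) bs At Cl (RTag n) _ win l1 hcard hwin
    (by show T.t - 2 * h + 2 * h ≤ T.t; linarith) (Or.inr (by linarith))).1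
  refine ⟨Apre, bs, a, τV, τX, nt, At, Cl, win, K.mass, ?_, K.ecc, K.defi⟩
  refine ⟨hwin, hW, hh, ?_, hξt, rsa_Lg_ge B c, ?_, K.bdry, ?_, ?_, ?_, ?_, ?_⟩
  · show h ≤ T.t - 2 * h
    linarith
  · intro o ho
    exact K.shapea o (hsub o ho).2
  · intro _ o ho
    have := K.shapeb o (hsub o ho).2
    show |(T.geo (T.D o)).b - bs| ≤ δ
    exact abs_le.2 ⟨by linarith [this.1], by linarith [this.2]⟩
  · intro hf
    exact absurd hf (by simp)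
  · intro o ho
    exact K.buf o (hsub o ho).2 (hsub o ho).1
  · intro _ o ho
    exact K.pred o (hsub o ho).2 (hsub o ho).1
  · refine HN _ T.t rfl rfl hξt hS.obE l3 ?_ K.bs0 ?_ K.goodA
    · show 0 ≤ T.t - 2 * h
      linarith
    · show bs ≤ E.u (T.t - 2 * h)
      have := K.bsu
      unfold PEnv.u at this ⊢
      linarith

end Claimed.Agent.R255
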