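-- KEEP
import Claimed.Agent.R255.Rep.SelectCut

/-!
# Row 255 (BR paper), Sec. 11.3, stage S5 SELECT, file 3: THE EXITS      (architect helper264; prefix `rsel_`)

`T.P` = the INCOMING law `π^in` (with its credit), `Apre` = the preparation event (floor, buffered, predicted), the data `(At, Cl, tag, win)` are frozen, `J = ctJ E r bs T win`.
* `rsel_select_core`   `Gd` = any `J`-measurable good event of mass `≥ 1/2` under `π^in(· | Apre)` :  a final law `π = π^in(· | Apre, Gd, common shape bin, common tag, not exceptional)`.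
* `rsel_select_el`     the elongated case: `Gd = {u_r - ϑ ≤ l_B + b_*,  j_B + b_* ≤ u_0 - ν + ϑ,  mark = aligned}`;  slack by (X1), forced gap by (X2), the mass of the misaligned winners is a hypothesis (`rsel_mis_pr`).
* `rsel_select_iso`    the isotropic case: `Gd = {g(J) < 2 u_r + ζ}`  by (X3) and Markov.
-/

set_option autoImplicit false

namespace Claimed.Agent.R255

open scoped BigOperators
open Classical
open FLaw Pkt

/-- the number of values of the selection label -/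
noncomputable def rselS (Hmax ϑ : ℝ) (Smax : ℕ) : ℕ := rselNb Hmax ϑ * rselNb Hmax ϑ * Smax

theorem rsel_S_eqns_cite : True := by
  have := @rselS.eq_1
  trivial

/-- **the selection on the frozen data of a cut** -/
theorem rsel_select_core (γ β : ℝ) (hrate : PRate γ β) (B : PBd) (hB : B.Good) (Smax : ℕ) (ϑ e : ℝ) (hϑ : 0 < ϑ)
    (he : 0 < e) :
    ∃ ε₀ : ℝ, 0 < ε₀ ∧ ∀ (E : PEnv) (T : PTest) (r bs : ℝ) (p : Atoms.Par) (ξ : ℝ) (S0 : ℕ) (A0 : ℝ) (At : Atoms)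
      (Cl : Classes At) (τ : Type) [Fintype τ] (tag : At.𝔸 → τ) (win : T.ι → ℕ × τ) (S : ℝ), E.ε < ε₀ →
      Fintype.card τ ≤ Smax → T.Obeys B E → ξ ≤ ϑ → ∀ (Apre : T.Ω → Prop) (p₀ : ℝ), 0 < p₀ → p₀ ≤ T.P.pr Apre →
      CutOK γ E B (T.withLaw (T.P.cnd Apre)) r bs p ξ S0 A0 At Cl tag win →
      WinOK E r bs (T.withLaw (T.P.cnd Apre)) Cl tag win S →
      ∀ Gd : Classes.Lab τ → Prop, 1 / 2 ≤ (T.P.cnd Apre).pr (fun o => Gd (ctJ E r bs T win o)) →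
      ∀ (α' β' : Type) (Pf : T.Ω → α') (Wf : T.Ω → β') (κ : ℝ), Credit T.P Pf Wf κ → ∀ z : ℝ, 0 < z → z ≤ 1 / 2 →
      ∃ (o₀ : T.Ω) (π : FLaw T.Ω), T.P.p o₀ ≠ 0 ∧ Apre o₀ ∧ Gd (ctJ E r bs T win o₀) ∧ pcxSub T π ∧
        (∀ o, π.p o ≠ 0 → T.P.p o ≠ 0 ∧ Apre o ∧ Gd (ctJ E r bs T win o) ∧
          (ctJ E r bs T win o).2.2 = (ctJ E r bs T win o₀).2.2 ∧
          |Cl.jB (ctJ E r bs T win o).1 (ctJ E r bs T win o).2.1
            - Cl.jB (ctJ E r bs T win o₀).1 (ctJ E r bs T win o₀).2.1| ≤ ϑ ∧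
          |Cl.lB (ctJ E r bs T win o).1 (ctJ E r bs T win o).2.1
            - Cl.lB (ctJ E r bs T win o₀).1 (ctJ E r bs T win o₀).2.1| ≤ ϑ) ∧
        Credit π Pf Wf (κ * (16 * rselS B.Hmax ϑ Smax / (p₀ * z))) ∧
        pcxDef γ β B.M E (T.withLaw π) ≤ 32 * pcxDef γ β B.M E (T.withLaw (T.P.cnd Apre)) + 50 * e := by
  obtain ⟨ε₁, h1, H1⟩ := rsel_final γ β hrate B hB (rselS B.Hmax ϑ Smax) e he
  obtain ⟨ε₂, h2, H2⟩ := rsel_cnd_def γ β hrate B hB e he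
  refine ⟨min ε₁ ε₂, lt_min h1 h2, ?_⟩
  intro E T r bs p ξ S0 A0 At Cl τ _ tag win S hε hcard hT hξ Apre p₀ hp₀ hpA H hW Gd hGd α' β' Pf Wf κ hcr z hz hz1
  have hE := H.obE
  have hApos : 0 < T.P.pr Apre := lt_of_lt_of_le hp₀ hpA
  set J : T.Ω → Classes.Lab τ := ctJ E r bs T win with hJ
  -- the enlarged preparation event
  set Apre' : T.Ω → Prop := fun o => Apre o ∧ Gd (J o) with hApre'
  have hpA' : p₀ / 2 ≤ T.P.pr Apre' := by
    have e1 := ent_cnd_pr T.P Apre hApos (fun o => Gd (J o))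
    rw [e1, le_div_iff₀ hApos] at hGd
    have e2 : 1 / 2 * p₀ ≤ 1 / 2 * T.P.pr Apre := by linarith
    linarith
  have hApos' : 0 < T.P.pr Apre' := lt_of_lt_of_le (by positivity) hpA'
  set Bt : T.Ω → (ℤ × ℤ) × τ := fun o => (rselBin Cl ϑ (J o), (J o).2.2) with hBt
  set I : Finset ℤ := Finset.Icc (-1 : ℤ) (⌊B.Hmax / (2 * ϑ)⌋ + 1) with hI
  have hFcard : ((I ×ˢ I) ×ˢ (Finset.univ : Finset τ)).card ≤ rselS B.Hmax ϑ Smax := by
    rw [Finset.card_product, Finset.card_product, hI, rsel_Icc_card, Finset.card_univ]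
    unfold rselS
    exact Nat.mul_le_mul_left _ hcard
  have hmem : ∀ o, T.P.p o ≠ 0 → Apre' o → Bt o ∈ (I ×ˢ I) ×ˢ (Finset.univ : Finset τ) := by
    intro o ho hA
    have hs : (T.P.cnd Apre).p o ≠ 0 := (ent_cnd_supp T.P Apre hApos).2 ⟨hA.1, ho⟩
    obtain ⟨A, hAm⟩ := ct_cls_nonempty H hW o hs
    have hlab : Cl.lab tag A = J o := (Finset.mem_filter.1 hAm).2
    refine Finset.mem_product.2 ⟨?_, Finset.mem_univ _⟩
    show rselBin Cl ϑ (J o) ∈ I ×ˢ I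
    rw [← hlab]
    exact rsel_bin_mem hE H.r0 H.bs0 H.goodC hϑ hξ tag A
  obtain ⟨o₀, π, c1, c2, -, c4, c5, c6, c7⟩ := H1 E T (lt_of_lt_of_le hε (min_le_left _ _)) hE hT T.P (pcx_sub_self T)
    α' β' Pf Wf κ hcr Apre' (p₀ / 2) (by positivity) hpA' _ Bt _ hFcard hmem (fun _ => True) (fun _ _ _ _ => trivial)
    (by rw [ent_pr_true]; norm_num) z hz hz1
  refine ⟨o₀, π, c1, c2.1, c2.2, c4, ?_, ?_, ?_⟩
  · intro o ho
    obtain ⟨d1, d2, d3, -⟩ := c5 o ho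
    have d3' : (rselBin Cl ϑ (J o), (J o).2.2) = (rselBin Cl ϑ (J o₀), (J o₀).2.2) := d3
    have d4 : rselBin Cl ϑ (J o) = rselBin Cl ϑ (J o₀) := (Prod.mk.inj d3').1
    have d5 : (J o).2.2 = (J o₀).2.2 := (Prod.mk.inj d3').2
    obtain ⟨d6, d7⟩ := rsel_bin_close Cl hϑ d4
    exact ⟨d1, d2.1, d2.2, d5, d6, d7⟩
  · have e3 : κ * (8 * (rselS B.Hmax ϑ Smax : ℝ) / (p₀ / 2 * z)) = κ * (16 * rselS B.Hmax ϑ Smax / (p₀ * z)) := by
      field_simp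
      ring
    rw [← e3]
    exact c6
  · have e4 : T.P.cnd Apre' = (T.P.cnd Apre).cnd (fun o => Gd (J o)) := (ent_cnd_cnd T.P Apre _ hApos').symm
    have e5 := H2 E T (lt_of_lt_of_le hε (min_le_right _ _)) hE hT (T.P.cnd Apre) (rsel_sub_cnd (pcx_sub_self T) _)
      (fun o => Gd (J o)) (1 / 2) (by norm_num) hGd
    rw [← e4] at e5
    have e6 : (pcxDef γ β B.M E (T.withLaw (T.P.cnd Apre)) + e) / (1 / 2)
        = 2 * (pcxDef γ β B.M E (T.withLaw (T.P.cnd Apre)) + e) := by ring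
    rw [e6] at e5
    linarith

/-- **S5 SELECT, elongated case.**   `mk` = alignment mark of a tag.   `hmis` = the mass of the misaligned winners of qualifying shape (L11.3). -/
theorem rsel_select_el (γ β : ℝ) (hrate : PRate γ β) (hS : PcxSlack γ β) (hF : PcxForced γ β)
    (ν κ h e0 ϑ η : ℝ) (hκ : 0 < κ) (he0 : e0 < ν / 2) (hϑ : 0 < ϑ) (hϑh : 2 * ϑ ≤ h) (hη : 0 < η) :
    ∃ δ : ℝ, 0 < δ ∧ δ ≤ η ∧ ∀ B : PBd, B.Good → ∀ (c : CutPar) (R A0 : ℝ) (Smax : ℕ) (ε₁ : ℝ), 0 < ε₁ →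
      RselCutB γ β B c (2 * h) h R A0 Smax ε₁ → RselCutC γ B c h A0 → c.Bat.Good → c.Bat.M = B.M → c.ξ ≤ R → R ≤ δ →
      ∃ ε₀ : ℝ, 0 < ε₀ ∧ ∀ (E : PEnv) (T : PTest) (r bs : ℝ) (At : Atoms) (Cl : Classes At) (τ : Type) [Fintype τ]
        (tag : At.𝔸 → τ) (win : T.ι → ℕ × τ), E.ε < ε₀ → Fintype.card τ ≤ Smax → T.Obeys B E →
        r = T.t - 2 * h → h ≤ r → T.t ≤ ν → K0geLe γ B.M E (E.u 0 - ν) (K0 γ B.M E - κ) →
        ∀ (Apre : T.Ω → Prop) (p₀ : ℝ), 0 < p₀ → p₀ ≤ T.P.pr Apre →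
        CutOK γ E B (T.withLaw (T.P.cnd Apre)) r bs c.p c.ξ c.S0 A0 At Cl tag win →
        pcxDef γ β B.M E (T.withLaw (T.P.cnd Apre)) ≤ δ →
        ∀ mk : τ → Bool,
        (T.P.cnd Apre).pr (fun o => (E.u r - ϑ ≤ Cl.lB (ctJ E r bs T win o).1 (ctJ E r bs T win o).2.1 + bs ∧
          Cl.jB (ctJ E r bs T win o).1 (ctJ E r bs T win o).2.1 + bs ≤ E.u 0 - ν + ϑ) ∧
          mk (ctJ E r bs T win o).2.2 = false) ≤ 1 / 6 →
        ∀ (α' β' : Type) (Pf : T.Ω → α') (Wf : T.Ω → β') (κc : ℝ), Credit T.P Pf Wf κc → ∀ z : ℝ, 0 < z → z ≤ 1 / 2 →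
        ∃ (π : FLaw T.Ω) (t₀ : τ) (b' a' : ℝ), pcxSub T π ∧ mk t₀ = true ∧
          (∀ o, π.p o ≠ 0 → T.P.p o ≠ 0 ∧ Apre o ∧ (ctJ E r bs T win o).2.2 = t₀ ∧
            |Cl.jB (ctJ E r bs T win o).1 (ctJ E r bs T win o).2.1 + bs - b'| ≤ ϑ ∧
            |Cl.lB (ctJ E r bs T win o).1 (ctJ E r bs T win o).2.1 + bs - a'| ≤ ϑ) ∧
          E.u r - ϑ ≤ a' ∧ e0 ≤ a' - b' ∧
          Credit π Pf Wf (κc * (16 * rselS B.Hmax ϑ Smax / (p₀ * z))) ∧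
          pcxDef γ β B.M E (T.withLaw π) ≤ η := by
  obtain ⟨cS, hcS, HS⟩ := rsel_slack_pr γ β hrate hS ϑ hϑ
  obtain ⟨cF, hcF, HF⟩ := rsel_forced_pr γ β hrate hF ν κ ϑ hκ hϑ
  obtain ⟨δ, hδdef⟩ : ∃ δ, δ = min (min (cS / 25) (cF / 25)) (min (η / 82) (ϑ / 2)) := ⟨_, rfl⟩
  have hδ0 : 0 < δ := by
    rw [hδdef]
    exact lt_min (lt_min (by positivity) (by positivity)) (lt_min (by positivity) (by positivity))
  have hδS : 25 * δ ≤ cS := by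
    have : δ ≤ cS / 25 := by rw [hδdef]; exact (min_le_left _ _).trans (min_le_left _ _)
    linarith
  have hδF : 25 * δ ≤ cF := by
    have : δ ≤ cF / 25 := by rw [hδdef]; exact (min_le_left _ _).trans (min_le_right _ _)
    linarith
  have hδη : 82 * δ ≤ η := by
    have : δ ≤ η / 82 := by rw [hδdef]; exact (min_le_right _ _).trans (min_le_left _ _)
    linarith
  have hδϑ : δ ≤ ϑ / 2 := by rw [hδdef]; exact (min_le_right _ _).trans (min_le_right _ _)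
  refine ⟨δ, hδ0, by linarith, ?_⟩
  intro B hB c R A0 Smax ε₁ hε₁ hCB hCC hBat hM hξ hR
  obtain ⟨ε₂, hε₂, H2⟩ := HS B hB c (2 * h) h R A0 Smax ε₁ hε₁ hCB hCC hBat hM hξ (by linarith) (by linarith)
    (by linarith) δ hδ0
  obtain ⟨ε₃, hε₃, H3⟩ := HF B hB c (2 * h) h R A0 Smax ε₁ hε₁ hCB hCC hBat hM hξ (by linarith) (by linarith) δ hδ0
  obtain ⟨ε₄, hε₄, H4⟩ := rsel_select_core γ β hrate B hB Smax ϑ δ hϑ hδ0
  refine ⟨min (min ε₁ ε₂) (min ε₃ ε₄), lt_min (lt_min hε₁ hε₂) (lt_min hε₃ hε₄), ?_⟩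
  intro E T r bs At Cl τ _ tag win hε hcard hT hr hhr htν hgap Apre p₀ hp₀ hpA H hdef mk hmis α' β' Pf Wf κc hcr z hz hz1
  have l1 : E.ε < ε₁ := lt_of_lt_of_le hε ((min_le_left _ _).trans (min_le_left _ _))
  have l2 : E.ε < ε₂ := lt_of_lt_of_le hε ((min_le_left _ _).trans (min_le_right _ _))
  have l3 : E.ε < ε₃ := lt_of_lt_of_le hε ((min_le_right _ _).trans (min_le_left _ _))
  have l4 : E.ε < ε₄ := lt_of_lt_of_le hε ((min_le_right _ _).trans (min_le_right _ _))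
  have hrt : r + 2 * h ≤ (T.withLaw (T.P.cnd Apre)).t := by
    show r + 2 * h ≤ T.t
    linarith
  obtain ⟨hW, -⟩ := hCB E (T.withLaw (T.P.cnd Apre)) r bs At Cl τ tag win l1 hcard H hrt (Or.inr hhr)
  have b2 := H2 E (T.withLaw (T.P.cnd Apre)) r bs At Cl τ tag win l2 hcard H hrt hhr
  have b3 := H3 E (T.withLaw (T.P.cnd Apre)) r bs At Cl τ tag win l3 hcard H hrt hhr hgap
  set Q : FLaw T.Ω := T.P.cnd Apre with hQ
  set J : T.Ω → Classes.Lab τ := ctJ E r bs T win with hJ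
  -- the two bounds are `≤ 1/6`
  have hsmall : ∀ cg : ℝ, 25 * δ ≤ cg → 3 / 2 * (pcxDef γ β B.M E (T.withLaw Q) + δ) / (cg - 7 * R) ≤ 1 / 6 := by
    intro cg hcg
    have hden : 0 < cg - 7 * R := by linarith
    rw [div_le_iff₀ hden]
    linarith
  have b2' : Q.pr (fun o => Cl.lB (J o).1 (J o).2.1 + bs < E.u r - ϑ) ≤ 1 / 6 := b2.trans (hsmall cS hδS)
  have b3' : Q.pr (fun o => E.u 0 - ν + ϑ < Cl.jB (J o).1 (J o).2.1 + bs) ≤ 1 / 6 := b3.trans (hsmall cF hδF)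
  -- the good event
  set Gd : Classes.Lab τ → Prop := fun j => (E.u r - ϑ ≤ Cl.lB j.1 j.2.1 + bs ∧ Cl.jB j.1 j.2.1 + bs ≤ E.u 0 - ν + ϑ) ∧
    mk j.2.2 = true with hGd
  have hGdpr : 1 / 2 ≤ Q.pr (fun o => Gd (J o)) := by
    have e1 : Q.pr (fun o => ¬ Gd (J o)) ≤ Q.pr (fun o => Cl.lB (J o).1 (J o).2.1 + bs < E.u r - ϑ)
        + (Q.pr (fun o => E.u 0 - ν + ϑ < Cl.jB (J o).1 (J o).2.1 + bs)
          + Q.pr (fun o => (E.u r - ϑ ≤ Cl.lB (J o).1 (J o).2.1 + bs ∧ Cl.jB (J o).1 (J o).2.1 + bs ≤ E.u 0 - ν + ϑ) ∧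
              mk (J o).2.2 = false)) := by
      refine le_trans (ent_pr_mono Q fun o _ hn => ?_) ((ent_pr_or_le Q _ _).trans
        (add_le_add_right (ent_pr_or_le Q _ _) _))
      by_cases g1 : Cl.lB (J o).1 (J o).2.1 + bs < E.u r - ϑ
      · exact Or.inl g1
      · by_cases g2 : E.u 0 - ν + ϑ < Cl.jB (J o).1 (J o).2.1 + bs
        · exact Or.inr (Or.inl g2)
        · refine Or.inr (Or.inr ⟨⟨not_lt.1 g1, not_lt.1 g2⟩, ?_⟩)
          by_contra g3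
          exact hn ⟨⟨not_lt.1 g1, not_lt.1 g2⟩, by simpa using g3⟩
    rw [ent_pr_not] at e1
    linarith
  obtain ⟨o₀, π, c1, c2, c3, c4, c5, c6, c7⟩ := H4 E T r bs c.p c.ξ c.S0 A0 At Cl τ tag win _ l4 hcard hT
    (by linarith) Apre p₀ hp₀ hpA H hW Gd hGdpr α' β' Pf Wf κc hcr z hz hz1
  refine ⟨π, (J o₀).2.2, Cl.jB (J o₀).1 (J o₀).2.1 + bs, Cl.lB (J o₀).1 (J o₀).2.1 + bs, c4, c3.2, ?_, c3.1.1, ?_, c6, ?_⟩
  · intro o ho
    obtain ⟨d1, d2, -, d4, d5, d6⟩ := c5 o ho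
    refine ⟨d1, d2, d4, ?_, ?_⟩
    · have : Cl.jB (J o).1 (J o).2.1 + bs - (Cl.jB (J o₀).1 (J o₀).2.1 + bs)
          = Cl.jB (J o).1 (J o).2.1 - Cl.jB (J o₀).1 (J o₀).2.1 := by ring
      rw [this]
      exact d5
    · have : Cl.lB (J o).1 (J o).2.1 + bs - (Cl.lB (J o₀).1 (J o₀).2.1 + bs)
          = Cl.lB (J o).1 (J o).2.1 - Cl.lB (J o₀).1 (J o₀).2.1 := by ring
      rw [this]
      exact d6
  · have g1 := c3.1.1
    have g2 := c3.1.2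
    have eu : E.u r - E.u 0 = -(r / 2) := by
      unfold PEnv.u
      ring
    linarith
  · linarith

end Claimed.Agent.R255
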