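-- KEEP
import Claimed.Agent.R255.Rep.Labels
import Claimed.Agent.R255.Rep.SelectEl
import Claimed.Agent.R255.Rep.Repay
import Claimed.Agent.R255.Rep.AlnCut
import Claimed.Agent.R255.Rep.OutTag
import Claimed.Agent.R255.Rep.MassBuf
import Claimed.Agent.R255.Rep.Tags
import Claimed.Agent.R255.Rep.SelMis

/-!
# Row 255 (BR paper), Sec. 11: stage S8, SECOND HALF of the glue of `step_el`      (architect helper163; prefix `rse_`)

From the prepared cut (`RCut`, `RCut.Pre` of `Rep/Labels.lean`, produced by the first half `Rep/StepElA.lean`) to the conclusion of `step_el`: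
S5 `rsel_select_el`  ->  S6 `rq_repay`  ->  S7 `rpo_out_el`  ->  the numeric end.
-/

set_option autoImplicit false

namespace Claimed.Agent.R255

open scoped BigOperators
open Classical
open FLaw Pkt Osc

/-- the incoming labels keep their geometric meaning under a sub-law -/
theorem rse_incoming_sub {E : PEnv} {T : PTest} {h Kc : ℝ} {el : Bool} {α β : Type} {Pf : T.Ω → α} {Wf : T.Ω → β}
    {nf : α → ℝ} (H : Incoming E T h Kc el Pf Wf nf) (Q : FLaw T.Ω) (hQ : ∀ o, 0 < Q.p o → 0 < T.P.p o) :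
    Incoming E (T.withLaw Q) h Kc el Pf Wf nf where
  locC := fun o o' ho ho' => H.locC o o' (hQ o ho) (hQ o' ho')
  locV := fun o o' ho ho' => H.locV o o' (hQ o ho) (hQ o' ho')
  locX := fun o o' ho ho' => H.locX o o' (hQ o ho) (hQ o' ho')
  listP := fun c v x ρ hρ => by
    obtain ⟨S, hS, hm⟩ := H.listP c v x ρ hρ
    exact ⟨S, hS, fun o ho => hm o (hQ o ho)⟩
  listW1 := fun hel p y ρ hρ => by
    obtain ⟨S, hS, hm⟩ := H.listW1 hel p y ρ hρ
    exact ⟨S, hS, fun o ho => hm o (hQ o ho)⟩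
  listW2 := fun hel p v ρ hρ => by
    obtain ⟨S, hS, hm⟩ := H.listW2 hel p v ρ hρ
    exact ⟨S, hS, fun o ho => hm o (hQ o ho)⟩
  align := fun hel o ho => H.align hel o (hQ o ho)

/-- a constant is beaten by a negative power -/
theorem rse_const_le (C ζ : ℝ) (hζ : 0 < ζ) : ∃ ε₀ : ℝ, 0 < ε₀ ∧ ∀ ε : ℝ, 0 < ε → ε < ε₀ → C ≤ ε ^ (-ζ) := by
  obtain ⟨ε₁, h1, H⟩ := rpa_small_pow ζ (1 / (|C| + 1)) hζ (by positivity)
  refine ⟨ε₁, h1, fun ε h0 hε => ?_⟩
  have h2 := H ε h0 hε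
  have h3 : 0 < ε ^ ζ := Real.rpow_pos_of_pos h0 _
  rw [Real.rpow_neg h0.le]
  have h4 : |C| + 1 ≤ (ε ^ ζ)⁻¹ := by
    rw [le_inv_comm₀ (by positivity) h3, ← one_div]
    exact h2
  linarith [le_abs_self C]

/-- `u_r - h = u_t` for `r = t - 2h` -/
theorem rse_u_shift (E : PEnv) (t h : ℝ) : E.u t = E.u (t - 2 * h) - h := by
  unfold PEnv.u
  ring

/-- distance to the left end point of a cell -/
theorem rse_floor_dist (x w : ℝ) (hw : 0 < w) : |x - w * (⌊x / w⌋ : ℝ)| ≤ w := by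
  have h1 : (⌊x / w⌋ : ℝ) ≤ x / w := Int.floor_le _
  have h2 : x / w < (⌊x / w⌋ : ℝ) + 1 := Int.lt_floor_add_one _
  rw [le_div_iff₀ hw] at h1
  rw [div_lt_iff₀ hw] at h2
  rw [abs_le]
  constructor <;> nlinarith

/-- **after the selection**: S6 + S7 + the numeric end.   `T.P` = the FINAL current law; label-agnostic in the tags (`hreg`, `hcnt`, `hcap`, `hal` = the contract of the tag layer);
`s` = the common accuracy (`1000 s ≤ min h acc'`). -/
theorem rse_fin (γ β : ℝ) (h0 : 0 < γ) (h1 : γ < 1) (hcl : UnivBound γ γ) (h e0 acc' s : ℝ) (hh : 0 < h)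
    (hs : 0 < s) (hsh : 1000 * s ≤ h) (hsa : 1000 * s ≤ acc') (hecc : 20 * h < γ * e0)
    (B : PBd) (Kc : ℝ) (hB : B.Good) (c : CutPar) (R A0 : ℝ) (Smax : ℕ) (ε₁ : ℝ) (hε₁ : 0 < ε₁)
    (hCB : RselCutB γ β B c (2 * h) h R A0 Smax ε₁) (hCC : RselCutC γ B c h A0) (hM : c.Bat.M = B.M)
    (hξ0 : 0 < c.ξ) (hξ : c.ξ ≤ R) (hR : R ≤ s) (hA : A0 / 2 < c.p.A) (Lg : ℝ) (hLg : 1 ≤ Lg) :
    ∃ ε₀ : ℝ, 0 < ε₀ ∧ ∀ (E : PEnv) (T : PTest) (bs : ℝ) (At : Atoms) (Cl : Classes At) (τ : Type) [Fintype τ]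
      (tag : At.𝔸 → τ) (win : T.ι → ℕ × τ) (τV τX : E2) (nt : Loc0 → ℝ) (kf k a b' a' : ℝ),
      E.ε < ε₀ → Fintype.card τ ≤ Smax →
      CutOK γ E B T (T.t - 2 * h) bs c.p c.ξ c.S0 A0 At Cl tag win → 3 * h ≤ T.t →
      pcxDef γ β B.M E T ≤ s →
      (∀ o, 0 < T.P.p o → |(T.geo (T.D o)).a - a| ≤ s) → E.u T.t - s ≤ a →
      (∀ o, 0 < T.P.p o → |(T.geo (T.D o)).b - bs| ≤ s) → e0 - s ≤ a - bs →
      (∀ o, 0 < T.P.p o →
        Buffered E.ε (T.t - 2 * h) (E.u T.t) Lg (2 * max (B.Ra + c.p.Ra) 1) τV τX (T.sat o)) →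
      (∀ o, 0 < T.P.p o →
        |Real.sin ((T.geo (T.D o)).th - nt (bufP E.ε (T.t - 2 * h) (E.u T.t) Lg τV τX (T.sat o)))|
          < E.ε ^ (4 * h)) →
      (∀ o, 0 < T.P.p o →
        |Cl.jB (ctJ E (T.t - 2 * h) bs T win o).1 (ctJ E (T.t - 2 * h) bs T win o).2.1 + bs - b'| ≤ s ∧
        |Cl.lB (ctJ E (T.t - 2 * h) bs T win o).1 (ctJ E (T.t - 2 * h) bs T win o).2.1 + bs - a'| ≤ s) →
      E.u (T.t - 2 * h) - s ≤ a' → e0 ≤ a' - b' → 0 ≤ k →
      (∀ o, 0 < T.P.p o → rpoReg (Cl.clsOf tag (ctJ E (T.t - 2 * h) bs T win o))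
        (fun A => bufP E.ε (T.t - 2 * h) (E.u T.t) Lg τV τX (At.asite A))
        (fun A => rpoW true (E.ε ^ E.u (T.t - 2 * h))
          (nt (bufP E.ε (T.t - 2 * h) (E.u T.t) Lg τV τX (At.asite A))) (At.asite A))
        (E.ε ^ (k - s))) →
      (∀ o, 0 < T.P.p o → ∀ q : Loc0,
        ((((Cl.clsOf tag (ctJ E (T.t - 2 * h) bs T win o)).filter
          (fun A => bufP E.ε (T.t - 2 * h) (E.u T.t) Lg τV τX (At.asite A) = q)).image
          (fun A => rpoW true (E.ε ^ E.u (T.t - 2 * h))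
            (nt (bufP E.ε (T.t - 2 * h) (E.u T.t) Lg τV τX (At.asite A))) (At.asite A))).card : ℝ)
          ≤ E.ε ^ (-(k + s))) →
      k ≤ h + 2 * Real.log (6 * Lg) / lg E.ε →
      (∀ o, 0 < T.P.p o → ∀ A ∈ Cl.clsOf tag (ctJ E (T.t - 2 * h) bs T win o),
        |Real.sin ((Cl.acap A).th - nt (bufP E.ε (T.t - 2 * h) (E.u T.t) Lg τV τX (At.asite A)))|
          ≤ 2 * E.ε ^ h) →
      (kf = 0 ∨ ∃ (α β' : Type) (Pf : T.Ω → α) (Wf : T.Ω → β') (nf : α → ℝ),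
        Credit T.P Pf Wf (E.ε ^ (kf - 2 * s)) ∧ Incoming E T h Kc true Pf Wf nf) →
      ∃ (T' : PTest) (k : ℝ), T'.t = T.t - 2 * h ∧
        RState γ β true c.Bat (max (max (2 * Lg) 256) 2) h e0 acc' k E T' ∧
        kf + (4 * β - 2 * γ) * h - acc' ≤ k ∧ 0 ≤ k ∧ k ≤ h + acc' := by
  have hacc' : 0 < acc' := by linarith
  obtain ⟨εq, hq0, HQ⟩ := rq_repay ⟨γ, B, c.p, c.S0, Smax, A0, Lg, 1, Kc, h, s⟩ h0 h1 hcl hB s hs
  obtain ⟨εc, hc0, HC⟩ := ct_small (2 * Real.log (6 * Lg)) acc' hacc'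
  refine ⟨min (min εq εc) ε₁, lt_min (lt_min hq0 hc0) hε₁, ?_⟩
  intro E T bs At Cl τ _ tag win τV τX nt kf k a b' a' hε hcard H ht hdef hsa' hbd hsb hecc' hbuf hpred hshape ha' he'
    hk0 hreg hcnt hcap hal hcred
  have lq : E.ε < εq := lt_of_lt_of_le hε ((min_le_left _ _).trans (min_le_left _ _))
  have lc : E.ε < εc := lt_of_lt_of_le hε ((min_le_left _ _).trans (min_le_right _ _))
  have l1 : E.ε < ε₁ := lt_of_lt_of_le hε (min_le_right _ _)
  have hE := H.obE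
  have e0' := hE.ε0
  have e1' := hE.ε1
  obtain ⟨hW, hC⟩ := hCB E T _ bs At Cl τ tag win l1 hcard H (by linarith) (Or.inr (by linarith))
  obtain ⟨o₁, ho₁⟩ := ct_exists_supp T.P
  have : Nonempty At.𝔸 := by
    obtain ⟨A, -⟩ := ct_cls_nonempty H hW o₁ ho₁.ne'
    exact ⟨A⟩
  have hOb := hCC E T _ bs At Cl τ tag win inferInstance (Cl.clsOf tag) Cl.acap H (by linarith) (ct_early_acap H hW).2
  have he0 : 20 * h < e0 := by nlinarith
  have hw0 : 0 < E.ε ^ E.u (T.t - 2 * h) := Real.rpow_pos_of_pos e0' _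
  -- S6
  let X : RqD := ⟨γ, E, B, T, h, bs, c.p, c.ξ, c.S0, A0, At, inferInstance, Cl, τ, inferInstance, tag, win, true, Lg,
    τV, τX, nt, s, ℤ × ℤ,
    fun A => rpoW true (E.ε ^ E.u (T.t - 2 * h)) (nt (bufP E.ε (T.t - 2 * h) (E.u T.t) Lg τV τX (At.asite A)))
      (At.asite A),
    fun w => E.ε ^ E.u (T.t - 2 * h) * (w.1 : ℝ), fun _ => 0⟩
  have hFit : X.Fits ⟨γ, B, c.p, c.S0, Smax, A0, Lg, 1, Kc, h, s⟩ := ⟨rfl, rfl, rfl, rfl, hcard, rfl, rfl, rfl, rfl⟩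
  have hOk : X.Ok 1 Kc (2 * s) (k + s) kf (2 * s) :=
    { cut := H
      hA := hA
      h0 := hh
      θ0 := hs
      θh := by show s ≤ h / 10; linarith
      η0 := by linarith
      ηh := by show 2 * s ≤ h; linarith
      ξ0 := hξ0
      α0 := by linarith
      bsu := by
        show bs ≤ E.u T.t - h
        have g1 := (H.obT.geo o₁ ho₁).2.2.2.1
        have g2 := abs_le.1 (hsa' o₁ ho₁)
        linarith [g2.1, g2.2]
      Lg1 := hLg
      share := by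
        rintro i ⟨o, ho, rfl⟩ A hloc hn
        exact rm_near_atom hE H.goodA (η := s) (by linarith) hloc (hbuf o ho) hn
      pred := by
        intro _ o ho
        have := (hpred o ho).le
        rw [one_mul]
        exact this
      shA := by
        intro o ho
        show E.u T.t - 2 * s ≤ (T.geo (T.D o)).a
        have g2 := abs_le.1 (hsa' o ho)
        linarith [g2.1, g2.2]
      shB := by
        intro _ o ho
        show (T.geo (T.D o)).b ≤ bs + 2 * s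
        have g2 := abs_le.1 (hsb o ho)
        linarith [g2.1, g2.2]
      shB' := fun hel => absurd (show true = false from hel) (by decide)
      wb1 := by
        intro _ A
        show |ip (toP (At.asite A).V) (nrm (nt (bufP E.ε (T.t - 2 * h) (E.u T.t) Lg τV τX (At.asite A))))
          - E.ε ^ E.u (T.t - 2 * h) * (((rpoW true (E.ε ^ E.u (T.t - 2 * h))
            (nt (bufP E.ε (T.t - 2 * h) (E.u T.t) Lg τV τX (At.asite A))) (At.asite A)).1 : ℤ) : ℝ)|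
          ≤ E.ε ^ E.u (T.t - 2 * h)
        unfold rpoW
        rw [if_pos rfl]
        exact rse_floor_dist _ _ hw0
      wb2 := fun hel => absurd (show true = false from hel) (by decide)
      wcnt := by
        rintro i ⟨o, ho, rfl⟩ q
        refine le_trans (le_of_eq ?_) ((hcnt o ho q).trans
          (Real.rpow_le_rpow_of_exponent_ge e0' e1'.le (by show -(k + s + c.ξ) ≤ -(k + s); linarith)))
        congr!
      credit := hcred }
  have hrep := HQ X (2 * s) (k + s) kf (2 * s) hFit lq hOk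
  have hrep' : score γ E T ≤ pcKstar (lg E.ε) T.P (ctJ E (T.t - 2 * h) bs T win) bs (Cl.LN E tag) (Cl.Lm E) Cl.gJ
      + γ * h + (k + s - kf) / 2 + (20 * (s + c.ξ + 2 * s) + 2 * s / 2 + s) := by
    unfold pcKstar
    simp only [← ct_AJ_eq]
    exact hrep
  have hbr := pc_bench_bridge hC
  rw [← ct_score_eq] at hbr
  have hdef' : K0 γ B.M E + β * T.t - score γ E T ≤ s := hdef
  have hcap' : 2 * Real.log (6 * Lg) / lg E.ε ≤ acc' := HC E.ε e0' lc
  refine ⟨At.earlierX (T.t - 2 * h) T (ctJ E (T.t - 2 * h) bs T win) (Cl.clsOf tag) Cl.acap, k, rfl, ?_, ?_, hk0, by linarith⟩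
  · refine rpo_out_el H hW hC hM hOb h e0 acc' k Lg 2 (E.u T.t) hLg (rse_u_shift E T.t h) τV τX nt ?_ b' a' s
      (by linarith) hshape (by linarith) he' ?_ hal
    · have : pcxDef γ β B.M E T ≤ s := hdef
      linarith
    · intro o ho
      exact rpo_reg_mono (hreg o ho) (Real.rpow_le_rpow_of_exponent_ge e0' e1'.le (by linarith))
  · nlinarith

theorem rse_mem_cls (X : RCut) (j : Classes.Lab (RTag X.n)) (A : X.At.𝔸) : A ∈ X.cls j ↔ X.Cl.lab X.tag A = j := by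
  unfold RCut.cls Classes.clsOf
  simp

/-- **S8-B, THE EXIT** : from the prepared cut (`rsa_prep_cut` of `Rep/StepElA.lean`) to the conclusion of `step_el`.
ORDER: `acc'` `⟹ δ, ξt` (package free) `⟹ B, Kc ⟹ c, R ≤ δ, A0, n, Smax, ε₁` (`cut_main`, `dmin = 2h`, `rmin = h`) `⟹ Lg ⟹ ε₀`. -/
theorem rse_tail (γ β : ℝ) (h0 : 0 < γ) (h1 : γ < 1) (hβ : 0 ≤ β) (hrate : PRate γ β) (hcl : UnivBound γ γ)
    (hS : PcxSlack γ β) (hF : PcxForced γ β) (ν κ h e0 : ℝ) (hκ : 0 < κ) (hh : 0 < h) (hecc : 20 * h < γ * e0)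
    (he0 : e0 < ν / 2) (acc' : ℝ) (hacc' : 0 < acc') :
    ∃ δ ξt : ℝ, 0 < δ ∧ 0 < ξt ∧ ∀ (B : PBd) (Kc : ℝ), B.Good → ∀ (c : CutPar) (R A0 : ℝ) (n Smax : ℕ) (ε₁ : ℝ),
      0 < ε₁ → Fintype.card (RTag n) ≤ Smax → RselCutB γ β B c (2 * h) h R A0 Smax ε₁ → RselCutC γ B c h A0 →
      c.Bat.Good → c.Bat.M = B.M → 0 < c.ξ → c.ξ ≤ R → R ≤ δ → A0 / 2 < c.p.A → ∀ Lg : ℝ, 1 ≤ Lg →
      ∃ ε₀ : ℝ, 0 < ε₀ ∧ ∀ (E : PEnv) (T : PTest) (kf acc : ℝ), E.ε < ε₀ → acc ≤ δ →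
        RState γ β true B Kc h e0 acc kf E T →
        K0geLe γ B.M E (E.u 0 - ν) (K0 γ B.M E - κ) → 3 * h ≤ T.t → T.t ≤ ν →
        ∀ (Apre : T.Ω → Prop) (bs a : ℝ) (τV τX : E2) (nt : Loc0 → ℝ) (At : Atoms) (Cl : Classes At)
          (win : T.ι → ℕ × RTag n), 9 / 32 ≤ T.P.pr Apre →
          (⟨E, T.withLaw (T.P.cnd Apre), h, bs, Lg, τV, τX, true, nt, 2, At, Cl, ξt, n, win⟩ : RCut).Pre
            γ B c A0 (2 * max (B.Ra + c.p.Ra) 1) δ a →
          e0 - δ ≤ a - bs → pcxDef γ β B.M E (T.withLaw (T.P.cnd Apre)) ≤ δ →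
          ∃ (T' : PTest) (k : ℝ), T'.t = T.t - 2 * h ∧
            RState γ β true c.Bat (max (max (2 * Lg) 256) 2) h e0 acc' k E T' ∧
            kf + (4 * β - 2 * γ) * h - acc' ≤ k ∧ 0 ≤ k ∧ k ≤ h + acc' := by
  obtain ⟨s, hsdef⟩ : ∃ s, s = min (min acc' h) (ν / 2 - e0) / 1000 := ⟨_, rfl⟩
  have hs : 0 < s := by
    rw [hsdef]
    have : 0 < min (min acc' h) (ν / 2 - e0) := lt_min (lt_min hacc' hh) (by linarith)
    positivity
  have hsa : 1000 * s ≤ acc' := by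
    have : min (min acc' h) (ν / 2 - e0) ≤ acc' := (min_le_left _ _).trans (min_le_left _ _)
    rw [hsdef]; linarith
  have hsh : 1000 * s ≤ h := by
    have : min (min acc' h) (ν / 2 - e0) ≤ h := (min_le_left _ _).trans (min_le_right _ _)
    rw [hsdef]; linarith
  have hsν : 1000 * s ≤ ν / 2 - e0 := by
    have : min (min acc' h) (ν / 2 - e0) ≤ ν / 2 - e0 := min_le_right _ _
    rw [hsdef]; linarith
  obtain ⟨δ, hδ0, hδs, HSel⟩ := rsel_select_el γ β hrate hS hF ν κ h e0 s s hκ he0 hs (by linarith) hs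
  refine ⟨δ, s, hδ0, hs, ?_⟩
  intro B Kc hB c R A0 n Smax ε₁ hε₁ hcard hCB hCC hBat hM hξ0 hξ hR hA Lg hLg
  obtain ⟨εs, hεs, HS2⟩ := HSel B hB c R A0 Smax ε₁ hε₁ hCB hCC hBat hM hξ hR
  obtain ⟨εm, hεm, HM⟩ := rsel_mis_pr γ β h0 h1 hβ B hB c (2 * h) h R A0 Smax ε₁ hε₁ hCB hA (by linarith) Lg 2 1 h s s
    ν e0 (by linarith) (by norm_num) hh hs (by linarith) hξ0.le (by linarith) (by linarith) hecc (by linarith)
  obtain ⟨εf, hεf, HFin⟩ := rse_fin γ β h0 h1 hcl h e0 acc' s hh hs hsh hsa hecc B Kc hB c R A0 Smax ε₁ hε₁ hCB hCC hM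
    hξ0 hξ (by linarith) hA Lg hLg
  obtain ⟨εk, hεk, HK⟩ := rse_const_le (16 * rselS B.Hmax s Smax / (9 / 32 * (1 / 2))) s hs
  refine ⟨min (min εs εm) (min (min εf εk) ε₁), lt_min (lt_min hεs hεm) (lt_min (lt_min hεf hεk) hε₁), ?_⟩
  intro E T kf acc hε hacc hst hgap ht htν Apre bs a τV τX nt At Cl win hmass hPre hecc' hdef
  have ls : E.ε < εs := lt_of_lt_of_le hε ((min_le_left _ _).trans (min_le_left _ _))
  have lm : E.ε < εm := lt_of_lt_of_le hε ((min_le_left _ _).trans (min_le_right _ _))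
  have lf : E.ε < εf := lt_of_lt_of_le hε ((min_le_right _ _).trans ((min_le_left _ _).trans (min_le_left _ _)))
  have lk : E.ε < εk := lt_of_lt_of_le hε ((min_le_right _ _).trans ((min_le_left _ _).trans (min_le_right _ _)))
  have l1 : E.ε < ε₁ := lt_of_lt_of_le hε ((min_le_right _ _).trans (min_le_right _ _))
  have e0' := hst.obE.ε0
  have e1' := hst.obE.ε1
  have hApos : 0 < T.P.pr Apre := lt_of_lt_of_le (by norm_num) hmass
  obtain ⟨X, hX⟩ : ∃ X : RCut,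
    X = ⟨E, T.withLaw (T.P.cnd Apre), h, bs, Lg, τV, τX, true, nt, 2, At, Cl, s, n, win⟩ := ⟨_, rfl⟩
  subst hX
  set X : RCut := ⟨E, T.withLaw (T.P.cnd Apre), h, bs, Lg, τV, τX, true, nt, 2, At, Cl, s, n, win⟩ with hX
  have H : CutOK γ E B (T.withLaw (T.P.cnd Apre)) (T.t - 2 * h) bs c.p c.ξ c.S0 A0 At Cl X.tag win := hPre.cut
  have hnc := hPre.noclamp
  have hWA : X.WA = fun A => rpoW true (E.ε ^ E.u (T.t - 2 * h))
      (nt (bufP E.ε (T.t - 2 * h) (E.u T.t) Lg τV τX (At.asite A))) (At.asite A) := funext (fun A => rst_WA_eq X A)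
  -- the misaligned winners
  have hmis : (T.P.cnd Apre).pr (fun o =>
      (E.u (T.t - 2 * h) - s ≤ Cl.lB (ctJ E (T.t - 2 * h) bs T win o).1 (ctJ E (T.t - 2 * h) bs T win o).2.1 + bs ∧
        Cl.jB (ctJ E (T.t - 2 * h) bs T win o).1 (ctJ E (T.t - 2 * h) bs T win o).2.1 + bs ≤ E.u 0 - ν + s) ∧
        (fun t : RTag n => t.1) (ctJ E (T.t - 2 * h) bs T win o).2.2 = false) ≤ 1 / 6 := by
    have m1 := HM E (T.withLaw (T.P.cnd Apre)) (T.t - 2 * h) bs At Cl (RTag n) X.tag win lm hcard H rfl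
      (by show T.t - 2 * h + 2 * h ≤ T.t; linarith) (by linarith) htν τV τX a nt (fun j => j.2.2.1 = false)
      (by have hb : E.u T.t - δ ≤ a := hPre.bdry
          show E.u T.t - s ≤ a
          linarith)
      (by nlinarith)
      hPre.buf
      (fun o ho => ⟨(hPre.shapeb rfl o ho).trans hδs, (hPre.shapea o ho).trans hδs⟩)
      (fun o ho => by rw [one_mul]; exact (hPre.pred rfl o ho).le)
      (fun j A hj hA => (rst_misaligned X rfl (j := j) hj ((rse_mem_cls X j A).2 hA)).le)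
    refine le_trans (ent_pr_mono _ fun o _ ho => ⟨ho.2, ho.1.1, ho.1.2⟩) (m1.trans ?_)
    rw [div_le_iff₀ (by positivity)]
    nlinarith
  -- S5
  have key : ∀ (α' β' : Type) (Pf : T.Ω → α') (Wf : T.Ω → β') (κc : ℝ), Credit T.P Pf Wf κc → _ :=
    fun α' β' Pf Wf κc hcr => HS2 E T (T.t - 2 * h) bs At Cl (RTag n) X.tag win ls hcard hst.obT rfl (by linarith) htν
      hgap Apre (9 / 32) (by norm_num) hmass H hdef (fun t : RTag n => t.1) hmis α' β' Pf Wf κc hcr (1 / 2)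
      (by norm_num) le_rfl
  -- S6 + S7 for the selected law
  have fin : ∀ (π : FLaw T.Ω) (t₀ : RTag n) (b' a' : ℝ), t₀.1 = true →
      (∀ o, π.p o ≠ 0 → T.P.p o ≠ 0 ∧ Apre o ∧ (ctJ E (T.t - 2 * h) bs T win o).2.2 = t₀ ∧
        |Cl.jB (ctJ E (T.t - 2 * h) bs T win o).1 (ctJ E (T.t - 2 * h) bs T win o).2.1 + bs - b'| ≤ s ∧
        |Cl.lB (ctJ E (T.t - 2 * h) bs T win o).1 (ctJ E (T.t - 2 * h) bs T win o).2.1 + bs - a'| ≤ s) →
      E.u (T.t - 2 * h) - s ≤ a' → e0 ≤ a' - b' → pcxDef γ β B.M E (T.withLaw π) ≤ s →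
      (kf = 0 ∨ ∃ (α β' : Type) (Pf : T.Ω → α) (Wf : T.Ω → β') (nf : α → ℝ),
        Credit π Pf Wf (E.ε ^ (kf - 2 * s)) ∧ Incoming E (T.withLaw π) h Kc true Pf Wf nf) →
      ∃ (T' : PTest) (k : ℝ), T'.t = T.t - 2 * h ∧
        RState γ β true c.Bat (max (max (2 * Lg) 256) 2) h e0 acc' k E T' ∧
        kf + (4 * β - 2 * γ) * h - acc' ≤ k ∧ 0 ≤ k ∧ k ≤ h + acc' := by
    intro π t₀ b' a' hmk hsupp ha' he' hdefπ hcred
    have hsub : ∀ o, 0 < π.p o → 0 < (T.P.cnd Apre).p o := fun o ho => by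
      obtain ⟨q1, q2, -⟩ := hsupp o ho.ne'
      exact ct_pos_of_ne _ ((ent_cnd_supp T.P Apre hApos).2 ⟨q2, q1⟩)
    have Hπ : CutOK γ E B (T.withLaw π) (T.t - 2 * h) bs c.p c.ξ c.S0 A0 At Cl X.tag win := H.withLaw π hsub
    have hkJ : ∀ o, 0 < π.p o → X.kJ (ctJ E (T.t - 2 * h) bs T win o) = s * ((t₀.2.2 : ℕ) : ℝ) := fun o ho => by
      obtain ⟨-, -, q3, -⟩ := hsupp o ho.ne'
      unfold RCut.kJ
      rw [q3]
    obtain ⟨o₁, ho₁⟩ := ct_exists_supp π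
    obtain ⟨hWπ, -⟩ := hCB E (T.withLaw π) _ bs At Cl (RTag n) X.tag win
      l1 hcard Hπ (by show T.t - 2 * h + 2 * h ≤ T.t; linarith) (Or.inr (by linarith))
    refine HFin E (T.withLaw π) bs At Cl (RTag n) X.tag win τV τX nt kf (s * ((t₀.2.2 : ℕ) : ℝ)) a b' a' lf hcard Hπ ht
      hdefπ (fun o ho => (hPre.shapea o (hsub o ho)).trans hδs)
      (by have hb : E.u T.t - δ ≤ a := hPre.bdry
          show E.u T.t - s ≤ a
          linarith)
      (fun o ho => (hPre.shapeb rfl o (hsub o ho)).trans hδs) (by linarith)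
      (fun o ho => hPre.buf o (hsub o ho)) (fun o ho => hPre.pred rfl o (hsub o ho))
      (fun o ho => (hsupp o ho.ne').2.2.2) ha' he' (by positivity) ?_ ?_ ?_ ?_ hcred
    · intro o ho
      have := rst_reg X e0' e1' hs hnc (ctJ E (T.t - 2 * h) bs T win o)
      rw [hkJ o ho, hWA] at this
      exact this
    · intro o ho q
      have := rst_cnt_le X e0' e1' hs hnc (ctJ E (T.t - 2 * h) bs T win o) q
      rw [hkJ o ho, hWA] at this
      exact this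
    · have := rst_cap X e0' e1' hs hh.le hLg hnc (ctJ E (T.t - 2 * h) bs T win o₁)
        (ct_cls_nonempty Hπ hWπ o₁ ho₁.ne')
      rw [hkJ o₁ ho₁] at this
      have this' : s * ((t₀.2.2 : ℕ) : ℝ) ≤ (if (true : Bool) = true then 1 else 2) * h
          + 2 * Real.log (6 * Lg) / lg E.ε := this
      rw [if_pos rfl, one_mul] at this'
      exact this'
    · intro o ho A hA
      obtain ⟨-, -, q3, -⟩ := hsupp o ho.ne'
      exact rst_aligned X rfl (j := ctJ E (T.t - 2 * h) bs T win o) (by unfold RCut.mJ; rw [q3]; exact hmk) hA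
  -- the two cases of the incoming credit
  rcases hst.credit with hk0 | ⟨α, β', Pf, Wf, nf, hcr, hinc⟩
  · obtain ⟨π, t₀, b', a', -, hmk, hsupp, ha', he', -, hdefπ⟩ :=
      key Unit Unit (fun _ => ()) (fun _ => ()) 1 (rep_credit_one _ _ _)
    exact fin π t₀ b' a' hmk hsupp ha' he' hdefπ (Or.inl hk0)
  · obtain ⟨π, t₀, b', a', hsubπ, hmk, hsupp, ha', he', hcrπ, hdefπ⟩ := key α β' Pf Wf _ hcr
    refine fin π t₀ b' a' hmk hsupp ha' he' hdefπ (Or.inr ⟨α, β', Pf, Wf, nf, ?_, ?_⟩)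
    · refine rep_credit_mono hcrπ ?_
      have c1 := HK E.ε e0' lk
      have c2 : E.ε ^ (kf - acc) ≤ E.ε ^ (kf - s) :=
        Real.rpow_le_rpow_of_exponent_ge e0' e1'.le (by linarith)
      have c3 : E.ε ^ (kf - 2 * s) = E.ε ^ (kf - s) * E.ε ^ (-s) := by
        rw [← Real.rpow_add e0']
        congr 1
        ring
      rw [c3]
      exact mul_le_mul c2 c1 (by positivity) (Real.rpow_pos_of_pos e0' _).le
    · exact rse_incoming_sub hinc π (fun o ho => hsubπ o ho.ne')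

end Claimed.Agent.R255
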