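-- KEEP
import Claimed.Agent.R255.Rep.StepElA
import Claimed.Agent.R255.Rep.StepElB
import Claimed.Agent.R255.Rep.SelMis
import Claimed.Agent.R255.Rep.Pred
import Claimed.Agent.R255.Comp.Slack
import Claimed.Agent.R255.Comp.ExpPf

/-!
# Row 255 (BR paper), Sec. 11, stage S8: THE ASSEMBLY of `step_el`      (helper142; prefix `rsa_`)

* `rsa_tail`      from the prepared cut (`rsa_prep_cut`, literal `RCut` + `RCut.Pre`) to the conclusion of `step_el` :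
                  S5 `rsel_mis_pr` + `rsel_select_el`, tag layer `Rep/Tags.lean`, then `rse_fin` (S6 + S7 + numeric end, helper163).
* `rsa_step_el`   the statement of `step_el` (`Rep/Step.lean`) VERBATIM.
-/

set_option autoImplicit false

namespace Claimed.Agent.R255

open scoped BigOperators
open Classical
open FLaw Pkt Osc

/-- the exit of S2 in the vocabulary of `Rep/StepElA.lean` -/
theorem rsa_pred (γ β : ℝ) (h0 : 0 < γ) (h1 : γ < 1) (hrate : PRate γ β) (h e0 : ℝ) (hh : 0 < h)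
    (hecc : 20 * h < γ * e0) : RsaPred γ β h e0 := by
  intro B hB Kp
  obtain ⟨ε₀, hε₀, H⟩ := rpd_predict γ β h0 h1 hrate h e0 hh hecc B hB Kp
  exact ⟨ε₀, hε₀, fun E T Pc a b c d s _ l => H E T Loc0 Pc a b c d s l⟩

/-- the credit after the selection -/
theorem rsa_credit_pow {ε kf acc s C : ℝ} (h0 : 0 < ε) (h1 : ε < 1) (hacc : acc ≤ s) (hC : C ≤ ε ^ (-s)) :
    ε ^ (kf - acc) * C ≤ ε ^ (kf - 2 * s) := by
  have a1 : ε ^ (kf - acc) ≤ ε ^ (kf - s) := Real.rpow_le_rpow_of_exponent_ge h0 h1.le (by linarith)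
  have a2 : 0 < ε ^ (kf - acc) := Real.rpow_pos_of_pos h0 _
  have a3 : 0 < ε ^ (-s) := Real.rpow_pos_of_pos h0 _
  calc ε ^ (kf - acc) * C ≤ ε ^ (kf - acc) * ε ^ (-s) := mul_le_mul_of_nonneg_left hC a2.le
    _ ≤ ε ^ (kf - s) * ε ^ (-s) := mul_le_mul_of_nonneg_right a1 a3.le
    _ = ε ^ (kf - 2 * s) := by
      rw [← Real.rpow_add h0]
      congr 1
      ring

/-- the literal prepared cut of the elongated step -/
abbrev rsaX (E : PEnv) (T : PTest) (h bs Lg : ℝ) (τV τX : E2) (nt : Loc0 → ℝ) (At : Atoms) (Cl : Classes At)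
    (ξt : ℝ) (n : ℕ) (win : T.ι → ℕ × RTag n) : RCut :=
  ⟨E, T, h, bs, Lg, τV, τX, true, nt, 2, At, Cl, ξt, n, win⟩

/-- the tag layer (`Rep/Tags.lean`) in the vocabulary of `rse_fin`, `rsel_mis_pr` -/
theorem rsa_tag_facts {E : PEnv} {T : PTest} {h bs Lg : ℝ} {τV τX : E2} {nt : Loc0 → ℝ} {At : Atoms}
    {Cl : Classes At} {s : ℝ} {n : ℕ} (win : T.ι → ℕ × RTag n) (e0 : 0 < E.ε) (e1 : E.ε < 1) (hs : 0 < s)
    (hh : 0 ≤ h) (hLg : 1 ≤ Lg)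
    (hnc : ∀ A, (rsaX E T h bs Lg τV τX nt At Cl s n win).sz A ≤ n ∧ (rsaX E T h bs Lg τV τX nt At Cl s n win).kt A ≤ n)
    (j : Classes.Lab (RTag n)) :
    rpoReg (Cl.clsOf (rsaX E T h bs Lg τV τX nt At Cl s n win).tag j)
        (fun A => bufP E.ε (T.t - 2 * h) (E.u T.t) Lg τV τX (At.asite A))
        (fun A => rpoW true (E.ε ^ E.u (T.t - 2 * h))
          (nt (bufP E.ε (T.t - 2 * h) (E.u T.t) Lg τV τX (At.asite A))) (At.asite A))
        (E.ε ^ (s * ((j.2.2.2.2 : ℕ) : ℝ) - s)) ∧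
      (∀ q : Loc0,
        ((((Cl.clsOf (rsaX E T h bs Lg τV τX nt At Cl s n win).tag j).filter
          (fun A => bufP E.ε (T.t - 2 * h) (E.u T.t) Lg τV τX (At.asite A) = q)).image
          (fun A => rpoW true (E.ε ^ E.u (T.t - 2 * h))
            (nt (bufP E.ε (T.t - 2 * h) (E.u T.t) Lg τV τX (At.asite A))) (At.asite A))).card : ℝ)
          ≤ E.ε ^ (-(s * ((j.2.2.2.2 : ℕ) : ℝ) + s))) ∧
      ((Cl.clsOf (rsaX E T h bs Lg τV τX nt At Cl s n win).tag j).Nonempty →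
        s * ((j.2.2.2.2 : ℕ) : ℝ) ≤ h + 2 * Real.log (6 * Lg) / lg E.ε) ∧
      (j.2.2.1 = true → ∀ A ∈ Cl.clsOf (rsaX E T h bs Lg τV τX nt At Cl s n win).tag j,
        |Real.sin ((Cl.acap A).th - nt (bufP E.ε (T.t - 2 * h) (E.u T.t) Lg τV τX (At.asite A)))| ≤ 2 * E.ε ^ h) ∧
      (j.2.2.1 = false → ∀ A, Cl.lab (rsaX E T h bs Lg τV τX nt At Cl s n win).tag A = j →
        2 * E.ε ^ h ≤ |Real.sin ((Cl.acap A).th - nt (bufP E.ε (T.t - 2 * h) (E.u T.t) Lg τV τX (At.asite A)))|) := by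
  refine ⟨rst_reg (rsaX E T h bs Lg τV τX nt At Cl s n win) e0 e1 hs hnc j,
    rst_cnt_le (rsaX E T h bs Lg τV τX nt At Cl s n win) e0 e1 hs hnc j, ?_, ?_, ?_⟩
  · intro hne
    have := rst_cap (rsaX E T h bs Lg τV τX nt At Cl s n win) e0 e1 hs hh hLg hnc j hne
    rw [if_pos rfl, one_mul] at this
    exact this
  · intro hj A hA
    exact rst_aligned (rsaX E T h bs Lg τV τX nt At Cl s n win) rfl hj hA
  · intro hj A hA
    have hmem : A ∈ (rsaX E T h bs Lg τV τX nt At Cl s n win).cls j := by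
      simp only [RCut.cls, Classes.clsOf, Finset.mem_filter, Finset.mem_univ, true_and]
      exact hA
    exact (rst_misaligned (rsaX E T h bs Lg τV τX nt At Cl s n win) rfl hj hmem).le

/-- **from the prepared cut to the conclusion of `step_el`** -/
theorem rsa_tail (γ β : ℝ) (h0 : 0 < γ) (h1 : γ < 1) (hβ : 0 ≤ β) (hrate : PRate γ β) (hcl : UnivBound γ γ)
    (hS : PcxSlack γ β) (hF : PcxForced γ β) (ν κ h e0 : ℝ) (hκ : 0 < κ) (hh : 0 < h) (hecc : 20 * h < γ * e0)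
    (he0 : e0 < ν / 2) (acc' : ℝ) (hacc' : 0 < acc') :
    ∃ s δ : ℝ, 0 < s ∧ 0 < δ ∧ δ ≤ s ∧ ∀ (B : PBd) (Kc : ℝ), B.Good → ∀ (n : ℕ) (c : CutPar) (A0 ε₁ : ℝ), 0 < ε₁ →
      RselCutB γ β B c (2 * h) h δ A0 (Fintype.card (RTag n)) ε₁ → RselCutC γ B c h A0 → c.Bat.Good →
      c.Bat.M = B.M → 0 < c.ξ → c.ξ ≤ δ → A0 / 2 < c.p.A →
      ∃ ε₀ : ℝ, 0 < ε₀ ∧ ∀ (E : PEnv) (T : PTest) (kf acc : ℝ), E.ε < ε₀ → acc ≤ δ →
        RState γ β true B Kc h e0 acc kf E T → K0geLe γ B.M E (E.u 0 - ν) (K0 γ B.M E - κ) → 3 * h ≤ T.t →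
        T.t ≤ ν →
        ∀ (Apre : T.Ω → Prop) (bs a : ℝ) (τV τX : E2) (nt : Loc0 → ℝ) (At : Atoms) (Cl : Classes At)
          (win : T.ι → ℕ × RTag n), 9 / 32 ≤ T.P.pr Apre →
          (⟨E, T.withLaw (T.P.cnd Apre), h, bs, rsaLg B c, τV, τX, true, nt, 2, At, Cl, s, n, win⟩ : RCut).Pre
            γ B c A0 (rsaKd B c) δ a →
          e0 - δ ≤ a - bs → pcxDef γ β B.M E (T.withLaw (T.P.cnd Apre)) ≤ δ →
          ∃ (T' : PTest) (k : ℝ), T'.t = T.t - 2 * h ∧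
            RState γ β true c.Bat (max (max (2 * rsaLg B c) 256) 2) h e0 acc' k E T' ∧
            kf + (4 * β - 2 * γ) * h - acc' ≤ k ∧ 0 ≤ k ∧ k ≤ h + acc' := by
  obtain ⟨s, hsdef⟩ : ∃ s : ℝ, s = min (min (h / 1000) (acc' / 1000)) ((ν / 2 - e0) / 4) := ⟨_, rfl⟩
  have hs : 0 < s := by
    rw [hsdef]
    exact lt_min (lt_min (by positivity) (by positivity)) (by linarith)
  have hsh : 1000 * s ≤ h := by
    have : s ≤ h / 1000 := by rw [hsdef]; exact (min_le_left _ _).trans (min_le_left _ _)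
    linarith
  have hsa : 1000 * s ≤ acc' := by
    have : s ≤ acc' / 1000 := by rw [hsdef]; exact (min_le_left _ _).trans (min_le_right _ _)
    linarith
  have hsν : 4 * s ≤ ν / 2 - e0 := by
    have : s ≤ (ν / 2 - e0) / 4 := by rw [hsdef]; exact min_le_right _ _
    linarith
  have he20 : 20 * h < e0 := by nlinarith
  obtain ⟨δ, hδ, hδs, HSel⟩ := rsel_select_el γ β hrate hS hF ν κ h e0 s s hκ he0 hs (by linarith) hs
  refine ⟨s, δ, hs, hδ, hδs, ?_⟩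
  intro B Kc hB n c A0 ε₁ hε₁ hCB hCC hBat hM hξ0 hξ hA
  have hLg : 1 ≤ rsaLg B c := rsa_Lg_ge B c
  obtain ⟨ε₂, hε₂, H2⟩ := HSel B hB c δ A0 (Fintype.card (RTag n)) ε₁ hε₁ hCB hCC hBat hM hξ le_rfl
  obtain ⟨ε₃, hε₃, H3⟩ := rsel_mis_pr γ β h0 h1 hβ B hB c (2 * h) h δ A0 (Fintype.card (RTag n)) ε₁ hε₁ hCB hA hδ.le
    (rsaLg B c) 2 1 h s s ν e0 (by linarith) (by norm_num) hh hs (by linarith) hξ0.le (by linarith) (by linarith)
    hecc (by linarith)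
  obtain ⟨ε₄, hε₄, H4⟩ := rse_fin γ β h0 h1 hcl h e0 acc' s hh hs hsh hsa hecc B Kc hB c δ A0
    (Fintype.card (RTag n)) ε₁ hε₁ hCB hCC hM hξ0 hξ hδs hA (rsaLg B c) hLg
  obtain ⟨ε₅, hε₅, H5⟩ := rse_const_le (16 * rselS B.Hmax s (Fintype.card (RTag n)) / (9 / 32 * (1 / 2))) s hs
  refine ⟨min (min ε₂ ε₃) (min ε₄ ε₅), lt_min (lt_min hε₂ hε₃) (lt_min hε₄ hε₅), ?_⟩
  intro E T kf acc hε hacc hSt hgap ht htν Apre bs a τV τX nt At Cl win hmass hP hec hdef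
  have l2 : E.ε < ε₂ := lt_of_lt_of_le hε ((min_le_left _ _).trans (min_le_left _ _))
  have l3 : E.ε < ε₃ := lt_of_lt_of_le hε ((min_le_left _ _).trans (min_le_right _ _))
  have l4 : E.ε < ε₄ := lt_of_lt_of_le hε ((min_le_right _ _).trans (min_le_left _ _))
  have l5 : E.ε < ε₅ := lt_of_lt_of_le hε ((min_le_right _ _).trans (min_le_right _ _))
  have e0' := hSt.obE.ε0
  have e1' := hSt.obE.ε1
  have hmpos : 0 < T.P.pr Apre := by linarith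
  have hH : CutOK γ E B (T.withLaw (T.P.cnd Apre)) (T.t - 2 * h) bs c.p c.ξ c.S0 A0 At Cl
      (rsaX E (T.withLaw (T.P.cnd Apre)) h bs (rsaLg B c) τV τX nt At Cl s n win).tag win := hP.cut
  have hW : WinOK E (T.t - 2 * h) bs (T.withLaw (T.P.cnd Apre)) Cl
      (rsaX E (T.withLaw (T.P.cnd Apre)) h bs (rsaLg B c) τV τX nt At Cl s n win).tag win
      ((c.S0 : ℝ) * (Fintype.card (RTag n) : ℝ)) := hP.wok
  have hfacts := rsa_tag_facts (E := E) (T := T.withLaw (T.P.cnd Apre)) (h := h) (bs := bs) (Lg := rsaLg B c)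
    (τV := τV) (τX := τX) (nt := nt) (At := At) (Cl := Cl) (s := s) (n := n) win e0' e1' hs hh.le hLg hP.noclamp
  have hsa' : ∀ o, 0 < (T.P.cnd Apre).p o → |(T.geo (T.D o)).a - a| ≤ δ := hP.shapea
  have hsb' : ∀ o, 0 < (T.P.cnd Apre).p o → |(T.geo (T.D o)).b - bs| ≤ δ := hP.shapeb rfl
  have hbd : E.u T.t - δ ≤ a := hP.bdry
  have hbuf : ∀ o, 0 < (T.P.cnd Apre).p o →
      Buffered E.ε (T.t - 2 * h) (E.u T.t) (rsaLg B c) (2 * max (B.Ra + c.p.Ra) 1) τV τX (T.sat o) := hP.buf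
  have hpred : ∀ o, 0 < (T.P.cnd Apre).p o →
      |Real.sin ((T.geo (T.D o)).th - nt (bufP E.ε (T.t - 2 * h) (E.u T.t) (rsaLg B c) τV τX (T.sat o)))|
        < E.ε ^ (4 * h) := hP.pred rfl
  -- the misaligned winners
  have hmis0 := H3 E (T.withLaw (T.P.cnd Apre)) (T.t - 2 * h) bs At Cl (RTag n) _ win l3 le_rfl hH rfl
    (by show T.t - 2 * h + 2 * h ≤ T.t; linarith) (by linarith) htν τV τX a nt (fun j => j.2.2.1 = false)
    (by show E.u T.t - s ≤ a; linarith) (by linarith) hbuf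
    (fun o ho => ⟨(hsb' o ho).trans hδs, (hsa' o ho).trans hδs⟩)
    (fun o ho => by rw [one_mul]; exact (hpred o ho).le)
    (fun j A hj hA => (hfacts j).2.2.2.2 hj A hA)
  have hmis : (T.P.cnd Apre).pr (fun o =>
      (E.u (T.t - 2 * h) - s ≤ Cl.lB (ctJ E (T.t - 2 * h) bs T win o).1 (ctJ E (T.t - 2 * h) bs T win o).2.1 + bs ∧
        Cl.jB (ctJ E (T.t - 2 * h) bs T win o).1 (ctJ E (T.t - 2 * h) bs T win o).2.1 + bs ≤ E.u 0 - ν + s) ∧
      (fun t : RTag n => t.1) (ctJ E (T.t - 2 * h) bs T win o).2.2 = false) ≤ 1 / 6 := by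
    refine le_trans (ent_pr_mono _ fun o _ hh' => ?_) (hmis0.trans ?_)
    · exact ⟨hh'.2, hh'.1.1, hh'.1.2⟩
    · rw [div_le_iff₀ (by positivity)]
      linarith
  -- the selection, S6, S7 and the numeric end, for any incoming labels
  have main : ∀ (α' β' : Type) (Pf : T.Ω → α') (Wf : T.Ω → β') (κc : ℝ), Credit T.P Pf Wf κc →
      (∀ π : FLaw T.Ω, (∀ o, 0 < π.p o → 0 < T.P.p o) →
        Credit π Pf Wf (κc * (16 * rselS B.Hmax s (Fintype.card (RTag n)) / (9 / 32 * (1 / 2)))) →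
        (kf = 0 ∨ ∃ (α β' : Type) (Pf : T.Ω → α) (Wf : T.Ω → β') (nf : α → ℝ),
          Credit π Pf Wf (E.ε ^ (kf - 2 * s)) ∧ Incoming E (T.withLaw π) h Kc true Pf Wf nf)) →
      ∃ (T' : PTest) (k : ℝ), T'.t = T.t - 2 * h ∧
        RState γ β true c.Bat (max (max (2 * rsaLg B c) 256) 2) h e0 acc' k E T' ∧
        kf + (4 * β - 2 * γ) * h - acc' ≤ k ∧ 0 ≤ k ∧ k ≤ h + acc' := by
    intro α' β' Pf Wf κc hcr hcred
    obtain ⟨π, t₀, b', a', hsub, hmk, hsupp, ha', he', hcrπ, hdefπ⟩ := H2 E T (T.t - 2 * h) bs At Cl (RTag n) _ win l2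
      le_rfl hSt.obT rfl (by linarith) htν hgap Apre (9 / 32) (by norm_num) hmass hH hdef (fun t => t.1) hmis α' β' Pf
      Wf κc hcr (1 / 2) (by norm_num) le_rfl
    have hπT : ∀ o, 0 < π.p o → 0 < T.P.p o := fun o ho => hsub o ho.ne'
    have hπQ : ∀ o, 0 < π.p o → 0 < (T.P.cnd Apre).p o := by
      intro o ho
      obtain ⟨q1, q2, -⟩ := hsupp o ho.ne'
      exact ct_pos_of_ne _ ((ent_cnd_supp T.P Apre hmpos).2 ⟨q2, q1⟩)
    have hHπ : CutOK γ E B (T.withLaw π) (T.t - 2 * h) bs c.p c.ξ c.S0 A0 At Cl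
        (rsaX E (T.withLaw (T.P.cnd Apre)) h bs (rsaLg B c) τV τX nt At Cl s n win).tag win :=
      hH.withLaw π hπQ
    have hJ : ∀ o, 0 < π.p o → (ctJ E (T.t - 2 * h) bs T win o).2.2 = t₀ := fun o ho => (hsupp o ho.ne').2.2.1
    obtain ⟨o₁, ho₁⟩ := ct_exists_supp π
    refine H4 E (T.withLaw π) bs At Cl (RTag n) _ win τV τX nt kf (s * ((t₀.2.2 : ℕ) : ℝ)) a b' a' l4 le_rfl hHπ ht
      hdefπ (fun o ho => (hsa' o (hπQ o ho)).trans hδs) (by show E.u T.t - s ≤ a; linarith)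
      (fun o ho => (hsb' o (hπQ o ho)).trans hδs) (by linarith) (fun o ho => hbuf o (hπQ o ho))
      (fun o ho => hpred o (hπQ o ho)) (fun o ho => (hsupp o ho.ne').2.2.2) ha' he' (by positivity) ?_ ?_ ?_ ?_
      (hcred π hπT hcrπ)
    · intro o ho
      have := (hfacts (ctJ E (T.t - 2 * h) bs T win o)).1
      rw [hJ o ho] at this
      exact this
    · intro o ho
      have := (hfacts (ctJ E (T.t - 2 * h) bs T win o)).2.1
      rw [hJ o ho] at this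
      exact this
    · have := (hfacts (ctJ E (T.t - 2 * h) bs T win o₁)).2.2.1 (ct_cls_nonempty hH hW o₁ (hπQ o₁ ho₁).ne')
      rw [hJ o₁ ho₁] at this
      exact this
    · intro o ho
      exact (hfacts (ctJ E (T.t - 2 * h) bs T win o)).2.2.2.1 (by rw [hJ o ho]; exact hmk)
  rcases hSt.credit with hk | ⟨α, β', Pf, Wf, nf, hcr, hinc⟩
  · exact main Unit Unit (fun _ => ()) (fun _ => ()) 1 (rep_credit_one _ _ _) (fun _ _ _ => Or.inl hk)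
  · refine main α β' Pf Wf _ hcr (fun π hπ hc => Or.inr ⟨α, β', Pf, Wf, nf, ?_, rse_incoming_sub hinc π hπ⟩)
    exact rep_credit_mono hc (rsa_credit_pow e0' e1' (hacc.trans hδs) (H5 E.ε e0' l5))

/-- **one prepared cut, elongated case** : the statement of `step_el` (`Rep/Step.lean`) VERBATIM -/
theorem rsa_step_el (γ β : ℝ) (h0 : 0 < γ) (h1 : γ < 1) (hβ : γ / 2 < β) (hβ1 : β ≤ 1) (hrate : PRate γ β)
    (hcl : UnivBound γ γ) (ν κ h e0 : ℝ) (hκ : 0 < κ) (hh : 0 < h) (hecc : 20 * h < γ * e0)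
    (he0 : e0 < ν / 2) :
    ∀ acc' : ℝ, 0 < acc' → ∃ acc : ℝ, 0 < acc ∧ ∀ (B : PBd) (Kc : ℝ), B.Good →
      ∃ (B' : PBd) (Kc' ε₀ : ℝ), B'.Good ∧ B'.M = B.M ∧ 0 < ε₀ ∧
        ∀ (E : PEnv) (T : PTest) (kf : ℝ), E.ε < ε₀ → 0 ≤ kf → kf ≤ 2 →
          RState γ β true B Kc h e0 acc kf E T →
          K0geLe γ B.M E (E.u 0 - ν) (K0 γ B.M E - κ) → 3 * h ≤ T.t → T.t ≤ ν →
          ∃ (T' : PTest) (k : ℝ), T'.t = T.t - 2 * h ∧ RState γ β true B' Kc' h e0 acc' k E T' ∧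
            kf + (4 * β - 2 * γ) * h - acc' ≤ k ∧ 0 ≤ k ∧ k ≤ h + acc' := by
  intro acc' hacc'
  have hβ0 : 0 ≤ β := by linarith
  obtain ⟨s, δ, hs, hδ, -, HT⟩ := rsa_tail γ β h0 h1 hβ0 hrate hcl (pcx_slack γ β h0 h1 hβ hrate hcl)
    (pcx_forced_x2 γ β h0 h1 hβ0 hrate) ν κ h e0 hκ hh hecc he0 acc' hacc'
  obtain ⟨acc, a0, a1, HP⟩ := rsa_prep_cut γ β h0 h1 hβ0 hrate h e0 hh (rsa_pred γ β h0 h1 hrate h e0 hh hecc) δ hδ
  refine ⟨acc, a0, fun B Kc hB => ?_⟩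
  obtain ⟨A0, -, HP⟩ := HP B hB
  obtain ⟨n, hn⟩ : ∃ n : ℕ, 2 * B.Hmax + 1 ≤ s * ((n : ℝ) + 1) := by
    refine ⟨⌈(2 * B.Hmax + 1) / s⌉₊, ?_⟩
    have h2 : (2 * B.Hmax + 1) / s ≤ (⌈(2 * B.Hmax + 1) / s⌉₊ : ℝ) := Nat.le_ceil _
    rw [div_le_iff₀ hs] at h2
    nlinarith
  obtain ⟨c, ε₁, hε₁, hξ0, hξR, -, hBat, hBatM, HAt, HCut, HEar, -, hA⟩ :=
    cut_main' γ β h0 h1 hrate B hB (2 * h) h δ A0 (by positivity) hh hδ (Fintype.card (RTag n))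
  obtain ⟨ε₂, hε₂, HP⟩ := HP s n hs hn c δ (Fintype.card (RTag n)) ε₁ hε₁ le_rfl HAt HCut
  obtain ⟨ε₃, hε₃, HT⟩ := HT B Kc hB n c A0 ε₁ hε₁ HCut HEar hBat hBatM hξ0 hξR hA
  refine ⟨c.Bat, max (max (2 * rsaLg B c) 256) 2, min ε₂ ε₃, hBat, hBatM, lt_min hε₂ hε₃, ?_⟩
  intro E T kf hε _ _ hS hgap ht htν
  obtain ⟨Apre, bs, a, τV, τX, nt, At, Cl, win, m, hPre, hec, hdef⟩ :=
    HP E T Kc kf (lt_of_lt_of_le hε (min_le_left _ _)) hS ht
  exact HT E T kf acc (lt_of_lt_of_le hε (min_le_right _ _)) a1 hS hgap ht htν Apre bs a τV τX nt At Cl win m hPre hec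
    hdef

end Claimed.Agent.R255
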