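-- KEEP
import Claimed.Agent.R255.Rep.State
import Claimed.Agent.R255.Rep.IsoStep
import Claimed.Agent.R255.Rep.StepElC

/-!
# Row 255 (BR paper), Sec. 11: THE STEP THEOREMS      (architect helper128)

`step_el`, `step_iso`  = ONE PREPARED CUT (Secs. 11.2-11.7, P11.4).   QUANTIFIERS: `∀ acc' ∃ acc` (independent of the package!) `∀ B Kc ∃ B' Kc' ε₀ ∀ E T k_f`.
Consumer: `Comp/Chain.lean`.   This file imports the proofs (`Rep/StepEl*.lean`, `Rep/Iso*.lean`) and cites them; the definitions (`RState`, `Incoming`) are in `Rep/State.lean`.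
-/

set_option autoImplicit false

namespace Claimed.Agent.R255

open scoped BigOperators
open Classical
open FLaw Pkt

/-- **one prepared cut, elongated case** (L11.1, L11.2, L11.3, P11.4 with `d = 1`; uses L10.3 and the forced root gap for the earlier shapes) -/
theorem step_el (γ β : ℝ) (h0 : 0 < γ) (h1 : γ < 1) (hβ : γ / 2 < β) (hβ1 : β ≤ 1) (hrate : PRate γ β)
    (hcl : UnivBound γ γ) (ν κ h e0 : ℝ) (hκ : 0 < κ) (hh : 0 < h) (hecc : 20 * h < γ * e0)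
    (he0 : e0 < ν / 2) :
    ∀ acc' : ℝ, 0 < acc' → ∃ acc : ℝ, 0 < acc ∧ ∀ (B : PBd) (Kc : ℝ), B.Good →
      ∃ (B' : PBd) (Kc' ε₀ : ℝ), B'.Good ∧ B'.M = B.M ∧ 0 < ε₀ ∧
        ∀ (E : PEnv) (T : PTest) (kf : ℝ), E.ε < ε₀ → 0 ≤ kf → kf ≤ 2 →
          RState γ β true B Kc h e0 acc kf E T →
          K0geLe γ B.M E (E.u 0 - ν) (K0 γ B.M E - κ) → 3 * h ≤ T.t → T.t ≤ ν →
          ∃ (T' : PTest) (k : ℝ), T'.t = T.t - 2 * h ∧ RState γ β true B' Kc' h e0 acc' k E T' ∧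
            kf + (4 * β - 2 * γ) * h - acc' ≤ k ∧ 0 ≤ k ∧ k ≤ h + acc' :=
  rsa_step_el γ β h0 h1 hβ hβ1 hrate hcl ν κ h e0 hκ hh hecc he0

/-- **one prepared cut, isotropic case** (L11.1, P11.4 with `d = 2`; uses P10.4(2) for the common `g` bin) -/
theorem step_iso (γ β : ℝ) (h0 : 0 < γ) (h1 : γ < 1) (hβ : γ / 2 < β) (hβ1 : β ≤ 1) (hrate : PRate γ β)
    (hcl : UnivBound γ γ) (hNF : ∀ ν κ : ℝ, 0 < ν → 0 < κ → ¬ Forced γ β ν κ) (h : ℝ) (hh : 0 < h) :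
    ∀ acc' : ℝ, 0 < acc' → ∃ acc : ℝ, 0 < acc ∧ ∀ (B : PBd) (Kc : ℝ), B.Good →
      ∃ (B' : PBd) (Kc' ε₀ : ℝ), B'.Good ∧ B'.M = B.M ∧ 0 < ε₀ ∧
        ∀ (E : PEnv) (T : PTest) (kf : ℝ), E.ε < ε₀ → 0 ≤ kf → kf ≤ 3 →
          RState γ β false B Kc h 0 acc kf E T → 3 * h ≤ T.t → h < E.u T.t →
          ∃ (T' : PTest) (k : ℝ), T'.t = T.t - 2 * h ∧ RState γ β false B' Kc' h 0 acc' k E T' ∧
            kf + (4 * β - 2 * γ) * h - acc' ≤ k ∧ 0 ≤ k ∧ k ≤ 2 * h + acc' :=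
  rsi_step_iso γ β h0 h1 hβ hβ1 hrate hcl hNF h hh

end Claimed.Agent.R255
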