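-- KEEP
import Claimed.Agent.R255.Rep.AlnGeo

/-!
# Row 255 (BR paper), Sec. 11, STAGE S4 = ALIGN (Lemma 11.3), file 2a: inputs of `rep_align_core` on the concrete law      (architect helper46)

`Q` = ANY law on `X.T.Ω` supported in `A`;  `X.R Q = ϱ^P = rep_unif Q X.cand` on `Ω × atoms`.   NATURAL units (`ℓ = X.l` multiplies the depths).
TOOLS: `rep_entC_le_ev_log` (list bound `H(X|Y) ≤ E log c`), `rpa_R_supp` (support of `ϱ^P`), `rpa_R_ev`, `rpa_R_entC` (transfer `Ω × atoms → Ω`), `rpa_log_pow` (`log ε^x = -(x ℓ)`), `rpa_pow_le`, `rpa_pow_add`,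
`rpa_mem_cand`, `rpa_mem_cand_loc`, `rpa_wM`, `rpa_Cr_eq`, geometry `AlnGeo.lean` (`rpa_Dcap`, `rpa_cap_list`, `rpa_two_strips`, `rpa_floor_list`, ...).
NOTATION in the plans: `ω = (o, T')` a point of the support (`Q.p o ≠ 0`, so `A o`; `T' ∈ X.cand o`), `g = X.g o` (a function of `X.xD ω`), `gE = X.Cl.acap T' = X.xE ω`, `e = X.a - X.bs`, `K' = c.K'`.
Equal `xD` gives equal `X.g`; equal `xJ` gives equal `X.Cr` (`rpa_Cr_eq`), `X.gJ`, `X.jJ`, `X.lJ`; both give equal `X.FD`.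
-/

set_option autoImplicit false

namespace Claimed.Agent.R255

open scoped BigOperators
open Classical
open FLaw Pkt

variable {X : RpaData} {c : RpaC} {A : X.T.Ω → Prop}

/-- `ℓ E P_J` -/
theorem rpa_a1_PJ (H : X.Good c A) (Q : FLaw X.T.Ω) :
    X.l * Q.ev (X.PJ Q) = Q.entC X.T.O X.J + Q.entC X.T.O (pair X.T.D X.J) / 2
      + 3 / 2 * Q.ev (fun o => Real.log (X.mW o)) + X.l / 2 * Q.ev (fun o => X.w o - 2 * X.bs) := by
  have hl := rpa_l_pos H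
  have h1 := pc_ev_cfib X.l Q X.T.O X.T.D X.lmW (fun o' => X.w o' - 2 * X.bs) X.J
  have h2 : Q.ev (X.PJ Q) = Q.ev (fun ω => pscore X.l (Q.cfib X.J ω) X.T.O X.T.D X.lmW (fun o' => X.w o' - 2 * X.bs)) := rfl
  have h3 : X.l * Q.ev X.lmW = Q.ev (fun o => Real.log (X.mW o)) := by
    rw [← ent_ev_mul_left]
    refine ent_ev_congr Q fun o _ => ?_
    unfold RpaData.lmW
    field_simp
  rw [h2, h1, ← h3]
  field_simp

/-- `ℓ E A_J` -/
theorem rpa_a1_AJ (H : X.Good c A) (Q : FLaw X.T.Ω) :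
    X.l * Q.ev (fun o => X.Cl.AJ X.E X.tag (X.J o)) = X.LN Q + 3 / 2 * Q.ev (fun o => Real.log (X.mJ o)) + X.GG Q / 2 := by
  have hl := rpa_l_pos H
  have e1 : X.l * Q.ev (fun o => X.Cl.AJ X.E X.tag (X.J o))
      = Q.ev (fun o => (Real.log (X.Cl.N X.tag (X.J o)) + 3 / 2 * Real.log (X.mJ o)) + X.l / 2 * X.gJ o) := by
    rw [← ent_ev_mul_left]
    refine ent_ev_congr Q fun o _ => ?_
    unfold Classes.AJ RpaData.mJ RpaData.gJ
    show X.l * (_ / X.l + 3 / 2 * (_ / X.l) + _) = _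
    field_simp
  rw [e1, ent_ev_add, ent_ev_add, ent_ev_mul_left, ent_ev_mul_left]
  unfold RpaData.LN RpaData.GG
  ring

/-- the weights -/
theorem rpa_a1_w (H : X.Good c A) (Q : FLaw X.T.Ω) (hQ : ∀ o, Q.p o ≠ 0 → A o) :
    Q.ev (fun o => X.w o - 2 * X.bs) ≤ (1 - X.γ) * (X.a - X.bs) + 2 * c.η := by
  rw [← ent_ev_const Q ((1 - X.γ) * (X.a - X.bs) + 2 * c.η)]
  refine ent_ev_mono Q fun o ho => ?_
  obtain ⟨h1, h2⟩ := H.shape o (hQ o ho)
  have h3 := (abs_le.1 h1).2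
  have h4 := (abs_le.1 h2).2
  have g0 := H.γ0
  have g1 := H.γ1
  unfold RpaData.w wt
  nlinarith

/-- coarsening to `Z = (P, C_t)` -/
theorem rpa_a1_coarsen (H : X.Good c A) (Q : FLaw X.T.Ω) (hQ : ∀ o, Q.p o ≠ 0 → A o) :
    Q.entC X.T.O X.J + Q.entC X.T.O (pair X.T.D X.J) / 2 + 3 / 2 * Q.ev (fun o => Real.log (X.mW o))
      ≤ Q.entC X.Z X.J + Q.entC X.Z (pair X.T.D X.J) / 2
        + 3 / 2 * (Real.log c.Kc + c.η * X.l + Q.ev (fun o => Real.log (X.mJ o))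
          + Q.ev (fun o => Real.log ((X.cand o).card : ℝ))) := by
  have h1 := rep_coarsen Q X.T.O X.T.D X.J X.Z X.mW
    (fun o => c.Kc * X.E.ε ^ (-c.η) * X.mJ o * ((X.cand o).card : ℝ))
    (fun ω ω' _ _ h => by
      have hO : X.T.O ω = X.T.O ω' := congrArg Prod.fst h
      unfold RpaData.Z RpaData.s
      rw [hO])
    (fun ω hω => H.mpos ω (hQ ω hω))
    (fun ω ω' _ _ hO hJ => by
      unfold RpaData.mW RpaData.s
      rw [hO, hJ])
    (fun ω₀ h0 S hS hinj => H.collapse ω₀ (hQ ω₀ h0) S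
      (fun o ho => ⟨hQ o (hS o ho).1, (hS o ho).2.1, (hS o ho).2.2⟩) hinj)
  have h2 : Q.ev (fun o => Real.log (c.Kc * X.E.ε ^ (-c.η) * X.mJ o * ((X.cand o).card : ℝ)))
      = Real.log c.Kc + c.η * X.l + Q.ev (fun o => Real.log (X.mJ o))
        + Q.ev (fun o => Real.log ((X.cand o).card : ℝ)) := by
    rw [← ent_ev_const Q (Real.log c.Kc + c.η * X.l), ← ent_ev_add, ← ent_ev_add]
    refine ent_ev_congr Q fun o ho => ?_
    obtain ⟨hm, hc⟩ := rpa_cand_pos H o (hQ o ho)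
    have hc' : ((X.cand o).card : ℝ) ≠ 0 := by exact_mod_cast hc.ne'
    rw [Real.log_mul (by have := H.Kc0; have := rpa_pow_pos H (-c.η); positivity) hc',
      Real.log_mul (by have := H.Kc0; have := rpa_pow_pos H (-c.η); positivity) hm.ne',
      Real.log_mul H.Kc0.ne' (rpa_pow_pos H _).ne', rpa_log_pow H]
    ring
  rw [h2] at h1
  exact h1

variable [Nonempty X.At.𝔸]

/-- the contributor identity on `ϱ^P` -/
theorem rpa_a1_contrib (H : X.Good c A) (Q : FLaw X.T.Ω) (hQ : ∀ o, Q.p o ≠ 0 → A o) :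
    Q.entC X.Z X.J + Q.entC X.Z (pair X.T.D X.J) / 2 + 3 / 2 * Q.ev (fun o => Real.log ((X.cand o).card : ℝ))
      ≤ (X.R Q).entC X.xT X.xJ + (X.R Q).entC X.xT (pair X.xD X.xJ) / 2 + (X.R Q).entC X.xC (pair X.xT X.xJ) := by
  have hC : ∀ ω, Q.p ω ≠ 0 → (X.cand ω).Nonempty := fun o ho => rpa_cand_ne H o (hQ o ho)
  have hcand : ∀ ω ω' : X.T.Ω, X.Z ω = X.Z ω' → X.J ω = X.J ω' → X.cand ω = X.cand ω' := by
    intro ω ω' hZ hJ
    have hP : X.PO (X.T.O ω) = X.PO (X.T.O ω') := congrArg Prod.fst hZ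
    unfold RpaData.cand
    rw [hJ, hP]
  have b1 : (X.R Q).entC X.xT (pair (fun x => X.Z x.1) X.xJ) = Q.ev (fun o => Real.log ((X.cand o).card : ℝ)) :=
    rep_unif_entC Q X.cand hC (pair X.Z X.J) (fun ω ω' _ _ h =>
      hcand ω ω' (congrArg Prod.fst h) (congrArg Prod.snd h))
  have b2 : (X.R Q).entC X.xT (pair (fun x => X.Z x.1) (pair X.xD X.xJ))
      = Q.ev (fun o => Real.log ((X.cand o).card : ℝ)) :=
    rep_unif_entC Q X.cand hC (pair X.Z (pair X.T.D X.J)) (fun ω ω' _ _ h =>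
      hcand ω ω' (congrArg Prod.fst h) (congrArg (fun y => y.2.2) h))
  have h1 := rep_contrib (X.R Q) X.xD X.xJ (fun x => X.Z x.1) X.xT X.xC _
    (fun ω ω' _ _ h => by
      have : X.Z ω.1 = X.Z ω'.1 := congrArg Prod.fst h
      exact congrArg Prod.snd this)
    (fun ω ω' hω hω' h => by
      have hD : X.T.D ω.1 = X.T.D ω'.1 := congrArg Prod.fst h
      have g1 := (H.geo ω.1 (hQ _ ((rpa_R_supp H Q hQ ω).1 hω).1)).2.2.2.2.1
      have g2 := (H.geo ω'.1 (hQ _ ((rpa_R_supp H Q hQ ω').1 hω').1)).2.2.2.2.1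
      show (X.s ω.1).C = (X.s ω'.1).C
      rw [← g1, ← g2]
      unfold RpaData.g
      rw [hD])
    b1 b2
  have z0 : (X.R Q).entC (fun x => X.Z x.1) (pair (pair X.xT X.xC) X.xJ) = 0 := by
    refine ent_entC_eq_zero _ _ _ fun ω ω' hω hω' h => ?_
    have hT : ω.2 = ω'.2 := congrArg (fun y => y.1.1) h
    have hc : (X.s ω.1).C = (X.s ω'.1).C := congrArg (fun y => y.1.2) h
    have p1 := (rpa_mem_cand ((rpa_R_supp H Q hQ ω).1 hω).2).2
    have p2 := (rpa_mem_cand ((rpa_R_supp H Q hQ ω').1 hω').2).2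
    show (X.PO (X.T.O ω.1), (X.s ω.1).C) = (X.PO (X.T.O ω'.1), (X.s ω'.1).C)
    rw [← p1, ← p2, hT, hc]
  have t1 : (X.R Q).entC (fun x => X.Z x.1) X.xJ = Q.entC X.Z X.J := rpa_R_entC Q X.Z X.J
  have t2 : (X.R Q).entC (fun x => X.Z x.1) (pair X.xD X.xJ) = Q.entC X.Z (pair X.T.D X.J) :=
    rpa_R_entC Q X.Z (pair X.T.D X.J)
  rw [z0, t1, t2] at h1
  linarith

/-- **(a1)** the entropy calculation of P9.5 with the collapsed masses.   (helper46 proves it.)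
PLAN. (i) `pc_ev_cfib` : `ℓ E_Q P_J = H(O|J) + H(O|D,J)/2 + (3/2) E log mW + (ℓ/2) E (w - 2 b_*)`;  `w - 2 b_* ≤ (1-γ) e + 2 η` (`H.shape`).
(ii) `rep_coarsen Q O D J Z mW mZ`, `mZ o = Kc ε^(-η) mJ o #cand o` (`H.collapse`, `H.mpos`).   (iii) `rep_contrib (X.R Q)` with `B1 = E log #cand` (`rep_unif_entC` twice), `H(Z | T, C_t, J) = 0`. -/
theorem rpa_a1 (H : X.Good c A) (Q : FLaw X.T.Ω) (hQ : ∀ o, Q.p o ≠ 0 → A o) :
    X.LN Q + X.GG Q / 2 - X.Dl Q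
      ≤ (X.R Q).entC X.xT X.xJ + ((X.R Q).entC X.xT (pair X.xD X.xJ) + (1 - X.γ) * ((X.a - X.bs) * X.l)) / 2
        + (X.R Q).entC X.xC (pair X.xT X.xJ) + (3 / 2 * (Real.log c.Kc + c.η * X.l) + c.η * X.l) := by
  have hl := rpa_l_pos H
  have k1 := rpa_a1_PJ H Q
  have k2 := rpa_a1_AJ H Q
  have k3 := rpa_a1_w H Q hQ
  have k4 := rpa_a1_coarsen H Q hQ
  have k5 := rpa_a1_contrib H Q hQ
  have k6 : X.Dl Q = X.l * Q.ev (fun o => X.Cl.AJ X.E X.tag (X.J o)) - X.l * Q.ev (X.PJ Q) := by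
    unfold RpaData.Dl
    rw [ent_ev_sub]
    ring
  have k7 : X.l / 2 * Q.ev (fun o => X.w o - 2 * X.bs) ≤ X.l / 2 * ((1 - X.γ) * (X.a - X.bs) + 2 * c.η) :=
    mul_le_mul_of_nonneg_left k3 (by positivity)
  rw [k6, k2, k1]
  nlinarith

end Claimed.Agent.R255
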