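-- KEEP
import Claimed.Agent.R255.Rep.AlnGeo

/-!
# Row 255 (BR paper), Sec. 11, STAGE S4 = ALIGN (Lemma 11.3), file 2b: inputs of `rep_align_core` on the concrete law      (architect helper46)

`Q` = ANY law on `X.T.Ω` supported in `A`;  `X.R Q = ϱ^P = rep_unif Q X.cand` on `Ω × atoms`.   NATURAL units (`ℓ = X.l` multiplies the depths).
TOOLS: `rep_entC_le_ev_log` (list bound `H(X|Y) ≤ E log c`), `rpa_R_supp` (support of `ϱ^P`), `rpa_R_ev`, `rpa_R_entC` (transfer `Ω × atoms → Ω`), `rpa_log_pow` (`log ε^x = -(x ℓ)`), `rpa_pow_le`, `rpa_pow_add`,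
`rpa_mem_cand`, `rpa_mem_cand_loc`, `rpa_wM`, `rpa_Cr_eq`, geometry `AlnGeo.lean` (`rpa_Dcap`, `rpa_cap_list`, `rpa_two_strips`, `rpa_floor_list`, ...).
NOTATION in the plans: `ω = (o, T')` a point of the support (`Q.p o ≠ 0`, so `A o`; `T' ∈ X.cand o`), `g = X.g o` (a function of `X.xD ω`), `gE = X.Cl.acap T' = X.xE ω`, `e = X.a - X.bs`, `K' = c.K'`.
Equal `xD` gives equal `X.g`; equal `xJ` gives equal `X.Cr` (`rpa_Cr_eq`), `X.gJ`, `X.jJ`, `X.lJ`; both give equal `X.FD`.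
-/

set_option autoImplicit false

namespace Claimed.Agent.R255

open scoped BigOperators
open Classical
open FLaw Pkt

variable {X : RpaData} {c : RpaC} {A : X.T.Ω → Prop} [Nonempty X.At.𝔸]

/-- **(a2)**  `H(T|J) ≤ E log N(J)`.
PLAN. `rep_entC_le_ev_log (X.R Q) X.xT X.xJ (fun x => (X.Cl.N X.tag (X.J x.1) : ℝ))` with the list `S = univ.filter (fun T' => X.Cl.lab X.tag T' = X.J ω₀.1)` (its card IS `Classes.N`, `rfl`/`unfold`);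
membership: `rpa_R_supp`, `rpa_mem_cand`.  Then `rpa_R_ev`. -/
theorem rpa_a2 (H : X.Good c A) (Q : FLaw X.T.Ω) (hQ : ∀ o, Q.p o ≠ 0 → A o) :
    (X.R Q).entC X.xT X.xJ ≤ X.LN Q := by
  have h := rep_entC_le_ev_log (X.R Q) X.xT X.xJ (fun x => (X.Cl.N X.tag (X.J x.1) : ℝ)) (fun ω₀ _ =>
    ⟨Finset.univ.filter (fun T' => X.Cl.lab X.tag T' = X.J ω₀.1), le_rfl, fun ω hω hJ =>
      Finset.mem_filter.2 ⟨Finset.mem_univ _, (rpa_mem_cand ((rpa_R_supp H Q hQ ω).1 hω).2).1.trans hJ⟩⟩)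
  exact h.trans_eq (rpa_R_ev Q (fun o => Real.log (X.Cl.N X.tag (X.J o))))

/-- **(a3)**  `H(C_t | T, J) ≤ 2 h ℓ + log Kt`.
PLAN. `rep_entC_le_ev_log (X.R Q) X.xC (pair X.xT X.xJ) (fun _ => c.Kt * X.E.ε ^ (-(2 * X.h)))`, list from `H.anch ω₀.1`; `ent_ev_const`, `Real.log_mul`, `rpa_log_pow`. -/
theorem rpa_a3 (H : X.Good c A) (Q : FLaw X.T.Ω) (hQ : ∀ o, Q.p o ≠ 0 → A o) :
    (X.R Q).entC X.xC (pair X.xT X.xJ) ≤ 2 * (X.h * X.l) + Real.log c.Kt := by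
  have h := rep_entC_le_ev_log (X.R Q) X.xC (pair X.xT X.xJ) (fun _ => c.Kt * X.E.ε ^ (-(2 * X.h))) (fun ω₀ hω₀ => by
    obtain ⟨S, hS, hm⟩ := H.anch ω₀.1 (hQ _ ((rpa_R_supp H Q hQ ω₀).1 hω₀).1)
    refine ⟨S, hS, fun ω hω hJ => hm ω.1 (hQ _ ((rpa_R_supp H Q hQ ω).1 hω).1) ?_⟩
    have hJ' : X.J ω.1 = X.J ω₀.1 := congrArg Prod.snd hJ
    rw [hJ'])
  refine h.trans_eq ?_
  rw [ent_ev_const, Real.log_mul H.Kt0.ne' (rpa_pow_pos H _).ne', rpa_log_pow H]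
  ring

/-- the whole class of the winner -/
theorem rpa_l2_caps (H : X.Good c A) (o₀ : X.T.Ω) :
    (((Finset.univ.filter (fun T => X.At.loc T = (X.J o₀).1 ∧ X.Cl.cls T = (X.J o₀).2.1)).image X.Cl.acap).card : ℝ)
      ≤ (X.Cl.Nall (X.J o₀) : ℝ) * X.E.ε ^ (X.gJ o₀ - ((1 + X.γ) * X.jJ o₀ + (1 - X.γ) * X.lJ o₀) - 4 * c.ξ) := by
  set W := Finset.univ.filter (fun T => X.At.loc T = (X.J o₀).1 ∧ X.Cl.cls T = (X.J o₀).2.1) with hW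
  set x' := X.gJ o₀ - ((1 + X.γ) * X.jJ o₀ + (1 - X.γ) * X.lJ o₀) - 4 * c.ξ with hx'
  have hfib : ∀ E ∈ W.image X.Cl.acap, X.E.ε ^ (-x') ≤ ((W.filter (fun T' => X.Cl.acap T' = E)).card : ℝ) := by
    intro E hE
    obtain ⟨T, hT, rfl⟩ := Finset.mem_image.1 hE
    obtain ⟨hl, hc⟩ := (Finset.mem_filter.1 hT).2
    have h1 := H.cls.fibre T
    have hj := abs_le.1 (H.cls.widthj T)
    have hw := abs_le.1 (H.cls.widthl T)
    rw [hl, hc] at h1 hj hw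
    have hj' : (X.Cl.acap T).b - X.bs ≤ X.jJ o₀ + c.ξ := by
      have : X.jJ o₀ = X.Cl.jB (X.J o₀).1 (X.J o₀).2.1 := rfl
      linarith [hj.2]
    have hw' : (X.Cl.acap T).a - X.bs ≤ X.lJ o₀ + c.ξ := by
      have : X.lJ o₀ = X.Cl.lB (X.J o₀).1 (X.J o₀).2.1 := rfl
      linarith [hw.2]
    have hwt : wt X.γ (X.Cl.acap T) - 2 * X.bs ≤ (1 + X.γ) * X.jJ o₀ + (1 - X.γ) * X.lJ o₀ + 2 * c.ξ := by
      have e : wt X.γ (X.Cl.acap T) = (1 + X.γ) * (X.Cl.acap T).b + (1 - X.γ) * (X.Cl.acap T).a := rfl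
      have g0 := H.γ0
      have g1 := H.γ1
      nlinarith [mul_le_mul_of_nonneg_left hj' (by linarith : (0 : ℝ) ≤ 1 + X.γ),
        mul_le_mul_of_nonneg_left hw' (by linarith : (0 : ℝ) ≤ 1 - X.γ)]
    have h2 : X.E.ε ^ (-x') ≤ X.E.ε ^ (-(X.Cl.gB (X.J o₀).1 (X.J o₀).2.1 - (wt X.γ (X.Cl.acap T) - 2 * X.bs) - 2 * c.ξ)) := by
      refine rpa_pow_le H ?_
      have : X.gJ o₀ = X.Cl.gB (X.J o₀).1 (X.J o₀).2.1 := rfl
      rw [hx']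
      linarith
    refine h2.trans (h1.trans (le_of_eq ?_))
    congr 1
    congr 1
    ext T'
    simp only [hW, Finset.mem_filter, Finset.mem_univ, true_and, and_assoc]
  have hsum : ((W.image X.Cl.acap).card : ℝ) * X.E.ε ^ (-x') ≤ (W.card : ℝ) := by
    rw [Finset.card_eq_sum_card_image X.Cl.acap W]
    push_cast
    rw [← nsmul_eq_mul]
    exact Finset.card_nsmul_le_sum _ _ _ hfib
  have hp := rpa_pow_pos H x'
  have hN : (X.Cl.Nall (X.J o₀) : ℝ) = (W.card : ℝ) := rfl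
  rw [hN]
  calc ((W.image X.Cl.acap).card : ℝ) = ((W.image X.Cl.acap).card : ℝ) * X.E.ε ^ (-x') * X.E.ε ^ x' := by
        rw [mul_assoc, ← rpa_pow_add H, neg_add_cancel, Real.rpow_zero, mul_one]
    _ ≤ (W.card : ℝ) * X.E.ε ^ x' := mul_le_mul_of_nonneg_right hsum hp.le

/-- **(a5)** number of assigned caps of the whole class.
PLAN. Fix `ω₀ = (o₀, T₀)`, `W = univ.filter (fun T => At.loc T = (J o₀).1 ∧ Cl.cls T = (J o₀).2.1)` (card `= Cl.Nall (J o₀) ≥ 1`, contains `T₀`), list `S = W.image Cl.acap`.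
With `wJ = (1+γ) jJ o₀ + (1-γ) lJ o₀`, `x' = gJ o₀ - wJ - 4 ξ` : every `T ∈ W` has `wt γ (acap T) - 2 bs ≤ wJ + 2 ξ` (`H.cls.widthj`, `widthl`, `0 < γ < 1`), so by `H.cls.fibre` its fibre
`{T' ∈ W | acap T' = acap T}` has at least `ε^(-x')` elements (`rpa_pow_le`).  `Finset.card_eq_sum_card_image` : `#W = ∑_{E ∈ S} #fibre ≥ #S ε^(-x')`, i.e. `#S ≤ Nall ε^(x')`.
`c ω = Nall (J ω.1) * ε^(gJ - wJ - 4 ξ)`, `log c = log Nall - (gJ - wJ - 4 ξ) ℓ`; `rpa_R_ev`, linearity of `ev` (`ent_ev_add`, `ent_ev_sub`, `ent_ev_mul_left`, `ent_ev_const`). -/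
theorem rpa_a5 (H : X.Good c A) (Q : FLaw X.T.Ω) (hQ : ∀ o, Q.p o ≠ 0 → A o) :
    (X.R Q).entC X.xE X.xJ
      ≤ X.LA Q - X.GG Q + ((1 + X.γ) * (Q.ev X.jJ * X.l) + (1 - X.γ) * (Q.ev X.lJ * X.l)) + 4 * c.ξ * X.l := by
  have h := rep_entC_le_ev_log (X.R Q) X.xE X.xJ (fun x => (X.Cl.Nall (X.J x.1) : ℝ)
      * X.E.ε ^ (X.gJ x.1 - ((1 + X.γ) * X.jJ x.1 + (1 - X.γ) * X.lJ x.1) - 4 * c.ξ)) (fun ω₀ _ =>
    ⟨_, rpa_l2_caps H ω₀.1, fun ω hω hJ => by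
      have hJ' : X.J ω.1 = X.J ω₀.1 := hJ
      have hl := rpa_mem_cand_loc ((rpa_R_supp H Q hQ ω).1 hω).2
      rw [hJ'] at hl
      exact Finset.mem_image_of_mem _ (Finset.mem_filter.2 ⟨Finset.mem_univ _, hl⟩)⟩)
  refine h.trans_eq ?_
  rw [rpa_R_ev Q (fun o => Real.log ((X.Cl.Nall (X.J o) : ℝ)
      * X.E.ε ^ (X.gJ o - ((1 + X.γ) * X.jJ o + (1 - X.γ) * X.lJ o) - 4 * c.ξ)))]
  have e1 : Q.ev (fun o => Real.log ((X.Cl.Nall (X.J o) : ℝ)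
      * X.E.ε ^ (X.gJ o - ((1 + X.γ) * X.jJ o + (1 - X.γ) * X.lJ o) - 4 * c.ξ)))
      = Q.ev (fun o => ((Real.log (X.Cl.Nall (X.J o)) - X.l * X.gJ o)
          + (((1 + X.γ) * X.l) * X.jJ o + ((1 - X.γ) * X.l) * X.lJ o)) + 4 * c.ξ * X.l) := by
    refine ent_ev_congr Q fun o ho => ?_
    obtain ⟨T', hT'⟩ := rpa_cand_ne H o (hQ o ho)
    have hpos : 0 < X.Cl.Nall (X.J o) :=
      Finset.card_pos.2 ⟨T', Finset.mem_filter.2 ⟨Finset.mem_univ _, rpa_mem_cand_loc hT'⟩⟩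
    have hpos' : (0 : ℝ) < (X.Cl.Nall (X.J o) : ℝ) := by exact_mod_cast hpos
    rw [Real.log_mul hpos'.ne' (rpa_pow_pos H _).ne', rpa_log_pow H]
    ring
  rw [e1, ent_ev_add, ent_ev_add, ent_ev_sub, ent_ev_add, ent_ev_mul_left, ent_ev_mul_left, ent_ev_mul_left, ent_ev_const]
  show Q.ev (fun o => Real.log (X.Cl.Nall (X.J o))) - X.l * Q.ev X.gJ + _ + _ = Q.ev (fun o => Real.log (X.Cl.Nall (X.J o))) - X.l * Q.ev X.gJ + _ + _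
  ring

/-- `l̄ - e ≤ h + η + ξ`.
PLAN. For `o` in the support pick `T' ∈ X.cand o` (`rpa_cand_ne`): `(acap T').a ≤ u_r` (`H.cls.capOK`), `|(acap T').a - bs - lB| ≤ ξ` (`widthl`, `rpa_mem_cand_loc`), `u_r = u_t + h` (`rpa_u_r`), `u_t - η ≤ a` (`H.bdry`):
`lJ o ≤ a - bs + h + η + ξ`.   `ent_ev_mono`, `ent_ev_const`. -/
theorem rpa_lbar (H : X.Good c A) (Q : FLaw X.T.Ω) (hQ : ∀ o, Q.p o ≠ 0 → A o) :
    Q.ev X.lJ - (X.a - X.bs) ≤ X.h + c.η + c.ξ := by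
  have h1 : Q.ev X.lJ ≤ Q.ev (fun _ => X.a - X.bs + X.h + c.η + c.ξ) := by
    refine ent_ev_mono Q fun o ho => ?_
    obtain ⟨T', hT'⟩ := rpa_cand_ne H o (hQ o ho)
    have hc := (H.cls.capOK T').2.2.2.1
    have hw := abs_le.1 (H.cls.widthl T')
    rw [(rpa_mem_cand_loc hT').1, (rpa_mem_cand_loc hT').2] at hw
    rw [rpa_u_r H] at hc
    have hb := H.bdry
    have : X.lJ o = X.Cl.lB (X.J o).1 (X.J o).2.1 := rfl
    linarith [hw.1]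
  rw [ent_ev_const] at h1
  linarith

end Claimed.Agent.R255
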