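-- KEEP
import Claimed.Agent.R255.Rep.AlnGeo

/-!
# Row 255 (BR paper), Sec. 11, STAGE S4 = ALIGN (Lemma 11.3), file 2c: inputs of `rep_align_core` on the concrete law      (architect helper46)

`Q` = ANY law on `X.T.Ω` supported in `A`;  `X.R Q = ϱ^P = rep_unif Q X.cand` on `Ω × atoms`.   NATURAL units (`ℓ = X.l` multiplies the depths).
TOOLS: `rep_entC_le_ev_log` (list bound `H(X|Y) ≤ E log c`), `rpa_R_supp` (support of `ϱ^P`), `rpa_R_ev`, `rpa_R_entC` (transfer `Ω × atoms → Ω`), `rpa_log_pow` (`log ε^x = -(x ℓ)`), `rpa_pow_le`, `rpa_pow_add`,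
`rpa_mem_cand`, `rpa_mem_cand_loc`, `rpa_wM`, `rpa_Cr_eq`, geometry `AlnGeo.lean` (`rpa_Dcap`, `rpa_cap_list`, `rpa_two_strips`, `rpa_floor_list`, ...).
NOTATION in the plans: `ω = (o, T')` a point of the support (`Q.p o ≠ 0`, so `A o`; `T' ∈ X.cand o`), `g = X.g o` (a function of `X.xD ω`), `gE = X.Cl.acap T' = X.xE ω`, `e = X.a - X.bs`, `K' = c.K'`.
Equal `xD` gives equal `X.g`; equal `xJ` gives equal `X.Cr` (`rpa_Cr_eq`), `X.gJ`, `X.jJ`, `X.lJ`; both give equal `X.FD`.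
-/

set_option autoImplicit false

namespace Claimed.Agent.R255

open scoped BigOperators
open Classical
open FLaw Pkt

variable {X : RpaData} {c : RpaC} {A : X.T.Ω → Prop} [Nonempty X.At.𝔸]

/-- equal `(D, J)` give equal referred apertures -/
theorem rpa_l3_FD {o o₀ : X.T.Ω} (hD : X.T.D o = X.T.D o₀) (hJ : X.J o = X.J o₀) : X.FD o = X.FD o₀ := by
  have hg : X.g o = X.g o₀ := congrArg X.T.geo hD
  have hC : X.Cr o = X.Cr o₀ := by rw [rpa_Cr_eq, rpa_Cr_eq, hJ]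
  show (⟨(X.g o).b, (X.g o).a, X.Cr o, (X.g o).th, (X.g o).vc, (X.g o).xc - ((X.g o).tc - X.Cr o) • (X.g o).vc⟩ : Geo)
    = ⟨(X.g o₀).b, (X.g o₀).a, X.Cr o₀, (X.g o₀).th, (X.g o₀).vc, (X.g o₀).xc - ((X.g o₀).tc - X.Cr o₀) • (X.g o₀).vc⟩
  rw [hg, hC]

theorem rpa_l3_one_le (H : X.Good c A) {x : ℝ} (hx : 0 ≤ x) : 1 ≤ X.E.ε ^ (-x) :=
  Real.one_le_rpow_of_pos_of_le_one_of_nonpos H.ε0 H.ε1.le (by linarith)

theorem rpa_l3_K' (H : X.Good c A) : 0 ≤ c.K' := by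
  show 0 ≤ c.Kg + 2 * c.Ke
  linarith [H.Kg0, H.Ke0]

theorem rpa_l3_mul (H : X.Good c A) {K x y z : ℝ} (hK : 0 ≤ K) (h : y + z ≤ x) :
    K * X.E.ε ^ x ≤ K * X.E.ε ^ y * X.E.ε ^ z := by
  rw [mul_assoc, ← rpa_pow_add H]
  exact mul_le_mul_of_nonneg_left (rpa_pow_le H h) hK

/-- monotonicity of caps with the same frame and centres -/
theorem rpa_l3_incap {K K₁ ε r : ℝ} {F G : Geo} {s : Site} (h : InCap K ε r G s) (hth : G.th = F.th) (hv : G.vc = F.vc)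
    (hx : G.xc = F.xc) (h1 : K * ε ^ G.b ≤ K₁ * ε ^ F.b) (h2 : K * ε ^ G.a ≤ K₁ * ε ^ F.a)
    (h3 : K * ε ^ (G.b + r) ≤ K₁ * ε ^ (F.b + r)) (h4 : K * ε ^ (G.a + r) ≤ K₁ * ε ^ (F.a + r)) : InCap K₁ ε r F s := by
  obtain ⟨⟨v1, v2⟩, ⟨x1, x2⟩⟩ := h
  rw [hth, hv] at v1 v2
  rw [hth, hx] at x1 x2
  show (_ ∧ _) ∧ (_ ∧ _)
  exact ⟨⟨v1.trans h1, v2.trans h2⟩, ⟨x1.trans h3, x2.trans h4⟩⟩

/-- the list of (a4) -/
theorem rpa_l3_a4_list (H : X.Good c A) (o₀ : X.T.Ω) (ho₀ : A o₀) :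
    ∃ S : Finset X.At.𝔸, (S.card : ℝ) ≤ ((c.K' + 1) * X.E.ε ^ (-c.η)) ^ 4
        * X.E.ε ^ (-(X.gJ o₀ - (1 - X.γ) * (X.a - X.bs - c.η))) ∧
      ∀ o, A o → X.T.D o = X.T.D o₀ → X.J o = X.J o₀ → ∀ T' ∈ X.cand o, T' ∈ S := by
  have hK' := rpa_l3_K' H
  have hone := rpa_l3_one_le H H.η0
  obtain ⟨hb, ha⟩ := H.shape o₀ ho₀
  obtain ⟨g0, gba, gL, gu, gtc, -, -⟩ := H.geo o₀ ho₀
  have hb' := abs_le.1 hb
  have ha' := abs_le.1 ha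
  have hp := rpa_pow_pos H (-c.η)
  obtain ⟨S, hS, hm⟩ := rpa_cap_list H o₀ ⟨X.bs, (X.g o₀).a, 0, (X.g o₀).th, (X.FD o₀).vc, (X.FD o₀).xc⟩
    (c.K' * X.E.ε ^ (-c.η)) (mul_nonneg hK' hp.le) le_rfl
    (by show X.bs ≤ (X.g o₀).a; linarith [H.he, H.h0, ha'.1])
    (by show (X.g o₀).a ≤ X.E.L - X.r; linarith [H.hr, H.h0])
    (by show (X.g o₀).a ≤ X.E.u X.r; rw [rpa_u_r H]; linarith [H.h0])
  refine ⟨S, hS.trans ?_, fun o ho hD hJ T' hT => hm T' ((rpa_mem_cand hT).1.trans hJ) ?_⟩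
  · refine mul_le_mul (pow_le_pow_left₀ (by positivity) ?_ 4) (rpa_pow_le H ?_) (rpa_pow_pos H _).le (by positivity)
    · rw [add_mul, one_mul]
      linarith
    · show -(X.gJ o₀ - (1 - X.γ) * (X.a - X.bs - c.η)) ≤ -(X.gJ o₀ - ((1 + X.γ) * X.bs + (1 - X.γ) * (X.g o₀).a - 2 * X.bs))
      have := mul_le_mul_of_nonneg_left (by linarith [ha'.1] : X.a - X.bs - c.η ≤ (X.g o₀).a - X.bs)
        (by linarith [H.γ1] : (0 : ℝ) ≤ 1 - X.γ)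
      linarith
  · have h1 := rpa_Dcap H o ho T' hT
    rw [rpa_l3_FD hD hJ] at h1
    refine rpa_l3_incap h1 rfl rfl rfl ?_ ?_ ?_ ?_
    · exact rpa_l3_mul H hK' (by show -c.η + X.bs ≤ (X.g o₀).b; linarith [hb'.1])
    · exact rpa_l3_mul H hK' (by show -c.η + (X.g o₀).a ≤ (X.g o₀).a; linarith [H.η0])
    · exact rpa_l3_mul H hK' (by show -c.η + (X.bs + X.r) ≤ (X.g o₀).b + X.r; linarith [hb'.1])
    · exact rpa_l3_mul H hK' (by show -c.η + ((X.g o₀).a + X.r) ≤ (X.g o₀).a + X.r; linarith [H.η0])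

/-- **(a4)** cap upper bound for the aperture referred to `C_r`.
PLAN. Fix `ω₀ = (o₀, T₀)`, `g = X.g o₀`.  Cap `F = ⟨bs, g.a, 0, g.th, (X.FD o₀).vc, (X.FD o₀).xc⟩`, `K = K' ε^(-η)`.  Admissible: `bs ≤ g.a` (`H.shape`, `H.he`), `g.a ≤ L - t ≤ L - r`, `g.a ≤ u_t ≤ u_r` (`H.geo`, `H.hr`, `rpa_u_r`).
Every `ω` of the support with the same `(D, J)` has `X.FD ω.1 = X.FD o₀`, `InCap K' ε r (X.FD o₀) (asite ω.2)` (`rpa_Dcap`), hence `InCap K ε r F` : tangent `K' ε^(g.b) ≤ K' ε^(-η) ε^bs` (`g.b ≥ bs - η`), normal `K' ε^(g.a) ≤ K' ε^(-η) ε^(g.a)`; the same `+ r`.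
`rpa_cap_list` : list of size `≤ (K+1)^4 ε^(-(gJ - (1-γ)(g.a - bs))) ≤ ((K'+1) ε^(-η))^4 ε^(-(gJ - (1-γ)(e - η))) =: c ω₀`  (`wt γ F - 2 bs = (1-γ)(g.a - bs)`, `g.a ≥ a - η`).
`log c = 4 log (K'+1) + 4 η ℓ + (gJ - (1-γ)(e - η)) ℓ`;  `rpa_R_ev`. -/
theorem rpa_a4 (H : X.Good c A) (Q : FLaw X.T.Ω) (hQ : ∀ o, Q.p o ≠ 0 → A o) :
    (X.R Q).entC X.xT (pair X.xD X.xJ)
      ≤ X.GG Q - (1 - X.γ) * ((X.a - X.bs) * X.l) + (4 * Real.log (c.K' + 1) + 5 * c.η * X.l) := by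
  have h := rep_entC_le_ev_log (X.R Q) X.xT (pair X.xD X.xJ) (fun x => ((c.K' + 1) * X.E.ε ^ (-c.η)) ^ 4
      * X.E.ε ^ (-(X.gJ x.1 - (1 - X.γ) * (X.a - X.bs - c.η)))) (fun ω₀ hω₀ => by
    obtain ⟨S, hS, hm⟩ := rpa_l3_a4_list H ω₀.1 (hQ _ ((rpa_R_supp H Q hQ ω₀).1 hω₀).1)
    exact ⟨S, hS, fun ω hω hY => hm ω.1 (hQ _ ((rpa_R_supp H Q hQ ω).1 hω).1) (congrArg Prod.fst hY)
      (congrArg Prod.snd hY) ω.2 ((rpa_R_supp H Q hQ ω).1 hω).2⟩)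
  refine h.trans ?_
  rw [rpa_R_ev Q (fun o => Real.log (((c.K' + 1) * X.E.ε ^ (-c.η)) ^ 4
      * X.E.ε ^ (-(X.gJ o - (1 - X.γ) * (X.a - X.bs - c.η)))))]
  have hK' := rpa_l3_K' H
  have e1 : (fun o => Real.log (((c.K' + 1) * X.E.ε ^ (-c.η)) ^ 4
      * X.E.ε ^ (-(X.gJ o - (1 - X.γ) * (X.a - X.bs - c.η)))))
      = fun o => X.l * X.gJ o + (4 * Real.log (c.K' + 1) + 4 * c.η * X.l - (1 - X.γ) * (X.a - X.bs - c.η) * X.l) := by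
    funext o
    have hp := rpa_pow_pos H (-c.η)
    rw [Real.log_mul (pow_ne_zero 4 (mul_pos (by linarith) hp).ne') (rpa_pow_pos H _).ne', Real.log_pow,
      Real.log_mul (by linarith : c.K' + 1 ≠ 0) hp.ne', rpa_log_pow H, rpa_log_pow H]
    push_cast
    ring
  rw [e1, ent_ev_add, ent_ev_mul_left, ent_ev_const]
  show X.l * Q.ev X.gJ + _ ≤ X.l * Q.ev X.gJ - _ + _
  have h3 : 0 ≤ X.γ * c.η * X.l := mul_nonneg (mul_nonneg H.γ0.le H.η0) (rpa_l_pos H).le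
  linarith [h3]

/-- the frame of angle zero -/
theorem rpa_l3_rect0 (K ε b : ℝ) (z : ℝ × ℝ) (h1 : |z.1| ≤ K * ε ^ b) (h2 : |z.2| ≤ K * ε ^ b) : InRect K ε b b 0 z := by
  show |z.1 * Real.cos 0 + z.2 * Real.sin 0| ≤ _ ∧ |z.1 * (-Real.sin 0) + z.2 * Real.cos 0| ≤ _
  simp only [Real.cos_zero, Real.sin_zero, mul_one, mul_zero, add_zero, neg_zero, zero_add]
  exact ⟨h1, h2⟩

/-- two points of one strip -/
theorem rpa_l3_diff (p p₀ q n : ℝ × ℝ) (B : ℝ) (h : |ip (p - q) n| ≤ B) (h₀ : |ip (p₀ - q) n| ≤ B) :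
    |ip (p - p₀) n| ≤ 2 * B := by
  have e : ip (p - p₀) n = ip (p - q) n - ip (p₀ - q) n := by
    rw [rpa_ip_sub, rpa_ip_sub, rpa_ip_sub]
    ring
  rw [e]
  rw [abs_le] at h h₀ ⊢
  constructor <;> linarith [h.1, h.2, h₀.1, h₀.2]

/-- two transversal strips give a square -/
theorem rpa_l3_strip (H : X.Good c A) (θ₁ θ₂ x₁ x₂ y : ℝ) (z : ℝ × ℝ) (h1 : |ip z (nrm θ₁)| ≤ 2 * (1 * X.E.ε ^ x₁))
    (h2 : |ip z (nrm θ₂)| ≤ 2 * (c.K' * X.E.ε ^ x₂)) (hx₁ : y + X.h - c.η - c.ξ ≤ x₁) (hx₂ : y + X.h - c.η - c.ξ ≤ x₂)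
    (hsin : c.Ka * X.E.ε ^ X.h ≤ |Real.sin (θ₁ - θ₂)|) :
    InRect ((2 * c.K' + 2) / c.Ka * X.E.ε ^ (-(c.η + c.ξ))) X.E.ε y y 0 z := by
  have hK' := rpa_l3_K' H
  have h1' : |ip z (nrm θ₁)| ≤ 2 * X.E.ε ^ (y + X.h - c.η - c.ξ) := h1.trans (by
    rw [one_mul]
    exact mul_le_mul_of_nonneg_left (rpa_pow_le H hx₁) (by norm_num))
  have h2' : |ip z (nrm θ₂)| ≤ 2 * c.K' * X.E.ε ^ (y + X.h - c.η - c.ξ) := h2.trans (by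
    rw [← mul_assoc]
    exact mul_le_mul_of_nonneg_left (rpa_pow_le H hx₂) (by positivity))
  have hh := rpa_pow_pos H X.h
  have hs : 0 < c.Ka * X.E.ε ^ X.h := mul_pos H.Ka0 hh
  obtain ⟨a1, a2⟩ := rpa_two_strips θ₁ θ₂ _ _ _ z h1' h2' hs hsin
  have e : (2 * X.E.ε ^ (y + X.h - c.η - c.ξ) + 2 * c.K' * X.E.ε ^ (y + X.h - c.η - c.ξ)) / (c.Ka * X.E.ε ^ X.h)
      = (2 * c.K' + 2) / c.Ka * X.E.ε ^ (-(c.η + c.ξ)) * X.E.ε ^ y := by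
    have e1 : X.E.ε ^ (y + X.h - c.η - c.ξ) = X.E.ε ^ (-(c.η + c.ξ)) * X.E.ε ^ y * X.E.ε ^ X.h := by
      rw [← rpa_pow_add H, ← rpa_pow_add H]
      congr 1
      ring
    rw [e1]
    have hKa := H.Ka0.ne'
    have hh' := hh.ne'
    field_simp
    ring
  rw [e] at a1 a2
  exact rpa_l3_rect0 _ _ _ z a1 a2

/-- the list of (a6) -/
theorem rpa_l3_a6_list (H : X.Good c A) (o₀ : X.T.Ω) (ho₀ : A o₀) (T₀ : X.At.𝔸) (hT₀ : T₀ ∈ X.cand o₀) :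
    ∃ S : Finset X.At.𝔸, (S.card : ℝ) ≤ (((2 * c.K' + 2) / c.Ka + 1) * X.E.ε ^ (-(c.η + c.ξ))) ^ 4
        * X.E.ε ^ (-(X.gJ o₀ - 2 * (X.a - X.bs - X.h))) ∧
      ∀ o, A o → X.T.D o = X.T.D o₀ → X.J o = X.J o₀ → ∀ T' ∈ X.cand o, X.Cl.acap T' = X.Cl.acap T₀ → T' ∈ S := by
  have hK' := rpa_l3_K' H
  have hone := rpa_l3_one_le H (add_nonneg H.η0 H.ξ0)
  obtain ⟨hb, ha⟩ := H.shape o₀ ho₀
  obtain ⟨g0, gba, gL, gu, gtc, -, -⟩ := H.geo o₀ ho₀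
  have ha' := abs_le.1 ha
  have hp := rpa_pow_pos H (-(c.η + c.ξ))
  have hKa : 0 ≤ (2 * c.K' + 2) / c.Ka := div_nonneg (by linarith) H.Ka0.le
  obtain ⟨S, hS, hm⟩ := rpa_cap_list H o₀ ⟨X.a - X.h, X.a - X.h, 0, 0, toP (X.At.asite T₀).V, toP (X.At.asite T₀).X⟩
    ((2 * c.K' + 2) / c.Ka * X.E.ε ^ (-(c.η + c.ξ))) (mul_nonneg hKa hp.le)
    (by show X.bs ≤ X.a - X.h; linarith [H.he, H.η0]) le_rfl
    (by show X.a - X.h ≤ X.E.L - X.r; linarith [H.hr, H.h0, H.ηh, ha'.2])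
    (by show X.a - X.h ≤ X.E.u X.r; rw [rpa_u_r H]; linarith [H.h0, H.ηh, ha'.2])
  refine ⟨S, hS.trans ?_, fun o ho hD hJ T' hT hE => hm T' ((rpa_mem_cand hT).1.trans hJ) ?_⟩
  · have e : wt X.γ ⟨X.a - X.h, X.a - X.h, 0, 0, toP (X.At.asite T₀).V, toP (X.At.asite T₀).X⟩ - 2 * X.bs
        = 2 * (X.a - X.bs - X.h) := by
      show (1 + X.γ) * (X.a - X.h) + (1 - X.γ) * (X.a - X.h) - 2 * X.bs = _
      ring
    rw [e]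
    refine mul_le_mul_of_nonneg_right (pow_le_pow_left₀ (by positivity) ?_ 4) (rpa_pow_pos H _).le
    rw [add_mul, one_mul]
    linarith
  · have d1 := rpa_Dcap H o ho T' hT
    rw [rpa_l3_FD hD hJ] at d1
    have d0 := rpa_Dcap H o₀ ho₀ T₀ hT₀
    have c1 := H.cls.capOK T'
    rw [hE] at c1
    have c0 := H.cls.capOK T₀
    have hang := H.ang o₀ ho₀ T₀ hT₀
    have hw := abs_le.1 (H.cls.widthl T₀)
    rw [(rpa_mem_cand_loc hT₀).1, (rpa_mem_cand_loc hT₀).2] at hw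
    have hl := H.shl o₀ ho₀
    have hlJ : X.lJ o₀ = X.Cl.lB (X.J o₀).1 (X.J o₀).2.1 := rfl
    have hEa : X.a - c.η - c.ξ ≤ (X.Cl.acap T₀).a := by linarith [hw.1]
    show InRect _ _ (X.a - X.h) (X.a - X.h) 0 (toP (X.At.asite T').V - toP (X.At.asite T₀).V)
      ∧ InRect _ _ (X.a - X.h + X.r) (X.a - X.h + X.r) 0 (toP (X.At.asite T').X - toP (X.At.asite T₀).X)
    refine ⟨rpa_l3_strip H (X.Cl.acap T₀).th (X.g o₀).th (X.Cl.acap T₀).a (X.g o₀).a _ _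
        (rpa_l3_diff _ _ _ _ _ c1.2.2.2.2.2.1.2 c0.2.2.2.2.2.1.2) (rpa_l3_diff _ _ _ _ _ d1.1.2 d0.1.2)
        (by linarith) (by linarith [ha'.1]) hang,
      rpa_l3_strip H (X.Cl.acap T₀).th (X.g o₀).th ((X.Cl.acap T₀).a + X.r) ((X.g o₀).a + X.r) _ _
        (rpa_l3_diff _ _ _ _ _ c1.2.2.2.2.2.2.2 c0.2.2.2.2.2.2.2) (rpa_l3_diff _ _ _ _ _ d1.2.2 d0.2.2)
        (by linarith) (by linarith [ha'.1]) hang⟩

/-- **(a6)** two transversal strips.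
PLAN. Fix `ω₀ = (o₀, T₀)`, `g = X.g o₀`, `gE = acap T₀`.  Cap `F = ⟨a - h, a - h, 0, 0, toP (asite T₀).V, toP (asite T₀).X⟩`, `K = ((2K'+2)/Ka) ε^(-(η+ξ))`.
Admissible: `bs ≤ a - h` (`H.he`), `a ≤ g.a + η`, `g.a ≤ min (L - t) u_t`, `η ≤ h`.    For `ω` with the same `(D, E, J)`, `z = toP V_{ω.2} - toP V_{T₀}` :
`|ip z (nrm g.th)| ≤ 2 K' ε^(g.a)` (`rpa_Dcap` for both, same `FD`), `|ip z (nrm gE.th)| ≤ 2 ε^(gE.a)` (`H.cls.capOK` for both, same cap), `Ka ε^h ≤ |sin (gE.th - g.th)|` (`H.ang`);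
`g.a ≥ a - η`, `gE.a ≥ lJ + bs - ξ ≥ a - η - ξ` (`widthl`, `H.shl`).   `rpa_two_strips` : `|z.i| ≤ (2 + 2K') ε^(a-η-ξ) / (Ka ε^h) = K ε^(a-h)`;  `tang 0 = (1,0)`, `nrm 0 = (0,1)`.   Positions: the same `+ r`.
`wt γ F - 2 bs = 2 (e - h)`;  `K + 1 ≤ ((2K'+2)/Ka + 1) ε^(-(η+ξ))`;  `c ω = (((2K'+2)/Ka + 1) ε^(-(η+ξ)))^4 ε^(-(gJ - 2 (e - h)))`. -/
theorem rpa_a6 (H : X.Good c A) (Q : FLaw X.T.Ω) (hQ : ∀ o, Q.p o ≠ 0 → A o) :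
    (X.R Q).entC X.xT (pair X.xD (pair X.xE X.xJ))
      ≤ X.GG Q - 2 * ((X.a - X.bs) * X.l)
        + (2 * X.h * X.l + 4 * Real.log ((2 * c.K' + 2) / c.Ka + 1) + 4 * (c.η + c.ξ) * X.l) := by
  have h := rep_entC_le_ev_log (X.R Q) X.xT (pair X.xD (pair X.xE X.xJ))
      (fun x => (((2 * c.K' + 2) / c.Ka + 1) * X.E.ε ^ (-(c.η + c.ξ))) ^ 4
      * X.E.ε ^ (-(X.gJ x.1 - 2 * (X.a - X.bs - X.h)))) (fun ω₀ hω₀ => by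
    obtain ⟨S, hS, hm⟩ := rpa_l3_a6_list H ω₀.1 (hQ _ ((rpa_R_supp H Q hQ ω₀).1 hω₀).1) ω₀.2
      ((rpa_R_supp H Q hQ ω₀).1 hω₀).2
    exact ⟨S, hS, fun ω hω hY => hm ω.1 (hQ _ ((rpa_R_supp H Q hQ ω).1 hω).1) (congrArg Prod.fst hY)
      (congrArg (fun p => p.2.2) hY) ω.2 ((rpa_R_supp H Q hQ ω).1 hω).2 (congrArg (fun p => p.2.1) hY)⟩)
  refine h.trans_eq ?_
  rw [rpa_R_ev Q (fun o => Real.log ((((2 * c.K' + 2) / c.Ka + 1) * X.E.ε ^ (-(c.η + c.ξ))) ^ 4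
      * X.E.ε ^ (-(X.gJ o - 2 * (X.a - X.bs - X.h)))))]
  have hK' := rpa_l3_K' H
  have hKa : 0 ≤ (2 * c.K' + 2) / c.Ka := div_nonneg (by linarith) H.Ka0.le
  have e1 : (fun o => Real.log ((((2 * c.K' + 2) / c.Ka + 1) * X.E.ε ^ (-(c.η + c.ξ))) ^ 4
      * X.E.ε ^ (-(X.gJ o - 2 * (X.a - X.bs - X.h)))))
      = fun o => X.l * X.gJ o + (4 * Real.log ((2 * c.K' + 2) / c.Ka + 1) + 4 * (c.η + c.ξ) * X.l
          - 2 * (X.a - X.bs - X.h) * X.l) := by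
    funext o
    have hp := rpa_pow_pos H (-(c.η + c.ξ))
    rw [Real.log_mul (pow_ne_zero 4 (mul_pos (by linarith) hp).ne') (rpa_pow_pos H _).ne', Real.log_pow,
      Real.log_mul (by linarith : (2 * c.K' + 2) / c.Ka + 1 ≠ 0) hp.ne', rpa_log_pow H, rpa_log_pow H]
    push_cast
    ring
  rw [e1, ent_ev_add, ent_ev_mul_left, ent_ev_const]
  show X.l * Q.ev X.gJ + _ = X.l * Q.ev X.gJ - _ + _
  ring

end Claimed.Agent.R255
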