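-- KEEP
import Claimed.Agent.R255.Rep.AlnGeo

/-!
# Row 255 (BR paper), Sec. 11, STAGE S4 = ALIGN (Lemma 11.3), file 2d: inputs of `rep_align_core` on the concrete law      (architect helper46)

`Q` = ANY law on `X.T.Ω` supported in `A`;  `X.R Q = ϱ^P = rep_unif Q X.cand` on `Ω × atoms`.   NATURAL units (`ℓ = X.l` multiplies the depths).
TOOLS: `rep_entC_le_ev_log` (list bound `H(X|Y) ≤ E log c`), `rpa_R_supp` (support of `ϱ^P`), `rpa_R_ev`, `rpa_R_entC` (transfer `Ω × atoms → Ω`), `rpa_log_pow` (`log ε^x = -(x ℓ)`), `rpa_pow_le`, `rpa_pow_add`,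
`rpa_mem_cand`, `rpa_mem_cand_loc`, `rpa_wM`, `rpa_Cr_eq`, geometry `AlnGeo.lean` (`rpa_Dcap`, `rpa_cap_list`, `rpa_two_strips`, `rpa_floor_list`, ...).
NOTATION in the plans: `ω = (o, T')` a point of the support (`Q.p o ≠ 0`, so `A o`; `T' ∈ X.cand o`), `g = X.g o` (a function of `X.xD ω`), `gE = X.Cl.acap T' = X.xE ω`, `e = X.a - X.bs`, `K' = c.K'`.
Equal `xD` gives equal `X.g`; equal `xJ` gives equal `X.Cr` (`rpa_Cr_eq`), `X.gJ`, `X.jJ`, `X.lJ`; both give equal `X.FD`.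
-/

set_option autoImplicit false

namespace Claimed.Agent.R255

open scoped BigOperators
open Classical
open FLaw Pkt

variable {X : RpaData} {c : RpaC} {A : X.T.Ω → Prop} [Nonempty X.At.𝔸]

/-- `j(J) ≥ - ξ`  (`H.cls.capbs`, `widthj` at any `T' ∈ X.cand o`) -/
theorem rpa_jJ_ge (H : X.Good c A) (o : X.T.Ω) (ho : A o) : - c.ξ ≤ X.jJ o := by
  obtain ⟨T', hT⟩ := rpa_cand_ne H o ho
  have h1 := H.cls.capbs T'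
  have h2 := abs_le.1 (H.cls.widthj T')
  have h3 := rpa_mem_cand_loc hT
  unfold RpaData.jJ
  rw [← h3.1, ← h3.2]
  linarith [h2.1, h2.2]

/-- the product of four lists -/
theorem rpa_a7_prod4 (S₁ S₂ S₃ S₄ : Finset ℤ) (B : ℝ) (h₁ : (S₁.card : ℝ) ≤ B) (h₂ : (S₂.card : ℝ) ≤ B)
    (h₃ : (S₃.card : ℝ) ≤ B) (h₄ : (S₄.card : ℝ) ≤ B) : ((((S₁ ×ˢ S₂) ×ˢ (S₃ ×ˢ S₄)).card : ℕ) : ℝ) ≤ B ^ 4 := by
  have hB : 0 ≤ B := (Nat.cast_nonneg _).trans h₁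
  rw [Finset.card_product, Finset.card_product, Finset.card_product]
  push_cast
  have e : B ^ 4 = (B * B) * (B * B) := by ring
  rw [e]
  have n1 : (0 : ℝ) ≤ S₁.card := Nat.cast_nonneg _
  have n2 : (0 : ℝ) ≤ S₂.card := Nat.cast_nonneg _
  have n3 : (0 : ℝ) ≤ S₃.card := Nat.cast_nonneg _
  have n4 : (0 : ℝ) ≤ S₄.card := Nat.cast_nonneg _
  exact mul_le_mul (mul_le_mul h₁ h₂ n2 hB) (mul_le_mul h₃ h₄ n4 hB) (mul_nonneg n3 n4) (mul_nonneg hB hB)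

/-- `1 ≤ ε^(-x)` for `x ≥ 0` -/
theorem rpa_a7_one_le (H : X.Good c A) {x : ℝ} (hx : 0 ≤ x) : 1 ≤ X.E.ε ^ (-x) := by
  have := rpa_pow_le H (x := -x) (y := 0) (by linarith)
  rwa [Real.rpow_zero] at this

/-- `log ((K ε^(-x))^4)` -/
theorem rpa_a7_log4 (H : X.Good c A) {K : ℝ} (hK : 0 < K) (x : ℝ) :
    Real.log ((K * X.E.ε ^ (-x)) ^ 4) = 4 * Real.log K + 4 * x * X.l := by
  rw [Real.log_pow, Real.log_mul hK.ne' (rpa_pow_pos H _).ne', rpa_log_pow H]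
  push_cast
  ring

/-- an atom is within `2 ε^(-ξ)` sides of `M_j` of the centre of its assigned cap -/
theorem rpa_a7_near (H : X.Good c A) (o : X.T.Ω) (T' : X.At.𝔸) (hT : T' ∈ X.cand o) :
    (|(X.At.asite T').V 0 - (X.Cl.acap T').vc.1| ≤ 2 * X.E.ε ^ (-c.ξ) * X.E.ε ^ (X.jJ o + X.bs) ∧
      |(X.At.asite T').V 1 - (X.Cl.acap T').vc.2| ≤ 2 * X.E.ε ^ (-c.ξ) * X.E.ε ^ (X.jJ o + X.bs)) ∧
    (|(X.At.asite T').X 0 - (X.Cl.acap T').xc.1| ≤ 2 * X.E.ε ^ (-c.ξ) * (X.E.ε ^ X.r * X.E.ε ^ (X.jJ o + X.bs)) ∧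
      |(X.At.asite T').X 1 - (X.Cl.acap T').xc.2| ≤ 2 * X.E.ε ^ (-c.ξ) * (X.E.ε ^ X.r * X.E.ε ^ (X.jJ o + X.bs))) := by
  obtain ⟨-, hba, -, -, -, ⟨hv1, hv2⟩, ⟨hx1, hx2⟩⟩ := H.cls.capOK T'
  have hw := abs_le.1 (H.cls.widthj T')
  have h3 := rpa_mem_cand_loc hT
  have hj : X.jJ o = X.Cl.jB (X.At.loc T') (X.Cl.cls T') := by
    unfold RpaData.jJ
    rw [← h3.1, ← h3.2]
  have hb : X.E.ε ^ (X.Cl.acap T').b ≤ X.E.ε ^ (-c.ξ) * X.E.ε ^ (X.jJ o + X.bs) := by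
    rw [← rpa_pow_add H]
    exact rpa_pow_le H (by rw [hj]; linarith [hw.1])
  have ha : X.E.ε ^ (X.Cl.acap T').a ≤ X.E.ε ^ (X.Cl.acap T').b := rpa_pow_le H hba
  have hr := rpa_pow_pos H X.r
  rw [one_mul] at hv1 hv2 hx1 hx2
  rw [rpa_pow_add H] at hx1 hx2
  have cv := rpa_coord_le (X.Cl.acap T').th (toP (X.At.asite T').V - (X.Cl.acap T').vc)
  have cx := rpa_coord_le (X.Cl.acap T').th (toP (X.At.asite T').X - (X.Cl.acap T').xc)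
  have hbr : X.E.ε ^ (X.Cl.acap T').b * X.E.ε ^ X.r ≤ X.E.ε ^ (-c.ξ) * X.E.ε ^ (X.jJ o + X.bs) * X.E.ε ^ X.r :=
    mul_le_mul_of_nonneg_right hb hr.le
  have har : X.E.ε ^ (X.Cl.acap T').a * X.E.ε ^ X.r ≤ X.E.ε ^ (X.Cl.acap T').b * X.E.ε ^ X.r :=
    mul_le_mul_of_nonneg_right ha hr.le
  refine ⟨⟨?_, ?_⟩, ⟨?_, ?_⟩⟩
  · have : |(X.At.asite T').V 0 - (X.Cl.acap T').vc.1| ≤ _ := cv.1
    linarith
  · have : |(X.At.asite T').V 1 - (X.Cl.acap T').vc.2| ≤ _ := cv.2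
    linarith
  · have : |(X.At.asite T').X 0 - (X.Cl.acap T').xc.1| ≤ _ := cx.1
    nlinarith
  · have : |(X.At.asite T').X 1 - (X.Cl.acap T').xc.2| ≤ _ := cx.2
    nlinarith

/-- **(a7)**  the assigned cap determines `M_j` up to `(6 ε^(-ξ))^4` values.
PLAN. Fix `ω₀`, `gE = acap ω₀.2`, `w = ε^(jJ + bs)` (`= X.wM ω.2` for all `ω` with the same `J`, `rpa_wM`).  For `ω` with the same `(E, J)` : `H.cls.capOK` gives `InRect 1 ε gE.b gE.a gE.th (toP V - gE.vc)`;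
`rpa_coord_le` : `|(toP V - gE.vc).i| ≤ ε^(gE.b) + ε^(gE.a) ≤ 2 ε^(gE.b) ≤ 2 ε^(-ξ) w` (`gE.b ≤ gE.a`, `gE.b ≥ jJ + bs - ξ` by `widthj`).   `rpa_floor_list gE.vc.i (2 ε^(-ξ)) w` : `≤ 4 ε^(-ξ) + 2 ≤ 6 ε^(-ξ)` values of each floor.
Positions: the same with `ε^r w`.   `S = (S₁ ×ˢ S₂) ×ˢ (S₃ ×ˢ S₄)`, `c = (6 ε^(-ξ))^4`. -/
theorem rpa_a7 (H : X.Good c A) (Q : FLaw X.T.Ω) (hQ : ∀ o, Q.p o ≠ 0 → A o) :
    (X.R Q).entC X.xM' (pair X.xE X.xJ) ≤ 4 * Real.log 6 + 4 * c.ξ * X.l := by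
  have hlist := rep_entC_le_ev_log (X.R Q) X.xM' (pair X.xE X.xJ) (fun _ => (6 * X.E.ε ^ (-c.ξ)) ^ 4) (by
    intro ω₀ hω₀
    have hξ := rpa_a7_one_le H H.ξ0
    have hw : 0 < X.E.ε ^ (X.jJ ω₀.1 + X.bs) := rpa_pow_pos H _
    have hrw : 0 < X.E.ε ^ X.r * X.E.ε ^ (X.jJ ω₀.1 + X.bs) := mul_pos (rpa_pow_pos H _) hw
    have hρ : 0 ≤ 2 * X.E.ε ^ (-c.ξ) := by positivity
    obtain ⟨S₁, c₁, m₁⟩ := rpa_floor_list (X.Cl.acap ω₀.2).vc.1 _ _ hw hρ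
    obtain ⟨S₂, c₂, m₂⟩ := rpa_floor_list (X.Cl.acap ω₀.2).vc.2 _ _ hw hρ
    obtain ⟨S₃, c₃, m₃⟩ := rpa_floor_list (X.Cl.acap ω₀.2).xc.1 _ _ hrw hρ
    obtain ⟨S₄, c₄, m₄⟩ := rpa_floor_list (X.Cl.acap ω₀.2).xc.2 _ _ hrw hρ
    refine ⟨(S₁ ×ˢ S₂) ×ˢ (S₃ ×ˢ S₄), rpa_a7_prod4 _ _ _ _ _ (by linarith) (by linarith) (by linarith) (by linarith),
      fun ω hω hY => ?_⟩
    obtain ⟨hp, hT⟩ := (rpa_R_supp H Q hQ ω).1 hω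
    have hE : X.Cl.acap ω.2 = X.Cl.acap ω₀.2 := congrArg Prod.fst hY
    have hJ : X.J ω.1 = X.J ω₀.1 := congrArg Prod.snd hY
    have hj : X.jJ ω.1 = X.jJ ω₀.1 := by unfold RpaData.jJ; rw [hJ]
    obtain ⟨⟨n1, n2⟩, ⟨n3, n4⟩⟩ := rpa_a7_near H ω.1 ω.2 hT
    rw [hE, hj] at n1 n2 n3 n4
    have hwM : X.wM ω.2 = X.E.ε ^ (X.jJ ω₀.1 + X.bs) := by rw [rpa_wM hT, hj]
    show X.Mc ω.2 ∈ _
    unfold RpaData.Mc cell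
    rw [hwM]
    simp only [Finset.mem_product]
    exact ⟨⟨m₁ _ n1, m₂ _ n2⟩, ⟨m₃ _ n3, m₄ _ n4⟩⟩)
  rw [ent_ev_const, rpa_a7_log4 H (by norm_num)] at hlist
  exact hlist

/-- the centre of `M_j` in the frame of the aperture -/
theorem rpa_a8_near (H : X.Good c A) (o : X.T.Ω) (ho : A o) (T' : X.At.𝔸) (hT : T' ∈ X.cand o) :
    (|ip (X.vM T') (tang (X.g o).th) - ip (X.FD o).vc (tang (X.g o).th)|
        ≤ (c.K' + 1) * X.E.ε ^ (-(c.η + c.ξ)) * X.E.ε ^ X.bs ∧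
      |ip (X.vM T') (nrm (X.g o).th) - ip (X.FD o).vc (nrm (X.g o).th)|
        ≤ (c.K' + 1) * X.E.ε ^ (-(c.η + c.ξ)) * X.E.ε ^ (X.jJ o + X.bs)) ∧
    (|ip (X.xM T') (tang (X.g o).th) - ip (X.FD o).xc (tang (X.g o).th)|
        ≤ (c.K' + 1) * X.E.ε ^ (-(c.η + c.ξ)) * (X.E.ε ^ X.r * X.E.ε ^ X.bs) ∧
      |ip (X.xM T') (nrm (X.g o).th) - ip (X.FD o).xc (nrm (X.g o).th)|
        ≤ (c.K' + 1) * X.E.ε ^ (-(c.η + c.ξ)) * (X.E.ε ^ X.r * X.E.ε ^ (X.jJ o + X.bs))) := by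
  obtain ⟨⟨hv1, hv2⟩, ⟨hx1, hx2⟩⟩ := rpa_Dcap H o ho T' hT
  have hwM := rpa_wM hT
  have hK : 0 ≤ c.K' := by
    unfold RpaC.K'
    have := H.Kg0
    have := H.Ke0
    linarith
  set w := X.E.ε ^ (X.jJ o + X.bs) with hw
  have hw0 : 0 < w := rpa_pow_pos H _
  have hr := rpa_pow_pos H X.r
  have hbs := rpa_pow_pos H X.bs
  set P := X.E.ε ^ (-(c.η + c.ξ)) with hP
  have hP1 : 1 ≤ P := rpa_a7_one_le H (add_nonneg H.η0 H.ξ0)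
  obtain ⟨sb, sa⟩ := H.shape o ho
  have sb' := abs_le.1 sb
  have sa' := abs_le.1 sa
  have hj := rpa_jJ_ge H o ho
  have hη := H.η0
  have hξ := H.ξ0
  -- `w ≤ P ε^bs`
  have b1 : w ≤ P * X.E.ε ^ X.bs := by
    rw [hP, hw, ← rpa_pow_add H]
    exact rpa_pow_le H (by linarith)
  -- `ε^(g.b) ≤ P ε^bs`
  have b2 : X.E.ε ^ (X.g o).b ≤ P * X.E.ε ^ X.bs := by
    rw [hP, ← rpa_pow_add H]
    exact rpa_pow_le H (by linarith [sb'.1])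
  -- `ε^(g.a) ≤ P w`
  have b3 : X.E.ε ^ (X.g o).a ≤ P * w := by
    rw [hP, hw, ← rpa_pow_add H]
    exact rpa_pow_le H (by linarith [sa'.1, H.shj o ho, H.e10])
  have b4 : w ≤ P * w := le_mul_of_one_le_left hw0.le hP1
  have cv := rpa_cell_ip hw0 (X.At.asite T').V (X.g o).th
  have cx := rpa_cell_ip (mul_pos hr hw0) (X.At.asite T').X (X.g o).th
  have ev : X.vM T' = toP (cellC w (cell w (X.At.asite T').V)) := by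
    unfold RpaData.vM RpaData.Mc
    rw [hwM]
  have ex : X.xM T' = toP (cellC (X.E.ε ^ X.r * w) (cell (X.E.ε ^ X.r * w) (X.At.asite T').X)) := by
    unfold RpaData.xM RpaData.Mc
    rw [hwM]
  rw [← ev] at cv
  rw [← ex] at cx
  rw [rpa_ip_sub] at cv cx hv1 hv2 hx1 hx2
  rw [rpa_ip_sub] at cv cx
  have fb : (X.FD o).b = (X.g o).b := rfl
  have fa : (X.FD o).a = (X.g o).a := rfl
  have fth : (X.FD o).th = (X.g o).th := rfl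
  rw [fth] at hv1 hv2 hx1 hx2
  rw [fb] at hv1 hx1
  rw [fa] at hv2 hx2
  rw [rpa_pow_add H] at hx1 hx2
  have t : ∀ p q s u v : ℝ, |q - p| ≤ u → |q - s| ≤ v → |p - s| ≤ u + v := by
    intro p q s u v h1 h2
    have e : p - s = (q - s) - (q - p) := by ring
    rw [e]
    exact (abs_sub _ _).trans (by linarith)
  refine ⟨⟨?_, ?_⟩, ⟨?_, ?_⟩⟩
  · refine (t _ _ _ _ _ cv.1 hv1).trans ?_
    nlinarith [mul_le_mul_of_nonneg_left b2 hK]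
  · refine (t _ _ _ _ _ cv.2 hv2).trans ?_
    nlinarith [mul_le_mul_of_nonneg_left b3 hK]
  · refine (t _ _ _ _ _ cx.1 hx1).trans ?_
    have h1 := mul_le_mul_of_nonneg_left b1 hr.le
    have h2 := mul_le_mul_of_nonneg_left (mul_le_mul_of_nonneg_left b2 hK) hr.le
    nlinarith
  · refine (t _ _ _ _ _ cx.2 hx2).trans ?_
    have h1 := mul_le_mul_of_nonneg_left b4 hr.le
    have h2 := mul_le_mul_of_nonneg_left (mul_le_mul_of_nonneg_left b3 hK) hr.le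
    nlinarith

/-- **(a8)**  the coarsened rectangle is determined by `D` up to a list.
PLAN. Fix `ω₀ = (o₀,T₀)`, `g = X.g o₀`, `F = X.FD o₀`, `w = ε^(jJ o₀ + bs)`, `ρ = (K'+1) ε^(-(η+ξ))`.  For `ω = (o,T')` with the same `(D,J)` : `th` equal, `X.wM T' = w`, `InCap K' ε r F (asite T')` (`rpa_Dcap`), and
`|ip (toP V - X.vM T') (tang/nrm)| ≤ w` (`rpa_cell_ip`).  Hence `|ip (vM T') (tang g.th) - ip F.vc (tang g.th)| ≤ w + K' ε^(g.b) ≤ (ε^(-ξ) + K' ε^(-η)) ε^bs ≤ ρ ε^bs` (`rpa_jJ_ge`, `g.b ≥ bs - η`),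
`|ip (vM T') (nrm g.th) - ip F.vc (nrm g.th)| ≤ w + K' ε^(g.a) ≤ (1 + K' ε^(-η)) w ≤ ρ w` (`g.a ≥ a - η ≥ jJ + bs + e1 - η`, `H.shj`, `H.e10`).   Positions: the same with the factor `ε^r`.
`rpa_floor_list` four times: each `≤ 2 ρ + 2 ≤ (2K'+4) ε^(-(η+ξ))`.   `S = {g.th} ×ˢ ((S₁ ×ˢ S₂) ×ˢ (S₃ ×ˢ S₄))`. -/
theorem rpa_a8 (H : X.Good c A) (Q : FLaw X.T.Ω) (hQ : ∀ o, Q.p o ≠ 0 → A o) :
    (X.R Q).entC X.xY (pair X.xD X.xJ) ≤ 4 * Real.log (2 * c.K' + 4) + 4 * (c.η + c.ξ) * X.l := by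
  have hK : 0 ≤ c.K' := by
    unfold RpaC.K'
    have := H.Kg0
    have := H.Ke0
    linarith
  have hlist := rep_entC_le_ev_log (X.R Q) X.xY (pair X.xD X.xJ)
    (fun _ => ((2 * c.K' + 4) * X.E.ε ^ (-(c.η + c.ξ))) ^ 4) (by
    intro ω₀ hω₀
    have hP1 := rpa_a7_one_le H (add_nonneg H.η0 H.ξ0)
    have hw : 0 < X.E.ε ^ (X.jJ ω₀.1 + X.bs) := rpa_pow_pos H _
    have hbs : 0 < X.E.ε ^ X.bs := rpa_pow_pos H _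
    have hr : 0 < X.E.ε ^ X.r := rpa_pow_pos H _
    have hρ : 0 ≤ (c.K' + 1) * X.E.ε ^ (-(c.η + c.ξ)) := by positivity
    obtain ⟨S₁, c₁, m₁⟩ := rpa_floor_list (ip (X.FD ω₀.1).vc (tang (X.g ω₀.1).th)) _ _ hbs hρ
    obtain ⟨S₂, c₂, m₂⟩ := rpa_floor_list (ip (X.FD ω₀.1).vc (nrm (X.g ω₀.1).th)) _ _ hw hρ
    obtain ⟨S₃, c₃, m₃⟩ := rpa_floor_list (ip (X.FD ω₀.1).xc (tang (X.g ω₀.1).th)) _ _ (mul_pos hr hbs) hρ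
    obtain ⟨S₄, c₄, m₄⟩ := rpa_floor_list (ip (X.FD ω₀.1).xc (nrm (X.g ω₀.1).th)) _ _ (mul_pos hr hw) hρ
    have hc : 2 * ((c.K' + 1) * X.E.ε ^ (-(c.η + c.ξ))) + 2 ≤ (2 * c.K' + 4) * X.E.ε ^ (-(c.η + c.ξ)) := by nlinarith
    refine ⟨{(X.g ω₀.1).th} ×ˢ ((S₁ ×ˢ S₂) ×ˢ (S₃ ×ˢ S₄)), ?_, fun ω hω hY => ?_⟩
    · rw [Finset.card_product, Finset.card_singleton, one_mul]
      exact rpa_a7_prod4 _ _ _ _ _ (c₁.trans hc) (c₂.trans hc) (c₃.trans hc) (c₄.trans hc)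
    obtain ⟨hp, hT⟩ := (rpa_R_supp H Q hQ ω).1 hω
    have hD : X.T.D ω.1 = X.T.D ω₀.1 := congrArg Prod.fst hY
    have hJ : X.J ω.1 = X.J ω₀.1 := congrArg Prod.snd hY
    have hj : X.jJ ω.1 = X.jJ ω₀.1 := by unfold RpaData.jJ; rw [hJ]
    have hg : X.g ω.1 = X.g ω₀.1 := by unfold RpaData.g; rw [hD]
    have hCr : X.Cr ω.1 = X.Cr ω₀.1 := by rw [rpa_Cr_eq, rpa_Cr_eq, hJ]
    have hF : X.FD ω.1 = X.FD ω₀.1 := by unfold RpaData.FD; rw [hg, hCr]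
    obtain ⟨⟨n1, n2⟩, ⟨n3, n4⟩⟩ := rpa_a8_near H ω.1 (hQ _ hp) ω.2 hT
    rw [hF, hg] at n1 n2 n3 n4
    rw [hj] at n2 n4
    have hwM : X.wM ω.2 = X.E.ε ^ (X.jJ ω₀.1 + X.bs) := by rw [rpa_wM hT, hj]
    show X.Yl ω.1 ω.2 ∈ _
    unfold RpaData.Yl
    rw [hwM, hg]
    simp only [Finset.mem_product, Finset.mem_singleton, true_and]
    exact ⟨⟨m₁ _ n1, m₂ _ n2⟩, ⟨m₃ _ n3, m₄ _ n4⟩⟩)
  rw [ent_ev_const, rpa_a7_log4 H (by linarith)] at hlist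
  exact hlist

/-- a number is within half a mesh of the centre of its mesh interval -/
theorem rpa_a9_floor {s : ℝ} (hs : 0 < s) (y : ℝ) (k : ℤ) (h : ⌊y / s⌋ = k) : |y - ((k : ℝ) + 1 / 2) * s| ≤ s / 2 := by
  have h1 := Int.floor_le (y / s)
  have h2 := Int.lt_floor_add_one (y / s)
  rw [h] at h1 h2
  rw [le_div_iff₀ hs] at h1
  rw [div_lt_iff₀ hs] at h2
  rw [abs_le]
  constructor <;> nlinarith

/-- a point, the centre of its isotropic cell, and the quantised frame coordinates of that centre -/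
theorem rpa_a9_geo {w s : ℝ} (hw : 0 < w) (hs : 0 < s) (th : ℝ) (x : Osc.E2) (vM : ℝ × ℝ) (hvM : vM = toP (cellC w (cell w x)))
    (k₁ k₂ : ℤ) (h₁ : ⌊ip vM (tang th) / s⌋ = k₁) (h₂ : ⌊ip vM (nrm th) / w⌋ = k₂) :
    |ip (toP x - ((((k₁ : ℝ) + 1 / 2) * s) • tang th + (((k₂ : ℝ) + 1 / 2) * w) • nrm th)) (tang th)| ≤ w + s / 2 ∧
    |ip (toP x - ((((k₁ : ℝ) + 1 / 2) * s) • tang th + (((k₂ : ℝ) + 1 / 2) * w) • nrm th)) (nrm th)| ≤ w + w / 2 := by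
  have cv := rpa_cell_ip hw x th
  rw [← hvM, rpa_ip_sub, rpa_ip_sub] at cv
  have f1 := rpa_a9_floor hs _ _ h₁
  have f2 := rpa_a9_floor hw _ _ h₂
  rw [rpa_ip_sub, rpa_ip_sub, rpa_ip_add, rpa_ip_add, rpa_ip_smul, rpa_ip_smul, rpa_ip_smul, rpa_ip_smul,
    rpa_ip_tang_tang, rpa_ip_nrm_tang, rpa_ip_tang_nrm, rpa_ip_nrm_nrm]
  constructor
  · have e : ip (toP x) (tang th) - (((k₁ : ℝ) + 1 / 2) * s * 1 + ((k₂ : ℝ) + 1 / 2) * w * 0)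
        = (ip (toP x) (tang th) - ip vM (tang th)) + (ip vM (tang th) - ((k₁ : ℝ) + 1 / 2) * s) := by ring
    rw [e]
    exact (abs_add_le _ _).trans (add_le_add cv.1 f1)
  · have e : ip (toP x) (nrm th) - (((k₁ : ℝ) + 1 / 2) * s * 0 + ((k₂ : ℝ) + 1 / 2) * w * 1)
        = (ip (toP x) (nrm th) - ip vM (nrm th)) + (ip vM (nrm th) - ((k₂ : ℝ) + 1 / 2) * w) := by ring
    rw [e]
    exact (abs_add_le _ _).trans (add_le_add cv.2 f2)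

/-- the cap of widths `(b_*, j⁺ + b_*)` centred at the quantised centre -/
noncomputable def rpa_a9_F (X : RpaData) (o : X.T.Ω) (y : ℝ × (ℤ × ℤ) × (ℤ × ℤ)) : Geo where
  b := X.bs
  a := max (X.jJ o) 0 + X.bs
  tc := 0
  th := y.1
  vc := (((y.2.1.1 : ℝ) + 1 / 2) * X.E.ε ^ X.bs) • tang y.1 + (((y.2.1.2 : ℝ) + 1 / 2) * X.E.ε ^ (X.jJ o + X.bs)) • nrm y.1
  xc := (((y.2.2.1 : ℝ) + 1 / 2) * (X.E.ε ^ X.r * X.E.ε ^ X.bs)) • tang y.1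
    + (((y.2.2.2 : ℝ) + 1 / 2) * (X.E.ε ^ X.r * X.E.ε ^ (X.jJ o + X.bs))) • nrm y.1

theorem rpa_a9_F_forced : True := by
  have := @rpa_a9_F.eq_1
  trivial

/-- an atom whose cell `M_j` has the quantised centre `y` lies in the cap `F` -/
theorem rpa_a9_cap (H : X.Good c A) (o : X.T.Ω) (ho : A o) (T' : X.At.𝔸) (hw : X.wM T' = X.E.ε ^ (X.jJ o + X.bs))
    (y : ℝ × (ℤ × ℤ) × (ℤ × ℤ))
    (h₁ : ⌊ip (X.vM T') (tang y.1) / X.E.ε ^ X.bs⌋ = y.2.1.1) (h₂ : ⌊ip (X.vM T') (nrm y.1) / X.wM T'⌋ = y.2.1.2)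
    (h₃ : ⌊ip (X.xM T') (tang y.1) / (X.E.ε ^ X.r * X.E.ε ^ X.bs)⌋ = y.2.2.1)
    (h₄ : ⌊ip (X.xM T') (nrm y.1) / (X.E.ε ^ X.r * X.wM T')⌋ = y.2.2.2) :
    InCap (2 * X.E.ε ^ (-c.ξ)) X.E.ε X.r (rpa_a9_F X o y) (X.At.asite T') := by
  rw [hw] at h₂ h₄
  set w := X.E.ε ^ (X.jJ o + X.bs) with hwd
  have hw0 : 0 < w := rpa_pow_pos H _
  have hr := rpa_pow_pos H X.r
  have hbs := rpa_pow_pos H X.bs
  have hP1 := rpa_a7_one_le H H.ξ0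
  have hj := rpa_jJ_ge H o ho
  have ev : X.vM T' = toP (cellC w (cell w (X.At.asite T').V)) := by
    unfold RpaData.vM RpaData.Mc
    rw [hw]
  have ex : X.xM T' = toP (cellC (X.E.ε ^ X.r * w) (cell (X.E.ε ^ X.r * w) (X.At.asite T').X)) := by
    unfold RpaData.xM RpaData.Mc
    rw [hw]
  obtain ⟨g1, g2⟩ := rpa_a9_geo hw0 hbs y.1 (X.At.asite T').V _ ev _ _ h₁ h₂
  obtain ⟨g3, g4⟩ := rpa_a9_geo (mul_pos hr hw0) (mul_pos hr hbs) y.1 (X.At.asite T').X _ ex _ _ h₃ h₄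
  -- `w ≤ ε^(-ξ) ε^bs`, `w ≤ ε^(-ξ) ε^(j⁺ + bs)`
  have b1 : w ≤ X.E.ε ^ (-c.ξ) * X.E.ε ^ X.bs := by
    rw [hwd, ← rpa_pow_add H]
    exact rpa_pow_le H (by linarith)
  have b2 : w ≤ X.E.ε ^ (-c.ξ) * X.E.ε ^ (max (X.jJ o) 0 + X.bs) := by
    rw [hwd, ← rpa_pow_add H]
    refine rpa_pow_le H ?_
    rcases le_total (X.jJ o) 0 with h | h
    · rw [max_eq_right h]; linarith
    · rw [max_eq_left h]; linarith [H.ξ0]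
  have b3 : X.E.ε ^ X.bs ≤ X.E.ε ^ (-c.ξ) * X.E.ε ^ X.bs := le_mul_of_one_le_left hbs.le hP1
  refine ⟨⟨?_, ?_⟩, ⟨?_, ?_⟩⟩
  · refine g1.trans ?_
    show w + X.E.ε ^ X.bs / 2 ≤ 2 * X.E.ε ^ (-c.ξ) * X.E.ε ^ X.bs
    linarith
  · refine g2.trans ?_
    show w + w / 2 ≤ 2 * X.E.ε ^ (-c.ξ) * X.E.ε ^ (max (X.jJ o) 0 + X.bs)
    linarith
  · refine g3.trans ?_
    show X.E.ε ^ X.r * w + X.E.ε ^ X.r * X.E.ε ^ X.bs / 2 ≤ 2 * X.E.ε ^ (-c.ξ) * X.E.ε ^ (X.bs + X.r)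
    rw [rpa_pow_add H]
    have h1 := mul_le_mul_of_nonneg_left b1 hr.le
    have h2 := mul_le_mul_of_nonneg_left b3 hr.le
    nlinarith
  · refine g4.trans ?_
    show X.E.ε ^ X.r * w + X.E.ε ^ X.r * w / 2 ≤ 2 * X.E.ε ^ (-c.ξ) * X.E.ε ^ (max (X.jJ o) 0 + X.bs + X.r)
    rw [rpa_pow_add H]
    have h1 := mul_le_mul_of_nonneg_left b2 hr.le
    nlinarith

/-- the list of `rpa_a9` at one sample -/
theorem rpa_a9_list (H : X.Good c A) (o : X.T.Ω) (ho : A o) (y : ℝ × (ℤ × ℤ) × (ℤ × ℤ)) :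
    ∃ S : Finset X.At.𝔸, (S.card : ℝ) ≤ (3 * X.E.ε ^ (-c.ξ)) ^ 4 * X.E.ε ^ (-(X.gJ o - (1 - X.γ) * X.jJ o)) ∧
      ∀ T', X.Cl.lab X.tag T' = X.J o → InCap (2 * X.E.ε ^ (-c.ξ)) X.E.ε X.r (rpa_a9_F X o y) (X.At.asite T') → T' ∈ S := by
  have hP1 := rpa_a7_one_le H H.ξ0
  have hK : 0 ≤ 2 * X.E.ε ^ (-c.ξ) := by positivity
  obtain ⟨-, -, gL, gu, -, -, -⟩ := H.geo o ho
  have sa := abs_le.1 (H.shape o ho).2
  have hja : max (X.jJ o) 0 + X.bs ≤ X.a := by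
    rcases le_total (X.jJ o) 0 with h | h
    · rw [max_eq_right h]; linarith [H.he, H.h0, H.η0]
    · rw [max_eq_left h]; linarith [H.shj o ho, H.e10]
  obtain ⟨S, hS, hm⟩ := rpa_cap_list H o (rpa_a9_F X o y) _ hK (le_refl X.bs)
    (show X.bs ≤ max (X.jJ o) 0 + X.bs by linarith [le_max_right (X.jJ o) 0])
    (show max (X.jJ o) 0 + X.bs ≤ X.E.L - X.r by rw [H.hr]; linarith [H.ηh, H.h0, sa.2])
    (show max (X.jJ o) 0 + X.bs ≤ X.E.u X.r by rw [rpa_u_r H]; linarith [H.ηh, sa.2])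
  refine ⟨S, hS.trans ?_, hm⟩
  have e1 : (2 * X.E.ε ^ (-c.ξ) + 1) ^ 4 ≤ (3 * X.E.ε ^ (-c.ξ)) ^ 4 :=
    pow_le_pow_left₀ (by positivity) (by linarith) 4
  have e2 : X.E.ε ^ (-(X.gJ o - (wt X.γ (rpa_a9_F X o y) - 2 * X.bs))) ≤ X.E.ε ^ (-(X.gJ o - (1 - X.γ) * X.jJ o)) := by
    refine rpa_pow_le H ?_
    have e3 : wt X.γ (rpa_a9_F X o y) = (1 + X.γ) * X.bs + (1 - X.γ) * (max (X.jJ o) 0 + X.bs) := rfl
    rw [e3]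
    have := mul_le_mul_of_nonneg_left (le_max_left (X.jJ o) 0) (by linarith [H.γ1] : 0 ≤ 1 - X.γ)
    linarith
  exact mul_le_mul e1 e2 (rpa_pow_pos H _).le (by positivity)

/-- **(a9)** the resampled rectangle.
PLAN. `rep_resample_list (X.R Q) X.xT (pair X.xM' X.xJ) (pair X.xY X.xJ) c` (`(M,J)` is a.e. a function of `T` : `J ω.1 = lab ω.2` on the support) and `H(M | Y,J) ≤ H((M,J) | (Y,J))` (`ent_entC_mono`).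
List at `ω₀ = (o₀,T₀)` : `th = (X.g o₀).th`, `((k₁,k₂),(k₃,k₄))` = the integer part of `X.xY ω₀`, `w = ε^(jJ o₀ + bs)`, `j⁺ = max (jJ o₀) 0`,
`F = ⟨bs, j⁺ + bs, 0, th, ((k₁+1/2) ε^bs) • tang th + ((k₂+1/2) w) • nrm th, ((k₃+1/2) ε^r ε^bs) • tang th + ((k₄+1/2) ε^r w) • nrm th⟩`, `K = 2 ε^(-ξ)`.
Admissible: `j⁺ + bs ≤ a` (`H.shj`, `H.e10`, `H.he`), `a ≤ g.a + η ≤ min (L - r) u_r`.    If `(Y,J) ω = (Y,J) ω₀` and `(M,J) ω' = (M,J) ω` then `X.vM ω'.2 = X.vM ω.2` (same `wM`, same `Mc`), `|ip (vM) (tang th) - (k₁+1/2) ε^bs| ≤ ε^bs / 2`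
(floor), `|ip (toP V' - vM) (tang th)| ≤ w ≤ ε^(-ξ) ε^bs` (`rpa_cell_ip`, `rpa_jJ_ge`): tangent component `≤ 2 ε^(-ξ) ε^bs`; normal component `≤ (3/2) w ≤ 2 ε^(-ξ) ε^(j⁺+bs)` (`jJ ≥ j⁺ - ξ`).  (`rpa_ip_tang_tang` etc.)
`wt γ F - 2 bs = (1-γ) j⁺ ≥ (1-γ) jJ`;   `c ω = (3 ε^(-ξ))^4 ε^(-(gJ - (1-γ) jJ))`. -/
theorem rpa_a9 (H : X.Good c A) (Q : FLaw X.T.Ω) (hQ : ∀ o, Q.p o ≠ 0 → A o) :
    (X.R Q).entC X.xM' (pair X.xY X.xJ) + (X.R Q).entC X.xT (pair X.xM' X.xJ)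
      ≤ X.GG Q - (1 - X.γ) * (Q.ev X.jJ * X.l) + (4 * Real.log 3 + 4 * c.ξ * X.l) := by
  have hlab : ∀ ω, (X.R Q).p ω ≠ 0 → X.Cl.lab X.tag ω.2 = X.J ω.1 := fun ω hω =>
    (rpa_mem_cand ((rpa_R_supp H Q hQ ω).1 hω).2).1
  have hres := rep_resample_list (X.R Q) X.xT (pair X.xM' X.xJ) (pair X.xY X.xJ)
    (fun ω => (3 * X.E.ε ^ (-c.ξ)) ^ 4 * X.E.ε ^ (-(X.gJ ω.1 - (1 - X.γ) * X.jJ ω.1)))
    (by
      intro ω ω' hω hω' hT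
      have hT' : ω.2 = ω'.2 := hT
      show (X.Mc ω.2, X.J ω.1) = (X.Mc ω'.2, X.J ω'.1)
      rw [← hlab ω hω, ← hlab ω' hω', hT'])
    (by
      intro ω₀ hω₀
      obtain ⟨hp₀, -⟩ := (rpa_R_supp H Q hQ ω₀).1 hω₀
      obtain ⟨S, hS, hm⟩ := rpa_a9_list H ω₀.1 (hQ _ hp₀) (X.Yl ω₀.1 ω₀.2)
      refine ⟨S, hS, fun ω ω' hω hω' hY hM => ?_⟩
      obtain ⟨-, hT⟩ := (rpa_R_supp H Q hQ ω).1 hω
      obtain ⟨-, hT'⟩ := (rpa_R_supp H Q hQ ω').1 hω'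
      have hYl : X.Yl ω.1 ω.2 = X.Yl ω₀.1 ω₀.2 := congrArg Prod.fst hY
      have hJ : X.J ω.1 = X.J ω₀.1 := congrArg Prod.snd hY
      have hMc : X.Mc ω'.2 = X.Mc ω.2 := congrArg Prod.fst hM
      have hJ' : X.J ω'.1 = X.J ω.1 := congrArg Prod.snd hM
      have hj : X.jJ ω.1 = X.jJ ω₀.1 := by unfold RpaData.jJ; rw [hJ]
      have hj' : X.jJ ω'.1 = X.jJ ω₀.1 := by unfold RpaData.jJ; rw [hJ', hJ]
      have hw : X.wM ω.2 = X.E.ε ^ (X.jJ ω₀.1 + X.bs) := by rw [rpa_wM hT, hj]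
      have hw' : X.wM ω'.2 = X.E.ε ^ (X.jJ ω₀.1 + X.bs) := by rw [rpa_wM hT', hj']
      have hv : X.vM ω'.2 = X.vM ω.2 := by unfold RpaData.vM; rw [hMc, hw, hw']
      have hx : X.xM ω'.2 = X.xM ω.2 := by unfold RpaData.xM; rw [hMc, hw, hw']
      have hth : (X.g ω.1).th = (X.Yl ω₀.1 ω₀.2).1 := congrArg Prod.fst hYl
      have k1 : ⌊ip (X.vM ω.2) (tang (X.g ω.1).th) / X.E.ε ^ X.bs⌋ = (X.Yl ω₀.1 ω₀.2).2.1.1 :=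
        congrArg (fun y => y.2.1.1) hYl
      have k2 : ⌊ip (X.vM ω.2) (nrm (X.g ω.1).th) / X.wM ω.2⌋ = (X.Yl ω₀.1 ω₀.2).2.1.2 :=
        congrArg (fun y => y.2.1.2) hYl
      have k3 : ⌊ip (X.xM ω.2) (tang (X.g ω.1).th) / (X.E.ε ^ X.r * X.E.ε ^ X.bs)⌋ = (X.Yl ω₀.1 ω₀.2).2.2.1 :=
        congrArg (fun y => y.2.2.1) hYl
      have k4 : ⌊ip (X.xM ω.2) (nrm (X.g ω.1).th) / (X.E.ε ^ X.r * X.wM ω.2)⌋ = (X.Yl ω₀.1 ω₀.2).2.2.2 :=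
        congrArg (fun y => y.2.2.2) hYl
      rw [hth] at k1 k2 k3 k4
      rw [← hv] at k1 k2
      rw [← hx] at k3 k4
      rw [hw, ← hw'] at k2 k4
      refine hm ω'.2 ?_ (rpa_a9_cap H ω₀.1 (hQ _ hp₀) ω'.2 hw' _ k1 k2 k3 k4)
      rw [hlab ω' hω', hJ', hJ])
  have hmono := ent_entC_mono (X.R Q) (pair X.xM' X.xJ) X.xM' (pair X.xY X.xJ)
    (fun ω ω' _ _ h _ => congrArg Prod.fst h)
  have hev : (X.R Q).ev (fun ω => Real.log ((3 * X.E.ε ^ (-c.ξ)) ^ 4 * X.E.ε ^ (-(X.gJ ω.1 - (1 - X.γ) * X.jJ ω.1))))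
      = X.GG Q - (1 - X.γ) * (Q.ev X.jJ * X.l) + (4 * Real.log 3 + 4 * c.ξ * X.l) := by
    rw [rpa_R_ev Q (fun o => Real.log ((3 * X.E.ε ^ (-c.ξ)) ^ 4 * X.E.ε ^ (-(X.gJ o - (1 - X.γ) * X.jJ o))))]
    have e : ∀ o, Real.log ((3 * X.E.ε ^ (-c.ξ)) ^ 4 * X.E.ε ^ (-(X.gJ o - (1 - X.γ) * X.jJ o)))
        = (4 * Real.log 3 + 4 * c.ξ * X.l) + (X.l * X.gJ o - ((1 - X.γ) * X.l) * X.jJ o) := by
      intro o
      have hp : 0 < (3 * X.E.ε ^ (-c.ξ)) ^ 4 := by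
        have := rpa_pow_pos H (-c.ξ)
        positivity
      rw [Real.log_mul hp.ne' (rpa_pow_pos H _).ne', rpa_a7_log4 H (by norm_num), rpa_log_pow H]
      ring
    simp only [e]
    rw [ent_ev_add, ent_ev_const, ent_ev_sub, ent_ev_mul_left, ent_ev_mul_left]
    unfold RpaData.GG
    ring
  rw [hev] at hres
  linarith

end Claimed.Agent.R255
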